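import Crest.Agent.R109.Round

/-! Row 109, local algorithm: the main phase. -/

set_option autoImplicit false

open scoped ComplexConjugate ENNReal Pointwise
open MeasureTheory

namespace Crest.Agent.R109

variable {G X : Type*} [Group G] [DecidableEq G] [MulAction G X] [DecidableEq X]
  [MeasurableSpace X] {S : Finset G} {μ : Measure X} {x : X → X → ℂ} {w : X → ℝ} {r : ℕ}

variable {K z small err γ₁ ε' C₀ : ℝ} {N : ℕ} {Ψ : (X → St r) → Finset X → ℝ}

/-- Pick a colour among the acceptable indices, `dead` if there is none. -/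
noncomputable def algo_pick (p : Equiv.Perm (Fin r)) (P : Fin r → Prop) : St r := by
  classical
  exact if h : ∃ j, P j then St.half (p (Classical.choose h)) else St.dead

theorem algo_pick_perm (π p : Equiv.Perm (Fin r)) (P : Fin r → Prop) :
    algo_pick (π * p) P = (algo_pick p P).perm π := by
  unfold algo_pick
  split_ifs <;> rfl

theorem algo_pick_spec (p : Equiv.Perm (Fin r)) (P : Fin r → Prop) :
    (∃ j, P j ∧ algo_pick p P = St.half (p j)) ∨ ((∀ j, ¬ P j) ∧ algo_pick p P = St.dead) := by
  unfold algo_pick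
  split_ifs with h
  · exact Or.inl ⟨_, Classical.choose_spec h, rfl⟩
  · exact Or.inr ⟨fun j hj => h ⟨j, hj⟩, rfl⟩

/-- The colour `c` is acceptable for `v`. -/
def algo_ok (Ψ : (X → St r) → Finset X → ℝ) (S : Finset G) (w : X → ℝ) (N : ℕ) (err : ℝ)
    (σ : X → St r) (v : X) (c : Fin r) : Prop :=
  mg Ψ (Function.update σ v (St.half c)) (B S N v) v ≤ mg Ψ σ (B S N v) v + 2 * err * w v

/-- The update rule. -/
noncomputable def algo_rule (Ψ : (X → St r) → Finset X → ℝ) (S : Finset G) (w : X → ℝ) (N : ℕ)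
    (err : ℝ) (p : Equiv.Perm (Fin r)) (σ : X → St r) (v : X) : St r :=
  algo_pick p fun j => algo_ok Ψ S w N err σ v (p j)

open Classical in
/-- The run of the algorithm. -/
noncomputable def algo_run (Ψ : (X → St r) → Finset X → ℝ) (S : Finset G) (w : X → ℝ) (N : ℕ)
    (err : ℝ) (χ : X → ℕ) (L₀ : Set X) (l : X → Equiv.Perm (Fin r)) : ℕ → X → St r
  | 0 => fun u => if u ∈ L₀ then St.unif else St.dead
  | i + 1 => fun u => if χ u = i ∧ u ∈ L₀ then
      algo_rule Ψ S w N err (l u) (algo_run Ψ S w N err χ L₀ l i) u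
    else algo_run Ψ S w N err χ L₀ l i u

theorem algo_mg_congr (hP : Pot S x w K z small err γ₁ ε' C₀ N Ψ) {σ σ' : X → St r}
    {U : Finset X} (v : X) (hσ : ∀ u ∈ U, σ u = σ' u) : mg Ψ σ U v = mg Ψ σ' U v := by
  unfold mg
  rw [hP.congr σ σ' U hσ, hP.congr σ σ' (U.erase v) fun u hu => hσ u (Finset.mem_of_mem_erase hu)]

theorem algo_mg_perm (hP : Pot S x w K z small err γ₁ ε' C₀ N Ψ) (π : Equiv.Perm (Fin r))
    (σ : X → St r) (U : Finset X) (v : X) :
    mg Ψ (fun u => (σ u).perm π) U v = mg Ψ σ U v := by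
  unfold mg
  rw [hP.perm, hP.perm]

theorem algo_ok_congr (hP : Pot S x w K z small err γ₁ ε' C₀ N Ψ) {σ σ' : X → St r} {v : X}
    (hσ : ∀ u ∈ B S N v, σ u = σ' u) :
    algo_ok Ψ S w N err σ v = algo_ok Ψ S w N err σ' v := by
  funext c
  unfold algo_ok
  rw [algo_mg_congr hP v hσ, algo_mg_congr hP (σ := Function.update σ v (St.half c))
    (σ' := Function.update σ' v (St.half c)) v]
  intro u hu
  by_cases huv : u = v
  · subst huv; simp
  · simp [Function.update_of_ne huv, hσ u hu]

theorem algo_ok_perm (hP : Pot S x w K z small err γ₁ ε' C₀ N Ψ) (π : Equiv.Perm (Fin r))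
    (σ : X → St r) (v : X) (c : Fin r) :
    algo_ok Ψ S w N err (fun u => (σ u).perm π) v (π c) = algo_ok Ψ S w N err σ v c := by
  unfold algo_ok
  have : Function.update (fun u => (σ u).perm π) v (St.half (π c)) =
      fun u => (Function.update σ v (St.half c) u).perm π := by
    funext u
    by_cases huv : u = v
    · subst huv; simp [St.perm]
    · simp [Function.update_of_ne huv]
  rw [this, algo_mg_perm hP, algo_mg_perm hP]

theorem algo_ok_meas (h : LS S μ x w) (hP : Pot S x w K z small err γ₁ ε' C₀ N Ψ)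
    {σ : X → St r} (hσ : Measurable σ) (c : Fin r) :
    Measurable fun t => algo_ok Ψ S w N err σ t c := by
  have h1 := hP.measurable_mg h (fun t => Function.update σ t (St.half c)) (by
    intro g
    have : (fun t => Function.update σ t (St.half c) (g • t)) =
        fun t => if g • t = t then St.half c else σ (g • t) := by
      funext t
      rw [Function.update_apply]
    rw [this]
    exact Measurable.ite (h.fix g) measurable_const (hσ.comp (h.meas g))) N (fun _ _ => True)
    (fun g => by simp)
  have h2 := hP.measurable_mg h (fun _ => σ) (fun g => hσ.comp (h.meas g)) N (fun _ _ => True)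
    (fun g => by simp)
  simp only [Finset.filter_true] at h1 h2
  have h3 := measurableSet_le h1 (h2.add_const (2 * err))
  rw [← measurableSet_setOfPred]
  convert h3 using 1
  ext t
  simp only [Set.mem_ofPred_eq, algo_ok]
  rw [div_add' _ _ _ (h.wpos t).ne', div_le_div_iff_of_pos_right (h.wpos t)]

theorem algo_rule_meas (h : LS S μ x w) (hP : Pot S x w K z small err γ₁ ε' C₀ N Ψ)
    {l : X → Equiv.Perm (Fin r)} (hl : ∀ π, MeasurableSet {t | l t = π})
    {σ : X → St r} (hσ : Measurable σ) :
    Measurable fun t => algo_rule Ψ S w N err (l t) σ t := by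
  let : MeasurableSpace (Equiv.Perm (Fin r)) := ⊤
  have : DiscreteMeasurableSpace (Equiv.Perm (Fin r)) := ⟨fun _ => trivial⟩
  have hl' : Measurable l := measurable_to_countable' hl
  have h1 : Measurable fun t => (l t, fun c => algo_ok Ψ S w N err σ t c) :=
    hl'.prodMk (measurable_pi_lambda _ fun c => algo_ok_meas h hP hσ c)
  have h2 : Measurable fun q : Equiv.Perm (Fin r) × (Fin r → Prop) =>
      algo_pick q.1 fun j => q.2 (q.1 j) := measurable_of_countable _
  exact h2.comp h1

section run

variable {χ : X → ℕ} {L₀ : Set X}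

theorem algo_run_meas (h : LS S μ x w) (hP : Pot S x w K z small err γ₁ ε' C₀ N Ψ)
    (hχ : Measurable χ) (hL₀ : MeasurableSet L₀)
    {l : X → Equiv.Perm (Fin r)} (hl : ∀ π, MeasurableSet {t | l t = π}) (i : ℕ) :
    Measurable (algo_run Ψ S w N err χ L₀ l i) := by
  induction i with
  | zero => exact Measurable.ite hL₀ measurable_const measurable_const
  | succ i ih =>
    refine Measurable.ite ?_ (algo_rule_meas h hP hl ih) ih
    exact (hχ (measurableSet_singleton i)).inter hL₀

theorem algo_run_loc (h : LS S μ x w) (hP : Pot S x w K z small err γ₁ ε' C₀ N Ψ)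
    (l l' : X → Equiv.Perm (Fin r)) (i : ℕ) :
    ∀ t, (∀ s ∈ B S (i * N) t, l s = l' s) →
      algo_run Ψ S w N err χ L₀ l i t = algo_run Ψ S w N err χ L₀ l' i t := by
  induction i with
  | zero => intro t _; rfl
  | succ i ih =>
    intro t ht
    have h1 : ∀ u ∈ B S N t, algo_run Ψ S w N err χ L₀ l i u =
        algo_run Ψ S w N err χ L₀ l' i u := by
      intro u hu
      refine ih u fun s hs => ht s ?_
      have := B_add hu hs
      rwa [show N + i * N = (i + 1) * N by ring] at this
    simp only [algo_run]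
    rw [h1 t (h.self_mem N t), ht t (h.self_mem _ t)]
    unfold algo_rule
    rw [algo_ok_congr hP h1]

theorem algo_run_perm (hP : Pot S x w K z small err γ₁ ε' C₀ N Ψ) (π : Equiv.Perm (Fin r))
    (l : X → Equiv.Perm (Fin r)) (i : ℕ) :
    algo_run Ψ S w N err χ L₀ (fun s => π * l s) i =
      fun t => (algo_run Ψ S w N err χ L₀ l i t).perm π := by
  induction i with
  | zero =>
    funext t
    simp only [algo_run]
    split_ifs <;> rfl
  | succ i ih =>
    funext t
    simp only [algo_run]
    rw [ih]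
    split_ifs
    · unfold algo_rule
      rw [← algo_pick_perm]
      congr 1
      funext j
      exact algo_ok_perm hP π _ t (l t j)
    · rfl

omit [MeasurableSpace X] in
open Classical in
theorem algo_run_eq (l : X → Equiv.Perm (Fin r)) (i : ℕ) (u : X) :
    algo_run Ψ S w N err χ L₀ l i u = if χ u < i then
      (if u ∈ L₀ then algo_rule Ψ S w N err (l u) (algo_run Ψ S w N err χ L₀ l (χ u)) u
        else St.dead) else algo_run Ψ S w N err χ L₀ l 0 u := by
  induction i with
  | zero => simp
  | succ i ih =>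
    have e : algo_run Ψ S w N err χ L₀ l (i + 1) u = if χ u = i ∧ u ∈ L₀ then
        algo_rule Ψ S w N err (l u) (algo_run Ψ S w N err χ L₀ l i) u
      else algo_run Ψ S w N err χ L₀ l i u := rfl
    rw [e]
    rcases lt_trichotomy (χ u) i with hlt | heq | hgt
    · rw [if_neg (fun hh => hlt.ne hh.1), ih, if_pos hlt, if_pos (Nat.lt_succ_of_lt hlt)]
    · rw [if_pos (show χ u < i + 1 by omega)]
      by_cases hu : u ∈ L₀
      · rw [if_pos ⟨heq, hu⟩, if_pos hu, heq]
      · rw [if_neg (fun hh => hu hh.2), if_neg hu, ih, if_neg (by omega)]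
        simp [algo_run, hu]
    · rw [if_neg (fun hh => hgt.ne' hh.1), ih, if_neg (by omega), if_neg (by omega)]

end run

/-- Let `run λ 0 u = if u ∈ L₀ then unif else dead` and
`run λ (i+1) u = if χ u = i ∧ u ∈ L₀ then rule (run λ i) u else run λ i u`, where
`rule σ v = half (λ v j)` for the least `j : Fin r` such that `c = λ v j` satisfies
`mg (update σ v (half c)) (B N v) v ≤ mg σ (B N v) v + 2 err w v`, and `dead` if there is none;
`fin λ = run λ L`.  Locality and equivariance (`Pot.perm`, `Pot.congr`) and measurability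
(`measurable_mg`, divide the inequality by `w v`) by induction on `i`.  `run λ i = mixlt χ (run 0)
(run L) i` for `i ≤ L`.  Apply `interp` with `Γ = 2 err - z 1[u ∈ L₀ ∧ fin u = dead]` (`Pot.step`;
if `v` dies the new marginal is `0` by `Pot.dead`), and `Pot.init`. -/
theorem Pot.exists_run [IsProbabilityMeasure μ] (h : LS S μ x w)
    (hP : Pot S x w K z small err γ₁ ε' C₀ N Ψ) (herr : 0 ≤ err) {χ : X → ℕ} (hχ : Measurable χ)
    {L : ℕ} (hχL : ∀ t, χ t < L) {L₀ : Set X} (hL₀ : MeasurableSet L₀)
    (hM : Mark S (4 * N) χ L₀) (hK : ∀ u ∈ L₀, Kg S w K u) :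
    ∃ fin : (X → Equiv.Perm (Fin r)) → X → St r,
      (∀ l l' t, (∀ s ∈ B S (L * N) t, l s = l' s) → fin l t = fin l' t) ∧
      (∀ π l t, fin (fun s => π * l s) t = (fin l t).perm π) ∧
      (∀ l t, fin l t = St.dead ∨ ∃ c, fin l t = St.half c) ∧
      (∀ l t, fin l t ≠ St.dead → t ∈ L₀) ∧
      ∀ l, (∀ π, MeasurableSet {t | l t = π}) → Measurable (fin l) ∧
        ∫ t, dens Ψ S w N χ (fin l) t ∂μ + z * μ.real {t | t ∈ L₀ ∧ fin l t = St.dead} ≤
          small + 3 * err := by
  classical
  have hfin : ∀ l u, algo_run Ψ S w N err χ L₀ l L u =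
      if u ∈ L₀ then algo_rule Ψ S w N err (l u) (algo_run Ψ S w N err χ L₀ l (χ u)) u
        else St.dead := fun l u => by rw [algo_run_eq, if_pos (hχL u)]
  have h0 : ∀ l u, algo_run Ψ S w N err χ L₀ l 0 u = if u ∈ L₀ then St.unif else St.dead :=
    fun l u => rfl
  have hlive : ∀ l i u, algo_run Ψ S w N err χ L₀ l i u ≠ St.dead → u ∈ L₀ := by
    intro l i u hu
    by_contra hn
    apply hu
    rw [algo_run_eq, h0, if_neg hn, if_neg hn, ite_self]
  have hmix : ∀ l i, mixlt χ (algo_run Ψ S w N err χ L₀ l 0) (algo_run Ψ S w N err χ L₀ l L) i =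
      algo_run Ψ S w N err χ L₀ l i := by
    intro l i
    funext u
    rw [algo_run_eq l i u, mixlt, hfin]
  refine ⟨fun l => algo_run Ψ S w N err χ L₀ l L, fun l l' t ht => algo_run_loc h hP l l' L t ht,
    fun π l t => congrFun (algo_run_perm hP π l L) t, ?_, fun l t => hlive l L t, ?_⟩
  · intro l t
    beta_reduce
    rw [hfin]
    split_ifs
    · rcases algo_pick_spec (l t) (fun j => algo_ok Ψ S w N err
        (algo_run Ψ S w N err χ L₀ l (χ t)) t (l t j)) with ⟨j, -, hj⟩ | ⟨-, hj⟩
      · exact Or.inr ⟨_, hj⟩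
      · exact Or.inl hj
    · exact Or.inl rfl
  intro l hl
  have hm := algo_run_meas h hP hχ hL₀ hl
  refine ⟨hm L, ?_⟩
  beta_reduce
  set D : Set X := {t | t ∈ L₀ ∧ algo_run Ψ S w N err χ L₀ l L t = St.dead} with hD
  have hDm : MeasurableSet D := hL₀.inter (hm L (measurableSet_singleton St.dead))
  have hI : Integrable (fun t => z * D.indicator (fun _ => (1 : ℝ)) t) μ :=
    ((integrable_const (1 : ℝ)).indicator hDm).const_mul z
  have hΓ : Integrable (fun t => 2 * err - z * D.indicator (fun _ => (1 : ℝ)) t) μ :=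
    (integrable_const _).sub hI
  have key := hP.interp h hχ hχL hM hK (hm 0) (hm L) (hlive l 0) (hlive l L) hΓ (by
    intro v hv
    have : v ∉ D := by
      rintro ⟨hv1, hv2⟩
      rw [hv2, h0, if_pos hv1] at hv
      cases hv
    rw [Set.indicator_of_notMem this]
    linarith) (by
    intro v hv
    have hv1 : v ∈ L₀ := by
      by_contra hn
      apply hv
      rw [hfin, h0, if_neg hn, if_neg hn]
    rw [hmix]
    set ρ := algo_run Ψ S w N err χ L₀ l (χ v) with hρ
    have hρv : ρ v = St.unif := by
      rw [hρ, algo_run_eq, if_neg (lt_irrefl _), h0, if_pos hv1]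
    have hfv : algo_run Ψ S w N err χ L₀ l L v =
        algo_pick (l v) fun j => algo_ok Ψ S w N err ρ v (l v j) := by
      rw [hfin, if_pos hv1]; rfl
    have hA : Adm S w K ρ (B S N v) :=
      ⟨⟨v, N, subset_rfl⟩, fun u hu => hK u (hlive l _ u hu)⟩
    have hw := h.wpos v
    rcases algo_pick_spec (l v) (fun j => algo_ok Ψ S w N err ρ v (l v j)) with
      ⟨j, hj1, hj⟩ | ⟨hj1, hj⟩
    · have : v ∉ D := by
        rintro ⟨-, hv2⟩
        rw [hfv, hj] at hv2
        cases hv2
      rw [Set.indicator_of_notMem this, hfv, hj]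
      unfold algo_ok at hj1
      linarith
    · have : v ∈ D := ⟨hv1, by rw [hfv, hj]⟩
      rw [Set.indicator_of_mem this, hfv, hj]
      have e0 : mg Ψ (Function.update ρ v St.dead) (B S N v) v = 0 := by
        unfold mg
        rw [hP.dead _ _ v (by simp), sub_self]
      rcases hP.step ρ (B S N v) v hA (h.self_mem N v) hρv with hs | ⟨c, hc⟩
      · rw [e0]
        nlinarith [mul_nonneg herr hw.le]
      · exact absurd (show algo_ok Ψ S w N err ρ v (l v ((l v).symm c)) by
          rw [Equiv.apply_symm_apply]; exact hc) (hj1 _))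
  have hint : ∫ t, (2 * err - z * D.indicator (fun _ => (1 : ℝ)) t) ∂μ = 2 * err - z * μ.real D := by
    rw [integral_sub (integrable_const _) hI, integral_const, integral_const_mul,
      integral_indicator hDm]
    simp
  have hK0 : ∀ u, algo_run Ψ S w N err χ L₀ l 0 u ≠ St.dead → Kg S w K u :=
    fun u hu => hK u (hlive l 0 u hu)
  have hinit : ∫ t, dens Ψ S w N χ (algo_run Ψ S w N err χ L₀ l 0) t ∂μ ≤ small + err := by
    have hi : Integrable (dens Ψ S w N χ (algo_run Ψ S w N err χ L₀ l 0)) μ :=
      Integrable.of_bound (hP.dens_measurable h hχ (hm 0)).aestronglyMeasurable C₀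
        (ae_of_all _ fun t => (hP.dens_bound h χ hK0 t).1)
    have := integral_mono hi (integrable_const (small + err)) (fun t => by
      unfold dens
      rw [div_le_iff₀ (h.wpos t)]
      refine hP.init _ _ t ⟨⟨t, N, Finset.filter_subset _ _⟩, hK0⟩
        (Finset.mem_filter.2 ⟨h.self_mem N t, le_rfl⟩) fun u => ?_
      rw [h0]
      split_ifs
      · exact Or.inr rfl
      · exact Or.inl rfl)
    simpa using this
  rw [hint] at key
  linarith

end Crest.Agent.R109
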