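import Crest.Agent.R109.FDefs

/-! Row 109, finite part: Taylor polynomials of logarithms (Barvinok's method). -/

set_option autoImplicit false

open scoped ComplexConjugate
open Polynomial

namespace Crest.Agent.R109

open Filter Topology

theorem jet_comp_analytic {φ g : ℂ → ℂ} (hφ : AnalyticAt ℂ φ 0) (hφ0 : φ 0 = 0)
    (h : AnalyticAt ℂ g 0) : AnalyticAt ℂ (fun ζ => g (φ ζ)) 0 :=
  AnalyticAt.comp (g := g) (f := φ) (hφ0.symm ▸ h) hφ

theorem jet_log_analytic {G : ℂ → ℂ} (hG : AnalyticAt ℂ G 0) (h0 : G 0 = 1) :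
    AnalyticAt ℂ (fun ζ => Complex.log (G ζ)) 0 :=
  hG.clog (by rw [h0]; exact Complex.one_mem_slitPlane)

theorem jet_re_pos {G : ℂ → ℂ} (hG : AnalyticAt ℂ G 0) (h0 : G 0 = 1) :
    ∀ᶠ ζ in 𝓝 (0 : ℂ), 0 < (G ζ).re :=
  (Complex.continuous_re.continuousAt.comp hG.continuousAt).eventually
    (lt_mem_nhds (by simp [h0]))

theorem jet_congr_ev {φ g₁ g₂ : ℂ → ℂ}
    (h : (fun ζ => Complex.log (g₁ (φ ζ))) =ᶠ[𝓝 0] fun ζ => Complex.log (g₂ (φ ζ))) (N : ℕ) :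
    jet φ N g₁ = jet φ N g₂ :=
  Finset.sum_congr rfl fun n _ => by rw [h.iteratedDeriv_eq n]

theorem jet_factor {f : ℂ → ℂ} (hf : AnalyticAt ℂ f 0) (h0 : f 0 = 0) :
    ∃ g, AnalyticAt ℂ g 0 ∧ ∀ᶠ z in 𝓝 (0 : ℂ), f z = z * g z := by
  have h1 : ((1 : ℕ) : ℕ∞) ≤ analyticOrderAt f 0 :=
    (natCast_le_analyticOrderAt_iff_iteratedDeriv_eq_zero hf).2 fun i hi => by
      obtain rfl : i = 0 := by omega
      simpa using h0
  simpa using (natCast_le_analyticOrderAt hf).1 h1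

/-- Near `0` both factors are close to `1`, so `log (g₁ g₂) = log g₁ + log g₂` eventually. -/
theorem jet_mul {φ g₁ g₂ : ℂ → ℂ} (hφ : AnalyticAt ℂ φ 0) (hφ0 : φ 0 = 0)
    (h₁ : AnalyticAt ℂ g₁ 0) (h₂ : AnalyticAt ℂ g₂ 0) (h₁0 : g₁ 0 = 1) (h₂0 : g₂ 0 = 1) (N : ℕ) :
    jet φ N (fun κ => g₁ κ * g₂ κ) = jet φ N g₁ + jet φ N g₂ := by
  have a₁ := jet_comp_analytic hφ hφ0 h₁
  have a₂ := jet_comp_analytic hφ hφ0 h₂
  have b₁ : g₁ (φ 0) = 1 := by rw [hφ0, h₁0]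
  have b₂ : g₂ (φ 0) = 1 := by rw [hφ0, h₂0]
  have he : (fun ζ => Complex.log (g₁ (φ ζ) * g₂ (φ ζ))) =ᶠ[𝓝 0]
      fun ζ => Complex.log (g₁ (φ ζ)) + Complex.log (g₂ (φ ζ)) := by
    filter_upwards [jet_re_pos a₁ b₁, jet_re_pos a₂ b₂] with ζ c₁ c₂
    have d₁ := abs_lt.1 (Complex.abs_arg_lt_pi_div_two_iff.2 (Or.inl c₁))
    have d₂ := abs_lt.1 (Complex.abs_arg_lt_pi_div_two_iff.2 (Or.inl c₂))
    refine Complex.log_mul (fun h => ?_) (fun h => ?_) ⟨by linarith [d₁.1, d₂.1], by linarith [d₁.2, d₂.2]⟩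
    · simp [h] at c₁
    · simp [h] at c₂
  unfold jet
  rw [← Finset.sum_add_distrib]
  refine Finset.sum_congr rfl fun n _ => ?_
  rw [he.iteratedDeriv_eq n, iteratedDeriv_fun_add (jet_log_analytic a₁ b₁).contDiffAt
    (jet_log_analytic a₂ b₂).contDiffAt, add_div]

theorem jet_div {φ g₁ g₂ : ℂ → ℂ} (hφ : AnalyticAt ℂ φ 0) (hφ0 : φ 0 = 0)
    (h₁ : AnalyticAt ℂ g₁ 0) (h₂ : AnalyticAt ℂ g₂ 0) (h₁0 : g₁ 0 = 1) (h₂0 : g₂ 0 = 1) (N : ℕ) :
    jet φ N (fun κ => g₁ κ / g₂ κ) = jet φ N g₁ - jet φ N g₂ := by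
  have h := jet_mul (g₁ := fun κ => g₁ κ / g₂ κ) hφ hφ0 (h₁.div h₂ (by rw [h₂0]; exact one_ne_zero))
    h₂ (by simp [h₁0, h₂0]) h₂0 N
  rw [eq_sub_iff_add_eq, ← h]
  refine jet_congr_ev ?_ N
  filter_upwards [jet_re_pos (jet_comp_analytic hφ hφ0 h₂) (by rw [hφ0, h₂0])] with ζ c₂
  rw [div_mul_cancel₀]
  intro h
  simp [h] at c₂

theorem jet_one (φ : ℂ → ℂ) (N : ℕ) : jet φ N (fun _ => 1) = 0 := by
  simp [jet]

/-- `g₁ / g₂ = 1 + κ^(N+1) h / g₂`, so `log ((g₁/g₂) (φ ζ)) = O(ζ^(N+1))` is analytic with vanishing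
derivatives up to order `N` (e.g. `analyticOrderAt`, `natCast_le_analyticOrderAt_iff_iteratedDeriv_eq_zero`
or `IsBigO` uniqueness of power series). -/
theorem jet_congr {φ g₁ g₂ h : ℂ → ℂ} (hφ : AnalyticAt ℂ φ 0) (hφ0 : φ 0 = 0)
    (h₁ : AnalyticAt ℂ g₁ 0) (h₂ : AnalyticAt ℂ g₂ 0) (h₁0 : g₁ 0 = 1) (h₂0 : g₂ 0 = 1)
    (hh : AnalyticAt ℂ h 0) (N : ℕ) (he : ∀ κ, g₁ κ - g₂ κ = κ ^ (N + 1) * h κ) :
    jet φ N g₁ = jet φ N g₂ := by
  rw [← sub_eq_zero, ← jet_div hφ hφ0 h₁ h₂ h₁0 h₂0]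
  have a₁ := jet_comp_analytic hφ hφ0 h₁
  have a₂ := jet_comp_analytic hφ hφ0 h₂
  have a₃ := jet_comp_analytic hφ hφ0 hh
  have b₁ : g₁ (φ 0) = 1 := by rw [hφ0, h₁0]
  have b₂ : g₂ (φ 0) = 1 := by rw [hφ0, h₂0]
  have b₃ : g₂ (φ 0) ≠ 0 := by rw [b₂]; exact one_ne_zero
  obtain ⟨φ₁, hφ₁, hφe⟩ := jet_factor hφ hφ0
  obtain ⟨ψ, hψ, hψe⟩ := jet_factor (f := fun u => Complex.log (1 + u))
    (jet_log_analytic (by fun_prop) (by simp)) (by simp)
  have hu : AnalyticAt ℂ (fun ζ => φ ζ ^ (N + 1) * h (φ ζ) / g₂ (φ ζ)) 0 :=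
    ((hφ.pow _).mul a₃).div a₂ b₃
  have hu0 : φ 0 ^ (N + 1) * h (φ 0) / g₂ (φ 0) = 0 := by simp [hφ0]
  have hL : AnalyticAt ℂ (fun ζ => Complex.log (g₁ (φ ζ) / g₂ (φ ζ))) 0 :=
    jet_log_analytic (a₁.div a₂ b₃) (by simp [b₁, b₂])
  have hord : ((N + 1 : ℕ) : ℕ∞) ≤
      analyticOrderAt (fun ζ => Complex.log (g₁ (φ ζ) / g₂ (φ ζ))) 0 := by
    refine (natCast_le_analyticOrderAt hL).2 ⟨fun ζ => φ₁ ζ ^ (N + 1) * h (φ ζ) / g₂ (φ ζ) *
      ψ (φ ζ ^ (N + 1) * h (φ ζ) / g₂ (φ ζ)),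
      (((hφ₁.pow _).mul a₃).div a₂ b₃).mul (jet_comp_analytic hu hu0 hψ), ?_⟩
    have ht : Tendsto (fun ζ => φ ζ ^ (N + 1) * h (φ ζ) / g₂ (φ ζ)) (𝓝 0) (𝓝 0) := by
      have := hu.continuousAt.tendsto
      rwa [hu0] at this
    filter_upwards [hφe, ht.eventually hψe, a₂.continuousAt.eventually_ne b₃] with ζ e1 e2 e3
    have e4 : g₁ (φ ζ) / g₂ (φ ζ) = 1 + φ ζ ^ (N + 1) * h (φ ζ) / g₂ (φ ζ) := by
      rw [← he]
      field_simp
      ring
    rw [e4, e2, sub_zero, smul_eq_mul]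
    nth_rewrite 1 [e1]
    ring
  have hz := (natCast_le_analyticOrderAt_iff_iteratedDeriv_eq_zero hL).1 hord
  exact Finset.sum_eq_zero fun n hn => by rw [hz n (Finset.mem_range.1 hn), zero_div]

theorem jet_tail {R : ℝ} (hR : 1 < R) : ∃ C r : ℝ, 0 ≤ C ∧ 0 ≤ r ∧ r < 1 ∧
    ∀ (G : ℂ → ℂ) (a : ℝ), DifferentiableOn ℂ G (Metric.ball 0 R) → G 0 = 1 →
      (∀ ζ ∈ Metric.ball (0 : ℂ) R, G ζ ∈ Complex.slitPlane ∧ |Complex.arg (G ζ)| ≤ a) →
      0 ≤ a ∧ ∀ n : ℕ, ‖∑ j ∈ Finset.range n,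
        iteratedDeriv j (fun ζ => Complex.log (G ζ)) 0 / (j.factorial : ℂ) - Complex.log (G 1)‖ ≤
          C * r ^ n * a := by
  set R₁ := (1 + R) / 2 with hR₁
  have h1 : 1 < R₁ := by linarith
  have h2 : R₁ < R := by linarith
  have h3 : 0 < R₁ := by linarith
  have h4 : 0 < R - R₁ := by linarith
  have hr : R₁⁻¹ < 1 := inv_lt_one_of_one_lt₀ h1
  have hr' : 0 < 1 - R₁⁻¹ := by linarith
  set C₁ := 2 * R₁ / (R - R₁) with hC₁
  have hC : 0 < C₁ := by positivity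
  refine ⟨C₁ / (1 - R₁⁻¹), R₁⁻¹, by positivity, by positivity, hr, fun G a hG h0 hs => ?_⟩
  have ha : 0 ≤ a := (abs_nonneg _).trans (hs 0 (Metric.mem_ball_self (by linarith))).2
  refine ⟨ha, fun n => ?_⟩
  have hL : DifferentiableOn ℂ (fun ζ => Complex.log (G ζ)) (Metric.ball 0 R) :=
    hG.clog fun ζ hζ => (hs ζ hζ).1
  have hb : ∀ z ∈ Metric.sphere (0 : ℂ) R₁, ‖Complex.log (G z)‖ ≤ C₁ * a := by
    intro z hz
    have hz' : ‖z‖ = R₁ := by simpa using hz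
    refine le_of_forall_pos_le_add fun ε hε => ?_
    have h5 := Complex.borelCaratheodory_zero (f := fun ζ => -Complex.I * Complex.log (G ζ))
      (M := a + ε / C₁) (R := R) (z := z) (by positivity) (hL.const_mul _) (fun ζ hζ => by
        have h6 := (abs_le.1 (hs ζ hζ).2).2
        have h7 : 0 ≤ ε / C₁ := by positivity
        simp only [Set.mem_ofPred_eq, Complex.mul_re, Complex.neg_re, Complex.I_re, neg_zero,
          zero_mul, Complex.neg_im, Complex.I_im, Complex.log_im]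
        linarith) (by linarith) (by simpa [hz'] using h2) (by simp [h0])
    rw [norm_mul, norm_neg, Complex.norm_I, one_mul, hz'] at h5
    refine h5.trans (le_of_eq ?_)
    rw [hC₁]
    field_simp
  have hd : DiffContOnCl ℂ (fun ζ => Complex.log (G ζ)) (Metric.ball 0 R₁) :=
    (hL.mono (Metric.closure_ball_subset_closedBall.trans (Metric.closedBall_subset_ball h2))).diffContOnCl
  have hc : ∀ j : ℕ, ‖iteratedDeriv j (fun ζ => Complex.log (G ζ)) 0 / (j.factorial : ℂ)‖ ≤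
      C₁ * a * R₁⁻¹ ^ j := by
    intro j
    have h5 := Complex.norm_iteratedDeriv_le_of_forall_mem_sphere_norm_le j h3 hd hb
    have h6 : (0 : ℝ) < j.factorial := by positivity
    rw [norm_div, Complex.norm_natCast, div_le_iff₀ h6]
    refine h5.trans (le_of_eq ?_)
    rw [inv_pow]
    field_simp
  have hsum : HasSum (fun j : ℕ =>
      iteratedDeriv j (fun ζ => Complex.log (G ζ)) 0 / (j.factorial : ℂ)) (Complex.log (G 1)) := by
    have h5 := Complex.hasSum_taylorSeries_on_ball hL (z := 1) (by simpa using hR)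
    simpa [div_eq_inv_mul] using h5
  refine (norm_sub_le_of_geometric_bound_of_hasSum hr hc hsum n).trans (le_of_eq ?_)
  ring

/-- `L = log ∘ g ∘ φ` is holomorphic on the disc of radius `R`, `L 0 = 0`, `|im L| ≤ a`.
Borel-Carathéodory (`Complex.borelCaratheodory_zero`, applied to `-I * L` with bound `a + δ`,
`δ → 0`, or treat `a = 0` apart) bounds `‖L‖ ≤ C₁ a` on the circle of radius `R₁ = (1 + R)/2`; Cauchy's
estimates (`Complex.norm_iteratedDeriv_le_of_forall_mem_sphere_norm_le`) give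
`‖L⁽ⁿ⁾(0) / n!‖ ≤ C₁ a R₁⁻ⁿ`, and the Taylor series converges to `L 1`
(`Complex.hasSum_taylorSeries_on_ball`). -/
theorem jet_approx {R : ℝ} (hR : 1 < R) :
    ∃ C : ℝ, 0 ≤ C ∧
      (∀ (N : ℕ) (φ g : ℂ → ℂ) (a : ℝ), DifferentiableOn ℂ (fun ζ => g (φ ζ)) (Metric.ball 0 R) →
        g (φ 0) = 1 → (∀ ζ ∈ Metric.ball (0 : ℂ) R, g (φ ζ) ∈ Complex.slitPlane ∧
          |Complex.arg (g (φ ζ))| ≤ a) → ‖jet φ N g‖ ≤ C * a) ∧
      ∀ ε : ℝ, 0 < ε → ∃ N₀ : ℕ, ∀ N, N₀ ≤ N → ∀ (φ g : ℂ → ℂ) (a : ℝ),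
        DifferentiableOn ℂ (fun ζ => g (φ ζ)) (Metric.ball 0 R) → g (φ 0) = 1 →
        (∀ ζ ∈ Metric.ball (0 : ℂ) R, g (φ ζ) ∈ Complex.slitPlane ∧
          |Complex.arg (g (φ ζ))| ≤ a) → ‖Complex.log (g (φ 1)) - jet φ N g‖ ≤ ε * a := by
  obtain ⟨C, r, hC, hr0, hr1, h⟩ := jet_tail hR
  refine ⟨2 * C, by positivity, fun N φ g a hd h0 hs => ?_, fun ε hε => ?_⟩
  · obtain ⟨ha, h1⟩ := h (fun ζ => g (φ ζ)) a hd h0 hs
    have h2 := h1 0
    have h3 := h1 (N + 1)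
    rw [Finset.range_zero, Finset.sum_empty, zero_sub, norm_neg, pow_zero, mul_one] at h2
    have h4 : C * r ^ (N + 1) * a ≤ C * 1 * a := by
      gcongr
      exact pow_le_one₀ hr0 hr1.le
    have h5 := norm_le_norm_sub_add (jet φ N g) (Complex.log (g (φ 1)))
    unfold jet at h5 ⊢
    linarith
  · have ht : Tendsto (fun n : ℕ => C * r ^ n) atTop (𝓝 0) := by
      simpa using (tendsto_pow_atTop_nhds_zero_of_lt_one hr0 hr1).const_mul C
    obtain ⟨N₀, hN₀⟩ := eventually_atTop.1 (ht.eventually (ge_mem_nhds hε))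
    refine ⟨N₀, fun N hN φ g a hd h0 hs => ?_⟩
    obtain ⟨ha, h1⟩ := h (fun ζ => g (φ ζ)) a hd h0 hs
    rw [norm_sub_rev]
    exact (h1 (N + 1)).trans (mul_le_mul_of_nonneg_right (hN₀ _ (by omega)) ha)

/-- If `‖ω‖ ≥ 1/2` use `|arg| ≤ π`; otherwise `|arg (1 + ω)| ≤ π/2 |sin arg| ≤ π ‖ω‖`. -/
theorem abs_arg_one_add_le (ω : ℂ) : |Complex.arg (1 + ω)| ≤ 2 * Real.pi * ‖ω‖ := by
  have hπ := Real.pi_pos
  rcases le_total (1 / 2) ‖ω‖ with h | h
  · have := Complex.abs_arg_le_pi (1 + ω)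
    nlinarith
  · have h1 : 0 ≤ (1 + ω).re := by
      have := (abs_le.1 (Complex.abs_re_le_norm ω)).1
      simp only [Complex.add_re, Complex.one_re]
      linarith
    have h2 := Real.mul_abs_le_abs_sin (Complex.abs_arg_le_pi_div_two_iff.2 h1)
    have h3 : 1 / 2 ≤ ‖1 + ω‖ := by
      have := norm_sub_le (1 + ω) ω
      rw [add_sub_cancel_right, norm_one] at this
      linarith
    have h4 : |Real.sin (Complex.arg (1 + ω))| ≤ 2 * ‖ω‖ := by
      rw [Complex.sin_arg, abs_div, abs_norm, div_le_iff₀ (by linarith)]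
      have h5 := Complex.abs_im_le_norm ω
      simp only [Complex.add_im, Complex.one_im, zero_add]
      nlinarith [norm_nonneg ω]
    have h6 := h2.trans h4
    rw [div_mul_eq_mul_div, div_le_iff₀ hπ] at h6
    nlinarith [norm_nonneg ω]

theorem abs_log_norm_one_add_le {ω : ℂ} (h : ‖ω‖ ≤ 1 / 2) : |Real.log ‖1 + ω‖| ≤ 2 * ‖ω‖ := by
  have h1 : 1 - ‖ω‖ ≤ ‖1 + ω‖ := by
    have := norm_sub_le (1 + ω) ω
    rw [add_sub_cancel_right, norm_one] at this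
    linarith
  have h2 : ‖1 + ω‖ ≤ 1 + ‖ω‖ := by simpa using norm_add_le 1 ω
  have h3 : 0 < ‖1 + ω‖ := by linarith
  have h4 := Real.log_le_sub_one_of_pos h3
  have h5 := Real.one_sub_inv_le_log_of_pos h3
  have h6 : ‖1 + ω‖⁻¹ ≤ 1 + 2 * ‖ω‖ := by
    rw [inv_le_iff_one_le_mul₀ h3]
    nlinarith [norm_nonneg ω]
  rw [abs_le]
  constructor <;> linarith [norm_nonneg ω]

/-- With `a = 1 - exp (-2/η) ∈ (0,1)` take `R = (1 + a⁻¹) / 2`: `re (1 - a ζ) ≥ 1 - a R > 0`. -/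
theorem phi_spec {η : ℝ} (hη : 0 < η) :
    ∃ R κm : ℝ, 1 < R ∧ DifferentiableOn ℂ (phi η) (Metric.ball 0 R) ∧ phi η 0 = 0 ∧
      phi η 1 = 1 ∧ ∀ ζ ∈ Metric.ball (0 : ℂ) R, |(phi η ζ).im| ≤ η ∧ ‖phi η ζ‖ ≤ κm := by
  set a : ℝ := 1 - Real.exp (-2 / η) with ha
  have ha1 : a < 1 := by linarith [Real.exp_pos (-2 / η)]
  have ha0 : 0 < a := by
    have : Real.exp (-2 / η) < 1 := Real.exp_lt_one_iff.2 (div_neg_of_neg_of_pos (by norm_num) hη)
    linarith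
  have hai : 1 < a⁻¹ := one_lt_inv₀ ha0 |>.2 ha1
  have hre : ∀ ζ ∈ Metric.closedBall (0 : ℂ) ((1 + a⁻¹) / 2), 0 < (1 - (a : ℂ) * ζ).re := by
    intro ζ hζ
    have h1 : ‖ζ‖ ≤ (1 + a⁻¹) / 2 := by simpa using hζ
    have h2 := (abs_le.1 (Complex.abs_re_le_norm ζ)).2
    have h3 : a * ζ.re ≤ a * ((1 + a⁻¹) / 2) := mul_le_mul_of_nonneg_left (h2.trans h1) ha0.le
    have h4 : a * ((1 + a⁻¹) / 2) = (a + 1) / 2 := by field_simp
    simp only [Complex.sub_re, Complex.one_re, Complex.mul_re, Complex.ofReal_re, Complex.ofReal_im,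
      zero_mul, sub_zero]
    linarith
  have hd : DifferentiableOn ℂ (phi η) (Metric.closedBall (0 : ℂ) ((1 + a⁻¹) / 2)) := by
    refine DifferentiableOn.const_mul (DifferentiableOn.clog (by fun_prop) fun ζ hζ => ?_) _
    exact Or.inl (hre ζ hζ)
  obtain ⟨κm, hκ⟩ := (isCompact_closedBall (0 : ℂ) _).exists_bound_of_continuousOn hd.continuousOn
  refine ⟨(1 + a⁻¹) / 2, κm, by linarith, hd.mono Metric.ball_subset_closedBall, by simp [phi], ?_,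
    fun ζ hζ => ⟨?_, hκ ζ (Metric.ball_subset_closedBall hζ)⟩⟩
  · have h1 : (1 : ℂ) - ((1 - Real.exp (-2 / η) : ℝ) : ℂ) * 1 = ((Real.exp (-2 / η) : ℝ) : ℂ) := by
      push_cast
      ring
    rw [phi, h1, ← Complex.ofReal_log (Real.exp_pos _).le, Real.log_exp]
    have : (η : ℂ) ≠ 0 := by exact_mod_cast hη.ne'
    push_cast
    field_simp
  · have h1 := Complex.abs_arg_le_pi_div_two_iff.2 (hre ζ (Metric.ball_subset_closedBall hζ)).le
    have h2 : (phi η ζ).im = -(η / 2) * Complex.arg (1 - (a : ℂ) * ζ) := by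
      rw [phi, ← Complex.ofReal_neg, Complex.im_ofReal_mul, Complex.log_im]
    rw [h2, abs_mul, abs_neg, abs_of_pos (by linarith : 0 < η / 2)]
    have h3 := Real.pi_le_four
    nlinarith

theorem phi_analyticAt (η : ℝ) : AnalyticAt ℂ (phi η) 0 ∧ phi η 0 = 0 :=
  ⟨analyticAt_const.mul (jet_log_analytic (by fun_prop) (by simp)), by simp [phi]⟩

/-- The jet is a polynomial in the coefficients.  With `G = g ∘ φ`, `L = log G`: `G L' = G'` near
`0`, so by Leibniz `L⁽ⁿ⁺¹⁾(0) = G⁽ⁿ⁺¹⁾(0) - ∑_{k<n} C(n,k) G⁽ⁿ⁻ᵏ⁾(0) L⁽ᵏ⁺¹⁾(0)`, and `G⁽ʲ⁾(0)` is affine in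
`a`; strong induction on `n`. -/
theorem jet_continuous {ι : Type*} (s : Finset ι) (d : ι → ℕ) (hd : ∀ i ∈ s, 0 < d i)
    {φ : ℂ → ℂ} (hφ : AnalyticAt ℂ φ 0) (hφ0 : φ 0 = 0) (N : ℕ) :
    Continuous fun a : ι → ℂ => jet φ N (fun κ => 1 + ∑ i ∈ s, a i * κ ^ d i) := by
  set G : (ι → ℂ) → ℂ → ℂ := fun a ζ => 1 + ∑ i ∈ s, a i * φ ζ ^ d i with hG
  have hS : ∀ a : ι → ℂ, AnalyticAt ℂ (fun ζ => ∑ i ∈ s, a i * φ ζ ^ d i) 0 := fun a =>
    Finset.analyticAt_fun_sum s fun i _ => analyticAt_const.mul (hφ.pow _)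
  have hGa : ∀ a, AnalyticAt ℂ (G a) 0 := fun a => analyticAt_const.add (hS a)
  have hG0 : ∀ a, G a 0 = 1 := by
    intro a
    simp only [hG, hφ0, add_eq_left]
    exact Finset.sum_eq_zero fun i hi => by rw [zero_pow (hd i hi).ne', mul_zero]
  have hGc : ∀ j, Continuous fun a => iteratedDeriv (j + 1) (G a) 0 := by
    intro j
    have : ∀ a, iteratedDeriv (j + 1) (G a) 0 =
        ∑ i ∈ s, a i * iteratedDeriv (j + 1) (fun ζ => φ ζ ^ d i) 0 := by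
      intro a
      simp only [hG]
      rw [iteratedDeriv_const_add (Nat.succ_pos j), iteratedDeriv_fun_sum
        (f := fun i ζ => a i * φ ζ ^ d i) fun i _ =>
        (analyticAt_const.mul (hφ.pow (d i))).contDiffAt]
      exact Finset.sum_congr rfl fun i _ => iteratedDeriv_const_mul_field _ _
    simp only [this]
    fun_prop
  have hrec : ∀ a n, iteratedDeriv (n + 1) (fun ζ => Complex.log (G a ζ)) 0 =
      iteratedDeriv (n + 1) (G a) 0 - ∑ i ∈ Finset.range n, (n.choose (i + 1) : ℂ) *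
        iteratedDeriv (i + 1) (G a) 0 *
        iteratedDeriv (n - (i + 1) + 1) (fun ζ => Complex.log (G a ζ)) 0 := by
    intro a n
    have hL := jet_log_analytic (hGa a) (hG0 a)
    have he : deriv (G a) =ᶠ[𝓝 0] G a * deriv fun ζ => Complex.log (G a ζ) := by
      filter_upwards [(hGa a).eventually_analyticAt, jet_re_pos (hGa a) (hG0 a)] with ζ e1 e2
      have e3 : G a ζ ≠ 0 := fun h => by simp [h] at e2
      rw [Pi.mul_apply, (e1.differentiableAt.hasDerivAt.clog (Or.inl e2)).deriv]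
      field_simp
    rw [iteratedDeriv_succ' (f := G a), he.iteratedDeriv_eq n,
      iteratedDeriv_mul (hGa a).contDiffAt hL.deriv.contDiffAt, Finset.sum_range_succ']
    simp only [← iteratedDeriv_succ', iteratedDeriv_zero, hG0, Nat.choose_zero_right, Nat.cast_one,
      one_mul, Nat.sub_zero]
    ring
  have hLc : ∀ n, Continuous fun a => iteratedDeriv n (fun ζ => Complex.log (G a ζ)) 0 := by
    intro n
    induction n using Nat.strong_induction_on with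
    | _ n ih =>
      cases n with
      | zero =>
        simp only [iteratedDeriv_zero, hG0]
        exact continuous_const
      | succ n =>
        rw [funext fun a => hrec a n]
        refine (hGc n).sub (continuous_finsetSum _ fun i hi => ?_)
        have := Finset.mem_range.1 hi
        exact (continuous_const.mul (hGc i)).mul (ih _ (by omega))
  exact continuous_finsetSum _ fun n _ => (hLc n).div_const _

end Crest.Agent.R109
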