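import Crest.Agent.R109.FBasic
import Crest.Agent.R109.Jet

/-! Row 109, finite part: invariance and measurability of the truncated potential. -/

open MeasureTheory

set_option autoImplicit false

open scoped ComplexConjugate
open Polynomial

namespace Crest.Agent.R109

variable {α : Type*} [DecidableEq α] {𝒦 : Type*} [Fintype 𝒦] [DecidableEq 𝒦]

theorem FS.Psi_empty (F : FS α 𝒦) (z η : ℝ) (N : ℕ) : F.Psi z η N ∅ = 0 := by
  have h : ∀ σ, F.jt z η N ∅ σ = 0 := fun σ => by
    have : ph F.y F.π ∅ (F.Zs z η (σ * Complex.I)) = fun _ => 1 := funext fun κ => ph_empty _ _ _ κ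
    rw [FS.jt, this, jet_one, Complex.zero_re]
  simp [FS.Psi, h]

/-- `Psi` only depends on the minors, `μ` and `w` on `U`, transported along an injection. -/
theorem FS.Psi_map {β : Type*} [DecidableEq β] (e : β → α) (U : Finset β) (he : Set.InjOn e U)
    (F : FS α 𝒦) {𝒦' : Type*} [Fintype 𝒦'] [DecidableEq 𝒦'] (F' : FS β 𝒦')
    (hc : ∀ T ⊆ U, cT F'.y F'.π T = cT F.y F.π (T.image e))
    (hμ : ∀ u ∈ U, F'.μ u = F.μ (e u)) (hw : ∀ u ∈ U, F'.w u = F.w (e u)) (z η : ℝ) (N : ℕ) :
    F.Psi z η N (U.image e) = F'.Psi z η N U := by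
  have h : ∀ σ, F.jt z η N (U.image e) σ = F'.jt z η N U σ := fun σ => by
    have : ph F.y F.π (U.image e) (F.Zs z η (σ * Complex.I)) =
        ph F'.y F'.π U (F'.Zs z η (σ * Complex.I)) := by
      funext κ
      unfold ph
      rw [Finset.powerset_image, Finset.sum_image]
      · refine Finset.sum_congr rfl fun T hT => ?_
        have hT' : T ⊆ U := Finset.mem_powerset.1 hT
        have heT : Set.InjOn e T := he.mono hT'
        rw [hc T hT', Finset.card_image_of_injOn heT, Finset.prod_image heT]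
        congr 1
        refine Finset.prod_congr rfl fun u hu => ?_
        simp only [FS.Zs, hμ u (hT' hu), hw u (hT' hu)]
      · intro S hS T hT hST
        have hS' : S ⊆ U := Finset.mem_powerset.1 hS
        have hT' : T ⊆ U := Finset.mem_powerset.1 hT
        have key : ∀ {A B : Finset β}, A ⊆ U → B ⊆ U → A.image e = B.image e → A ⊆ B := by
          intro A B hA hB hAB a ha
          have h1 : e a ∈ B.image e := hAB ▸ Finset.mem_image_of_mem e ha
          obtain ⟨b, hb, hb'⟩ := Finset.mem_image.1 h1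
          rwa [← he (hB hb) (hA ha) hb']
        exact (key hS' hT' hST).antisymm (key hT' hS' hST.symm)
    rw [FS.jt, FS.jt, this]
  unfold FS.Psi
  simp only [h]
  rw [Finset.sum_image he]
  congr 1
  exact Finset.sum_congr rfl fun u hu => by rw [hμ u hu, hw u hu]

theorem FS.Psi_congr (U : Finset α) {F F' : FS α 𝒦}
    (hc : ∀ T ⊆ U, cT F'.y F'.π T = cT F.y F.π T)
    (hμ : ∀ u ∈ U, F'.μ u = F.μ u) (hw : ∀ u ∈ U, F'.w u = F.w u) (z η : ℝ) (N : ℕ) :
    F.Psi z η N U = F'.Psi z η N U := by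
  have := FS.Psi_map id U (fun _ _ _ _ h => h) F F' (by simpa using hc) hμ hw z η N
  rwa [Finset.image_id] at this

/-- Scale covariance: `Zs[w / c] (σ I) = Zs[w] (c σ I)`; `integral_comp_mul_left_Ioi`. -/
theorem FS.Psi_scale (F : FS α 𝒦) {c : ℝ} (hc : 0 < c) (z η : ℝ) (N : ℕ) (U : Finset α) :
    ({ F with w := fun u => F.w u / c } : FS α 𝒦).Psi z η N U = F.Psi z η N U / c := by
  have h : ∀ σ, ({ F with w := fun u => F.w u / c } : FS α 𝒦).jt z η N U σ =
      F.jt z η N U (c * σ) := fun σ => by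
    have : ({ F with w := fun u => F.w u / c } : FS α 𝒦).Zs z η (σ * Complex.I) =
        F.Zs z η ((c * σ : ℝ) * Complex.I) := by
      funext u
      simp only [FS.Zs]
      push_cast
      simp only [div_eq_mul_inv, mul_inv, inv_inv]
      ring
    simp only [FS.jt, this]
  unfold FS.Psi
  simp only [h]
  rw [integral_comp_mul_left_Ioi (fun σ => F.jt z η N U σ) 0 hc, mul_zero, add_div,
    Finset.sum_div, smul_eq_mul]
  congr 1
  · exact Finset.sum_congr rfl fun u _ => by ring
  · ring

theorem psiinv_cT_measurable {Ω : Type*} [MeasurableSpace Ω] (y : Ω → 𝒦 → α → α → ℂ)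
    (π : α → 𝒦 → ℝ) (T : Finset α) (hy : ∀ k, ∀ a ∈ T, ∀ b ∈ T, Measurable fun ω => y ω k a b) :
    Measurable fun ω => cT (y ω) π T := by
  unfold cT
  refine Finset.measurable_sum _ fun cl _ => measurable_const.mul ?_
  simp only [Matrix.det_apply', Matrix.neg_apply, ymat, Matrix.of_apply]
  refine Finset.measurable_sum _ fun s _ => measurable_const.mul
    (Finset.measurable_prod _ fun i _ => Measurable.neg ?_)
  split_ifs
  · exact hy _ _ (s i).2 _ i.2
  · exact measurable_const

/-- Joint measurability of the integrand: write `ph = 1 + ∑_{T ≠ ∅} a_T κ^|T|` and use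
`jet_continuous`; the coefficients `a_T = cT T * ∏ (Zs u)⁻¹` are measurable (`Matrix.det_apply`). -/
theorem FS.jt_measurable {Ω : Type*} [MeasurableSpace Ω] (y : Ω → 𝒦 → α → α → ℂ)
    (π : α → 𝒦 → ℝ) (μ : α → ℝ) (w : Ω → α → ℝ) (U : Finset α)
    (hy : ∀ k, ∀ a ∈ U, ∀ b ∈ U, Measurable fun ω => y ω k a b)
    (hw : ∀ a ∈ U, Measurable fun ω => w ω a) (z η : ℝ) (N : ℕ) :
    Measurable fun p : Ω × ℝ => (FS.mk (y p.1) π μ (w p.1)).jt z η N U p.2 := by
  have hc := jet_continuous (ι := U.powerset) (Finset.univ.filter fun T => T.1 ≠ ∅)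
    (fun T => T.1.card) (fun T hT => Finset.card_pos.2
      (Finset.nonempty_iff_ne_empty.2 (Finset.mem_filter.1 hT).2))
    (phi_analyticAt η).1 (phi_analyticAt η).2 N
  let a : Ω × ℝ → U.powerset → ℂ := fun p T => cT (y p.1) π T.1 *
    ∏ u ∈ T.1, ((FS.mk (y p.1) π μ (w p.1)).Zs z η (p.2 * Complex.I) u)⁻¹
  have ha : Measurable a := by
    refine measurable_pi_lambda _ fun T => ?_
    have hT : T.1 ⊆ U := Finset.mem_powerset.1 T.2
    refine Measurable.mul ((psiinv_cT_measurable y π T.1
      fun k a ha b hb => hy k a (hT ha) b (hT hb)).comp measurable_fst)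
      (Finset.measurable_prod _ fun u hu => Measurable.inv ?_)
    have h1 : Measurable fun p : Ω × ℝ => ((w p.1 u : ℝ) : ℂ) :=
      Complex.measurable_ofReal.comp ((hw u (hT hu)).comp measurable_fst)
    have h2 : Measurable fun p : Ω × ℝ => ((p.2 : ℝ) : ℂ) * Complex.I :=
      (Complex.measurable_ofReal.comp measurable_snd).mul measurable_const
    simp only [FS.Zs]
    fun_prop
  have h := Complex.measurable_re.comp (hc.measurable.comp ha)
  convert h using 2 with p
  simp only [FS.jt, Function.comp_apply]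
  congr 2
  funext κ
  unfold ph
  rw [← Finset.sum_coe_sort U.powerset, ← Finset.add_sum_erase Finset.univ _
    (Finset.mem_univ (⟨∅, Finset.empty_mem_powerset U⟩ : U.powerset))]
  congr 1
  · simp [cT_empty]
  · refine Finset.sum_congr ?_ fun T _ => ?_
    · ext T
      simp [Subtype.ext_iff]
    · simp only [a]
      ring

/-- `StronglyMeasurable.integral_prod_right`. -/
theorem FS.Psi_measurable {Ω : Type*} [MeasurableSpace Ω] (y : Ω → 𝒦 → α → α → ℂ)
    (π : α → 𝒦 → ℝ) (μ : α → ℝ) (w : Ω → α → ℝ) (U : Finset α)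
    (hy : ∀ k, ∀ a ∈ U, ∀ b ∈ U, Measurable fun ω => y ω k a b)
    (hw : ∀ a ∈ U, Measurable fun ω => w ω a) (z η : ℝ) (N : ℕ) :
    Measurable fun ω => (FS.mk (y ω) π μ (w ω)).Psi z η N U := by
  unfold FS.Psi
  have h1 : Measurable fun ω => ∑ u ∈ U, w ω u * rho z η (μ u) :=
    Finset.measurable_sum _ fun u hu => (hw u hu).mul_const _
  have h2 : Measurable fun ω => ∫ σ in Set.Ioi (0 : ℝ), (FS.mk (y ω) π μ (w ω)).jt z η N U σ :=
    (StronglyMeasurable.integral_prod_right'
      (FS.jt_measurable y π μ w U hy hw z η N).stronglyMeasurable).measurable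
  exact h1.add (h2.const_mul _)

end Crest.Agent.R109
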