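import Crest.Agent.R109.FBasic
import Crest.Agent.R109.Jet

/-! Row 109, finite part: exact locality of the low-order terms. -/

set_option autoImplicit false
set_option linter.unusedSectionVars false

open scoped ComplexConjugate
open Polynomial

namespace Crest.Agent.R109

variable {α : Type*} [DecidableEq α] {𝒦 : Type*} [Fintype 𝒦] [DecidableEq 𝒦]

open Classical in
/-- the set reached from `v` inside `S` in at most `n` steps -/
noncomputable def switchC (y : 𝒦 → α → α → ℂ) (v : α) (S : Finset α) : ℕ → Finset α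
  | 0 => {v}
  | n + 1 => switchC y v S n ∪ S.filter fun u' => ∃ u ∈ switchC y v S n, ∃ k, y k u' u ≠ 0

theorem switchC_mem_succ {y : 𝒦 → α → α → ℂ} {v : α} {S : Finset α} {n : ℕ} {a : α} :
    a ∈ switchC y v S (n + 1) ↔
      a ∈ switchC y v S n ∨ a ∈ S ∧ ∃ u ∈ switchC y v S n, ∃ k, y k a u ≠ 0 := by
  simp only [switchC, Finset.mem_union, Finset.mem_filter]

theorem switchC_card (y : 𝒦 → α → α → ℂ) (v : α) (S : Finset α) (n : ℕ)
    (h : switchC y v S n ≠ switchC y v S (n + 1)) : n + 2 ≤ (switchC y v S (n + 1)).card := by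
  have hsub : ∀ n, switchC y v S n ⊆ switchC y v S (n + 1) := fun n a ha =>
    switchC_mem_succ.2 (Or.inl ha)
  induction n with
  | zero =>
    have := Finset.card_lt_card (Finset.ssubset_iff_subset_ne.2 ⟨hsub 0, h⟩)
    rw [show (switchC y v S 0).card = 1 from Finset.card_singleton v] at this
    omega
  | succ n ih =>
    have h1 : switchC y v S n ≠ switchC y v S (n + 1) := by
      intro e
      apply h
      ext a
      rw [switchC_mem_succ (n := n + 1), ← e]
      conv_lhs => rw [e, switchC_mem_succ]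
    have := Finset.card_lt_card (Finset.ssubset_iff_subset_ne.2 ⟨hsub (n + 1), h⟩)
    have := ih h1
    omega

theorem switch_exists_C (y : 𝒦 → α → α → ℂ) {adj : α → α → Prop}
    (hadj : ∀ k a b, y k a b ≠ 0 → adj a b) {U U' : Finset α} (hU : U' ⊆ U) {v : α}
    (hv : v ∈ U') {N : ℕ} (hc : Cover adj U v N U') :
    ∃ C : Finset α → Finset α, ∀ S ⊆ U, S.card ≤ N → v ∈ C S ∧ C S ⊆ U' ∧
      ∀ k, ∀ a ∈ S, a ∉ C S → ∀ b ∈ C S, y k a b = 0 := by
  obtain ⟨d, hd0, hdm, hds, hdU⟩ := hc
  refine ⟨fun S => switchC y v S N, fun S hS hcard => ?_⟩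
  have h1 : ∀ n, v ∈ switchC y v S n := by
    intro n
    induction n with
    | zero => exact Finset.mem_singleton_self v
    | succ n ih => exact switchC_mem_succ.2 (Or.inl ih)
  have h2 : ∀ n, ∀ a ∈ switchC y v S n, a ∈ insert v S ∧ a ∈ U ∧ a ∈ d n := by
    intro n
    induction n with
    | zero =>
      intro a ha
      obtain rfl : a = v := Finset.mem_singleton.1 ha
      exact ⟨Finset.mem_insert_self _ _, hU hv, hd0⟩
    | succ n ih =>
      intro a ha
      rcases switchC_mem_succ.1 ha with ha | ⟨haS, u, hu, k, hk⟩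
      · exact ⟨(ih a ha).1, (ih a ha).2.1, hdm n (ih a ha).2.2⟩
      · exact ⟨Finset.mem_insert_of_mem haS, hS haS,
          hds n u a (ih u hu).2.2 (ih u hu).2.1 (hS haS) (hadj k a u hk)⟩
  have h3 : switchC y v S N = switchC y v S (N + 1) := by
    by_contra h
    have a1 := switchC_card y v S N h
    have a2 := Finset.card_le_card fun a ha => (h2 (N + 1) a ha).1
    have a3 := Finset.card_insert_le v S
    omega
  refine ⟨h1 N, fun a ha => hdU a (h2 N a ha).2.1 (h2 N a ha).2.2, fun k a haS ha b hb => ?_⟩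
  by_contra hk
  exact ha (h3.symm.subset (switchC_mem_succ.2 (Or.inr ⟨haS, b, hb, k, hk⟩)))

/-- the weight of a set -/
noncomputable def switchT (y : 𝒦 → α → α → ℂ) (π : α → 𝒦 → ℝ) (Z : α → ℂ) (T : Finset α) : ℂ :=
  cT y π T * ∏ u ∈ T, (Z u)⁻¹

theorem switchT_split (y : 𝒦 → α → α → ℂ) (π : α → 𝒦 → ℝ) (Z : α → ℂ) {S C A B : Finset α}
    (hC : ∀ k, ∀ a ∈ S, a ∉ C → ∀ b ∈ C, y k a b = 0) (hB : B ⊆ S) :
    switchT y π Z (A ∩ C ∪ B \ C) = switchT y π Z (A ∩ C) * switchT y π Z (B \ C) := by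
  have hd : Disjoint (A ∩ C) (B \ C) :=
    Finset.disjoint_left.2 fun a ha hb => (Finset.mem_sdiff.1 hb).2 (Finset.mem_inter.1 ha).2
  unfold switchT
  rw [cT_union hd y π fun k a ha b hb => hC k a (hB (Finset.mem_sdiff.1 ha).1)
    (Finset.mem_sdiff.1 ha).2 b (Finset.mem_inter.1 hb).2, Finset.prod_union hd]
  ring

theorem switch_expand (y : 𝒦 → α → α → ℂ) (π : α → 𝒦 → ℝ) (Z : α → ℂ) (V W : Finset α) (N : ℕ) :
    ∃ h : ℂ[X], ∀ κ, ph y π V Z κ * ph y π W Z κ =
      (∑ q ∈ (V.powerset ×ˢ W.powerset).filter (fun q => q.1.card + q.2.card ≤ N),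
        switchT y π Z q.1 * switchT y π Z q.2 * κ ^ (q.1.card + q.2.card))
        + κ ^ (N + 1) * h.eval κ := by
  refine ⟨∑ q ∈ (V.powerset ×ˢ W.powerset).filter (fun q => ¬ q.1.card + q.2.card ≤ N),
    C (switchT y π Z q.1 * switchT y π Z q.2) * X ^ (q.1.card + q.2.card - (N + 1)), fun κ => ?_⟩
  have e : ph y π V Z κ * ph y π W Z κ = ∑ q ∈ V.powerset ×ˢ W.powerset,
      switchT y π Z q.1 * switchT y π Z q.2 * κ ^ (q.1.card + q.2.card) := by
    rw [ph, ph, Finset.sum_mul_sum, Finset.sum_product]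
    refine Finset.sum_congr rfl fun A _ => Finset.sum_congr rfl fun B _ => ?_
    simp only [switchT]
    ring
  rw [e, ← Finset.sum_filter_add_sum_filter_not _ (fun q => q.1.card + q.2.card ≤ N),
    Polynomial.eval_finset_sum, Finset.mul_sum]
  congr 1
  refine Finset.sum_congr rfl fun q hq => ?_
  have h1 := (Finset.mem_filter.1 hq).2
  rw [eval_mul, eval_C, eval_pow, eval_X, mul_left_comm, ← pow_add]
  congr 2
  omega

/-- the switching map -/
def switchMap (C : Finset α → Finset α) (q : Finset α × Finset α) : Finset α × Finset α :=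
  (q.1 ∩ C (q.1 ∪ q.2) ∪ q.2 \ C (q.1 ∪ q.2), q.2 ∩ C (q.1 ∪ q.2) ∪ q.1 \ C (q.1 ∪ q.2))

theorem switchMap_union (C : Finset α → Finset α) (q : Finset α × Finset α) :
    (switchMap C q).1 ∪ (switchMap C q).2 = q.1 ∪ q.2 := by
  ext a
  simp only [switchMap, Finset.mem_union, Finset.mem_inter, Finset.mem_sdiff]
  tauto

theorem switchMap_invol (C : Finset α → Finset α) (q : Finset α × Finset α) :
    switchMap C (switchMap C q) = q := by
  rw [switchMap, switchMap_union]
  refine Prod.ext ?_ ?_ <;>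
  · ext a
    simp only [switchMap, Finset.mem_union, Finset.mem_inter, Finset.mem_sdiff]
    tauto

theorem switchMap_card (C : Finset α → Finset α) (q : Finset α × Finset α) :
    (switchMap C q).1.card + (switchMap C q).2.card = q.1.card + q.2.card := by
  have hd : ∀ A B D : Finset α, Disjoint (A ∩ D) (B \ D) := fun A B D =>
    Finset.disjoint_left.2 fun a ha hb => (Finset.mem_sdiff.1 hb).2 (Finset.mem_inter.1 ha).2
  simp only [switchMap]
  rw [Finset.card_union_of_disjoint (hd _ _ _), Finset.card_union_of_disjoint (hd _ _ _)]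
  have h1 := Finset.card_inter_add_card_sdiff q.1 (C (q.1 ∪ q.2))
  have h2 := Finset.card_inter_add_card_sdiff q.2 (C (q.1 ∪ q.2))
  omega

/-- The switching involution.  Expand both products as sums over pairs `(A, B)` with weights
`t A * t B * κ^(|A| + |B|)`, `t T = cT T * ∏_{u ∈ T} (Z u)⁻¹`.  For `|A| + |B| ≤ N` let `C` be the set
reached from `v` inside `A ∪ B`: `C₀ = {v}`, `C_{n+1} = C_n ∪ {u' ∈ A ∪ B | ∃ u ∈ C_n, ∃ k, y k u' u ≠ 0}`;
the chain lives in `insert v (A ∪ B)` (at most `N + 1` points), so `C = C_N` is closed, and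
`C_n ⊆ d n`, so `C ⊆ U'`.  `C` only depends on `A ∪ B`.  The map
`(A, B) ↦ ((A ∩ C) ∪ (B \ C), (B ∩ C) ∪ (A \ C))` is an involution that preserves `A ∪ B`,
`|A| + |B|` and the weight (`cT_union` with `T₁ = · ∩ C`, `T₂ = · \ C`), and exchanges
`powerset U × powerset (U'.erase v)` and `powerset U' × powerset (U.erase v)`.  The pairs with
`|A| + |B| > N` contribute multiples of `κ^(N+1)`. -/
theorem switch (y : 𝒦 → α → α → ℂ) (π : α → 𝒦 → ℝ) (Z : α → ℂ) {adj : α → α → Prop}
    (hadj : ∀ k a b, y k a b ≠ 0 → adj a b) {U U' : Finset α} (hU : U' ⊆ U) {v : α}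
    (hv : v ∈ U') {N : ℕ} (hc : Cover adj U v N U') :
    ∃ h : ℂ[X], ∀ κ, ph y π U Z κ * ph y π (U'.erase v) Z κ -
      ph y π U' Z κ * ph y π (U.erase v) Z κ = κ ^ (N + 1) * h.eval κ := by
  obtain ⟨C, hC⟩ := switch_exists_C y hadj hU hv hc
  obtain ⟨h₁, e₁⟩ := switch_expand y π Z U (U'.erase v) N
  obtain ⟨h₂, e₂⟩ := switch_expand y π Z U' (U.erase v) N
  refine ⟨h₁ - h₂, fun κ => ?_⟩
  have hcard : ∀ q : Finset α × Finset α, q.1.card + q.2.card ≤ N → (q.1 ∪ q.2).card ≤ N :=
    fun q hq => (Finset.card_union_le _ _).trans hq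
  have key : (∑ q ∈ (U.powerset ×ˢ (U'.erase v).powerset).filter
        (fun q => q.1.card + q.2.card ≤ N),
        switchT y π Z q.1 * switchT y π Z q.2 * κ ^ (q.1.card + q.2.card)) =
      ∑ q ∈ (U'.powerset ×ˢ (U.erase v).powerset).filter (fun q => q.1.card + q.2.card ≤ N),
        switchT y π Z q.1 * switchT y π Z q.2 * κ ^ (q.1.card + q.2.card) := by
    refine Finset.sum_nbij' (switchMap C) (switchMap C) (fun q hq => ?_) (fun q hq => ?_)
      (fun q _ => switchMap_invol C q) (fun q _ => switchMap_invol C q) (fun q hq => ?_)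
    · simp only [Finset.mem_filter, Finset.mem_product, Finset.mem_powerset,
        switchMap_card] at hq ⊢
      obtain ⟨⟨hA, hB⟩, hN⟩ := hq
      obtain ⟨c1, c2, -⟩ := hC _ (Finset.union_subset hA
        (hB.trans ((Finset.erase_subset _ _).trans hU))) (hcard q hN)
      refine ⟨⟨fun a ha => ?_, fun a ha => ?_⟩, hN⟩
      · rcases Finset.mem_union.1 ha with ha | ha
        · exact c2 (Finset.mem_inter.1 ha).2
        · exact Finset.erase_subset _ _ (hB (Finset.mem_sdiff.1 ha).1)
      · rcases Finset.mem_union.1 ha with ha | ha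
        · exact Finset.erase_subset_erase v hU (hB (Finset.mem_inter.1 ha).1)
        · exact Finset.mem_erase.2 ⟨fun e => (Finset.mem_sdiff.1 ha).2 (e ▸ c1),
            hA (Finset.mem_sdiff.1 ha).1⟩
    · simp only [Finset.mem_filter, Finset.mem_product, Finset.mem_powerset,
        switchMap_card] at hq ⊢
      obtain ⟨⟨hA, hB⟩, hN⟩ := hq
      obtain ⟨c1, c2, -⟩ := hC _ (Finset.union_subset (hA.trans hU)
        (hB.trans (Finset.erase_subset _ _))) (hcard q hN)
      refine ⟨⟨fun a ha => ?_, fun a ha => ?_⟩, hN⟩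
      · rcases Finset.mem_union.1 ha with ha | ha
        · exact hU (hA (Finset.mem_inter.1 ha).1)
        · exact Finset.erase_subset _ _ (hB (Finset.mem_sdiff.1 ha).1)
      · rcases Finset.mem_union.1 ha with ha | ha
        · exact Finset.mem_erase.2 ⟨(Finset.mem_erase.1 (hB (Finset.mem_inter.1 ha).1)).1,
            c2 (Finset.mem_inter.1 ha).2⟩
        · exact Finset.mem_erase.2 ⟨fun e => (Finset.mem_sdiff.1 ha).2 (e ▸ c1),
            hA (Finset.mem_sdiff.1 ha).1⟩
    · simp only [Finset.mem_filter, Finset.mem_product, Finset.mem_powerset] at hq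
      obtain ⟨⟨hA, hB⟩, hN⟩ := hq
      obtain ⟨-, -, c3⟩ := hC _ (Finset.union_subset hA
        (hB.trans ((Finset.erase_subset _ _).trans hU))) (hcard q hN)
      have a1 := switchT_split y π Z (A := q.1) c3 Finset.subset_union_left
      have a2 := switchT_split y π Z (A := q.2) c3 Finset.subset_union_right
      rw [Finset.union_comm (q.1 ∩ _), Finset.sdiff_union_inter] at a1
      rw [Finset.union_comm (q.2 ∩ _), Finset.sdiff_union_inter] at a2
      rw [switchMap_card]
      simp only [switchMap]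
      rw [switchT_split y π Z c3 Finset.subset_union_left,
        switchT_split y π Z c3 Finset.subset_union_right]
      congr 1
      calc _ = (switchT y π Z (q.1 ∩ C (q.1 ∪ q.2)) * switchT y π Z (q.1 \ C (q.1 ∪ q.2))) *
            (switchT y π Z (q.2 ∩ C (q.1 ∪ q.2)) * switchT y π Z (q.2 \ C (q.1 ∪ q.2))) := by
            rw [← a1, ← a2]
        _ = _ := by ring
  rw [e₁, e₂, key, eval_sub]
  ring

theorem jet_loc (y : 𝒦 → α → α → ℂ) (π : α → 𝒦 → ℝ) (Z : α → ℂ) {adj : α → α → Prop}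
    (hadj : ∀ k a b, y k a b ≠ 0 → adj a b) {U U' : Finset α} (hU : U' ⊆ U) {v : α}
    (hv : v ∈ U') {N : ℕ} (hc : Cover adj U v N U') {φ : ℂ → ℂ} (hφ : AnalyticAt ℂ φ 0)
    (hφ0 : φ 0 = 0) :
    jet φ N (ph y π U Z) - jet φ N (ph y π (U.erase v) Z) =
      jet φ N (ph y π U' Z) - jet φ N (ph y π (U'.erase v) Z) := by
  obtain ⟨h, he⟩ := switch y π Z hadj hU hv hc
  have ha : ∀ V, AnalyticAt ℂ (ph y π V Z) 0 := fun V => (ph_differentiable y π V Z).analyticAt 0
  have h1 := jet_congr (h := fun κ => h.eval κ) hφ hφ0 ((ha U).mul (ha (U'.erase v)))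
    ((ha U').mul (ha (U.erase v))) (by simp [ph_zero]) (by simp [ph_zero])
    (h.differentiable.analyticAt 0) N he
  have h2 := jet_mul hφ hφ0 (ha U) (ha (U'.erase v)) (ph_zero _ _ _ _) (ph_zero _ _ _ _) N
  have h3 := jet_mul hφ hφ0 (ha U') (ha (U.erase v)) (ph_zero _ _ _ _) (ph_zero _ _ _ _) N
  have h4 : jet φ N (ph y π U Z) + jet φ N (ph y π (U'.erase v) Z) =
      jet φ N (ph y π U' Z) + jet φ N (ph y π (U.erase v) Z) := h2.symm.trans (h1.trans h3)
  linear_combination h4

end Crest.Agent.R109
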