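import Crest.Agent.R109.IntF
import Crest.Agent.R109.Switch
import Crest.Agent.R109.PsiInv

/-!
Row 109, finite part: the truncated potential approximates the potential and is exactly local.

Notation: for `σ > 0`, `Z = Zs (σ I)`, `y_u = im (Z u) = μ σ / w + η² w / σ ≥ 2 η` (`Zs_im`, AM-GM,
`μ ≥ 1`), `ȳ = σ / w v + η² w v / σ ≤ y_v ≤ ‖Z v‖`, and `y_u ≥ ȳ / K` for the neighbours `u` of `v`.
-/

open MeasureTheory

set_option autoImplicit false

open scoped ComplexConjugate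
open Polynomial

namespace Crest.Agent.R109

variable {α : Type*} [DecidableEq α] {𝒦 : Type*} [Fintype 𝒦] [DecidableEq 𝒦]

/-- The majorant. -/
noncomputable def maj (η w σ : ℝ) : ℝ := ((σ / w + η ^ 2 * w / σ) ^ 2)⁻¹

/-- `maj η w σ ≤ (σ² / w² + 2 η²)⁻¹`; substitute `σ = w u`. -/
theorem maj_integral {η : ℝ} (hη : 0 < η) : ∃ C : ℝ, 0 ≤ C ∧ ∀ w : ℝ, 0 < w →
    IntegrableOn (maj η w) (Set.Ioi 0) ∧ ∫ σ in Set.Ioi (0 : ℝ), maj η w σ ≤ C * w := by
  refine ⟨Real.pi / η, by positivity, fun w hw => ?_⟩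
  have ha : w * η ≠ 0 := by positivity
  have hg : Integrable (fun σ : ℝ => (η ^ 2)⁻¹ * (1 + (σ / (w * η)) ^ 2)⁻¹) :=
    (integrable_inv_one_add_sq.comp_div ha).const_mul _
  have hle : ∀ σ ∈ Set.Ioi (0 : ℝ), maj η w σ ≤ (η ^ 2)⁻¹ * (1 + (σ / (w * η)) ^ 2)⁻¹ := by
    intro σ hσ
    have hσ' : 0 < σ := hσ
    unfold maj
    rw [← mul_inv]
    apply inv_anti₀ (by positivity)
    have h1 : η ^ 2 * (1 + (σ / (w * η)) ^ 2) = η ^ 2 + (σ / w) ^ 2 := by field_simp
    have h2 : (σ / w + η ^ 2 * w / σ) ^ 2 = (σ / w) ^ 2 + 2 * η ^ 2 + (η ^ 2 * w / σ) ^ 2 := by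
      field_simp; ring
    rw [h1, h2]
    nlinarith [sq_nonneg η, sq_nonneg (η ^ 2 * w / σ)]
  have hm : Measurable (maj η w) := by unfold maj; fun_prop
  have hi : IntegrableOn (maj η w) (Set.Ioi 0) := by
    refine Integrable.mono' hg.integrableOn hm.aestronglyMeasurable ?_
    refine (ae_restrict_iff' measurableSet_Ioi).2 (Filter.Eventually.of_forall fun σ hσ => ?_)
    rw [Real.norm_of_nonneg (by unfold maj; positivity)]
    exact hle σ hσ
  refine ⟨hi, ?_⟩
  calc ∫ σ in Set.Ioi (0 : ℝ), maj η w σ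
      ≤ ∫ σ in Set.Ioi (0 : ℝ), (η ^ 2)⁻¹ * (1 + (σ / (w * η)) ^ 2)⁻¹ :=
        setIntegral_mono_on hi hg.integrableOn measurableSet_Ioi hle
    _ ≤ ∫ σ : ℝ, (η ^ 2)⁻¹ * (1 + (σ / (w * η)) ^ 2)⁻¹ :=
        setIntegral_le_integral hg (Filter.Eventually.of_forall fun σ => by positivity)
    _ = Real.pi / η * w := by
        rw [integral_const_mul, Measure.integral_comp_div (fun x : ℝ => (1 + x ^ 2)⁻¹),
          integral_univ_inv_one_add_sq, abs_of_pos (by positivity), smul_eq_mul]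
        field_simp

/-- For `|im κ| ≤ η`, `‖κ‖ ≤ κm`: with `e = -I` (so `re (e ζ) = im ζ`) and `h u = y_u / 2`,
`pH_ne_zero` gives the non-vanishing needed in `ph_ratio_slit`, and `nH_norm_le` with
`ρ = 2 K / ȳ` (`Bnd.col`) gives `‖ω‖ ≤ κm² 2 K / ȳ²`; then `abs_arg_one_add_le`. -/
theorem FS.ratio_bound {F : FS α 𝒦} {U : Finset α} (h : F.Ok U) {v : α} (hv : v ∈ U) {K : ℝ}
    (hK : 1 ≤ K) (hcut : F.Kcut K U v) (z : ℝ) {η : ℝ} (hη : 0 < η) {σ : ℝ} (hσ : 0 < σ) {κ : ℂ}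
    (hκ : |κ.im| ≤ η) :
    ph F.y F.π (U.erase v) (F.Zs z η (σ * Complex.I)) κ ≠ 0 ∧
      ph F.y F.π U (F.Zs z η (σ * Complex.I)) κ /
        ph F.y F.π (U.erase v) (F.Zs z η (σ * Complex.I)) κ ∈ Complex.slitPlane ∧
      |Complex.arg (ph F.y F.π U (F.Zs z η (σ * Complex.I)) κ /
        ph F.y F.π (U.erase v) (F.Zs z η (σ * Complex.I)) κ)| ≤
        4 * Real.pi * K * ‖κ‖ ^ 2 * maj η (F.w v) σ := by
  set Z := F.Zs z η (σ * Complex.I) with hZ
  have hy : ∀ u, σ / F.w u + η ^ 2 * F.w u / σ ≤ (Z u).im := by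
    intro u
    have hw := h.wpos u
    have hμ := h.mu u
    rw [hZ, F.Zs_im]
    have h1 : ((σ : ℂ) * Complex.I).im = σ := by simp
    have h2 : ‖(σ : ℂ) * Complex.I‖ = σ := by simp [abs_of_pos hσ]
    rw [h1, h2]
    have h3 : σ * (F.μ u / F.w u + η ^ 2 * F.w u / σ ^ 2) =
        F.μ u * (σ / F.w u) + η ^ 2 * F.w u / σ := by field_simp
    rw [h3]
    have h4 : 0 < σ / F.w u := by positivity
    nlinarith
  have hy2 : ∀ u, 2 * η ≤ (Z u).im := by
    intro u
    refine le_trans ?_ (hy u)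
    have hw := h.wpos u
    have h1 : σ / F.w u + η ^ 2 * F.w u / σ - 2 * η = (σ - η * F.w u) ^ 2 / (F.w u * σ) := by
      field_simp; ring
    have h2 : 0 ≤ (σ - η * F.w u) ^ 2 / (F.w u * σ) := by positivity
    linarith
  have hre : ∀ ζ : ℂ, (-Complex.I * ζ).re = ζ.im := by intro ζ; simp
  have hZ0 : ∀ u, Z u ≠ 0 := by
    intro u h0
    have := hy2 u
    rw [h0] at this
    simp at this
    linarith
  have hP : pH F.y F.π (U.erase v) Z κ ≠ 0 :=
    pH_ne_zero h.herm (fun k => (h.bnd k).mono (Finset.erase_subset _ _)) h.sub (-Complex.I) κ Z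
      (fun u _ => by rw [hre, hre]; linarith [hy2 u])
  have hs : ∀ t : ℝ, 1 ≤ t → pH F.y F.π U (Function.update Z v (t * Z v)) κ ≠ 0 := by
    intro t ht
    refine pH_ne_zero h.herm h.bnd h.sub (-Complex.I) κ _ (fun u _ => ?_)
    rw [hre, hre]
    by_cases huv : u = v
    · subst huv
      rw [Function.update_self]
      have : ((t : ℂ) * Z u).im = t * (Z u).im := by simp
      rw [this]
      have := hy2 u
      nlinarith
    · rw [Function.update_of_ne huv]; linarith [hy2 u]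
  obtain ⟨h1, h2, h3⟩ := ph_ratio_slit F.y F.π hv Z κ (fun u _ => hZ0 u) hP hs
  refine ⟨h1, h3, ?_⟩
  have hwv := h.wpos v
  set yb : ℝ := σ / F.w v + η ^ 2 * F.w v / σ with hyb
  have hyb0 : 0 < yb := by positivity
  have hN := nH_norm_le h.herm h.bnd h.sub hv (-Complex.I) κ (by simp) Z (fun u => (Z u).im / 2)
    (fun u => by linarith [hy2 u]) (fun u _ => by rw [hre, hre]; linarith [hy2 u])
    (ρ := 2 * K / yb) (fun k => by
      calc ∑ u ∈ U.erase v, ‖F.y k u v‖ ^ 2 / ((Z u).im / 2)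
          ≤ ∑ u ∈ U.erase v, ‖F.y k u v‖ ^ 2 * (2 * K / yb) := by
            refine Finset.sum_le_sum fun u hu => ?_
            by_cases h0 : F.y k u v = 0
            · simp [h0]
            · obtain ⟨c1, c2⟩ := hcut k u (Finset.mem_of_mem_erase hu) h0
              have hwu := h.wpos u
              have c3 : yb ≤ K * (Z u).im := by
                refine le_trans ?_ (mul_le_mul_of_nonneg_left (hy u) (by linarith))
                rw [hyb, mul_add]
                refine add_le_add ?_ ?_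
                · rw [← mul_div_assoc, div_le_div_iff₀ hwv hwu]; nlinarith
                · rw [← mul_div_assoc]
                  have : η ^ 2 * F.w v ≤ K * (η ^ 2 * F.w u) := by nlinarith [sq_nonneg η]
                  gcongr
              have c4 : 0 < (Z u).im := by linarith [hy2 u]
              rw [div_eq_mul_inv]
              gcongr
              rw [inv_div, div_le_div_iff₀ c4 hyb0]
              linarith
        _ = (∑ u ∈ U.erase v, ‖F.y k u v‖ ^ 2) * (2 * K / yb) := by rw [Finset.sum_mul]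
        _ ≤ 1 * (2 * K / yb) := by
            gcongr
            exact (Finset.sum_le_sum_of_subset_of_nonneg (Finset.erase_subset _ _)
              (fun _ _ _ => by positivity)).trans ((h.bnd k).col hv)
        _ = 2 * K / yb := one_mul _) (by positivity)
  rw [h2]
  refine (abs_arg_one_add_le _).trans ?_
  have hZv : yb ≤ ‖Z v‖ := (hy v).trans ((le_abs_self _).trans (Complex.abs_im_le_norm _))
  have hPn : 0 < ‖pH F.y F.π (U.erase v) Z κ‖ := norm_pos_iff.2 hP
  have h4 : ‖nH F.y F.π U v Z κ / (Z v * pH F.y F.π (U.erase v) Z κ)‖ ≤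
      ‖κ‖ ^ 2 * (2 * K / yb) / yb := by
    rw [norm_div, norm_mul]
    calc ‖nH F.y F.π U v Z κ‖ / (‖Z v‖ * ‖pH F.y F.π (U.erase v) Z κ‖)
        ≤ ‖κ‖ ^ 2 * (2 * K / yb) * ‖pH F.y F.π (U.erase v) Z κ‖ /
            (yb * ‖pH F.y F.π (U.erase v) Z κ‖) := by gcongr
      _ = ‖κ‖ ^ 2 * (2 * K / yb) / yb := by field_simp
  calc 2 * Real.pi * ‖nH F.y F.π U v Z κ / (Z v * pH F.y F.π (U.erase v) Z κ)‖
      ≤ 2 * Real.pi * (‖κ‖ ^ 2 * (2 * K / yb) / yb) := by gcongr
    _ = 4 * Real.pi * K * ‖κ‖ ^ 2 * maj η (F.w v) σ := by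
        unfold maj; rw [← hyb]; field_simp; ring

/-- Pointwise bounds from `jet_approx`, `jet_div`, `phi_spec` and `ratio_bound`. -/
theorem jt_marg {η : ℝ} (hη : 0 < η) : ∃ C : ℝ, 0 ≤ C ∧
    (∀ (N : ℕ) (F : FS α 𝒦) (U : Finset α) (v : α) (K z σ : ℝ), F.Ok U → v ∈ U → 1 ≤ K →
      F.Kcut K U v → 0 < σ →
      |F.jt z η N U σ - F.jt z η N (U.erase v) σ| ≤ C * K * maj η (F.w v) σ) ∧
    ∀ ε : ℝ, 0 < ε → ∃ N₀ : ℕ, ∀ N, N₀ ≤ N →
      ∀ (F : FS α 𝒦) (U : Finset α) (v : α) (K z σ : ℝ), F.Ok U → v ∈ U → 1 ≤ K →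
      F.Kcut K U v → 0 < σ →
      |(Real.log ‖ph F.y F.π U (F.Zs z η (σ * Complex.I)) 1‖ -
          Real.log ‖ph F.y F.π (U.erase v) (F.Zs z η (σ * Complex.I)) 1‖) -
        (F.jt z η N U σ - F.jt z η N (U.erase v) σ)| ≤ ε * K * maj η (F.w v) σ := by
  obtain ⟨R, κm, hR, hd, h0, h1, hb⟩ := phi_spec hη
  obtain ⟨C, hC, hj1, hj2⟩ := jet_approx hR
  have key : ∀ (F : FS α 𝒦) (U : Finset α) (v : α) (K z σ : ℝ), F.Ok U → v ∈ U → 1 ≤ K →
      F.Kcut K U v → 0 < σ → ∀ g : ℂ → ℂ, (g = fun κ => ph F.y F.π U (F.Zs z η (σ * Complex.I)) κ /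
        ph F.y F.π (U.erase v) (F.Zs z η (σ * Complex.I)) κ) →
      DifferentiableOn ℂ (fun ζ => g (phi η ζ)) (Metric.ball 0 R) ∧ g (phi η 0) = 1 ∧
      (∀ ζ ∈ Metric.ball (0 : ℂ) R, g (phi η ζ) ∈ Complex.slitPlane ∧
          |Complex.arg (g (phi η ζ))| ≤ 4 * Real.pi * κm ^ 2 * (K * maj η (F.w v) σ)) ∧
      (∀ N, (jet (phi η) N g).re = F.jt z η N U σ - F.jt z η N (U.erase v) σ) ∧
      (Complex.log (g (phi η 1))).re =
        Real.log ‖ph F.y F.π U (F.Zs z η (σ * Complex.I)) 1‖ -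
          Real.log ‖ph F.y F.π (U.erase v) (F.Zs z η (σ * Complex.I)) 1‖ := by
    intro F U v K z σ hF hv hK hcut hσ g hg
    have hr := fun ζ (hζ : ζ ∈ Metric.ball (0 : ℂ) R) =>
      FS.ratio_bound hF hv hK hcut z hη hσ (hb ζ hζ).1
    subst hg
    refine ⟨?_, ?_, ?_, ?_, ?_⟩
    · exact ((ph_differentiable _ _ _ _).comp_differentiableOn hd).div
        ((ph_differentiable _ _ _ _).comp_differentiableOn hd) (fun ζ hζ => (hr ζ hζ).1)
    · simp only [h0, ph_zero, div_one]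
    · intro ζ hζ
      refine ⟨(hr ζ hζ).2.1, (hr ζ hζ).2.2.trans ?_⟩
      have h2 : ‖phi η ζ‖ ^ 2 ≤ κm ^ 2 := pow_le_pow_left₀ (norm_nonneg _) (hb ζ hζ).2 2
      have h3 : 0 ≤ maj η (F.w v) σ := by unfold maj; positivity
      calc 4 * Real.pi * K * ‖phi η ζ‖ ^ 2 * maj η (F.w v) σ
          ≤ 4 * Real.pi * K * κm ^ 2 * maj η (F.w v) σ := by gcongr
        _ = _ := by ring
    · intro N
      rw [jet_div (phi_analyticAt η).1 (phi_analyticAt η).2
        ((ph_differentiable _ _ _ _).analyticAt 0) ((ph_differentiable _ _ _ _).analyticAt 0)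
        (ph_zero _ _ _ _) (ph_zero _ _ _ _), Complex.sub_re]
      rfl
    · have h2 := hr 1 (by simpa using hR)
      rw [h1] at h2 ⊢
      have h3 := Complex.slitPlane_ne_zero h2.2.1
      have h4 : ph F.y F.π U (F.Zs z η (σ * Complex.I)) 1 ≠ 0 := by
        intro h5; rw [h5, zero_div] at h3; exact h3 rfl
      rw [Complex.log_re, norm_div, Real.log_div (norm_ne_zero_iff.2 h4) (norm_ne_zero_iff.2 h2.1)]
  refine ⟨C * (4 * Real.pi * κm ^ 2), by positivity, ?_, ?_⟩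
  · intro N F U v K z σ hF hv hK hcut hσ
    obtain ⟨g, hg⟩ : ∃ g : ℂ → ℂ, g = fun κ => ph F.y F.π U (F.Zs z η (σ * Complex.I)) κ /
        ph F.y F.π (U.erase v) (F.Zs z η (σ * Complex.I)) κ := ⟨_, rfl⟩
    obtain ⟨k1, k2, k3, k4, _⟩ := key F U v K z σ hF hv hK hcut hσ g hg
    rw [← k4 N]
    refine (Complex.abs_re_le_norm _).trans ((hj1 N (phi η) g _ k1 k2 k3).trans (le_of_eq ?_))
    ring
  · intro ε hε
    have hc : 0 < 4 * Real.pi * κm ^ 2 + 1 := by positivity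
    obtain ⟨N₀, hN₀⟩ := hj2 (ε / (4 * Real.pi * κm ^ 2 + 1)) (by positivity)
    refine ⟨N₀, fun N hN F U v K z σ hF hv hK hcut hσ => ?_⟩
    obtain ⟨g, hg⟩ : ∃ g : ℂ → ℂ, g = fun κ => ph F.y F.π U (F.Zs z η (σ * Complex.I)) κ /
        ph F.y F.π (U.erase v) (F.Zs z η (σ * Complex.I)) κ := ⟨_, rfl⟩
    obtain ⟨k1, k2, k3, k4, k5⟩ := key F U v K z σ hF hv hK hcut hσ g hg
    rw [← k4 N, ← k5, ← Complex.sub_re]
    refine (Complex.abs_re_le_norm _).trans ((hN₀ N hN (phi η) g _ k1 k2 k3).trans ?_)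
    have h3 : 0 ≤ K * maj η (F.w v) σ := by
      have : 0 ≤ maj η (F.w v) σ := by unfold maj; positivity
      positivity
    calc ε / (4 * Real.pi * κm ^ 2 + 1) * (4 * Real.pi * κm ^ 2 * (K * maj η (F.w v) σ))
        ≤ ε / (4 * Real.pi * κm ^ 2 + 1) *
          ((4 * Real.pi * κm ^ 2 + 1) * (K * maj η (F.w v) σ)) := by gcongr; linarith
      _ = ε * K * maj η (F.w v) σ := by field_simp

/-- Induction on `U` (`jt ∅ = 0`); on a finite set some `K` always works; measurability from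
`jt_measurable` with `Ω = Unit`. -/
theorem FS.jt_integrable {F : FS α 𝒦} {U : Finset α} (h : F.Ok U) (z : ℝ) {η : ℝ} (hη : 0 < η)
    (N : ℕ) : IntegrableOn (F.jt z η N U) (Set.Ioi 0) := by
  obtain ⟨C, hC, hj, -⟩ := jt_marg (α := α) (𝒦 := 𝒦) hη
  obtain ⟨C', -, hm⟩ := maj_integral hη
  have hmeas : ∀ U : Finset α, Measurable (F.jt z η N U) := by
    intro U
    have h1 := FS.jt_measurable (Ω := Unit) (fun _ => F.y) F.π F.μ (fun _ => F.w) U
      (fun _ _ _ _ _ => measurable_const) (fun _ _ => measurable_const) z η N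
    have h2 : Measurable fun σ : ℝ => (((), σ) : Unit × ℝ) := measurable_prodMk_left
    have h3 := h1.comp h2
    simp only [Function.comp_def] at h3
    exact h3
  induction U using Finset.induction_on with
  | empty =>
    have : F.jt z η N ∅ = fun _ => 0 := by
      funext σ
      have h1 : ph F.y F.π ∅ (F.Zs z η (σ * Complex.I)) = fun _ => 1 :=
        funext fun κ => ph_empty _ _ _ _
      simp only [FS.jt, h1, jet_one, Complex.zero_re]
    rw [this]
    exact integrableOn_zero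
  | insert v U hvU ih =>
    have ih' := ih (h.mono (Finset.subset_insert _ _))
    set K : ℝ := 1 + ∑ u ∈ insert v U, (F.w u / F.w v + F.w v / F.w u) with hKdef
    have hnn : ∀ u ∈ insert v U, 0 ≤ F.w u / F.w v + F.w v / F.w u := fun u _ => by
      have := h.wpos u
      have := h.wpos v
      positivity
    have hK : 1 ≤ K := by
      have := Finset.sum_nonneg hnn
      linarith
    have hcut : F.Kcut K (insert v U) v := by
      intro k u hu _
      have h1 := Finset.single_le_sum hnn hu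
      have hu0 := h.wpos u
      have hv0 := h.wpos v
      have h2 : 0 ≤ F.w u / F.w v := by positivity
      have h3 : 0 ≤ F.w v / F.w u := by positivity
      constructor
      · rw [← div_le_iff₀ hv0]; linarith
      · rw [← div_le_iff₀ hu0]; linarith
    have h1 : IntegrableOn (fun σ => F.jt z η N (insert v U) σ - F.jt z η N U σ) (Set.Ioi 0) := by
      refine Integrable.mono' (((hm _ (h.wpos v)).1).const_mul (C * K))
        ((hmeas _).sub (hmeas _)).aestronglyMeasurable ?_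
      refine (ae_restrict_iff' measurableSet_Ioi).2 (Filter.Eventually.of_forall fun σ hσ => ?_)
      have := hj N F (insert v U) v K z σ h (Finset.mem_insert_self _ _) hK hcut hσ
      rwa [Finset.erase_insert hvU] at this
    have h2 := h1.add ih'
    refine h2.congr (Filter.Eventually.of_forall fun σ => ?_)
    simp

theorem FS.approx_Psi_sub {F : FS α 𝒦} {U : Finset α} (h : F.Ok U) (z : ℝ) {η : ℝ} (hη : 0 < η)
    {v : α} (hv : v ∈ U) {N : ℕ} :
    F.Psi z η N U - F.Psi z η N (U.erase v) = F.w v * rho z η (F.μ v) +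
      c0⁻¹ * ∫ σ in Set.Ioi (0 : ℝ), (F.jt z η N U σ - F.jt z η N (U.erase v) σ) := by
  rw [integral_sub (FS.jt_integrable h z hη N)
    (FS.jt_integrable (h.mono (Finset.erase_subset v U)) z hη N)]
  unfold FS.Psi
  rw [← Finset.add_sum_erase U _ hv]
  ring

/-- Exact locality of the marginals of `Psi` (`jet_loc`, `jt_integrable`). -/
theorem FS.Psi_loc {F : FS α 𝒦} {U : Finset α} (h : F.Ok U) (z : ℝ) {η : ℝ} (hη : 0 < η)
    {adj : α → α → Prop} (hadj : ∀ k a b, F.y k a b ≠ 0 → adj a b) {U' : Finset α} (hU : U' ⊆ U)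
    {v : α} (hv : v ∈ U') {N : ℕ} (hc : Cover adj U v N U') :
    F.Psi z η N U - F.Psi z η N (U.erase v) = F.Psi z η N U' - F.Psi z η N (U'.erase v) := by
  rw [FS.approx_Psi_sub h z hη (hU hv), FS.approx_Psi_sub (h.mono hU) z hη hv]
  congr 3
  funext σ
  have := jet_loc F.y F.π (F.Zs z η (σ * Complex.I)) hadj hU hv hc (phi_analyticAt η).1
    (phi_analyticAt η).2
  simp only [FS.jt, ← Complex.sub_re, this]

/-- The marginals of `Psi` are bounded and approximate those of `Phi` (`Phi_eq`, `rho_le`). -/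
theorem Psi_approx {z η K : ℝ} (hz : 0 ≤ z) (hη : 0 < η) (hK : 1 ≤ K) : ∃ C₀ : ℝ,
    (∀ (N : ℕ) (F : FS α 𝒦) (U : Finset α) (v : α), F.Ok U → v ∈ U → F.Kcut K U v →
      |F.Psi z η N U - F.Psi z η N (U.erase v)| ≤ C₀ * F.w v) ∧
    ∀ err : ℝ, 0 < err → ∃ N₀ : ℕ, ∀ N, N₀ ≤ N →
      ∀ (F : FS α 𝒦) (U : Finset α) (v : α), F.Ok U → v ∈ U → F.Kcut K U v →
      |F.Psi z η N U - F.Psi z η N (U.erase v) - F.L z η U v| ≤ err * F.w v := by
  obtain ⟨C, hC, hj1, hj2⟩ := jt_marg (α := α) (𝒦 := 𝒦) hη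
  obtain ⟨C', hC', hm⟩ := maj_integral hη
  have hc0 := c0_pos
  have hint : ∀ (g : ℝ → ℝ) (c w : ℝ), 0 ≤ c → 0 < w → (∀ σ, 0 < σ → |g σ| ≤ c * maj η w σ) →
      |∫ σ in Set.Ioi (0 : ℝ), g σ| ≤ c * (C' * w) := by
    intro g c w hc hw hg
    have h1 : ‖∫ σ in Set.Ioi (0 : ℝ), g σ‖ ≤ ∫ σ in Set.Ioi (0 : ℝ), c * maj η w σ :=
      norm_integral_le_of_norm_le ((hm w hw).1.const_mul c)
        ((ae_restrict_iff' measurableSet_Ioi).2 (Filter.Eventually.of_forall fun σ hσ => hg σ hσ))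
    rw [integral_const_mul] at h1
    exact h1.trans (mul_le_mul_of_nonneg_left (hm w hw).2 hc)
  refine ⟨η + c0⁻¹ * (C * K * C'), ?_, ?_⟩
  · intro N F U v hF hv hcut
    rw [FS.approx_Psi_sub hF z hη hv]
    have hw := hF.wpos v
    have h1 := hint _ (C * K) (F.w v) (by positivity) hw
      (fun σ hσ => hj1 N F U v K z σ hF hv hK hcut hσ)
    obtain ⟨r1, r2⟩ := rho_le hz hη (hF.mu v)
    refine (abs_add_le _ _).trans ?_
    rw [abs_of_nonneg (by positivity), abs_mul, abs_of_pos (inv_pos.2 hc0)]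
    have h2 : F.w v * rho z η (F.μ v) ≤ F.w v * η := by gcongr
    have h3 := mul_le_mul_of_nonneg_left h1 (inv_pos.2 hc0).le
    nlinarith
  · intro err herr
    have hc : 0 < K * (C' + 1) := by positivity
    obtain ⟨N₀, hN₀⟩ := hj2 (err * c0 / (K * (C' + 1))) (by positivity)
    refine ⟨N₀, fun N hN F U v hF hv hcut => ?_⟩
    have hw := hF.wpos v
    have hF' := hF.mono (Finset.erase_subset v U)
    obtain ⟨p1, p2⟩ := FS.Phi_eq hF z hη
    obtain ⟨q1, q2⟩ := FS.Phi_eq hF' z hη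
    have h1 := hint _ (err * c0 / (K * (C' + 1)) * K) (F.w v) (by positivity) hw
      (fun σ hσ => hN₀ N hN F U v K z σ hF hv hK hcut hσ)
    have i1 := FS.jt_integrable hF z hη N
    have i2 := FS.jt_integrable hF' z hη N
    have j1 : IntegrableOn (fun σ : ℝ => Real.log ‖ph F.y F.π U (F.Zs z η (σ * Complex.I)) 1‖ -
        Real.log ‖ph F.y F.π (U.erase v) (F.Zs z η (σ * Complex.I)) 1‖) (Set.Ioi 0) := p1.sub q1
    have j2 : IntegrableOn (fun σ : ℝ => F.jt z η N U σ - F.jt z η N (U.erase v) σ)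
        (Set.Ioi 0) := i1.sub i2
    rw [integral_sub j1 j2, integral_sub p1 q1] at h1
    rw [FS.approx_Psi_sub hF z hη hv, FS.L, p2, q2, ← Finset.add_sum_erase U _ hv, abs_sub_comm]
    have h2 : ∀ a b c d e f : ℝ, a + b + c * d - (b + c * e) - (a + c * f) = c * (d - e - f) := by
      intros; ring
    rw [h2, abs_mul, abs_of_pos (inv_pos.2 hc0)]
    refine (mul_le_mul_of_nonneg_left h1 (inv_pos.2 hc0).le).trans ?_
    calc c0⁻¹ * (err * c0 / (K * (C' + 1)) * K * (C' * F.w v))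
        ≤ c0⁻¹ * (err * c0 / (K * (C' + 1)) * K * ((C' + 1) * F.w v)) := by
          gcongr; linarith
      _ = err * F.w v := by field_simp

end Crest.Agent.R109
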