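import Crest.Agent.R109.FBasic

/-!
Row 109, finite part: arrowhead matrices.

Let `A : Matrix (Option ι) (Option ι) ℂ` have `A none none = -a`,
`A none (some i) = A (some i) none = β i := √(b2 i)`, `A (some i) (some j) = δ_ij q i`.  Then
`A.charpoly = ap a q b2` (both sides are polynomials that agree at all `s ∉ range q`: Schur
complement `Matrix.det_fromBlocks₂₂` / `Matrix.det_succ_row`, or prove it by `Matrix.det_apply`-free
row operations), so `rs (ap a q b2) = ∑ max (λ j) 0` over the eigenvalues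
(`Matrix.IsHermitian.roots_charpoly_eq_eigenvalues`).  Variational principle:
`re tr (P A) ≤ ∑ max (λ j) 0` for Hermitian `0 ≤ P ≤ 1` (the diagonal entries of `U* P U` are in
`[0, 1]`), with equality for the spectral projection `P = U diag 1[λ > 0] U*`, `P² = P = P*`.
One has `tr (P A) = -a P₀₀ + 2 ∑ β i re P_{0i} + ∑ q i P_ii`.
-/

set_option autoImplicit false

open scoped ComplexConjugate
open Polynomial

namespace Crest.Agent.R109

variable {ι : Type*} [Fintype ι] [DecidableEq ι]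

open Matrix in
theorem arrow_spec {n : Type*} [Fintype n] [DecidableEq n] {A : Matrix n n ℝ}
    (hA : A.IsHermitian) : ∃ (U : Matrix n n ℝ) (l : n → ℝ), U * Uᵀ = 1 ∧ Uᵀ * U = 1 ∧
      A = U * diagonal l * Uᵀ ∧ ∀ t : ℝ, (Matrix.scalar n t - A).det = ∏ j, (t - l j) := by
  refine ⟨hA.eigenvectorUnitary, hA.eigenvalues, ?_, ?_, ?_, fun t => ?_⟩
  · simpa [star_eq_conjTranspose] using Unitary.coe_mul_star_self hA.eigenvectorUnitary
  · simpa [star_eq_conjTranspose] using Unitary.coe_star_mul_self hA.eigenvectorUnitary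
  · simpa [star_eq_conjTranspose] using hA.spectral_theorem
  · rw [← Matrix.eval_charpoly, hA.charpoly_eq, eval_prod]
    simp

open Matrix in
/-- `0 ≤ P ≤ 1` in the sense of quadratic forms. -/
def arrowCon {n : Type*} [Fintype n] (P : Matrix n n ℝ) : Prop :=
  ∀ x : n → ℝ, 0 ≤ x ⬝ᵥ P *ᵥ x ∧ x ⬝ᵥ P *ᵥ x ≤ x ⬝ᵥ x

open Matrix in
theorem arrow_trace {n : Type*} [Fintype n] [DecidableEq n] (U P : Matrix n n ℝ) (l : n → ℝ) :
    trace (P * (U * diagonal l * Uᵀ)) = ∑ j, (Uᵀ * P * U) j j * l j := by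
  rw [← Matrix.mul_assoc, trace_mul_comm, ← Matrix.mul_assoc, ← Matrix.mul_assoc]
  simp [trace]

open Matrix in
theorem arrow_var_le {n : Type*} [Fintype n] [DecidableEq n] {U P : Matrix n n ℝ} (l : n → ℝ)
    (hU : Uᵀ * U = 1) (hP : arrowCon P) :
    trace (P * (U * diagonal l * Uᵀ)) ≤ ∑ j, max (l j) 0 := by
  rw [arrow_trace]
  refine Finset.sum_le_sum fun j _ => ?_
  have h := hP fun k => U k j
  have e1 : (fun k => U k j) ⬝ᵥ P *ᵥ (fun k => U k j) = (Uᵀ * P * U) j j := by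
    rw [Matrix.mul_assoc]; rfl
  have e2 : (fun k => U k j) ⬝ᵥ (fun k => U k j) = 1 := by
    have := congrFun (congrFun hU j) j
    rw [one_apply_eq] at this
    exact this
  rw [e1, e2] at h
  rcases le_total (l j) 0 with h0 | h0
  · rw [max_eq_right h0]
    exact mul_nonpos_of_nonneg_of_nonpos h.1 h0
  · rw [max_eq_left h0]
    exact mul_le_of_le_one_left h0 h.2

open Matrix in
theorem arrow_var_eq {n : Type*} [Fintype n] [DecidableEq n] {U : Matrix n n ℝ} (l : n → ℝ)
    (hU : Uᵀ * U = 1) : ∃ P : Matrix n n ℝ, Pᵀ = P ∧ P * P = P ∧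
      trace (P * (U * diagonal l * Uᵀ)) = ∑ j, max (l j) 0 := by
  set D : Matrix n n ℝ := diagonal fun j => if 0 < l j then 1 else 0 with hD
  have hDD : D * D = D := by
    rw [hD, diagonal_mul_diagonal]
    congr 1
    funext j
    split_ifs <;> simp
  refine ⟨U * D * Uᵀ, ?_, ?_, ?_⟩
  · rw [transpose_mul, transpose_mul, transpose_transpose, hD, diagonal_transpose,
      Matrix.mul_assoc]
  · calc U * D * Uᵀ * (U * D * Uᵀ) = U * (D * (Uᵀ * U) * D) * Uᵀ := by
          simp only [Matrix.mul_assoc]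
      _ = _ := by rw [hU, Matrix.mul_one, hDD]
  · rw [arrow_trace]
    have : Uᵀ * (U * D * Uᵀ) * U = D := by
      calc Uᵀ * (U * D * Uᵀ) * U = (Uᵀ * U) * D * (Uᵀ * U) := by simp only [Matrix.mul_assoc]
        _ = D := by rw [hU, Matrix.mul_one, Matrix.one_mul]
    rw [this]
    refine Finset.sum_congr rfl fun j _ => ?_
    rw [hD, diagonal_apply_eq]
    split_ifs with h
    · rw [one_mul, max_eq_left h.le]
    · rw [zero_mul, max_eq_right (not_lt.1 h)]

open Matrix in
theorem arrowCon_of_proj {n : Type*} [Fintype n] [DecidableEq n] {P : Matrix n n ℝ}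
    (h1 : Pᵀ = P) (h2 : P * P = P) : arrowCon P := by
  have key : ∀ Q : Matrix n n ℝ, Qᵀ = Q → Q * Q = Q → ∀ x, 0 ≤ x ⬝ᵥ Q *ᵥ x := fun Q h1 h2 x => by
    have : x ⬝ᵥ Q *ᵥ x = (Q *ᵥ x) ⬝ᵥ (Q *ᵥ x) := by
      conv_lhs => rw [← h2, ← mulVec_mulVec, dotProduct_mulVec, ← h1, vecMul_transpose, h1]
    rw [this]
    exact Finset.sum_nonneg fun k _ => mul_self_nonneg _
  refine fun x => ⟨key P h1 h2 x, ?_⟩
  have := key (1 - P) (by rw [transpose_sub, transpose_one, h1])
    (by rw [Matrix.mul_sub, Matrix.sub_mul, Matrix.sub_mul, h2]; simp) x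
  rw [sub_mulVec, one_mulVec, dotProduct_sub] at this
  linarith

/-- The arrowhead matrix. -/
def arrowM (a : ℝ) (q β : ι → ℝ) : Matrix (Unit ⊕ ι) (Unit ⊕ ι) ℝ :=
  Matrix.fromBlocks (Matrix.of fun _ _ => -a) (Matrix.of fun _ i => β i)
    (Matrix.of fun i _ => β i) (Matrix.diagonal q)

/-- `tr (P A)` for the arrowhead matrix `A`. -/
def arrowPhi (a : ℝ) (q β : ι → ℝ) (P : Matrix (Unit ⊕ ι) (Unit ⊕ ι) ℝ) : ℝ :=
  -a * P (.inl ()) (.inl ()) + ∑ i, β i * (P (.inl ()) (.inr i) + P (.inr i) (.inl ())) +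
    ∑ i, q i * P (.inr i) (.inr i)

theorem arrow_trace_eq (a : ℝ) (q β : ι → ℝ) (P : Matrix (Unit ⊕ ι) (Unit ⊕ ι) ℝ) :
    Matrix.trace (P * arrowM a q β) = arrowPhi a q β P := by
  simp [Matrix.trace, Matrix.mul_apply, arrowM, arrowPhi, Fintype.sum_sum_type,
    Matrix.diagonal_apply, Finset.sum_add_distrib, mul_add, mul_comm, add_assoc]
  rw [add_left_comm]

omit [Fintype ι] in
theorem arrowM_herm (a : ℝ) (q β : ι → ℝ) : (arrowM a q β).IsHermitian := by
  ext i j
  rcases i with i | i <;> rcases j with j | j <;>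
    simp [arrowM, Matrix.diagonal_apply, eq_comm]
  split_ifs with h
  · rw [h]
  · rfl

theorem arrowM_det (a : ℝ) (q β : ι → ℝ) {t : ℝ} (ht : ∀ i, t ≠ q i) :
    (Matrix.scalar _ t - arrowM a q β).det =
      (t + a) * ∏ i, (t - q i) - ∑ i, β i ^ 2 * ∏ j ∈ Finset.univ.erase i, (t - q j) := by
  have ht' : ∀ i, t - q i ≠ 0 := fun i => sub_ne_zero.2 (ht i)
  set E : Matrix (Unit ⊕ ι) (Unit ⊕ ι) ℝ :=
    Matrix.fromBlocks 1 0 (Matrix.of fun i _ => β i / (t - q i)) 1 with hE
  have h1 : E.det = 1 := by rw [hE, Matrix.det_fromBlocks_zero₁₂]; simp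
  have h2 : (Matrix.scalar _ t - arrowM a q β) * E =
      Matrix.fromBlocks (Matrix.of fun _ _ => t + a - ∑ i, β i ^ 2 / (t - q i))
        (Matrix.of fun _ i => -β i) 0 (Matrix.diagonal fun i => t - q i) := by
    ext i j
    rcases i with i | i <;> rcases j with j | j
    · simp [hE, arrowM, Matrix.mul_apply, Fintype.sum_sum_type, sub_eq_add_neg, sq, mul_div_assoc]
    · simp [hE, arrowM, Matrix.mul_apply, Fintype.sum_sum_type, Matrix.one_apply]
    · have e : ∀ x, ((if i = x then t else 0) - if i = x then q i else 0) * (β x / (t - q x)) =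
          if i = x then β i else 0 := fun x => by
        split_ifs with h
        · subst h; field_simp [ht' i]
        · simp
      simp [hE, arrowM, Matrix.mul_apply, Fintype.sum_sum_type, Matrix.diagonal_apply, e]
    · simp only [hE, arrowM, Matrix.mul_apply, Fintype.sum_sum_type]
      simp [Matrix.diagonal_apply, Matrix.one_apply]
      split_ifs <;> simp
  have h3 := congrArg Matrix.det h2
  rw [Matrix.det_mul, h1, mul_one, Matrix.det_fromBlocks_zero₂₁, Matrix.det_diagonal,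
    Matrix.det_unique (n := Unit)] at h3
  rw [h3, Matrix.of_apply, sub_mul, Finset.sum_mul]
  congr 1
  refine Finset.sum_congr rfl fun i _ => ?_
  rw [← Finset.mul_prod_erase Finset.univ (fun j => t - q j) (Finset.mem_univ i)]
  field_simp [ht' i]

theorem arrow_rs (a : ℝ) (q β : ι → ℝ) {l : Unit ⊕ ι → ℝ}
    (h : ∀ t : ℝ, (Matrix.scalar _ t - arrowM a q β).det = ∏ j, (t - l j)) :
    rs (ap a q fun i => β i ^ 2) = ∑ j, max (l j) 0 := by
  have e : ap a q (fun i => β i ^ 2) = ∏ j, (X - C (l j : ℂ)) := by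
    refine Polynomial.eq_of_infinite_eval_eq _ _ ?_
    have hinf : ((fun t : ℝ => (t : ℂ)) '' (Set.range q)ᶜ).Infinite :=
      (Set.finite_range q).infinite_compl.image Complex.ofReal_injective.injOn
    refine hinf.mono ?_
    rintro _ ⟨t, ht, rfl⟩
    have h1 := (h t).symm.trans (arrowM_det a q β fun i hi => ht ⟨i, hi.symm⟩)
    have h2 := congrArg (fun r : ℝ => (r : ℂ)) h1
    push_cast at h2
    simp only [Set.mem_setOf_eq, ap, eval_sub, eval_mul, eval_add, eval_X, eval_C, eval_prod,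
      eval_finset_sum]
    push_cast
    exact h2.symm
  have e2 : (∏ j, (X - C (l j : ℂ))).roots = Finset.univ.val.map fun j => (l j : ℂ) := by
    rw [← Polynomial.roots_multiset_prod_X_sub_C (Finset.univ.val.map fun j => (l j : ℂ)),
      Multiset.map_map]
    rfl
  rw [rs, e, e2, Multiset.map_map]
  rfl

theorem arrow_le (a : ℝ) (q β : ι → ℝ) {P : Matrix (Unit ⊕ ι) (Unit ⊕ ι) ℝ} (hP : arrowCon P) :
    arrowPhi a q β P ≤ rs (ap a q fun i => β i ^ 2) := by
  obtain ⟨U, l, -, hU, hA, hd⟩ := arrow_spec (arrowM_herm a q β)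
  rw [arrow_rs a q β hd, ← arrow_trace_eq, hA]
  exact arrow_var_le l hU hP

open Matrix in
theorem arrow_eq (a : ℝ) (q β : ι → ℝ) : ∃ P : Matrix (Unit ⊕ ι) (Unit ⊕ ι) ℝ,
    Pᵀ = P ∧ P * P = P ∧ arrowPhi a q β P = rs (ap a q fun i => β i ^ 2) := by
  obtain ⟨U, l, -, hU, hA, hd⟩ := arrow_spec (arrowM_herm a q β)
  obtain ⟨P, h1, h2, h3⟩ := arrow_var_eq l hU
  refine ⟨P, h1, h2, ?_⟩
  rw [arrow_rs a q β hd, ← arrow_trace_eq, hA, h3]

omit [Fintype ι] [DecidableEq ι] in
theorem arrow_sq_sqrt {b2 : ι → ℝ} (hb : ∀ i, 0 ≤ b2 i) : (fun i => √(b2 i) ^ 2) = b2 :=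
  funext fun i => Real.sq_sqrt (hb i)

open Matrix in
theorem arrow_form {n : Type*} [Fintype n] [DecidableEq n] (d v x : n → ℝ) (c : ℝ) :
    x ⬝ᵥ (diagonal d + c • vecMulVec v v) *ᵥ x =
      ∑ k, d k * x k ^ 2 + c * (∑ k, v k * x k) ^ 2 := by
  rw [add_mulVec, dotProduct_add, smul_mulVec, dotProduct_smul, vecMulVec_mulVec, smul_eq_mul]
  congr 1
  · refine Finset.sum_congr rfl fun k _ => ?_
    rw [mulVec_diagonal]; ring
  · rw [op_smul_eq_smul, dotProduct_smul, smul_eq_mul, dotProduct_comm x v, sq]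
    rfl

open Matrix in
theorem arrowPhi_form (a : ℝ) (q β : ι → ℝ) (d₀ c : ℝ) (d γ : ι → ℝ) :
    arrowPhi a q β (diagonal (Sum.elim (fun _ => d₀) d) +
      c • vecMulVec (Sum.elim (fun _ => 1) γ) (Sum.elim (fun _ => 1) γ)) =
      -a * d₀ + ∑ i, q i * d i + c * (-a + ∑ i, (2 * β i * γ i + q i * γ i ^ 2)) := by
  simp only [arrowPhi, Matrix.add_apply, Matrix.smul_apply, vecMulVec_apply, diagonal_apply_eq,
    Sum.elim_inl, Sum.elim_inr, smul_eq_mul, ne_eq, reduceCtorEq, not_false_eq_true,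
    diagonal_apply_ne, mul_add, Finset.sum_add_distrib, Finset.mul_sum]
  have e1 : ∑ i, β i * (c * (1 * γ i)) + ∑ i, β i * (c * (γ i * 1)) =
      ∑ i, c * (2 * β i * γ i) := by
    rw [← Finset.sum_add_distrib]
    exact Finset.sum_congr rfl fun i _ => by ring
  have e2 : ∑ i, q i * (c * (γ i * γ i)) = ∑ i, c * (q i * γ i ^ 2) :=
    Finset.sum_congr rfl fun i _ => by ring
  simp only [mul_zero, Finset.sum_const_zero, zero_add]
  linarith

omit [DecidableEq ι] in
theorem arrow_sum_max (q : ι → ℝ) :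
    ∑ i, q i * (if 0 < q i then 1 else 0) = ∑ i, max (q i) 0 := by
  refine Finset.sum_congr rfl fun i _ => ?_
  split_ifs with h
  · rw [mul_one, max_eq_left h.le]
  · rw [mul_zero, max_eq_right (not_lt.1 h)]

/-- Cauchy-Schwarz on the support. -/
theorem arrow_cs {n : Type*} [Fintype n] (e v x : n → ℝ) (he : ∀ k, e k = 0 ∨ e k = 1)
    (hv : ∀ k, e k = 0 → v k = 0) :
    (∑ k, v k * x k) ^ 2 ≤ (∑ k, v k ^ 2) * ∑ k, e k * x k ^ 2 := by
  have h := Finset.sum_mul_sq_le_sq_mul_sq Finset.univ v fun k => e k * x k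
  have e1 : ∑ k, v k * (e k * x k) = ∑ k, v k * x k := Finset.sum_congr rfl fun k _ => by
    rcases he k with h | h
    · simp [hv k h]
    · simp [h]
  have e2 : ∑ k, (e k * x k) ^ 2 = ∑ k, e k * x k ^ 2 := Finset.sum_congr rfl fun k _ => by
    rcases he k with h | h <;> simp [h]
  rwa [e1, e2] at h

theorem ap_monic (a : ℝ) (q b2 : ι → ℝ) : (ap a q b2).Monic := by
  have h1 : ((X + C (a : ℂ)) * ∏ i, (X - C (q i : ℂ))).Monic :=
    (monic_X_add_C _).mul (monic_prod_of_monic _ _ fun i _ => monic_X_sub_C _)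
  refine h1.sub_of_left (degree_lt_degree ?_)
  rw [(monic_X_add_C _).natDegree_mul (monic_prod_of_monic _ _ fun i _ => monic_X_sub_C _),
    natDegree_X_add_C, natDegree_finsetProd_X_sub_C_eq_card]
  refine lt_of_le_of_lt (natDegree_sum_le_of_forall_le _ _ (n := Finset.univ.card (α := ι))
    fun i _ => ?_) (by omega)
  refine (natDegree_C_mul_le _ _).trans ?_
  rw [natDegree_finsetProd_X_sub_C_eq_card]
  exact Finset.card_erase_le

/-- Take for `P` the coordinate projection onto `{i | 0 < q i}`. -/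
theorem Larr_nonneg (a : ℝ) (q : ι → ℝ) {b2 : ι → ℝ} (hb : ∀ i, 0 ≤ b2 i) :
    0 ≤ Larr a q b2 := by
  have h := arrow_le a q (fun i => √(b2 i))
    (P := Matrix.diagonal (Sum.elim (fun _ => 0) fun i => if 0 < q i then 1 else 0) +
      (0 : ℝ) • Matrix.vecMulVec (Sum.elim (fun _ => 1) 0) (Sum.elim (fun _ => 1) 0)) fun x => by
    rw [arrow_form, zero_mul, add_zero]
    refine ⟨Finset.sum_nonneg fun k _ => mul_nonneg ?_ (sq_nonneg _),
      Finset.sum_le_sum fun k _ => ?_⟩
    · rcases k with k | k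
      · simp
      · simp only [Sum.elim_inr]; split_ifs <;> norm_num
    · rw [← sq]
      refine mul_le_of_le_one_left (sq_nonneg _) ?_
      rcases k with k | k
      · simp
      · simp only [Sum.elim_inr]; split_ifs <;> norm_num
  rw [arrowPhi_form, arrow_sum_max, arrow_sq_sqrt hb] at h
  unfold Larr
  linarith

/-- Change one coordinate at a time: `A(t β_i) = (1+t)/2 A(β_i) + (1-t)/2 A(-β_i)`, the last
matrix is conjugate to `A(β_i)` by a diagonal sign matrix, and `tr A₊` is convex (a maximum of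
linear functionals).  It is convenient to work with arbitrary real `β` instead of `√(b2)`. -/
theorem Larr_mono (a : ℝ) (q : ι → ℝ) {b2 b2' : ι → ℝ} (hb : ∀ i, 0 ≤ b2 i)
    (hle : ∀ i, b2 i ≤ b2' i) : Larr a q b2 ≤ Larr a q b2' := by
  obtain ⟨P, h1, h2, h3⟩ := arrow_eq a q fun i => √(b2 i)
  have hP := arrowCon_of_proj h1 h2
  have hb' : ∀ i, 0 ≤ b2' i := fun i => (hb i).trans (hle i)
  set τ : Unit ⊕ ι → ℝ := Sum.elim (fun _ => 1) fun i => √(b2 i) / √(b2' i) with hτ
  have hτ1 : ∀ k, τ k ^ 2 ≤ 1 := fun k => by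
    rcases k with k | k
    · simp [hτ]
    · exact pow_le_one₀ (by simp only [hτ, Sum.elim_inr]; positivity)
        (div_le_one_of_le₀ (Real.sqrt_le_sqrt (hle k)) (Real.sqrt_nonneg _))
  have hτ2 : ∀ i, √(b2' i) * τ (.inr i) = √(b2 i) := fun i => by
    simp only [hτ, Sum.elim_inr]
    rcases eq_or_ne √(b2' i) 0 with h | h
    · rw [h, zero_mul]
      exact le_antisymm (Real.sqrt_nonneg _) (h ▸ Real.sqrt_le_sqrt (hle i))
    · field_simp
  have hd : ∀ k, 0 ≤ P k k ∧ P k k ≤ 1 := fun k => by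
    simpa using hP (Pi.single k 1)
  have h := arrow_le a q (fun i => √(b2' i))
    (P := Matrix.diagonal τ * P * Matrix.diagonal τ +
      Matrix.diagonal fun k => (1 - τ k ^ 2) * P k k) fun x => by
    have h4 := hP (Matrix.mulVec (Matrix.diagonal τ) x)
    have e : x ⬝ᵥ Matrix.mulVec (Matrix.diagonal τ * P * Matrix.diagonal τ) x =
        Matrix.mulVec (Matrix.diagonal τ) x ⬝ᵥ
          Matrix.mulVec P (Matrix.mulVec (Matrix.diagonal τ) x) := by
      rw [← Matrix.mulVec_mulVec, ← Matrix.mulVec_mulVec, Matrix.dotProduct_mulVec,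
        ← Matrix.mulVec_transpose, Matrix.diagonal_transpose]
    rw [Matrix.add_mulVec, dotProduct_add, e]
    have h5 : 0 ≤ x ⬝ᵥ Matrix.mulVec (Matrix.diagonal fun k => (1 - τ k ^ 2) * P k k) x :=
      Finset.sum_nonneg fun k _ => by
        rw [Matrix.mulVec_diagonal]
        nlinarith [mul_nonneg (mul_nonneg (sub_nonneg.2 (hτ1 k)) (hd k).1) (sq_nonneg (x k))]
    have h6 : Matrix.mulVec (Matrix.diagonal τ) x ⬝ᵥ Matrix.mulVec (Matrix.diagonal τ) x +
        x ⬝ᵥ Matrix.mulVec (Matrix.diagonal fun k => (1 - τ k ^ 2) * P k k) x ≤ x ⬝ᵥ x := by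
      unfold dotProduct
      rw [← Finset.sum_add_distrib]
      refine Finset.sum_le_sum fun k _ => ?_
      rw [Matrix.mulVec_diagonal, Matrix.mulVec_diagonal]
      nlinarith [mul_nonneg (mul_nonneg (sub_nonneg.2 (hτ1 k)) (sub_nonneg.2 (hd k).2))
        (sq_nonneg (x k))]
    constructor <;> linarith [h4.1, h4.2]
  have e : arrowPhi a q (fun i => √(b2' i)) (Matrix.diagonal τ * P * Matrix.diagonal τ +
      Matrix.diagonal fun k => (1 - τ k ^ 2) * P k k) = arrowPhi a q (fun i => √(b2 i)) P := by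
    have t0 : τ (.inl ()) = 1 := rfl
    simp only [arrowPhi, Matrix.add_apply, Matrix.mul_diagonal, Matrix.diagonal_mul,
      Matrix.diagonal_apply_eq, ne_eq, reduceCtorEq, not_false_eq_true, Matrix.diagonal_apply_ne,
      t0]
    congr 1
    · congr 1
      · ring
      · refine Finset.sum_congr rfl fun i _ => ?_
        rw [← hτ2 i]; ring
    · exact Finset.sum_congr rfl fun i _ => by ring
  rw [e, h3, arrow_sq_sqrt hb, arrow_sq_sqrt hb'] at h
  unfold Larr
  linarith

/-- `P` = projection onto the coordinates with `0 < q i` plus the projection onto the vector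
`v = (1, β i / (s - q i) for q i ≤ 0)`, for which `⟪v, (A - s) v⟫ = -a - s + ∑ b2 i / (s - q i)`. -/
theorem Larr_lo1 (a : ℝ) (q : ι → ℝ) {b2 : ι → ℝ} (hb : ∀ i, 0 ≤ b2 i) {s : ℝ} (hs : 0 < s)
    (h : a + s ≤ ∑ i ∈ Finset.univ.filter (fun i => q i ≤ 0), b2 i / (s - q i)) :
    s ≤ Larr a q b2 := by
  set γ : ι → ℝ := fun i => if 0 < q i then 0 else √(b2 i) / (s - q i) with hγ
  set N : ℝ := 1 + ∑ i, γ i ^ 2 with hN
  have hN0 : 0 < N := by positivity
  have h1 := arrow_le a q (fun i => √(b2 i))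
    (P := Matrix.diagonal (Sum.elim (fun _ => 0) fun i => if 0 < q i then 1 else 0) +
      N⁻¹ • Matrix.vecMulVec (Sum.elim (fun _ => 1) γ) (Sum.elim (fun _ => 1) γ)) fun x => by
    rw [arrow_form]
    have h2 := arrow_cs (Sum.elim (fun _ : Unit => (1 : ℝ)) fun i => if 0 < q i then 0 else 1)
      (Sum.elim (fun _ => 1) γ) x
      (by
        rintro (k | k)
        · simp
        · simp only [Sum.elim_inr]; split_ifs <;> simp)
      (by
        rintro (k | k)
        · simp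
        · simp only [Sum.elim_inr, hγ]; split_ifs <;> simp)
    have e : ∑ k : Unit ⊕ ι, Sum.elim (fun _ => (1 : ℝ)) γ k ^ 2 = N := by
      simp [Fintype.sum_sum_type, hN]
    rw [e, ← inv_mul_le_iff₀ hN0] at h2
    refine ⟨add_nonneg (Finset.sum_nonneg fun k _ => mul_nonneg ?_ (sq_nonneg _))
      (by positivity), (add_le_add le_rfl h2).trans_eq ?_⟩
    · rcases k with k | k
      · simp
      · simp only [Sum.elim_inr]; split_ifs <;> norm_num
    · rw [← Finset.sum_add_distrib]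
      refine Finset.sum_congr rfl ?_
      rintro (k | k) -
      · simp [sq]
      · simp only [Sum.elim_inr]; split_ifs <;> simp [sq]
  rw [arrowPhi_form, arrow_sum_max, arrow_sq_sqrt hb] at h1
  have h2 : ∑ i, (2 * √(b2 i) * γ i + q i * γ i ^ 2) =
      ∑ i ∈ Finset.univ.filter (fun i => q i ≤ 0), b2 i / (s - q i) + s * ∑ i, γ i ^ 2 := by
    rw [Finset.sum_filter, Finset.mul_sum, ← Finset.sum_add_distrib]
    refine Finset.sum_congr rfl fun i _ => ?_
    simp only [hγ]
    by_cases hq : 0 < q i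
    · simp [hq]
    · have hq' := not_lt.1 hq
      have h3 : s - q i ≠ 0 := by linarith
      rw [if_neg hq, if_pos hq']
      conv_rhs => rw [← Real.sq_sqrt (hb i), Real.sqrt_sq (Real.sqrt_nonneg _)]
      field_simp
      ring
  have h3 : s ≤ N⁻¹ * (-a + ∑ i, (2 * √(b2 i) * γ i + q i * γ i ^ 2)) := by
    rw [le_inv_mul_iff₀ hN0, h2, hN]
    linarith
  unfold Larr
  linarith

/-- `P` = projection onto `span (e₀, e_i : 0 < q i)` minus the projection onto `n = (1, -γ)`,
`γ i = β i / (q i + 2a)` for `0 < q i`: `Larr ≥ (2 β·γ - ∑ (q i + a) γ i²) / (1 + |γ|²) ≥ min H a`,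
because `2 β·γ - ∑ (q i + 2 a) γ i² = H`. -/
theorem Larr_lo2 {a : ℝ} (ha : 0 < a) (q : ι → ℝ) {b2 : ι → ℝ} (hb : ∀ i, 0 ≤ b2 i) :
    min (∑ i ∈ Finset.univ.filter (fun i => 0 < q i), b2 i / (q i + 2 * a)) a ≤ Larr a q b2 := by
  set γ : ι → ℝ := fun i => if 0 < q i then -(√(b2 i) / (q i + 2 * a)) else 0 with hγ
  set G : ℝ := ∑ i, γ i ^ 2 with hG
  have hG0 : 0 ≤ G := by positivity
  set N : ℝ := 1 + G with hN
  have hN0 : 0 < N := by positivity
  have h1 := arrow_le a q (fun i => √(b2 i))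
    (P := Matrix.diagonal (Sum.elim (fun _ => 1) fun i => if 0 < q i then 1 else 0) +
      (-N⁻¹) • Matrix.vecMulVec (Sum.elim (fun _ => 1) γ) (Sum.elim (fun _ => 1) γ)) fun x => by
    rw [arrow_form]
    have h2 := arrow_cs (Sum.elim (fun _ : Unit => (1 : ℝ)) fun i => if 0 < q i then 1 else 0)
      (Sum.elim (fun _ => 1) γ) x
      (by
        rintro (k | k)
        · simp
        · simp only [Sum.elim_inr]; split_ifs <;> simp)
      (by
        rintro (k | k)
        · simp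
        · simp only [Sum.elim_inr, hγ]; split_ifs <;> simp)
    have e : ∑ k : Unit ⊕ ι, Sum.elim (fun _ => (1 : ℝ)) γ k ^ 2 = N := by
      simp [Fintype.sum_sum_type, hN, hG]
    rw [e, ← inv_mul_le_iff₀ hN0] at h2
    have h3 : 0 ≤ N⁻¹ * (∑ k : Unit ⊕ ι, Sum.elim (fun _ => (1 : ℝ)) γ k * x k) ^ 2 := by
      positivity
    have h4 : ∑ k : Unit ⊕ ι, Sum.elim (fun _ => (1 : ℝ)) (fun i => if 0 < q i then 1 else 0) k *
        x k ^ 2 ≤ x ⬝ᵥ x := Finset.sum_le_sum fun k _ => by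
      rw [← sq]
      refine mul_le_of_le_one_left (sq_nonneg _) ?_
      rcases k with k | k
      · simp
      · simp only [Sum.elim_inr]; split_ifs <;> norm_num
    constructor <;> linarith
  rw [arrowPhi_form, arrow_sum_max, arrow_sq_sqrt hb] at h1
  set H := ∑ i ∈ Finset.univ.filter (fun i => 0 < q i), b2 i / (q i + 2 * a) with hH
  have h2 : ∑ i, (2 * √(b2 i) * γ i + q i * γ i ^ 2) = -H - 2 * a * G := by
    rw [hH, hG, Finset.sum_filter, Finset.mul_sum, ← Finset.sum_neg_distrib,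
      ← Finset.sum_sub_distrib]
    refine Finset.sum_congr rfl fun i _ => ?_
    simp only [hγ]
    by_cases hq : 0 < q i
    · have h3 : q i + 2 * a ≠ 0 := by positivity
      rw [if_pos hq, if_pos hq]
      conv_rhs => rw [← Real.sq_sqrt (hb i), Real.sqrt_sq (Real.sqrt_nonneg _)]
      field_simp
      ring
    · simp [hq]
  have h3 : min H a + a ≤ N⁻¹ * (a + H + 2 * a * G) := by
    rw [le_inv_mul_iff₀ hN0, hN]
    nlinarith [min_le_left H a, mul_le_mul_of_nonneg_left (min_le_right H a) hG0]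
  rw [h2] at h1
  unfold Larr
  linarith

/-- For the spectral projection `P` let `t = P₀₀ ∈ [0,1]`, `p i = ‖P_{0i}‖`.  From `P² = P`:
`∑ p i² = t (1 - t)`, `p i² ≤ t P_ii` and `p i² ≤ 1 - P_ii` (Cauchy-Schwarz for `P` and `1 - P`).
Low part (`q i ≤ 0`, `t > 0`): `2 β p ≤ t b2 / (s₁ - q) + (s₁ - q) p² / t` and `q P_ii ≤ q p² / t`, so
`-(a/2) t + ∑_low (2 β p + q P_ii) ≤ s₁ ∑ p² / t ≤ s₁`.  High part:
`-(a/2) t + ∑_high (2 β p - q (1 - P_ii)) ≤ ∑_high (2 β p - (q + a/2) p²) ≤ ∑ b2 / (q + a/2)`. -/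
theorem Larr_up {a : ℝ} (ha : 0 < a) (q : ι → ℝ) {b2 : ι → ℝ} (hb : ∀ i, 0 ≤ b2 i) {s₁ : ℝ}
    (hs : 0 < s₁)
    (h : ∑ i ∈ Finset.univ.filter (fun i => q i ≤ 0), b2 i / (s₁ - q i) ≤ a / 2) :
    Larr a q b2 ≤ s₁ + 4 * ∑ i ∈ Finset.univ.filter (fun i => 0 < q i), b2 i / (q i + 2 * a) := by
  obtain ⟨P, h1, h2, h3⟩ := arrow_eq a q fun i => √(b2 i)
  rw [arrow_sq_sqrt hb] at h3
  have hsym : ∀ k l, P l k = P k l := fun k l => congrFun (congrFun h1 k) l
  have hdiag : ∀ k, P k k = ∑ l, P k l ^ 2 := fun k => by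
    conv_lhs => rw [← h2, Matrix.mul_apply]
    exact Finset.sum_congr rfl fun l _ => by rw [hsym k l, sq]
  set t := P (.inl ()) (.inl ()) with ht
  set p : ι → ℝ := fun i => P (.inl ()) (.inr i) with hp
  set d : ι → ℝ := fun i => P (.inr i) (.inr i) with hd
  have ht1 : t = t ^ 2 + ∑ i, p i ^ 2 := by
    have := hdiag (.inl ())
    simpa [Fintype.sum_sum_type] using this
  have hS : 0 ≤ ∑ i, p i ^ 2 := by positivity
  have ht0 : 0 ≤ t := by rw [ht1]; positivity
  have hcs : ∀ i, p i ^ 2 ≤ t * d i := fun i => by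
    have h4 := Finset.sum_mul_sq_le_sq_mul_sq Finset.univ (fun l => P (.inl ()) l)
      fun l => P (.inr i) l
    have e : ∑ l, P (.inl ()) l * P (.inr i) l = p i := by
      conv_rhs => rw [hp, ← h2]
      simp only [Matrix.mul_apply]
      exact Finset.sum_congr rfl fun l _ => by rw [hsym l (.inr i)]
    rwa [e, ← hdiag, ← hdiag] at h4
  have hd0 : ∀ i, 0 ≤ d i := fun i => by
    simp only [hd]; rw [hdiag]; positivity
  have hd1 : ∀ i, p i ^ 2 ≤ 1 - d i := fun i => by
    have h4 : d i ^ 2 ≤ ∑ j, P (.inr i) (.inr j) ^ 2 :=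
      Finset.single_le_sum (f := fun j => P (.inr i) (.inr j) ^ 2) (fun j _ => sq_nonneg _)
        (Finset.mem_univ i)
    have h5 : d i = p i ^ 2 + ∑ j, P (.inr i) (.inr j) ^ 2 := by
      have := hdiag (.inr i)
      simpa [Fintype.sum_sum_type, hsym (.inl ()) (.inr i)] using this
    nlinarith [sq_nonneg (1 - d i)]
  have hlow : ∑ i ∈ Finset.univ.filter (fun i => q i ≤ 0), (2 * √(b2 i) * p i + q i * d i) ≤
      t * (a / 2) + s₁ := by
    rcases ht0.eq_or_lt with h0 | h0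
    · refine le_trans (Finset.sum_nonpos fun i hi => ?_) (by positivity)
      have h4 : p i = 0 := by
        have := hcs i
        rw [← h0, zero_mul] at this
        exact pow_eq_zero_iff two_ne_zero |>.1 (le_antisymm this (sq_nonneg _))
      rw [h4, mul_zero, zero_add]
      exact mul_nonpos_of_nonpos_of_nonneg (Finset.mem_filter.1 hi).2 (hd0 i)
    · refine le_of_mul_le_mul_left ?_ h0
      have h4 : ∑ i ∈ Finset.univ.filter (fun i => q i ≤ 0),
          t * (2 * √(b2 i) * p i + q i * d i) ≤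
          ∑ i ∈ Finset.univ.filter (fun i => q i ≤ 0),
            (t ^ 2 * (b2 i / (s₁ - q i)) + s₁ * p i ^ 2) := by
        refine Finset.sum_le_sum fun i hi => ?_
        have hq := (Finset.mem_filter.1 hi).2
        have h5 : 0 < s₁ - q i := by linarith
        have h6 : 2 * (t * √(b2 i)) * p i - (s₁ - q i) * p i ^ 2 ≤
            t ^ 2 * b2 i / (s₁ - q i) := by
          rw [le_div_iff₀ h5]
          nlinarith [sq_nonneg (t * √(b2 i) - (s₁ - q i) * p i), Real.sq_sqrt (hb i)]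
        rw [mul_div_assoc] at h6
        nlinarith [mul_le_mul_of_nonpos_left (hcs i) hq]
      rw [Finset.sum_add_distrib, ← Finset.mul_sum, ← Finset.mul_sum, ← Finset.mul_sum] at h4
      have h5 : ∑ i ∈ Finset.univ.filter (fun i => q i ≤ 0), p i ^ 2 ≤ ∑ i, p i ^ 2 :=
        Finset.sum_le_sum_of_subset_of_nonneg (Finset.filter_subset _ _) fun i _ _ => sq_nonneg _
      have h6 := mul_le_mul_of_nonneg_left h (sq_nonneg t)
      have h7 : ∑ i ∈ Finset.univ.filter (fun i => q i ≤ 0), p i ^ 2 ≤ t := by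
        nlinarith [sq_nonneg t]
      nlinarith [mul_le_mul_of_nonneg_left h7 hs.le]
  have hhigh : ∑ i ∈ Finset.univ.filter (fun i => 0 < q i),
      (2 * √(b2 i) * p i + q i * d i - q i) ≤
      t * (a / 2) + 4 * ∑ i ∈ Finset.univ.filter (fun i => 0 < q i), b2 i / (q i + 2 * a) := by
    have h4 : ∑ i ∈ Finset.univ.filter (fun i => 0 < q i),
        (2 * √(b2 i) * p i + q i * d i - q i) ≤
        ∑ i ∈ Finset.univ.filter (fun i => 0 < q i),
          (a / 2 * p i ^ 2 + 4 * (b2 i / (q i + 2 * a))) := by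
      refine Finset.sum_le_sum fun i hi => ?_
      have hq := (Finset.mem_filter.1 hi).2
      have h5 : 0 < q i + 2 * a := by positivity
      have h6 : 2 * √(b2 i) * p i - (q i + 2 * a) / 4 * p i ^ 2 ≤ 4 * b2 i / (q i + 2 * a) := by
        rw [le_div_iff₀ h5]
        nlinarith [sq_nonneg (2 * √(b2 i) - (q i + 2 * a) / 2 * p i), Real.sq_sqrt (hb i)]
      rw [mul_div_assoc] at h6
      nlinarith [mul_le_mul_of_nonneg_left (hd1 i) hq.le, mul_nonneg hq.le (sq_nonneg (p i))]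
    rw [Finset.sum_add_distrib, ← Finset.mul_sum, ← Finset.mul_sum] at h4
    have h5 : ∑ i ∈ Finset.univ.filter (fun i => 0 < q i), p i ^ 2 ≤ ∑ i, p i ^ 2 :=
      Finset.sum_le_sum_of_subset_of_nonneg (Finset.filter_subset _ _) fun i _ _ => sq_nonneg _
    have h7 : ∑ i ∈ Finset.univ.filter (fun i => 0 < q i), p i ^ 2 ≤ t := by
      nlinarith [sq_nonneg t]
    nlinarith [mul_le_mul_of_nonneg_left h7 ha.le]
  have e : Larr a q b2 = -a * t +
      (∑ i ∈ Finset.univ.filter (fun i => q i ≤ 0), (2 * √(b2 i) * p i + q i * d i) +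
      ∑ i ∈ Finset.univ.filter (fun i => 0 < q i), (2 * √(b2 i) * p i + q i * d i - q i)) := by
    rw [Larr, ← h3, arrowPhi, add_assoc, add_sub_assoc, Finset.sum_filter, Finset.sum_filter,
      ← Finset.sum_add_distrib, ← Finset.sum_add_distrib, ← Finset.sum_sub_distrib]
    congr 1
    refine Finset.sum_congr rfl fun i _ => ?_
    rw [hsym (.inl ()) (.inr i)]
    simp only [hp, hd]
    by_cases hq : 0 < q i
    · rw [if_pos hq, if_neg (not_le.2 hq), max_eq_left hq.le]; ring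
    · rw [if_neg hq, if_pos (not_lt.1 hq), max_eq_right (not_lt.1 hq)]; ring
  rw [e]
  linarith

end Crest.Agent.R109
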