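import Crest.Agent.R109.Arrow

/-! Row 109, finite part: the selection step for arrowhead matrices. -/

set_option autoImplicit false

open scoped ComplexConjugate
open Polynomial

namespace Crest.Agent.R109

variable {ι : Type*} [Fintype ι] [DecidableEq ι]

/-- The selection step.  Suppose `ℓ = Larr a q b2 < a` and let `s ∈ (ℓ, a]`.  By `Larr_lo1`,
`S_low(s) < a + s ≤ 2a`, so `S_low(s/4) ≤ 4 S_low(s) < 8a`; by `Larr_lo2`, `H ≤ ℓ ≤ s`.  The average
over `c` of `S_low^c(s/4) / (a/2) + H^c / (3s/16)` is `< (16 + 16/3) / M ≤ 1`, so some `c` has both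
terms `≤ 1` and `Larr_up` gives `Larr^c ≤ s/4 + 3s/4 = s`.  If all `Larr^c > ℓ`, take `s` between `ℓ`
and `min a (min_c Larr^c)`. -/
theorem Larr_step {γ : Type*} [Fintype γ] [Nonempty γ] {a : ℝ} (ha : 0 < a) (q : ι → ℝ)
    {b2 : ι → ℝ} (hb : ∀ i, 0 ≤ b2 i) {bc : γ → ι → ℝ} (hbc : ∀ c i, 0 ≤ bc c i) {M : ℝ}
    (hM : 24 ≤ M) (hsum : ∀ i, ∑ c, bc c i = Fintype.card γ * (b2 i / M)) :
    a ≤ Larr a q b2 ∨ ∃ c, Larr a q (bc c) ≤ Larr a q b2 := by
  by_contra hcon
  push Not at hcon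
  obtain ⟨hla, hlc⟩ := hcon
  have hl0 := Larr_nonneg a q hb
  obtain ⟨c₀, -, hc₀⟩ := Finset.exists_min_image Finset.univ (fun c => Larr a q (bc c))
    Finset.univ_nonempty
  obtain ⟨s, hs1, hs2⟩ := exists_between (lt_min hla (hlc c₀))
  have hsa : s < a := hs2.trans_le (min_le_left _ _)
  have hsc : ∀ c, s < Larr a q (bc c) := fun c =>
    (hs2.trans_le (min_le_right _ _)).trans_le (hc₀ c (Finset.mem_univ c))
  have hs : 0 < s := hl0.trans_lt hs1
  have hM0 : 0 < M := by linarith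
  have h1 : ∑ i ∈ Finset.univ.filter (fun i => q i ≤ 0), b2 i / (s - q i) < a + s := by
    by_contra h
    exact absurd (Larr_lo1 a q hb hs (not_lt.1 h)) (not_le.2 hs1)
  have h2 : ∑ i ∈ Finset.univ.filter (fun i => q i ≤ 0), b2 i / (s / 4 - q i) ≤ 8 * a := by
    calc ∑ i ∈ Finset.univ.filter (fun i => q i ≤ 0), b2 i / (s / 4 - q i)
        ≤ ∑ i ∈ Finset.univ.filter (fun i => q i ≤ 0), 4 * (b2 i / (s - q i)) := by
          refine Finset.sum_le_sum fun i hi => ?_
          have hq := (Finset.mem_filter.1 hi).2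
          have hbi := hb i
          rw [← mul_div_assoc, div_le_div_iff₀ (by linarith) (by linarith)]
          nlinarith
      _ = 4 * ∑ i ∈ Finset.univ.filter (fun i => q i ≤ 0), b2 i / (s - q i) := by
          rw [Finset.mul_sum]
      _ ≤ 8 * a := by linarith
  have h3 : ∑ i ∈ Finset.univ.filter (fun i => 0 < q i), b2 i / (q i + 2 * a) ≤ s := by
    have := Larr_lo2 ha q hb
    rcases min_le_iff.1 this with h | h <;> linarith
  have havg : ∀ (t : Finset ι) (d : ι → ℝ), ∑ c, ∑ i ∈ t, bc c i / d i =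
      Fintype.card γ * ((∑ i ∈ t, b2 i / d i) / M) := fun t d => by
    rw [Finset.sum_comm, Finset.sum_div, Finset.mul_sum]
    refine Finset.sum_congr rfl fun i _ => ?_
    rw [← Finset.sum_div, hsum]
    ring
  set S : γ → ℝ := fun c => ∑ i ∈ Finset.univ.filter (fun i => q i ≤ 0), bc c i / (s / 4 - q i)
    with hS
  set H : γ → ℝ := fun c => ∑ i ∈ Finset.univ.filter (fun i => 0 < q i), bc c i / (q i + 2 * a)
    with hH
  have hS0 : ∀ c, 0 ≤ S c := fun c => Finset.sum_nonneg fun i hi =>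
    div_nonneg (hbc c i) (by linarith [(Finset.mem_filter.1 hi).2])
  have hH0 : ∀ c, 0 ≤ H c := fun c => Finset.sum_nonneg fun i hi =>
    div_nonneg (hbc c i) (by linarith [(Finset.mem_filter.1 hi).2])
  have hcard : (0 : ℝ) ≤ Fintype.card γ := Nat.cast_nonneg _
  have hSs : ∑ c, S c ≤ Fintype.card γ * (a / 3) := by
    rw [hS, havg]
    refine mul_le_mul_of_nonneg_left ?_ hcard
    rw [div_le_iff₀ hM0]
    nlinarith
  have hHs : ∑ c, H c ≤ Fintype.card γ * (s / 24) := by
    rw [hH, havg]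
    refine mul_le_mul_of_nonneg_left ?_ hcard
    rw [div_le_iff₀ hM0]
    nlinarith
  have hex : ∃ c ∈ (Finset.univ : Finset γ), S c / (a / 2) + H c / (3 * s / 16) ≤ 1 := by
    refine Finset.exists_le_of_sum_le Finset.univ_nonempty ?_
    rw [Finset.sum_add_distrib, ← Finset.sum_div, ← Finset.sum_div, Finset.sum_const,
      Finset.card_univ, nsmul_eq_mul, mul_one]
    have e1 : (∑ c, S c) / (a / 2) ≤ Fintype.card γ * (2 / 3) := by
      rw [div_le_iff₀ (by positivity)]
      linarith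
    have e2 : (∑ c, H c) / (3 * s / 16) ≤ Fintype.card γ * (2 / 9) := by
      rw [div_le_iff₀ (by positivity)]
      linarith
    linarith
  obtain ⟨c, -, hc⟩ := hex
  have p1 : 0 ≤ S c / (a / 2) := div_nonneg (hS0 c) (by positivity)
  have p2 : 0 ≤ H c / (3 * s / 16) := div_nonneg (hH0 c) (by positivity)
  have q1 : S c ≤ a / 2 := (div_le_one (by positivity)).1 (by linarith)
  have q2 : H c ≤ 3 * s / 16 := (div_le_one (by positivity)).1 (by linarith)
  have h4 : Larr a q (bc c) ≤ s / 4 + 4 * H c :=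
    Larr_up ha q (hbc c) (s₁ := s / 4) (by positivity) q1
  linarith [hsc c]

end Crest.Agent.R109
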