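import Crest.Agent.R109.LDefs

/-! Row 109, local algorithm: balls, measurability, mass transport. -/

set_option autoImplicit false

open scoped ComplexConjugate ENNReal Pointwise
open MeasureTheory

namespace Crest.Agent.R109

variable {G X : Type*} [Group G] [DecidableEq G] [MulAction G X] [DecidableEq X]
  [MeasurableSpace X] {S : Finset G} {μ : Measure X} {x : X → X → ℂ} {w : X → ℝ} {r : ℕ}

omit [MeasurableSpace X] in
theorem mem_B {R : ℕ} {s t : X} : s ∈ B S R t ↔ ∃ g ∈ S ^ R, g • t = s := by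
  simp [B]

omit [MeasurableSpace X] in
theorem B_zero (t : X) : B S 0 t = {t} := by
  ext s
  simp [mem_B, eq_comm]

omit [MeasurableSpace X] in
theorem B_add {a b : ℕ} {s t u : X} (hs : s ∈ B S a t) (hu : u ∈ B S b s) :
    u ∈ B S (a + b) t := by
  obtain ⟨g, hg, rfl⟩ := mem_B.1 hs
  obtain ⟨g', hg', rfl⟩ := mem_B.1 hu
  refine mem_B.2 ⟨g' * g, ?_, mul_smul _ _ _⟩
  rw [add_comm, pow_add]
  exact Finset.mul_mem_mul hg' hg

omit [MeasurableSpace X] in
theorem card_B_le (R : ℕ) (t : X) : (B S R t).card ≤ S.card ^ R := by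
  exact Finset.card_image_le.trans Finset.card_pow_le

theorem LS.B_mono (h : LS S μ x w) {a b : ℕ} (hab : a ≤ b) (t : X) : B S a t ⊆ B S b t := by
  exact Finset.image_subset_image (Finset.pow_subset_pow_right h.one_mem hab)

theorem LS.self_mem (h : LS S μ x w) (R : ℕ) (t : X) : t ∈ B S R t := by
  exact mem_B.2 ⟨1, Finset.one_mem_pow h.one_mem, one_smul _ _⟩

theorem LS.inv_mem_pow (h : LS S μ x w) {R : ℕ} {g : G} (hg : g ∈ S ^ R) : g⁻¹ ∈ S ^ R := by
  induction R generalizing g with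
  | zero =>
    rw [pow_zero, Finset.mem_one] at hg ⊢
    rw [hg, inv_one]
  | succ R ih =>
    rw [pow_succ] at hg
    obtain ⟨a, ha, b, hb, rfl⟩ := Finset.mem_mul.1 hg
    rw [mul_inv_rev, pow_succ']
    exact Finset.mul_mem_mul (h.inv_mem b hb) (ih ha)

theorem LS.B_symm (h : LS S μ x w) {R : ℕ} {s t : X} (hs : s ∈ B S R t) : t ∈ B S R s := by
  obtain ⟨g, hg, rfl⟩ := mem_B.1 hs
  exact mem_B.2 ⟨g⁻¹, h.inv_mem_pow hg, inv_smul_smul _ _⟩

/-- Balls cover what can be reached (`d n = B S n v`). -/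
theorem LS.cover_ball (h : LS S μ x w) (U U' : Finset X) (v : X) (N : ℕ)
    (hU : ∀ u ∈ U, u ∈ B S N v → u ∈ U') : Cover (fun a b => a ∈ B S 1 b) U v N U' := by
  refine ⟨fun n => (B S n v : Set X), h.self_mem 0 v, fun n => ?_, fun n u u' hu _ _ hu' => ?_, hU⟩
  · exact Finset.coe_subset.2 (h.B_mono (Nat.le_succ n) v)
  · exact B_add hu hu'

/-- Weights along paths inside a ball all of whose points are `Kg` (induction on `j ≤ m`). -/
theorem LS.w_ball (h : LS S μ x w) {K : ℝ} (hK : 1 ≤ K) {m : ℕ} {t : X}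
    (hB : ∀ s ∈ B S m t, Kg S w K s) {s : X} (hs : s ∈ B S m t) :
    w s ≤ K ^ m * w t ∧ w t ≤ K ^ m * w s := by
  have hK0 : 0 ≤ K := zero_le_one.trans hK
  have key : ∀ j, j ≤ m → ∀ s ∈ B S j t, w s ≤ K ^ j * w t ∧ w t ≤ K ^ j * w s := by
    intro j
    induction j with
    | zero =>
      intro _ s hs
      rw [B_zero, Finset.mem_singleton] at hs
      simp [hs]
    | succ j ih =>
      intro hj s hs
      obtain ⟨g, hg, rfl⟩ := mem_B.1 hs
      rw [pow_succ'] at hg
      obtain ⟨a, ha, b, hb, rfl⟩ := Finset.mem_mul.1 hg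
      have h1 : b • t ∈ B S j t := mem_B.2 ⟨b, hb, rfl⟩
      obtain ⟨h2, h3⟩ := ih (by omega) _ h1
      obtain ⟨h4, h5⟩ := hB _ (h.B_mono (by omega) t h1) a ha
      rw [mul_smul]
      constructor
      · rw [pow_succ', mul_assoc]
        exact h4.trans (mul_le_mul_of_nonneg_left h2 hK0)
      · rw [pow_succ, mul_assoc]
        exact h3.trans (mul_le_mul_of_nonneg_left h5 (pow_nonneg hK0 _))
  exact key m le_rfl s hs

theorem LS.measurableSet_eq (h : LS S μ x w) (g g' : G) :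
    MeasurableSet {t : X | g • t = g' • t} := by
  convert h.fix (g'⁻¹ * g) using 3 with t
  rw [mul_smul, inv_smul_eq_iff]

theorem LS.measurableSet_mem (h : LS S μ x w) (g : G) (R : ℕ) :
    MeasurableSet {t : X | g • t ∈ B S R t} := by
  have : {t : X | g • t ∈ B S R t} = ⋃ g' ∈ S ^ R, {t : X | g' • t = g • t} := by
    ext t
    simp [mem_B]
  rw [this]
  exact Finset.measurableSet_biUnion _ fun g' _ => h.measurableSet_eq g' g

theorem LS.measurableSet_exists (h : LS S μ x w) (R : ℕ) {P : X → X → Prop}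
    (hP : ∀ g : G, MeasurableSet {t | P t (g • t)}) :
    MeasurableSet {t | ∃ s ∈ B S R t, P t s} := by
  have _ := h
  have : {t | ∃ s ∈ B S R t, P t s} = ⋃ g ∈ S ^ R, {t : X | P t (g • t)} := by
    ext t
    simp [B]
  rw [this]
  exact Finset.measurableSet_biUnion _ fun g _ => hP g

theorem LS.measurableSet_forall (h : LS S μ x w) (R : ℕ) {P : X → X → Prop}
    (hP : ∀ g : G, MeasurableSet {t | P t (g • t)}) :
    MeasurableSet {t | ∀ s ∈ B S R t, P t s} := by
  have _ := h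
  have : {t | ∀ s ∈ B S R t, P t s} = ⋂ g ∈ S ^ R, {t : X | P t (g • t)} := by
    ext t
    simp [B]
  rw [this]
  exact Finset.measurableSet_biInter _ fun g _ => hP g

theorem LS.measurableSet_Kg (h : LS S μ x w) (K : ℝ) : MeasurableSet {t | Kg S w K t} := by
  have : {t | Kg S w K t}
      = ⋂ g ∈ S, ({t : X | w (g • t) / w t ≤ K} ∩ {t : X | 1 ≤ K * (w (g • t) / w t)}) := by
    ext t
    simp only [Kg, Set.mem_ofPred_eq, Set.mem_iInter, Set.mem_inter_iff]
    refine forall₂_congr fun g _ => ?_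
    rw [div_le_iff₀ (h.wpos t), ← mul_div_assoc, one_le_div (h.wpos t)]
  rw [this]
  exact Finset.measurableSet_biInter _ fun g _ =>
    (measurableSet_le (h.wmeas g) measurable_const).inter
      (measurableSet_le measurable_const ((h.wmeas g).const_mul K))

/-- The number of elements of `S ^ R` that move `t` to `s`. -/
def ballMult (S : Finset G) (R : ℕ) (t s : X) : ℕ := ((S ^ R).filter fun g => g • t = s).card

omit [MeasurableSpace X] in
theorem ball_sum_eq (R : ℕ) (t : X) (f : X → ℝ) :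
    ∑ s ∈ B S R t, f s = ∑ g ∈ S ^ R, f (g • t) / ballMult S R t (g • t) := by
  rw [Finset.sum_comp (fun s => f s / ballMult S R t s) fun g : G => g • t]
  refine Finset.sum_congr rfl fun s hs => ?_
  obtain ⟨g, hg, rfl⟩ := mem_B.1 hs
  have h1 : (ballMult S R t (g • t) : ℝ) ≠ 0 :=
    Nat.cast_ne_zero.2 (Finset.card_ne_zero.2 ⟨g, Finset.mem_filter.2 ⟨hg, rfl⟩⟩)
  rw [nsmul_eq_mul]
  exact (mul_div_cancel₀ _ h1).symm

theorem LS.ball_mult_symm (h : LS S μ x w) (R : ℕ) (t s : X) :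
    ballMult S R t s = ballMult S R s t := by
  refine Finset.card_nbij' (fun g => g⁻¹) (fun g => g⁻¹) (fun g hg => ?_) (fun g hg => ?_)
    (fun g _ => inv_inv g) (fun g _ => inv_inv g)
  all_goals
    obtain ⟨h1, rfl⟩ := Finset.mem_filter.1 hg
    exact Finset.mem_filter.2 ⟨h.inv_mem_pow h1, inv_smul_smul _ _⟩

theorem LS.ball_measurable_mult (h : LS S μ x w) (R : ℕ) (g : G) :
    Measurable fun t : X => (ballMult S R t (g • t) : ℝ) := by
  simp only [ballMult, Finset.card_filter, Nat.cast_sum, Nat.cast_ite, Nat.cast_one, Nat.cast_zero]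
  exact Finset.measurable_sum _ fun g' _ =>
    Measurable.ite (h.measurableSet_eq g' g) measurable_const measurable_const

theorem LS.ball_lintegral_rho [IsProbabilityMeasure μ] (h : LS S μ x w) (g : G) :
    ∫⁻ t, ENNReal.ofReal (w (g • t) / w t) ∂μ = 1 := by
  have := h.mtp g (fun _ => 1) measurable_const
  simpa using this.symm

theorem LS.ball_integrable_rho [IsProbabilityMeasure μ] (h : LS S μ x w) (g : G) :
    Integrable (fun t => w (g • t) / w t) μ := by
  refine ⟨(h.wmeas g).aestronglyMeasurable, ?_⟩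
  rw [hasFiniteIntegral_iff_ofReal (Filter.Eventually.of_forall fun t =>
    (div_pos (h.wpos _) (h.wpos _)).le), h.ball_lintegral_rho g]
  exact ENNReal.one_lt_top

theorem LS.ball_map_eq (h : LS S μ x w) (g : G) :
    (μ.withDensity fun t => ENNReal.ofReal (w (g • t) / w t)).map (fun t => g • t) = μ := by
  ext D hD
  rw [Measure.map_apply (h.meas g) hD, withDensity_apply _ (h.meas g hD),
    ← lintegral_indicator_one hD, h.mtp g _ (measurable_one.indicator hD),
    ← lintegral_indicator (h.meas g hD)]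
  refine lintegral_congr fun t => ?_
  by_cases ht : g • t ∈ D
  · rw [Set.indicator_of_mem ht, Set.indicator_of_mem (show t ∈ (fun t => g • t) ⁻¹' D from ht),
      Pi.one_apply, one_mul]
  · rw [Set.indicator_of_notMem ht,
      Set.indicator_of_notMem (show t ∉ (fun t => g • t) ⁻¹' D from ht), zero_mul]

theorem LS.ball_mtp [IsProbabilityMeasure μ] (h : LS S μ x w) (g : G) {H : X → ℝ} {C : ℝ}
    (hH : Measurable H) (hb : ∀ t, |H t| ≤ C) :
    Integrable (fun s => H (g • s) * (w (g • s) / w s)) μ ∧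
      ∫ t, H t ∂μ = ∫ s, H (g • s) * (w (g • s) / w s) ∂μ := by
  refine ⟨(h.ball_integrable_rho g).bdd_mul (c := C) (hH.comp (h.meas g)).aestronglyMeasurable
    (Filter.Eventually.of_forall fun t => hb _), ?_⟩
  conv_lhs => rw [← h.ball_map_eq g]
  rw [integral_map (h.meas g).aemeasurable hH.aestronglyMeasurable,
    integral_withDensity_eq_integral_toReal_smul (h.wmeas g).ennreal_ofReal
      (Filter.Eventually.of_forall fun t => ENNReal.ofReal_lt_top)]
  refine integral_congr_ae (Filter.Eventually.of_forall fun t => ?_)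
  simp only
  rw [ENNReal.toReal_ofReal (div_pos (h.wpos _) (h.wpos _)).le, smul_eq_mul, mul_comm]

/-- `∑_{s ∈ B R t} F t s = ∑_{g ∈ S^R} F t (g t) / mult t (g t)`, with
`mult t s = #{g ∈ S^R | g t = s}`. -/
theorem LS.measurable_sum (h : LS S μ x w) (R : ℕ) {F : X → X → ℝ}
    (hF : ∀ g : G, Measurable fun t => F t (g • t)) :
    Measurable fun t => ∑ s ∈ B S R t, F t s := by
  simp only [ball_sum_eq]
  exact Finset.measurable_sum _ fun g _ => (hF g).div (h.ball_measurable_mult R g)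

/-- The mass transport principle.  `mult t s = mult s t` (`g ↦ g⁻¹`).  For each `g` apply `mtp g⁻¹`
to the bounded measurable `H t = F t (g t) / mult t (g t)` (positive and negative parts, or the
measure identity `μ = map (g⁻¹ • ·) (μ.withDensity ..)`), and reindex `g ↦ g⁻¹`. -/
theorem LS.mtp_real [IsProbabilityMeasure μ] (h : LS S μ x w) (R : ℕ) {F : X → X → ℝ} {C : ℝ}
    (hF : ∀ g : G, Measurable fun t => F t (g • t)) (hb : ∀ t s, |F t s| ≤ C) :
    Integrable (fun s => ∑ t ∈ B S R s, F t s * (w t / w s)) μ ∧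
      ∫ t, ∑ s ∈ B S R t, F t s ∂μ = ∫ s, ∑ t ∈ B S R s, F t s * (w t / w s) ∂μ := by
  have hm : ∀ g : G, Measurable fun t => F t (g • t) / ballMult S R t (g • t) := fun g =>
    (hF g).div (h.ball_measurable_mult R g)
  have hbd : ∀ (g : G) (t : X), |F t (g • t) / ballMult S R t (g • t)| ≤ C := by
    intro g t
    rw [abs_div, Nat.abs_cast]
    rcases Nat.eq_zero_or_pos (ballMult S R t (g • t)) with h0 | h0
    · rw [h0, Nat.cast_zero, div_zero]
      exact (abs_nonneg _).trans (hb t t)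
    · exact (div_le_self (abs_nonneg _) (Nat.one_le_cast.2 h0)).trans (hb _ _)
  have key := fun g : G => h.ball_mtp g⁻¹ (hm g) (hbd g)
  have e : (fun s => ∑ t ∈ B S R s, F t s * (w t / w s)) = fun s => ∑ g ∈ S ^ R,
      F (g⁻¹ • s) (g • g⁻¹ • s) / ballMult S R (g⁻¹ • s) (g • g⁻¹ • s) * (w (g⁻¹ • s) / w s) := by
    funext s
    rw [ball_sum_eq]
    refine Finset.sum_nbij' (fun g => g⁻¹) (fun g => g⁻¹) (fun g hg => h.inv_mem_pow hg)
      (fun g hg => h.inv_mem_pow hg) (fun g _ => inv_inv g) (fun g _ => inv_inv g) fun g _ => ?_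
    rw [inv_inv, inv_smul_smul, h.ball_mult_symm R s]
    ring
  rw [e]
  refine ⟨integrable_finsetSum _ fun g _ => (key g).1, ?_⟩
  rw [integral_finsetSum _ fun g _ => (key g).1]
  simp only [ball_sum_eq]
  rw [integral_finsetSum _ fun g _ => Integrable.of_bound (hm g).aestronglyMeasurable C
    (Filter.Eventually.of_forall fun t => hbd g t)]
  exact Finset.sum_congr rfl fun g _ => (key g).2

/-- Neighbourhoods of small sets are small: `μ (g⁻¹ D) = ∫⁻_D ρ` with `ρ t = w (g⁻¹ t) / w t`,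
`∫⁻ ρ = 1` (`exists_pos_setLIntegral_lt_of_measure_lt`); use `toMeasurable` for arbitrary `D`. -/
theorem LS.nbhd_small [IsProbabilityMeasure μ] (h : LS S μ x w) (R : ℕ) {δ : ℝ≥0∞} (hδ : 0 < δ) :
    ∃ δ' : ℝ≥0∞, 0 < δ' ∧ ∀ D : Set X, μ D ≤ δ' → μ {t | ∃ s ∈ B S R t, s ∈ D} ≤ δ := by
  have one : ∀ (g : G) {ε : ℝ≥0∞}, 0 < ε →
      ∃ δ' : ℝ≥0∞, 0 < δ' ∧ ∀ D : Set X, μ D ≤ δ' → μ {t | g • t ∈ D} ≤ ε := by
    intro g ε hε
    obtain ⟨δ₁, h1, h2⟩ := exists_pos_setLIntegral_lt_of_measure_lt (μ := μ)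
      (f := fun t => ENNReal.ofReal (w (g⁻¹ • t) / w t))
      (by rw [h.ball_lintegral_rho]; exact ENNReal.one_ne_top) hε.ne'
    obtain ⟨δ', h3, h4⟩ := exists_between h1
    refine ⟨δ', h3, fun D hD => ?_⟩
    have h5 := h2 (toMeasurable μ D) (by rw [measure_toMeasurable]; exact hD.trans_lt h4)
    have hm : MeasurableSet ((fun t : X => g • t) ⁻¹' toMeasurable μ D) :=
      h.meas g (measurableSet_toMeasurable μ D)
    have h6 : μ ((fun t : X => g • t) ⁻¹' toMeasurable μ D)
        = ∫⁻ t in toMeasurable μ D, ENNReal.ofReal (w (g⁻¹ • t) / w t) ∂μ := by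
      have h7 := Measure.map_apply
        (μ := μ.withDensity fun t => ENNReal.ofReal (w (g⁻¹ • t) / w t)) (h.meas g⁻¹) hm
      rw [h.ball_map_eq g⁻¹] at h7
      rw [h7, ← withDensity_apply _ (measurableSet_toMeasurable μ D)]
      congr 1
      ext t
      simp
    refine (measure_mono fun t ht => ?_).trans (h6.trans_lt h5).le
    exact subset_toMeasurable μ D ht
  have many : ∀ (T : Finset G) {ε : ℝ≥0∞}, 0 < ε →
      ∃ δ' : ℝ≥0∞, 0 < δ' ∧ ∀ D : Set X, μ D ≤ δ' → μ {t | ∃ g ∈ T, g • t ∈ D} ≤ ε := by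
    intro T
    induction T using Finset.induction_on with
    | empty => exact fun hε => ⟨1, one_pos, fun D _ => by simp⟩
    | insert g T _ ih =>
      intro ε hε
      obtain ⟨δ₁, h1, h2⟩ := one g (ENNReal.half_pos hε.ne')
      obtain ⟨δ₂, h3, h4⟩ := ih (ENNReal.half_pos hε.ne')
      refine ⟨min δ₁ δ₂, lt_min h1 h3, fun D hD => ?_⟩
      have h5 : {t : X | ∃ g' ∈ insert g T, g' • t ∈ D}
          = {t | g • t ∈ D} ∪ {t | ∃ g' ∈ T, g' • t ∈ D} := by
        ext t
        simp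
      rw [h5, ← ENNReal.add_halves ε]
      exact (measure_union_le _ _).trans (add_le_add (h2 D (hD.trans (min_le_left _ _)))
        (h4 D (hD.trans (min_le_right _ _))))
  obtain ⟨δ', h1, h2⟩ := many (S ^ R) hδ
  refine ⟨δ', h1, fun D hD => (le_of_eq ?_).trans (h2 D hD)⟩
  congr 1
  ext t
  simp [B]

/-- The sets `{¬ Kg K}` decrease to `∅` as `K → ∞`. -/
theorem LS.exists_K [IsProbabilityMeasure μ] (h : LS S μ x w) {δ : ℝ≥0∞} (hδ : 0 < δ) :
    ∃ K : ℝ, 1 ≤ K ∧ μ {t | ¬ Kg S w K t} ≤ δ := by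
  have hanti : Antitone fun n : ℕ => {t | ¬ Kg S w ((n : ℝ) + 1) t} := by
    intro a b hab t ht hk
    refine ht fun g hg => ?_
    have h1 : (a : ℝ) + 1 ≤ (b : ℝ) + 1 := by exact_mod_cast Nat.succ_le_succ hab
    exact ⟨(hk g hg).1.trans (mul_le_mul_of_nonneg_right h1 (h.wpos _).le),
      (hk g hg).2.trans (mul_le_mul_of_nonneg_right h1 (h.wpos _).le)⟩
  have hlim := tendsto_measure_iInter_atTop (μ := μ)
    (fun n : ℕ => (h.measurableSet_Kg ((n : ℝ) + 1)).compl.nullMeasurableSet) hanti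
    ⟨0, measure_ne_top _ _⟩
  have hempty : ⋂ n : ℕ, {t | Kg S w ((n : ℝ) + 1) t}ᶜ = ∅ := by
    refine Set.eq_empty_of_forall_notMem fun t ht => ?_
    have h1 : ∀ a b : X, ∀ᶠ n : ℕ in Filter.atTop, w a ≤ ((n : ℝ) + 1) * w b := fun a b =>
      ((Filter.tendsto_atTop_add_const_right _ 1 tendsto_natCast_atTop_atTop).atTop_mul_const
        (h.wpos b)).eventually_ge_atTop _
    have h2 : ∀ᶠ n : ℕ in Filter.atTop, Kg S w ((n : ℝ) + 1) t :=
      (Filter.eventually_all_finset S).2 fun g _ => (h1 _ _).and (h1 _ _)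
    obtain ⟨n, hn⟩ := h2.exists
    exact Set.mem_iInter.1 ht n hn
  rw [hempty, measure_empty] at hlim
  obtain ⟨n, hn⟩ := (hlim.eventually (ge_mem_nhds hδ)).exists
  exact ⟨(n : ℝ) + 1, by linarith [Nat.cast_nonneg (α := ℝ) n], hn⟩

end Crest.Agent.R109
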