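import Crest.Agent.R109.PF

/-! Row 109, finite part: the one-variable core of the barrier argument.  Notation: `b = √m`,
`s₀ = 1 / (b - 1)`, `z₀ = 4 / √m`. -/

set_option autoImplicit false

open scoped ComplexConjugate
open Polynomial

namespace Crest.Agent.R109

/-- AM-HM through the tangent line of `1 / u` at `c`. -/
theorem barriercore_amhm {α : Type*} (s : Multiset α) (u : α → ℝ) (hu : ∀ a ∈ s, 0 < u a) {c : ℝ}
    (_hc : 0 < c) :
    2 * c * s.card - (s.map u).sum ≤ c ^ 2 * (s.map fun a => 1 / u a).sum := by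
  induction s using Multiset.induction_on with
  | empty => simp
  | cons a s ih =>
    have h1 := ih fun x hx => hu x (Multiset.mem_cons_of_mem hx)
    have h2 := hu a (Multiset.mem_cons_self a s)
    have h3 : 2 * c - u a ≤ c ^ 2 * (1 / u a) := by
      rw [mul_one_div, le_div_iff₀ h2]
      nlinarith [sq_nonneg (c - u a)]
    simp only [Multiset.map_cons, Multiset.sum_cons, Multiset.card_cons, Nat.cast_add,
      Nat.cast_one]
    linarith

theorem barriercore_eval_im {p : ℂ[X]} (hp : ∀ n, (p.coeff n).im = 0) (t : ℝ) :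
    (p.eval (t : ℂ)).im = 0 := by
  rw [eval_eq_sum_range, Complex.im_sum]
  refine Finset.sum_eq_zero fun n _ => ?_
  rw [← Complex.ofReal_pow, Complex.mul_im, hp n, Complex.ofReal_im, mul_zero, zero_mul, add_zero]

theorem barriercore_re_sum {α : Type*} (s : Multiset α) (φ : α → ℂ) :
    (s.map φ).sum.re = (s.map fun a => (φ a).re).sum := by
  induction s using Multiset.induction_on with
  | empty => simp
  | cons a s ih => simp [ih]

theorem barriercore_sum_sub {α : Type*} (s : Multiset α) (b : ℝ) (φ : α → ℝ) :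
    (s.map fun a => b - φ a).sum = s.card * b - (s.map φ).sum := by
  induction s using Multiset.induction_on with
  | empty => simp
  | cons a s ih => simp [ih]; ring

/-- The real-variable core of the barrier step.  `f` has degree `m`, leading coefficient `Q > 0`
and roots `b - u_j`, `u_j > 0`.  `f'(b) / f(b) = ∑ 1 / u_j ≤ m / (b - s₀)`, so by AM-HM the mean of
the `u_j` is `≥ b - s₀`, whence `Q ζ + f_{m-1} / m = Q (ζ - b + mean u) > 0`.  By `pf`,
`g = γ f + ∑_q m_q f / (X - q)`, so `g(b) / f(b) = γ + ∑ m_q / (b - q)`, `g_m = γ Q`,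
`g_{m-1} = γ f_{m-1} + Q ∑ m_q`, and the new ratio is `γ + (∑ m_q / m) / (ζ - b + mean u)`.  It
remains to see `u_j ≤ m (ζ - b) + ∑ u` for each `j`: by AM-HM
`∑_{i ≠ j} u_i ≥ (m-1)² (b - s₀) / m ≥ m (b - z₀)` because `s₀ + 2 b / m ≤ z₀` for `√m ≥ 2`. -/
theorem barrier_core {m : ℕ} (hm : 4 ≤ m) {f : ℂ[X]} (hd : f.natDegree = m)
    (hQ : 0 < (f.coeff m).re) (hf : ∀ n, (f.coeff n).im = 0) (hr : ∀ s, f.IsRoot s → s.im = 0)
    (hpos : ∀ t : ℝ, √(m : ℝ) ≤ t → 0 < (f.eval (t : ℂ)).re)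
    (hder : (f.derivative.eval ((√(m : ℝ) : ℝ) : ℂ)).re ≤
      m / (√(m : ℝ) - 1 / (√(m : ℝ) - 1)) * (f.eval ((√(m : ℝ) : ℝ) : ℂ)).re)
    {ζ : ℝ} (hζ : 4 / √(m : ℝ) ≤ ζ) :
    0 < (f.coeff m).re * ζ + (f.coeff (m - 1)).re / m ∧
      ∀ (g : ℂ[X]) (B : ℝ), g.natDegree ≤ m → (∀ n, (g.coeff n).im = 0) →
        (∀ τ : ℂ, 0 < τ.im → (g.eval τ / f.eval τ).im ≤ 0) →
        (g.eval ((√(m : ℝ) : ℝ) : ℂ)).re ≤ B * (f.eval ((√(m : ℝ) : ℝ) : ℂ)).re →
        (g.coeff m).re * ζ + (g.coeff (m - 1)).re / m ≤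
          B * ((f.coeff m).re * ζ + (f.coeff (m - 1)).re / m) := by
  classical
  obtain ⟨k, rfl⟩ : ∃ k, m = k + 1 := ⟨m - 1, by omega⟩
  rw [Nat.add_sub_cancel]
  have hm4 : (4 : ℝ) ≤ ((k + 1 : ℕ) : ℝ) := by exact_mod_cast hm
  have hbb : √((k + 1 : ℕ) : ℝ) ^ 2 = ((k + 1 : ℕ) : ℝ) := Real.sq_sqrt (by positivity)
  have hb2 : 2 ≤ √((k + 1 : ℕ) : ℝ) := Real.le_sqrt_of_sq_le (by linarith)
  have hk1 : ((k + 1 : ℕ) : ℝ) = k + 1 := Nat.cast_succ k
  generalize √((k + 1 : ℕ) : ℝ) = b at *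
  generalize ((k + 1 : ℕ) : ℝ) = M at *
  have hM : 0 < M := by linarith
  have hsp : f.Splits := IsAlgClosed.splits f
  have hlead : f.leadingCoeff = f.coeff (k + 1) := by rw [leadingCoeff, hd]
  have hQ0 : f.coeff (k + 1) ≠ 0 := fun h => by simp [h] at hQ
  have hf0 : f ≠ 0 := fun h => hQ0 (by rw [h, coeff_zero])
  have hcard : (f.roots.card : ℝ) = M := by rw [← hsp.natDegree_eq_card_roots, hd, hk1]; simp
  have hroot : ∀ z ∈ f.roots, z = (z.re : ℂ) := fun z hz =>
    Complex.ext rfl (by rw [hr z (isRoot_of_mem_roots hz), Complex.ofReal_im])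
  have hu : ∀ z ∈ f.roots, 0 < b - z.re := fun z hz => by
    by_contra h
    have h1 := hpos z.re (by linarith)
    rw [← hroot z hz, (isRoot_of_mem_roots hz).eq_zero] at h1
    simp at h1
  have hF := hpos b le_rfl
  have hFim := barriercore_eval_im hf b
  have hF0 : f.eval (b : ℂ) ≠ 0 := fun h => by simp [h] at hF
  have hinv : ∀ z ∈ f.roots, 1 / ((b : ℂ) - z) = ((1 / (b - z.re) : ℝ) : ℂ) := fun z hz => by
    nth_rewrite 1 [hroot z hz]
    push_cast
    rfl
  set c : ℝ := b - 1 / (b - 1) with hc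
  have hs : 1 / (b - 1) ≤ 1 := by rw [div_le_one (by linarith)]; linarith
  have hc0 : 0 < c := by linarith
  have hH : (f.roots.map fun z => 1 / (b - z.re)).sum ≤ M / c := by
    rw [hsp.eval_derivative_eq_eval_mul_sum hF0, Complex.mul_re, hFim, zero_mul, sub_zero,
      barriercore_re_sum, mul_comm (M / c)] at hder
    have h1 := le_of_mul_le_mul_left hder hF
    refine le_of_eq_of_le (congrArg Multiset.sum (Multiset.map_congr rfl fun z hz => ?_)) h1
    rw [hinv z hz, Complex.ofReal_re]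
  have hH' : c ^ 2 * (f.roots.map fun z => 1 / (b - z.re)).sum ≤ c * M := by
    calc _ ≤ c ^ 2 * (M / c) := mul_le_mul_of_nonneg_left hH (by positivity)
      _ = c * M := by field_simp
  set U : ℝ := (f.roots.map fun z => b - z.re).sum with hU
  have hU1 : c * M ≤ U := by
    have h1 := barriercore_amhm f.roots (fun z => b - z.re) hu hc0
    rw [hcard] at h1
    linarith
  have hU2 : ∀ q ∈ f.roots, (b - q.re) + c * (M - 2) ≤ U := fun q hq => by
    have h1 := barriercore_amhm (f.roots.erase q) (fun z => b - z.re)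
      (fun z hz => hu z (Multiset.mem_of_mem_erase hz)) hc0
    have h2 := Multiset.sum_map_erase (f := fun z : ℂ => b - z.re) hq
    have h3 := Multiset.sum_map_erase (f := fun z : ℂ => 1 / (b - z.re)) hq
    have h4 : ((f.roots.erase q).card : ℝ) + 1 = M := by
      rw [← hcard, ← Multiset.card_erase_add_one hq]; simp
    have h5 : 0 ≤ c ^ 2 * (1 / (b - q.re)) := by have := hu q hq; positivity
    rw [← h3, mul_add] at hH'
    rw [show ((f.roots.erase q).card : ℝ) = M - 1 by linarith] at h1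
    linarith
  have hnext : (f.coeff k).re = (f.coeff (k + 1)).re * (U - M * b) := by
    have h1 := hsp.nextCoeff_eq_neg_sum_roots_mul_leadingCoeff
    rw [nextCoeff_of_natDegree_pos (by omega), hd, Nat.add_sub_cancel, hlead] at h1
    have h2 := barriercore_re_sum f.roots fun z => z
    rw [Multiset.map_id'] at h2
    rw [h1, neg_mul, Complex.neg_re, Complex.mul_re, hf, zero_mul, sub_zero, h2, hU,
      barriercore_sum_sub, hcard]
    ring
  set Q : ℝ := (f.coeff (k + 1)).re with hQdef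
  set D : ℝ := M * (ζ - b) + U with hD
  have hb0 : 0 < b := by linarith
  have hζ' : 4 * b ≤ M * ζ := by
    calc 4 * b = M * (4 / b) := by rw [← hbb]; field_simp
      _ ≤ M * ζ := mul_le_mul_of_nonneg_left hζ hM.le
  have hs1 : 1 / (b - 1) * (M - 2) ≤ 2 * b := by
    rw [one_div_mul_eq_div, div_le_iff₀ (by linarith), ← hbb]
    nlinarith [sq_nonneg (b - 1)]
  have hD0 : 0 < D := by
    have h1 : c * M = b * M - 1 / (b - 1) * (M - 2) - 2 * (1 / (b - 1)) := by rw [hc]; ring
    linarith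
  have hD1 : ∀ q ∈ f.roots, b - q.re ≤ D := fun q hq => by
    have h1 : c * (M - 2) = b * M - 2 * b - 1 / (b - 1) * (M - 2) := by rw [hc]; ring
    have := hU2 q hq
    linarith
  have hL : Q * ζ + (f.coeff k).re / M = Q * D / M := by
    rw [hnext, hD]; field_simp; ring
  rw [hL]
  refine ⟨by positivity, fun g B hgd hg him hB => ?_⟩
  obtain ⟨μ, hμ, hpf⟩ := pf hf0 hr (hd ▸ hgd) him
  rw [hd, hlead] at hpf
  set γ : ℂ := g.coeff (k + 1) / f.coeff (k + 1) with hγ
  have hγim : γ.im = 0 := by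
    rw [hγ, Complex.div_im, hg, hf]; simp
  have hfac : ∀ q ∈ f.roots.toFinset, (X - C q) * (f /ₘ (X - C q)) = f := fun q hq =>
    mul_divByMonic_eq_iff_isRoot.2 (isRoot_of_mem_roots (Multiset.mem_toFinset.1 hq))
  have hco : ∀ q ∈ f.roots.toFinset, (f /ₘ (X - C q)).coeff k = f.coeff (k + 1) := fun q hq => by
    have h1 : (f /ₘ (X - C q)).coeff (k + 1) = 0 := by
      refine coeff_eq_zero_of_natDegree_lt ?_
      rw [natDegree_divByMonic f (monic_X_sub_C q), hd, natDegree_X_sub_C]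
      omega
    have h2 := congrArg (fun p : ℂ[X] => p.coeff (k + 1)) (hfac q hq)
    simp only [coeff_X_sub_C_mul, h1, mul_zero, sub_zero] at h2
    exact h2
  have hev : ∀ q ∈ f.roots.toFinset, (f /ₘ (X - C q)).eval (b : ℂ) =
      f.eval (b : ℂ) * ((1 / (b - q.re) : ℝ) : ℂ) := fun q hq => by
    have hq' := Multiset.mem_toFinset.1 hq
    have h1 : (b : ℂ) - q ≠ 0 := fun h => by
      have h2 := congrArg Complex.re h
      have h3 := hu q hq'
      simp at h2
      linarith
    have h2 := congrArg (eval (b : ℂ)) (hfac q hq)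
    rw [eval_mul, eval_sub, eval_X, eval_C] at h2
    rw [← hinv q hq', ← h2]
    field_simp
  have e1 : (g.coeff (k + 1)).re = γ.re * Q := by
    have h1 : g.coeff (k + 1) = γ * f.coeff (k + 1) := by rw [hγ, div_mul_cancel₀ _ hQ0]
    rw [h1, Complex.mul_re, hγim, zero_mul, sub_zero]
  have e2 : (g.coeff k).re = γ.re * (f.coeff k).re + (∑ q ∈ f.roots.toFinset, μ q) * Q := by
    have h1 := congrArg (fun p : ℂ[X] => (p.coeff k).re) hpf
    simp only [coeff_add, coeff_C_mul, finsetSum_coeff, Complex.add_re, Complex.re_sum] at h1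
    rw [h1, Complex.mul_re, hγim, zero_mul, sub_zero, Finset.sum_mul]
    congr 1
    refine Finset.sum_congr rfl fun q hq => ?_
    rw [hco q hq, Complex.re_ofReal_mul]
  have e3 : (g.eval (b : ℂ)).re = (γ.re + ∑ q ∈ f.roots.toFinset, μ q * (1 / (b - q.re))) *
      (f.eval (b : ℂ)).re := by
    have h1 := congrArg (fun p : ℂ[X] => (p.eval (b : ℂ)).re) hpf
    simp only [eval_add, eval_mul, eval_C, eval_finsetSum, Complex.add_re, Complex.re_sum] at h1
    rw [h1, Complex.mul_re, hγim, zero_mul, sub_zero, add_mul, Finset.sum_mul]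
    congr 1
    refine Finset.sum_congr rfl fun q hq => ?_
    rw [hev q hq, Complex.re_ofReal_mul, Complex.re_mul_ofReal]
    ring
  rw [e3] at hB
  have h1 := le_of_mul_le_mul_right hB hF
  have h2 : ∑ q ∈ f.roots.toFinset, μ q ≤
      (∑ q ∈ f.roots.toFinset, μ q * (1 / (b - q.re))) * D := by
    rw [Finset.sum_mul]
    refine Finset.sum_le_sum fun q hq => ?_
    have hq' := Multiset.mem_toFinset.1 hq
    rw [mul_assoc, one_div_mul_eq_div]
    exact le_mul_of_one_le_right (hμ q) ((one_le_div (hu q hq')).2 (hD1 q hq'))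
  have e4 : (g.coeff (k + 1)).re * ζ + (g.coeff k).re / M =
      (γ.re * D + ∑ q ∈ f.roots.toFinset, μ q) * (Q / M) := by
    rw [e1, e2, hnext, hD]; field_simp; ring
  rw [e4, show B * (Q * D / M) = B * D * (Q / M) by ring]
  refine mul_le_mul_of_nonneg_right ?_ (by positivity)
  have h3 := mul_le_mul_of_nonneg_right h1 hD0.le
  rw [add_mul] at h3
  linarith

end Crest.Agent.R109
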