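import Crest.Agent.R109.BarrierPoly
import Crest.Agent.R109.BarrierCore

/-! Row 109, finite part: the barrier theorem (see `BarrierPoly` for the notation). -/

set_option autoImplicit false

open scoped ComplexConjugate
open Polynomial

namespace Crest.Agent.R109

variable {α : Type*} [DecidableEq α] {𝒦 : Type*} [Fintype 𝒦] [DecidableEq 𝒦]

theorem barrier_coeff_real {f : ℂ[X]} (h : ∀ τ, conj (f.eval τ) = f.eval (conj τ)) (n : ℕ) :
    (f.coeff n).im = 0 := by
  have h1 : f.map (starRingEnd ℂ) = f := Polynomial.funext fun τ => by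
    have h2 := Polynomial.eval₂_at_apply (p := f) (starRingEnd ℂ) (conj τ)
    rw [Complex.conj_conj] at h2
    rw [Polynomial.eval_map, h2, h, Complex.conj_conj]
  have h2 := congrArg (fun p => p.coeff n) h1
  simp only [Polynomial.coeff_map] at h2
  exact Complex.conj_eq_iff_im.1 h2

theorem barrier_tendsto (y : 𝒦 → α → α → ℂ) (π : α → 𝒦 → ℝ) (U : Finset α) {Z : ℝ → α → ℂ}
    (hZ : Continuous Z) :
    Filter.Tendsto (fun ε => pH y π U (Z ε) 1) (nhdsWithin 0 (Set.Ioi 0))
      (nhds (pH y π U (Z 0) 1)) :=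
  (((pH_continuous y π U).comp (hZ.prodMk continuous_const)).tendsto 0).mono_left
    nhdsWithin_le_nhds

theorem barrier_ratio_im {y : 𝒦 → α → α → ℂ} (hy : Herm y) {U : Finset α} {π : α → 𝒦 → ℝ}
    (hπ : SubP π) {v : α} (hv : v ∈ U) (Z : α → ℂ) (hZ : ∀ u ∈ U, 0 < (Z u).im) :
    (pH y π (U.erase v) Z 1 / pH y π U Z 1).im ≤ 0 := by
  have h1 := nH_im hy hπ hv 1 Z fun u hu => hZ u (Finset.mem_of_mem_erase hu)
  have h2 := pH_ne_zero_of_im hy (U.erase v) hπ 1 Z fun u hu => hZ u (Finset.mem_of_mem_erase hu)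
  rw [Complex.ofReal_one] at h1 h2
  set S := -nH y π U v Z 1 / pH y π (U.erase v) Z 1 with hS
  have h3 : pH y π U Z 1 = (Z v - S) * pH y π (U.erase v) Z 1 := by
    rw [pH_erase y π hv, hS]
    field_simp
    ring
  have h4 : 0 < (Z v - S).im := by
    rw [Complex.sub_im]
    linarith [hZ v hv]
  rw [h3, div_mul_cancel_right₀ h2, Complex.inv_im]
  exact div_nonpos_of_nonpos_of_nonneg (by linarith) (Complex.normSq_nonneg _)

theorem barrier_ratio_lim {y : 𝒦 → α → α → ℂ} (hy : Herm y) {U : Finset α} {π : α → 𝒦 → ℝ}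
    (hπ : SubP π) {v : α} (hv : v ∈ U) (Z : α → ℂ) (hZ : ∀ u ∈ U, 0 ≤ (Z u).im)
    (h0 : pH y π U Z 1 ≠ 0) : (pH y π (U.erase v) Z 1 / pH y π U Z 1).im ≤ 0 := by
  have hc : Continuous fun (ε : ℝ) (u : α) => Z u + ε * Complex.I := by fun_prop
  have h1 := barrier_tendsto y π U hc
  have h2 := barrier_tendsto y π (U.erase v) hc
  simp only [Complex.ofReal_zero, zero_mul, add_zero] at h1 h2
  refine le_of_tendsto ((Complex.continuous_im.tendsto _).comp (h2.div h1 h0)) ?_
  filter_upwards [self_mem_nhdsWithin] with ε hε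
  refine barrier_ratio_im hy hπ hv _ fun u hu => ?_
  have := hZ u hu
  have h3 : (0 : ℝ) < ε := hε
  simp only [Complex.add_im, Complex.mul_im, Complex.ofReal_re, Complex.I_im, Complex.ofReal_im,
    Complex.I_re]
  linarith

omit [DecidableEq α] [DecidableEq 𝒦] in
theorem barrier_mem_inl {V R : Finset α} {v : α} : Sum.inl v ∈ Wext 𝒦 V R ↔ v ∈ V := by
  simp [Wext]

omit [DecidableEq α] [DecidableEq 𝒦] in
theorem barrier_mem_inr {V R : Finset α} {s : α} {k : 𝒦} :
    Sum.inr (s, k) ∈ Wext 𝒦 V R ↔ s ∈ R := by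
  simp [Wext]

theorem barrier_insert_left (V R : Finset α) (s : α) :
    Wext 𝒦 (insert s V) R = insert (Sum.inl s) (Wext 𝒦 V R) := by
  ext (a | ⟨a, k⟩) <;> simp [barrier_mem_inl, barrier_mem_inr]

theorem barrier_insert_right (V R : Finset α) (s : α) :
    Wext 𝒦 V (insert s R) = Wext 𝒦 V R ∪ Wext 𝒦 ∅ {s} := by
  ext (a | ⟨a, k⟩) <;> simp [barrier_mem_inl, barrier_mem_inr, or_comm]

theorem barrier_conj {y : 𝒦 → α → α → ℂ} (hy : Herm y) (π : α → 𝒦 → ℝ) (U D : Finset α)
    (Z : α → ℝ) (τ : ℂ) :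
    conj (pH y π U (fun a => if a ∈ D then τ else Z a) 1) =
      pH y π U (fun a => if a ∈ D then conj τ else Z a) 1 := by
  rw [pH_conj hy, map_one]
  congr 1
  funext a
  split_ifs <;> simp

/-- One step.  Fix a point `Z` of the new orthant, `W₀ = W V R`.  Let `f` come from
`copies_poly` for `W₀`, and `g = ∑_k g_k` from `copies_poly` for `W₀.erase (inr (s', k))`.  Real
coefficients: `f (conj τ) = conj (f τ)` (`pH_conj`).  `Q > 0` by `BInv V R`; positivity on `[b, ∞)`,
the derivative bound and the bound for `g(b)` by `BInv V (insert s R)`.  No roots in the upper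
half-plane: perturb `Z` to `Z + ε I` (`pH_ne_zero_of_im`, `eval_ne_zero_of_tendsto`,
`pH_continuous`); `im (g_k / f) ≤ 0` in the limit from `f_ε = (Z a - S) g_{k,ε}`, `im (Z a - S) > 0`
(`nH_im`).  Apply `barrier_core`. -/
theorem binv_step {y : 𝒦 → α → α → ℂ} (hy : Herm y) (hm : 4 ≤ Fintype.card 𝒦)
    {V R : Finset α} {s : α} (hsV : s ∉ V) (hsR : s ∉ R) (h0 : BInv y V R)
    (h1 : BInv y V (insert s R)) : BInv y (insert s V) R := by
    intro Z hZ1 hZ2
    have hy' := herm_yext hy
    have hπ : SubP (πext α 𝒦) := subP_πext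
    have hm1 : 1 ≤ Fintype.card 𝒦 := by omega
    set D := Wext 𝒦 ∅ ({s} : Finset α) with hD
    set W := Wext 𝒦 V R with hW
    have hW1 : Sum.inl s ∉ W := fun h => hsV (barrier_mem_inl.1 h)
    have hW2 : ∀ k, Sum.inr (s, k) ∉ W := fun k h => hsR (barrier_mem_inr.1 h)
    obtain ⟨f, hfd, hfQ, hfe, hfder, hfi⟩ := copies_poly y hm1 s W hW1 hW2 fun a => (Z a : ℂ)
    rw [← hD] at hfe hfder
    have hQ : 0 < (f.coeff (Fintype.card 𝒦)).re := by
      rw [hfQ]
      exact (h0 Z (fun v hv => hZ1 v (Finset.mem_insert_of_mem hv)) hZ2).1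
    have hQ0 : f.coeff (Fintype.card 𝒦) ≠ 0 := fun h => by simp [h] at hQ
    have hfc : ∀ τ, conj (f.eval τ) = f.eval (conj τ) := fun τ => by
      rw [hfe, hfe, barrier_conj hy']
    -- the invariant for the larger system
    have hb : ∀ t : ℝ, √(Fintype.card 𝒦 : ℝ) ≤ t → 0 < (f.eval (t : ℂ)).re ∧
        ∀ s' ∈ insert s R, ∑ k, (pH (yext y) (πext α 𝒦) ((W ∪ D).erase (Sum.inr (s', k)))
            (fun a => if a ∈ D then (t : ℂ) else Z a) 1).re ≤
          Fintype.card 𝒦 / (√(Fintype.card 𝒦 : ℝ) - 1 / (√(Fintype.card 𝒦 : ℝ) - 1)) *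
            (f.eval (t : ℂ)).re := by
      intro t ht
      have h := h1 (fun a => if a ∈ D then t else Z a)
        (fun v hv => by
          rw [if_neg fun h => by simpa using barrier_mem_inl.1 h]
          exact hZ1 v (Finset.mem_insert_of_mem hv))
        (fun s' hs' k => by
          split_ifs with h
          · exact ht
          · refine hZ2 s' ((Finset.mem_insert.1 hs').resolve_left fun e => h ?_) k
            exact barrier_mem_inr.2 (Finset.mem_singleton.2 e))
      rw [barrier_insert_right] at h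
      simp only [apply_ite Complex.ofReal] at h
      rw [hfe]
      exact h
    -- no roots in the upper half-plane
    have hup : ∀ τ : ℂ, 0 < τ.im → f.eval τ ≠ 0 := by
      intro τ hτ
      choose F hFd hFQ hFe _ _ using fun ε : ℝ =>
        copies_poly y hm1 s W hW1 hW2 fun a => (Z a : ℂ) + ε * Complex.I
      refine eval_ne_zero_of_tendsto (l := nhdsWithin (0 : ℝ) (Set.Ioi 0)) hFd ?_ ?_ hQ0 hτ ?_
      · filter_upwards [self_mem_nhdsWithin] with ε hε σ hσ
        rw [hFe]
        have h := pH_ne_zero_of_im hy' (W ∪ D) hπ 1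
          (fun a => if a ∈ D then σ else (Z a : ℂ) + ε * Complex.I) fun u _ => by
            split_ifs
            · exact hσ
            · simpa using hε
        rwa [Complex.ofReal_one] at h
      · have h := barrier_tendsto (yext y) (πext α 𝒦) W
          (Z := fun (ε : ℝ) a => (Z a : ℂ) + ε * Complex.I) (by fun_prop)
        simp only [Complex.ofReal_zero, zero_mul, add_zero] at h
        simpa only [hFQ, hfQ] using h
      · have h := barrier_tendsto (yext y) (πext α 𝒦) (W ∪ D)
          (Z := fun (ε : ℝ) a => if a ∈ D then τ else (Z a : ℂ) + ε * Complex.I)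
          (continuous_pi fun a => by split_ifs <;> fun_prop)
        simp only [Complex.ofReal_zero, zero_mul, add_zero] at h
        simpa only [hFe, hfe] using h
    have hr : ∀ σ, f.IsRoot σ → σ.im = 0 := by
      intro σ hσ
      rcases lt_trichotomy σ.im 0 with h | h | h
      · refine absurd ?_ (hup (conj σ) (by simpa using h))
        rw [← hfc, hσ.eq_zero, map_zero]
      · exact h
      · exact absurd hσ (hup σ h)
    obtain ⟨hc1, hc2⟩ := barrier_core hm (natDegree_eq_of_le_of_coeff_ne_zero hfd hQ0) hQ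
      (barrier_coeff_real hfc) hr (fun t ht => (hb t ht).1)
      (by
        rw [hfder, Complex.re_sum]
        exact (hb _ le_rfl).2 s (Finset.mem_insert_self _ _))
      (hZ1 s (Finset.mem_insert_self _ _))
    have hre : ∀ p : ℂ[X], (p.coeff (Fintype.card 𝒦) * (Z (Sum.inl s) : ℂ) +
        p.coeff (Fintype.card 𝒦 - 1) / Fintype.card 𝒦).re =
        (p.coeff (Fintype.card 𝒦)).re * Z (Sum.inl s) +
          (p.coeff (Fintype.card 𝒦 - 1)).re / Fintype.card 𝒦 := fun p => by
      rw [Complex.add_re, Complex.re_mul_ofReal, Complex.div_natCast_re]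
    rw [barrier_insert_left, ← hW, hfi, hre]
    refine ⟨hc1, fun s' hs' => ?_⟩
    choose g hgd _ hge _ hgi using fun k : 𝒦 =>
      copies_poly y hm1 s (W.erase (Sum.inr (s', k))) (fun h => hW1 (Finset.mem_of_mem_erase h))
        (fun k h => hW2 k (Finset.mem_of_mem_erase h)) fun a => (Z a : ℂ)
    have hnD : ∀ k, Sum.inr (s', k) ∉ D := fun k h =>
      hsR (Finset.mem_singleton.1 (barrier_mem_inr.1 h) ▸ hs')
    have hge' : ∀ k τ, (g k).eval τ = pH (yext y) (πext α 𝒦) ((W ∪ D).erase (Sum.inr (s', k)))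
        (fun a => if a ∈ D then τ else Z a) 1 := fun k τ => by
      rw [hge, Finset.erase_union_distrib, Finset.erase_eq_of_notMem (hnD k)]
    have h := hc2 (∑ k, g k) _ (natDegree_sum_le_of_forall_le _ _ fun k _ => hgd k)
      (barrier_coeff_real fun τ => by
        simp only [eval_finsetSum, map_sum, hge', barrier_conj hy'])
      (fun τ hτ => by
        rw [eval_finsetSum, Finset.sum_div, Complex.im_sum]
        refine Finset.sum_nonpos fun k _ => ?_
        have h2 := hup τ hτ
        rw [hge', hfe]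
        rw [hfe] at h2
        refine barrier_ratio_lim hy' hπ (Finset.mem_union_left _ (barrier_mem_inr.2 hs')) _
          (fun u _ => ?_) h2
        split_ifs
        · exact hτ.le
        · simp)
      (by
        rw [eval_finsetSum, Complex.re_sum]
        simp only [hge']
        exact (hb _ le_rfl).2 s' (Finset.mem_insert_of_mem hs'))
    refine le_trans (le_of_eq ?_) h
    simp only [finsetSum_coeff, Complex.re_sum, Finset.sum_mul, Finset.sum_div,
      ← Finset.sum_add_distrib]
    refine Finset.sum_congr rfl fun k _ => ?_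
    rw [← hre, ← hgi, Finset.erase_insert_of_ne (by simp)]

/-- Induction on `V` for all `R` disjoint from `V`; at the end `R = ∅` and `pH_map` along `inl`. -/
theorem barrier {y : 𝒦 → α → α → ℂ} (hy : Herm y) (hm : 4 ≤ Fintype.card 𝒦) {U : Finset α}
    (hb : ∀ k, Bnd 1 (y k) U) (Z : α → ℝ) (hZ : ∀ u ∈ U, 4 / √(Fintype.card 𝒦 : ℝ) ≤ Z u) :
    0 < (pH y (fun _ _ => (Fintype.card 𝒦 : ℝ)⁻¹) U (fun u => Z u) 1).re := by
    have key : ∀ V R : Finset α, Disjoint V R → V ⊆ U → R ⊆ U → BInv y V R := by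
      intro V
      induction V using Finset.induction_on with
      | empty => exact fun R _ _ hR => binv_init hy hm fun k => (hb k).mono hR
      | insert s V hs ih =>
        intro R hd hV hR
        rw [Finset.disjoint_insert_left] at hd
        rw [Finset.insert_subset_iff] at hV
        exact binv_step hy hm hs hd.1 (ih R hd.2 hV.2 hR)
          (ih _ (Finset.disjoint_insert_right.2 ⟨hs, hd.2⟩) hV.2
            (Finset.insert_subset_iff.2 ⟨hV.1, hR⟩))
    have h := (key U ∅ (Finset.disjoint_empty_right _) subset_rfl (Finset.empty_subset _)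
      (Sum.elim Z 0) hZ (by simp)).1
    have e : Wext 𝒦 U ∅ = U.image Sum.inl := by
      ext (a | ⟨a, k⟩) <;> simp [barrier_mem_inl, barrier_mem_inr]
    rw [e, pH_map Sum.inl U Sum.inl_injective.injOn _ _ y (fun _ _ => (Fintype.card 𝒦 : ℝ)⁻¹)
      (fun _ _ _ => rfl) (fun _ _ _ _ _ _ _ => by simp [yext, alw])] at h
    exact h

end Crest.Agent.R109
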