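import Crest.Agent.R109.Region

/-!
Row 109, finite part: the barrier argument (after Marcus-Spielman-Srivastava and
Leake-Ravichandran) for the uniform distribution on `m ≥ 4` classes.

Extended system: vertices `α ⊕ α × 𝒦`; `inl v` is a uniform vertex, `inr (s, k)` is a copy of `s`
that always has class `k`.  For disjoint `V R ⊆ U` let `W V R = inl '' V ∪ inr '' (R ×ˢ univ)`.
Let `b = √m`, `s₀ = 1 / (b - 1)`, `z₀ = 4 / √m`.  Invariant `BInv V R`: at every real point `Z`
with `Z (inl v) ≥ z₀`, `Z (inr _) ≥ b`: `p = pH (W V R) > 0` and, for all `s ∈ R`,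
`∑_k pH (W V R \ inr (s, k)) ≤ m / (b - s₀) * p`.
-/

set_option autoImplicit false

open scoped ComplexConjugate
open Polynomial

namespace Crest.Agent.R109

variable {α : Type*} [DecidableEq α] {𝒦 : Type*} [Fintype 𝒦] [DecidableEq 𝒦]

/-- Which extended vertices can have class `k`. -/
def alw (k : 𝒦) : α ⊕ α × 𝒦 → Bool
  | Sum.inl _ => true
  | Sum.inr p => decide (p.2 = k)

/-- The matrices of the extended system. -/
def yext (y : 𝒦 → α → α → ℂ) (k : 𝒦) : α ⊕ α × 𝒦 → α ⊕ α × 𝒦 → ℂ := fun a b =>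
  if alw k a = true ∧ alw k b = true then y k (a.elim id Prod.fst) (b.elim id Prod.fst) else 0

/-- The probabilities of the extended system. -/
noncomputable def πext (α 𝒦 : Type*) [Fintype 𝒦] [DecidableEq 𝒦] : α ⊕ α × 𝒦 → 𝒦 → ℝ :=
  fun a k => a.elim (fun _ => (Fintype.card 𝒦 : ℝ)⁻¹) (fun p => if k = p.2 then 1 else 0)

/-- The vertex set of the extended system. -/
def Wext (𝒦 : Type*) [Fintype 𝒦] (V R : Finset α) : Finset (α ⊕ α × 𝒦) :=
  V.disjSum (R ×ˢ Finset.univ)

/-- The invariant. -/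
def BInv (y : 𝒦 → α → α → ℂ) (V R : Finset α) : Prop :=
  ∀ Z : α ⊕ α × 𝒦 → ℝ, (∀ v ∈ V, 4 / √(Fintype.card 𝒦 : ℝ) ≤ Z (Sum.inl v)) →
    (∀ s ∈ R, ∀ k, √(Fintype.card 𝒦 : ℝ) ≤ Z (Sum.inr (s, k))) →
    0 < (pH (yext y) (πext α 𝒦) (Wext 𝒦 V R) (fun a => Z a) 1).re ∧
      ∀ s ∈ R, ∑ k, (pH (yext y) (πext α 𝒦) ((Wext 𝒦 V R).erase (Sum.inr (s, k)))
          (fun a => Z a) 1).re ≤
        Fintype.card 𝒦 / (√(Fintype.card 𝒦 : ℝ) - 1 / (√(Fintype.card 𝒦 : ℝ) - 1)) *
          (pH (yext y) (πext α 𝒦) (Wext 𝒦 V R) (fun a => Z a) 1).re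

theorem herm_yext {y : 𝒦 → α → α → ℂ} (hy : Herm y) : Herm (yext y) := by
  refine ⟨fun k a b => ?_, fun k a => ?_⟩
  · unfold yext
    by_cases h : alw k a = true ∧ alw k b = true
    · rw [if_pos h, if_pos h.symm, hy.symm]
    · rw [if_neg h, if_neg (fun h' => h h'.symm), map_zero]
  · unfold yext
    rw [hy.diag, ite_self]

theorem subP_πext : SubP (πext α 𝒦) := by
  rintro (v | p)
  · refine ⟨fun k => ?_, ?_⟩
    · simp [πext]
    · simp only [πext, Sum.elim_inl, Finset.sum_const, Finset.card_univ, nsmul_eq_mul]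
      exact mul_inv_le_one
  · refine ⟨fun k => ?_, ?_⟩
    · simp only [πext, Sum.elim_inr]
      split_ifs <;> norm_num
    · simp [πext]

omit [DecidableEq α] [DecidableEq 𝒦] in
theorem barrierpoly_mem {V R : Finset α} {a : α ⊕ α × 𝒦} :
    a ∈ Wext 𝒦 V R ↔ (∃ v ∈ V, a = Sum.inl v) ∨ ∃ s ∈ R, ∃ k, a = Sum.inr (s, k) := by
  rcases a with v | ⟨s, k⟩ <;> simp [Wext]

theorem barrierpoly_sum {M : Type*} [AddCommMonoid M] {V R : Finset α} (hd : Disjoint V R)
    (k : 𝒦) (F : α ⊕ α × 𝒦 → M) :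
    ∑ a ∈ Wext 𝒦 V R, (if alw k a = true then F a else 0) =
      ∑ u ∈ V ∪ R, F (if u ∈ V then Sum.inl u else Sum.inr (u, k)) := by
  rw [Wext, Finset.sum_disjSum, Finset.sum_union hd, Finset.sum_product]
  congr 1
  · refine Finset.sum_congr rfl fun v hv => ?_
    simp [alw, hv]
  · refine Finset.sum_congr rfl fun s hs => ?_
    simp [alw, Finset.disjoint_right.1 hd hs]

/-- In class `k` the relevant vertices project injectively to `V ∪ R`. -/
theorem bnd_yext {y : 𝒦 → α → α → ℂ} {V R : Finset α} (hd : Disjoint V R)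
    (hb : ∀ k, Bnd 1 (y k) (V ∪ R)) (k : 𝒦) : Bnd 1 (yext y k) (Wext 𝒦 V R) := by
  intro ξ
  set g : α → α ⊕ α × 𝒦 := fun u => if u ∈ V then Sum.inl u else Sum.inr (u, k) with hg
  have hp : ∀ u, (g u).elim id Prod.fst = u := fun u => by
    simp only [hg]
    split_ifs <;> rfl
  have h1 : ∀ a, ‖∑ b ∈ Wext 𝒦 V R, yext y k a b * ξ b‖ ^ 2 = if alw k a = true then
      ‖∑ u ∈ V ∪ R, y k (a.elim id Prod.fst) u * ξ (g u)‖ ^ 2 else 0 := by
    intro a
    by_cases ha : alw k a = true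
    · rw [if_pos ha]
      have := barrierpoly_sum hd k fun b => y k (a.elim id Prod.fst) (b.elim id Prod.fst) * ξ b
      simp only [show ∀ u, (if u ∈ V then Sum.inl u else Sum.inr (u, k) : α ⊕ α × 𝒦) = g u from
        fun _ => rfl, hp] at this
      rw [← this]
      congr 2
      refine Finset.sum_congr rfl fun b _ => ?_
      simp [yext, ha]
    · simp [yext, ha]
  simp only [h1]
  rw [barrierpoly_sum hd k]
  simp only [show ∀ u, (if u ∈ V then Sum.inl u else Sum.inr (u, k) : α ⊕ α × 𝒦) = g u from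
    fun _ => rfl, hp]
  refine (hb k fun u => ξ (g u)).trans ?_
  rw [one_pow, one_mul, one_mul, ← barrierpoly_sum hd k fun b => ‖ξ b‖ ^ 2]
  refine Finset.sum_le_sum fun a _ => ?_
  split_ifs
  · exact le_rfl
  · positivity

theorem barrierpoly_step {β : Type*} [DecidableEq β] {y : 𝒦 → β → β → ℂ} (hy : Herm y)
    {π : β → 𝒦 → ℝ} (hπ : SubP π) {W : Finset β} (hb : ∀ k, Bnd 1 (y k) W) {b : ℝ} (hb1 : 1 < b)
    (Z : β → ℝ) (hZ : ∀ a ∈ W, b ≤ Z a) {a : β} (ha : a ∈ W)
    (hP : 0 < (pH y π (W.erase a) (fun u => Z u) 1).re) :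
    (b - 1 / (b - 1)) * (pH y π (W.erase a) (fun u => Z u) 1).re ≤
      (pH y π W (fun u => Z u) 1).re := by
  have h0 : 0 < b - 1 := sub_pos.2 hb1
  have h1 := nH_norm_le hy hb hπ ha 1 1 norm_one (fun u => (Z u : ℂ)) (fun _ => b - 1)
    (fun _ => h0) (fun u hu => by
      have := hZ u (Finset.mem_of_mem_erase hu)
      simp only [mul_one, Complex.one_re, abs_one, one_mul, Complex.ofReal_re]
      linarith) (ρ := 1 / (b - 1)) (fun k => by
      rw [← Finset.sum_div]
      refine div_le_div_of_nonneg_right (le_trans ?_ ((hb k).col ha)) h0.le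
      exact Finset.sum_le_sum_of_subset_of_nonneg (Finset.erase_subset _ _)
        fun _ _ _ => by positivity) (by positivity)
  have h2 : (pH y π (W.erase a) (fun u => Z u) 1).im = 0 := by
    rw [← Complex.conj_eq_iff_im, pH_conj hy]
    simp
  have h3 : ‖pH y π (W.erase a) (fun u => Z u) 1‖ = (pH y π (W.erase a) (fun u => Z u) 1).re := by
    rw [← Complex.abs_re_eq_norm.2 h2, abs_of_pos hP]
  rw [h3, norm_one, one_pow, one_mul] at h1
  have h4 := (abs_le.1 ((Complex.abs_re_le_norm _).trans h1)).1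
  rw [pH_erase y π ha, Complex.add_re, Complex.re_ofReal_mul]
  have h5 := mul_le_mul_of_nonneg_right (hZ a ha) hP.le
  linarith

/-- For every subset `W' ⊆ W ∅ R` and `a ∈ W'`: `pH W' = Z a * pH (W'.erase a) + nH` with
`‖nH‖ ≤ ‖pH (W'.erase a)‖ / (b - 1)` (`nH_norm_le`, `e = κ = 1`, `h = b - 1`, `Bnd.col`); all values
are real (`pH_conj`); positivity by induction on `W'`, and `pH W' ≥ (b - s₀) pH (W'.erase a)`. -/
theorem binv_init {y : 𝒦 → α → α → ℂ} (hy : Herm y) (hm : 4 ≤ Fintype.card 𝒦) {R : Finset α}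
    (hb : ∀ k, Bnd 1 (y k) R) : BInv y ∅ R := by
  intro Z _ hZ
  set b := √(Fintype.card 𝒦 : ℝ) with hbdef
  have hb2 : 2 ≤ b := Real.le_sqrt_of_sq_le (by exact_mod_cast (show 2 ^ 2 ≤ _ from hm))
  have hs : 0 < b - 1 / (b - 1) := by
    have : 1 / (b - 1) ≤ 1 := (div_le_one (by linarith)).2 (by linarith)
    linarith
  have hbW : ∀ k, Bnd 1 (yext y k) (Wext 𝒦 ∅ R) :=
    bnd_yext (Finset.disjoint_empty_left R) (by simpa using hb)
  have hZW : ∀ a ∈ Wext 𝒦 ∅ R, b ≤ Z a := by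
    intro a ha
    rcases barrierpoly_mem.1 ha with ⟨v, hv, -⟩ | ⟨s, hs, k, rfl⟩
    · simp at hv
    · exact hZ s hs k
  have hstep : ∀ W ⊆ Wext 𝒦 ∅ R, ∀ a ∈ W,
      0 < (pH (yext y) (πext α 𝒦) (W.erase a) (fun u => Z u) 1).re →
      (b - 1 / (b - 1)) * (pH (yext y) (πext α 𝒦) (W.erase a) (fun u => Z u) 1).re ≤
        (pH (yext y) (πext α 𝒦) W (fun u => Z u) 1).re := fun W hW a ha hP =>
    barrierpoly_step (herm_yext hy) subP_πext (fun k => (hbW k).mono hW) (by linarith) Z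
      (fun u hu => hZW u (hW hu)) ha hP
  have hpos : ∀ W ⊆ Wext 𝒦 ∅ R, 0 < (pH (yext y) (πext α 𝒦) W (fun u => Z u) 1).re := by
    intro W
    induction W using Finset.induction_on with
    | empty => intro _; simp [pH_empty]
    | insert a W ha ih =>
      intro hW
      have h1 := ih ((Finset.subset_insert a W).trans hW)
      have h2 := hstep _ hW a (Finset.mem_insert_self a W)
      rw [Finset.erase_insert ha] at h2
      exact (mul_pos hs h1).trans_le (h2 h1)
  refine ⟨hpos _ le_rfl, fun s hs' => ?_⟩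
  rw [div_mul_eq_mul_div, le_div_iff₀ hs, Finset.sum_mul, ← nsmul_eq_mul, ← Finset.card_univ]
  refine Finset.sum_le_card_nsmul _ _ _ fun k _ => ?_
  rw [mul_comm]
  exact hstep _ le_rfl _ (barrierpoly_mem.2 (Or.inr ⟨s, hs', k, rfl⟩))
    (hpos _ (Finset.erase_subset _ _))

/-- The coefficient of `∏_{D \ S} Z` in `pH (W₀ ∪ D)`. -/
noncomputable def barrierpolyA {β : Type*} [DecidableEq β] (y : 𝒦 → β → β → ℂ) (π : β → 𝒦 → ℝ)
    (W₀ : Finset β) (Z : β → ℂ) (S : Finset β) : ℂ :=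
  ∑ T ∈ W₀.powerset, cT y π (T ∪ S) * ∏ u ∈ W₀ \ T, Z u

theorem barrierpoly_split {β : Type*} [DecidableEq β] (y : 𝒦 → β → β → ℂ) (π : β → 𝒦 → ℝ)
    {W₀ D : Finset β} (hd : Disjoint W₀ D) (Z Z' : β → ℂ) (hZ : ∀ u ∈ W₀, Z' u = Z u) :
    pH y π (W₀ ∪ D) Z' 1 = ∑ S ∈ D.powerset, barrierpolyA y π W₀ Z S * ∏ u ∈ D \ S, Z' u := by
  have hd' := Finset.disjoint_left.1 hd
  simp only [barrierpolyA, Finset.sum_mul]
  rw [← Finset.sum_product', pH]
  symm
  refine Finset.sum_nbij' (fun p => p.2 ∪ p.1) (fun T => (T ∩ D, T ∩ W₀)) ?_ ?_ ?_ ?_ ?_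
  · rintro ⟨S, T⟩ h
    simp only [Finset.mem_product, Finset.mem_powerset] at h ⊢
    exact Finset.union_subset_union h.2 h.1
  · intro T _
    simp [Finset.mem_product]
  · rintro ⟨S, T⟩ h
    simp only [Finset.mem_product, Finset.mem_powerset] at h
    have h1 := @h.1
    have h2 := @h.2
    refine Prod.ext ?_ ?_ <;> ext u <;> simp only [Finset.mem_inter, Finset.mem_union] <;> grind
  · intro T h
    simp only [Finset.mem_powerset] at h
    have h1 := @h
    ext u
    simp only [Finset.mem_inter, Finset.mem_union] at h1 ⊢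
    grind
  · rintro ⟨S, T⟩ h
    simp only [Finset.mem_product, Finset.mem_powerset] at h
    have h1 := @h.1
    have h2 := @h.2
    have e : (W₀ ∪ D) \ (T ∪ S) = (W₀ \ T) ∪ (D \ S) := by
      ext u
      simp only [Finset.mem_sdiff, Finset.mem_union]
      grind
    simp only [one_pow, mul_one]
    rw [e, Finset.prod_union (hd.mono Finset.sdiff_subset Finset.sdiff_subset), mul_assoc]
    congr 2
    exact Finset.prod_congr rfl fun u hu => (hZ u (Finset.mem_sdiff.1 hu).1).symm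

theorem barrierpoly_empty {β : Type*} [DecidableEq β] (y : 𝒦 → β → β → ℂ) (π : β → 𝒦 → ℝ)
    (W₀ : Finset β) (Z : β → ℂ) : barrierpolyA y π W₀ Z ∅ = pH y π W₀ Z 1 := by
  simp [barrierpolyA, pH]

theorem barrierpoly_cT (y : 𝒦 → α → α → ℂ) (s : α) (T : Finset (α ⊕ α × 𝒦))
    (h1 : Sum.inl s ∉ T) (h2 : ∀ k, Sum.inr (s, k) ∉ T) :
    cT (yext y) (πext α 𝒦) (T ∪ {Sum.inl s}) =
      ∑ k, cT (yext y) (πext α 𝒦) (T ∪ {Sum.inr (s, k)}) / Fintype.card 𝒦 := by
  rw [cT_linear (v := Sum.inl s) _ _ _ (by simp)]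
  refine Finset.sum_congr rfl fun k _ => ?_
  rw [div_eq_inv_mul]
  congr 1
  · simp [πext]
  set e : α ⊕ α × 𝒦 → α ⊕ α × 𝒦 := fun a => if a = Sum.inl s then Sum.inr (s, k) else a with he
  have e1 : e (Sum.inl s) = Sum.inr (s, k) := if_pos rfl
  have e2 : ∀ a ∈ T, e a = a := fun a ha =>
    if_neg (fun h : a = Sum.inl s => h1 (h ▸ ha))
  have e3 : (T ∪ {Sum.inl s}).image e = T ∪ {Sum.inr (s, k)} := by
    rw [Finset.image_union, Finset.image_singleton, e1, Finset.image_congr (g := id) e2,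
      Finset.image_id]
  have e4 : ∀ a ∈ T ∪ {Sum.inl s}, a ∈ T ∨ a = Sum.inl s := fun a ha => by simpa [or_comm] using ha
  have e5 : ∀ a, (e a).elim id Prod.fst = a.elim id Prod.fst := fun a => by
    simp only [he]
    split_ifs with h
    · rw [h]; rfl
    · rfl
  have e6 : ∀ k', ∀ a ∈ T ∪ {Sum.inl s},
      Function.update (πext α 𝒦) (Sum.inl s) (Pi.single k 1) a k' ≠ 0 → alw k' (e a) = alw k' a := by
    intro k' a ha h
    rcases e4 a ha with ha | rfl
    · rw [e2 a ha]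
    · rw [Function.update_self] at h
      have : k' = k := by
        by_contra hne
        exact h (Pi.single_eq_of_ne hne _)
      rw [e1, this]
      simp [alw]
  rw [← e3]
  symm
  refine cT_map e _ ?_ _ _ _ _ ?_ ?_
  · intro a ha b hb hab
    rcases e4 a ha with ha | rfl <;> rcases e4 b hb with hb | rfl
    · rwa [e2 a ha, e2 b hb] at hab
    · rw [e2 a ha, e1] at hab
      exact absurd (hab ▸ ha) (h2 k)
    · rw [e2 b hb, e1] at hab
      exact absurd (hab ▸ hb) (h2 k)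
    · rfl
  · intro a ha k'
    rcases e4 a ha with ha | rfl
    · rw [e2 a ha, Function.update_of_ne (fun h : a = Sum.inl s => h1 (h ▸ ha))]
    · rw [e1, Function.update_self, Pi.single_apply]
      rfl
  · intro k' a ha b hb h3 h4
    unfold yext
    rw [e5, e5, e6 k' a ha h3, e6 k' b hb h4]

/-- Substituting a common variable for the copies of `s`.  For `W₀` containing neither `inl s`
nor a copy of `s`, let `D = inr '' ({s} ×ˢ univ)` and
`f = ∑_{T ⊆ W₀ ∪ D} C (cT T * ∏_{W₀ \ T} Z) * X^(m - |T ∩ D|)`.  The top coefficient is `pH W₀`; the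
next one is `∑_k nH (insert (inr (s,k)) W₀) (inr (s,k))`, and this equals
`m * nH (insert (inl s) W₀) (inl s)` by `nH_linear` and `cT_map` along
`Equiv.swap (inl s) (inr (s,k))`.  The derivative is the sum of the partial derivatives. -/
theorem copies_poly (y : 𝒦 → α → α → ℂ) (hm : 1 ≤ Fintype.card 𝒦) (s : α)
    (W₀ : Finset (α ⊕ α × 𝒦)) (h1 : Sum.inl s ∉ W₀) (h2 : ∀ k, Sum.inr (s, k) ∉ W₀)
    (Z : α ⊕ α × 𝒦 → ℂ) :
    ∃ f : ℂ[X], f.natDegree ≤ Fintype.card 𝒦 ∧
      f.coeff (Fintype.card 𝒦) = pH (yext y) (πext α 𝒦) W₀ Z 1 ∧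
      (∀ τ, f.eval τ = pH (yext y) (πext α 𝒦) (W₀ ∪ Wext 𝒦 ∅ {s})
        (fun a => if a ∈ Wext 𝒦 ∅ {s} then τ else Z a) 1) ∧
      (∀ τ, f.derivative.eval τ = ∑ k, pH (yext y) (πext α 𝒦)
        ((W₀ ∪ Wext 𝒦 ∅ {s}).erase (Sum.inr (s, k)))
        (fun a => if a ∈ Wext 𝒦 ∅ {s} then τ else Z a) 1) ∧
      pH (yext y) (πext α 𝒦) (insert (Sum.inl s) W₀) Z 1 =
        f.coeff (Fintype.card 𝒦) * Z (Sum.inl s) +
          f.coeff (Fintype.card 𝒦 - 1) / Fintype.card 𝒦 := by
  set D : Finset (α ⊕ α × 𝒦) := Wext 𝒦 ∅ {s} with hD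
  have hmem : ∀ a, a ∈ D ↔ ∃ k, a = Sum.inr (s, k) := fun a => by
    rw [hD, barrierpoly_mem]
    simp
  have hsum : ∀ F : α ⊕ α × 𝒦 → ℂ, ∑ a ∈ D, F a = ∑ k, F (Sum.inr (s, k)) := fun F => by
    rw [hD, Wext, Finset.sum_disjSum, Finset.sum_product]
    simp
  have hcard : D.card = Fintype.card 𝒦 := by simp [hD, Wext]
  have hd : Disjoint W₀ D := Finset.disjoint_left.2 fun a ha ha' => by
    obtain ⟨k, rfl⟩ := (hmem a).1 ha'
    exact h2 k ha
  set A := barrierpolyA (yext y) (πext α 𝒦) W₀ Z with hA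
  have hev : ∀ τ, ∀ D' ⊆ D, pH (yext y) (πext α 𝒦) (W₀ ∪ D') (fun a => if a ∈ D then τ else Z a) 1
      = ∑ S ∈ D'.powerset, A S * τ ^ (D' \ S).card := by
    intro τ D' hD'
    rw [barrierpoly_split _ _ (hd.mono_right hD') Z _
      (fun u hu => if_neg (Finset.disjoint_left.1 hd hu))]
    refine Finset.sum_congr rfl fun S _ => ?_
    rw [Finset.prod_congr rfl (g := fun _ => τ)
      (fun u hu => if_pos (hD' (Finset.mem_sdiff.1 hu).1)), Finset.prod_const]
  have hc : ∀ n, (∑ S ∈ D.powerset, C (A S) * X ^ (D \ S).card : ℂ[X]).coeff n =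
      ∑ S ∈ D.powerset with n = (D \ S).card, A S := fun n => by
    rw [finsetSum_coeff, Finset.sum_filter]
    simp only [coeff_C_mul_X_pow]
  have hc1 : (∑ S ∈ D.powerset, C (A S) * X ^ (D \ S).card : ℂ[X]).coeff (Fintype.card 𝒦) =
      pH (yext y) (πext α 𝒦) W₀ Z 1 := by
    have : D.powerset.filter (fun S => Fintype.card 𝒦 = (D \ S).card) = {∅} := by
      ext S
      simp only [Finset.mem_filter, Finset.mem_powerset, Finset.mem_singleton]
      constructor
      · rintro ⟨h3, h4⟩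
        have := Finset.card_sdiff_add_card_eq_card h3
        exact Finset.card_eq_zero.1 (by omega)
      · rintro rfl
        simp [hcard]
    rw [hc, this, Finset.sum_singleton, hA, barrierpoly_empty]
  have hc2 : (∑ S ∈ D.powerset, C (A S) * X ^ (D \ S).card : ℂ[X]).coeff (Fintype.card 𝒦 - 1) =
      ∑ k, A {Sum.inr (s, k)} := by
    have : D.powerset.filter (fun S => Fintype.card 𝒦 - 1 = (D \ S).card) = D.powersetCard 1 := by
      ext S
      simp only [Finset.mem_filter, Finset.mem_powerset, Finset.mem_powersetCard]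
      refine and_congr_right fun h3 => ?_
      have := Finset.card_sdiff_add_card_eq_card h3
      omega
    rw [hc, this, Finset.powersetCard_one, Finset.sum_map, hsum]
    rfl
  refine ⟨∑ S ∈ D.powerset, C (A S) * X ^ (D \ S).card, ?_, hc1, fun τ => ?_, fun τ => ?_, ?_⟩
  · refine natDegree_sum_le_of_forall_le _ _ fun S _ => (natDegree_C_mul_X_pow_le _ _).trans ?_
    rw [← hcard]
    exact Finset.card_le_card Finset.sdiff_subset
  · rw [hev τ D le_rfl, eval_finsetSum]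
    simp
  · have h3 : ∀ a ∈ D, pH (yext y) (πext α 𝒦) ((W₀ ∪ D).erase a)
        (fun a => if a ∈ D then τ else Z a) 1 =
        ∑ S ∈ D.powerset, if a ∈ D \ S then A S * τ ^ ((D \ S).card - 1) else 0 := by
      intro a ha
      have e : (W₀ ∪ D).erase a = W₀ ∪ D.erase a := by
        rw [Finset.erase_union_distrib, Finset.erase_eq_of_notMem (Finset.disjoint_right.1 hd ha)]
      rw [e, hev τ _ (Finset.erase_subset _ _), ← Finset.sum_filter]
      refine Finset.sum_congr ?_ fun S hS => ?_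
      · ext S
        simp only [Finset.mem_filter, Finset.mem_powerset, Finset.subset_erase, Finset.mem_sdiff,
          ha, true_and]
      · rw [Finset.erase_sdiff_comm, Finset.card_erase_of_mem (Finset.mem_filter.1 hS).2]
    rw [← hsum fun a => pH (yext y) (πext α 𝒦) ((W₀ ∪ D).erase a)
      (fun a => if a ∈ D then τ else Z a) 1, Finset.sum_congr rfl h3, Finset.sum_comm,
      derivative_sum, eval_finsetSum]
    refine Finset.sum_congr rfl fun S _ => ?_
    rw [← Finset.sum_filter, Finset.filter_mem_eq_inter,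
      Finset.inter_eq_right.2 Finset.sdiff_subset, Finset.sum_const, derivative_C_mul_X_pow]
    simp only [eval_mul, eval_C, eval_pow, eval_X, nsmul_eq_mul]
    ring
  · rw [hc1, hc2, Finset.insert_eq, Finset.union_comm,
      barrierpoly_split _ _ (Finset.disjoint_singleton_right.2 h1) Z Z (fun _ _ => rfl),
      show ({Sum.inl s} : Finset (α ⊕ α × 𝒦)).powerset = {∅, {Sum.inl s}} from rfl,
      Finset.sum_pair (Finset.singleton_ne_empty _).symm, barrierpoly_empty]
    simp only [Finset.sdiff_empty, Finset.prod_singleton, Finset.sdiff_self, Finset.prod_empty,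
      mul_one, add_right_inj, hA, barrierpolyA, Finset.sum_div]
    rw [Finset.sum_comm]
    refine Finset.sum_congr rfl fun T hT => ?_
    have hT' := Finset.mem_powerset.1 hT
    rw [barrierpoly_cT y s T (fun h => h1 (hT' h)) (fun k h => h2 k (hT' h)), Finset.sum_mul]
    refine Finset.sum_congr rfl fun k _ => ?_
    ring

end Crest.Agent.R109
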