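import Crest.Agent.R109.Gel

/-! Row 109: the conditional expectation onto a maximal abelian subalgebra. -/

set_option autoImplicit false

open scoped ComplexOrder InnerProductSpace ComplexConjugate
open Filter Topology MeasureTheory

namespace Crest.Agent.R109

variable {M H X : Type*} [CStarAlgebra M] [PartialOrder M] [StarOrderedRing M]
  [NormedAddCommGroup H] [InnerProductSpace ℂ H] [CompleteSpace H]
  [TopologicalSpace X] [CompactSpace X] [T2Space X]

/-- The weak limit of `EP P y` along `fine X` commutes with every `e V` (`EP_comm_e`), hence lies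
in the subalgebra; linearity by uniqueness of limits. -/
theorem exists_ctx (W : WSt M H) (Γ : Gel M X) : ∃ c : Ctx M H X, c.W = W ∧ c.Γ = Γ := by
  have := Γ.totallyDisconnected W
  have h : ∀ y : M, ∃ f : C(X, ℂ),
      W.WT (fine X : Filter (DiscreteQuotient X)) (fun P => Γ.EP P y) (Γ.Φ f) := by
    intro y
    obtain ⟨z, hz⟩ := W.exists_WT (fine X) (fun P => Γ.EP P y) ‖y‖
      (Eventually.of_forall fun P => (Γ.ea_isPart P).norm_pinch_le y)
    obtain ⟨f, rfl⟩ := Γ.max z (Γ.comm_of_e fun V hV =>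
      (hz.mul_left (Γ.e V)).eq_of_eventually (hz.mul_right (Γ.e V))
        ((fine_le (DiscreteQuotient.ofIsClopen hV)).mono fun P hP => (Γ.EP_comm_e hV hP y).1))
    exact ⟨f, hz⟩
  choose E hE using h
  refine ⟨⟨W, Γ, ⟨⟨E, fun a b => Γ.inj ?_⟩, fun s a => Γ.inj ?_⟩, hE⟩, rfl, rfl⟩
  · rw [map_add]
    exact (hE (a + b)).eq_of_eventually ((hE a).add (hE b))
      (Eventually.of_forall fun P => pinch_add _ a b)
  · rw [map_smul]
    exact (hE (s • a)).eq_of_eventually ((hE a).smul s)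
      (Eventually.of_forall fun P => pinch_smul _ s a)

variable (c : Ctx M H X)

omit [PartialOrder M] [StarOrderedRing M] [T2Space X] in
theorem condexp_EP_left (Γ : Gel M X) (P : DiscreteQuotient X) (f : C(X, ℂ)) (y : M) :
    Γ.EP P (Γ.Φ f * y) = Γ.Φ f * Γ.EP P y := by
  unfold Gel.EP pinch
  rw [Finset.mul_sum]
  refine Finset.sum_congr rfl fun I _ => ?_
  have h : Γ.ea P I * Γ.Φ f = Γ.Φ f * Γ.ea P I := Γ.comm _ _
  rw [← mul_assoc, h]
  simp only [mul_assoc]

omit [PartialOrder M] [StarOrderedRing M] [T2Space X] in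
theorem condexp_EP_right (Γ : Gel M X) (P : DiscreteQuotient X) (f : C(X, ℂ)) (y : M) :
    Γ.EP P (y * Γ.Φ f) = Γ.EP P y * Γ.Φ f := by
  unfold Gel.EP pinch
  rw [Finset.sum_mul]
  refine Finset.sum_congr rfl fun I _ => ?_
  have h : Γ.ea P I * Γ.Φ f = Γ.Φ f * Γ.ea P I := Γ.comm _ _
  simp only [mul_assoc]
  rw [h]

omit [PartialOrder M] [StarOrderedRing M] [T2Space X] in
theorem Ctx.E_Φ (f : C(X, ℂ)) : c.E (c.Γ.Φ f) = f := by
  refine c.Γ.inj ((c.E_spec _).eq_of_eventually (WSt.WT_const _) (Eventually.of_forall fun P => ?_))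
  exact (c.Γ.ea_isPart P).pinch_eq_self fun I => c.Γ.comm _ _

omit [PartialOrder M] [StarOrderedRing M] [T2Space X] in
theorem Ctx.E_one : c.E 1 = 1 := by
  have := c.E_Φ 1
  rwa [map_one] at this

omit [PartialOrder M] [StarOrderedRing M] [T2Space X] in
theorem Ctx.E_mul_left (f : C(X, ℂ)) (y : M) : c.E (c.Γ.Φ f * y) = f * c.E y := by
  refine c.Γ.inj ?_
  rw [map_mul c.Γ.Φ]
  exact (c.E_spec _).eq_of_eventually ((c.E_spec y).mul_left _)
    (Eventually.of_forall fun P => condexp_EP_left c.Γ P f y)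

omit [PartialOrder M] [StarOrderedRing M] [T2Space X] in
theorem Ctx.E_mul_right (f : C(X, ℂ)) (y : M) : c.E (y * c.Γ.Φ f) = c.E y * f := by
  refine c.Γ.inj ?_
  rw [map_mul c.Γ.Φ]
  exact (c.E_spec _).eq_of_eventually ((c.E_spec y).mul_right _)
    (Eventually.of_forall fun P => condexp_EP_right c.Γ P f y)

omit [PartialOrder M] [StarOrderedRing M] [T2Space X] in
theorem Ctx.E_star (y : M) : c.E (star y) = star (c.E y) := by
  refine c.Γ.inj ?_
  rw [map_star c.Γ.Φ]
  exact (c.E_spec _).eq_of_eventually (c.E_spec y).star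
    (Eventually.of_forall fun P => ((c.Γ.ea_isPart P).pinch_star y).symm)

omit [T2Space X] in
theorem Ctx.E_nonneg {y : M} (h : 0 ≤ y) (t : X) : 0 ≤ c.E y t := by
  exact (c.Γ.nonneg_iff _).1 ((c.E_spec y).nonneg
    (Eventually.of_forall fun P => (c.Γ.ea_isPart P).pinch_nonneg h)) t

omit [T2Space X] in
theorem Ctx.norm_E_le (y : M) : ‖c.E y‖ ≤ ‖y‖ := by
  rw [← c.Γ.norm_map]
  exact (c.E_spec y).norm_le (Eventually.of_forall fun P => (c.Γ.ea_isPart P).norm_pinch_le y)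

/-- The states `y ↦ E y t`. -/
noncomputable def Ctx.Et (t : X) : M →ₚ[ℂ] ℂ :=
  PositiveLinearMap.mk₀ ((ContinuousMap.evalCLM ℂ t).toLinearMap ∘ₗ c.E)
    fun _ h => c.E_nonneg h t

omit [T2Space X] in
theorem Ctx.Et_apply (t : X) (y : M) : c.Et t y = c.E y t := rfl

omit [T2Space X] in
theorem Ctx.Et_one (t : X) : c.Et t 1 = 1 := by
  rw [Ctx.Et_apply, Ctx.E_one]; rfl

omit [T2Space X] in
theorem Ctx.Φ_E_selfAdjoint {y : M} (h : IsSelfAdjoint y) : IsSelfAdjoint (c.Γ.Φ (c.E y)) := by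
  rw [IsSelfAdjoint, ← map_star, ← c.E_star, h.star_eq]

omit [T2Space X] in
theorem Ctx.norm_Φ_E_le (y : M) : ‖c.Γ.Φ (c.E y)‖ ≤ ‖y‖ := by
  rw [c.Γ.norm_map]
  exact c.norm_E_le y

omit [PartialOrder M] [StarOrderedRing M] [T2Space X] in
theorem Ctx.WT_EP_zero {y : M} (h : c.E y = 0) :
    c.W.WT (fine X : Filter (DiscreteQuotient X)) (fun P => c.Γ.EP P y) 0 := by
  simpa [h] using c.E_spec y

end Crest.Agent.R109
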