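import Crest.Agent.R109.WBasic
import Crest.Agent.R124.Corner

/-! Row 109: passing to corners. -/

set_option autoImplicit false

open scoped ComplexOrder InnerProductSpace ComplexConjugate
open Filter Topology MeasureTheory

namespace Crest.Agent.R109

open Crest.Agent.R124 (Cn)

variable {M H : Type*} [CStarAlgebra M] [PartialOrder M] [StarOrderedRing M]
  [NormedAddCommGroup H] [InnerProductSpace ℂ H] [CompleteSpace H]

variable {p : M}

/-- the inclusion of the corner as a positive map -/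
noncomputable def corner_incl (hp : IsStarProjection p) : Cn hp →ₚ[ℂ] M :=
  PositiveLinearMap.mk₀ (Cn.incl hp : Cn hp →ₗ[ℂ] M) fun x hx => (Cn.nonneg_iff x).1 hx

/-- the compression to the corner as a positive map -/
noncomputable def corner_comp (hp : IsStarProjection p) : M →ₚ[ℂ] Cn hp :=
  PositiveLinearMap.mk₀
    { toFun := Cn.comp hp
      map_add' := fun x y => Cn.ext (by simp [mul_add, add_mul])
      map_smul' := fun c x => Cn.ext (by simp) }
    fun x hx => (Cn.nonneg_iff _).2 (by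
      have := star_right_conjugate_nonneg hx p
      rwa [hp.isSelfAdjoint.star_eq] at this)

omit [PartialOrder M] [StarOrderedRing M] in
/-- A weak limit `z` of elements of the corner satisfies `p z p = z`. -/
theorem WSt.exists_corner (W : WSt M H) (hp : IsStarProjection p) :
    ∃ W' : WSt (Cn hp) H, ∀ y, W'.ρ y = W.ρ y.val := by
  refine ⟨⟨W.ρ.comp (Cn.incl hp), fun x y h => Cn.ext (W.inj h), fun 𝒰 C hC => ?_⟩, fun _ => rfl⟩
  obtain ⟨z, hz⟩ := W.exists_WT 𝒰 Cn.val C hC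
  have h := (hz.mul_left p).mul_right p
  simp only [Cn.prop] at h
  exact ⟨Cn.comp hp z, h⟩

omit [PartialOrder M] [StarOrderedRing M] in
theorem Masa.exists_corner {A : StarSubalgebra ℂ M} (hA : Masa A) (hp : IsStarProjection p)
    (hpA : p ∈ A) : ∃ A' : StarSubalgebra ℂ (Cn hp), Masa A' ∧ ∀ a, a ∈ A' ↔ a.val ∈ A := by
  refine ⟨⟨⟨⟨⟨⟨{a | a.val ∈ A}, fun ha hb => A.mul_mem ha hb⟩, hpA⟩, fun ha hb => A.add_mem ha hb,
    A.zero_mem⟩, fun c => ?_⟩, fun ha => A.star_mem' ha⟩,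
    ⟨fun a ha b hb => Cn.ext (hA.comm _ ha _ hb), fun y hy => hA.max _ fun a ha => ?_⟩,
    fun _ => Iff.rfl⟩
  · rw [Algebra.algebraMap_eq_smul_one]
    exact A.smul_mem hpA c
  · have h : p * a * p * y.val = y.val * (p * a * p) :=
      congrArg Cn.val (hy (Cn.comp hp a) (A.mul_mem (A.mul_mem hpA ha) hpA))
    have e1 : p * a * p = a * p := by
      rw [hA.comm p hpA a ha, mul_assoc, hp.isIdempotentElem.eq]
    have e2 : p * a * p = p * a := by
      rw [mul_assoc, hA.comm a ha p hpA, ← mul_assoc, hp.isIdempotentElem.eq]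
    rw [e1, mul_assoc, y.p_mul, ← e1, e2, ← mul_assoc, y.mul_p] at h
    exact h

theorem corner_restrict (hp : IsStarProjection p) {W : WSt M H} {W' : WSt (Cn hp) H}
    (hW : ∀ y, W'.ρ y = W.ρ y.val) {A : StarSubalgebra ℂ M} {A' : StarSubalgebra ℂ (Cn hp)}
    (hA : ∀ a, a ∈ A' ↔ a.val ∈ A) {θ : M →ₚ[ℂ] ℂ} (hn : W.Normal θ)
    (hc : Central (A : Set M) θ) (hf : ∀ y, θ (star y * y) = 0 → y * p = 0) :
    ∃ θ' : Cn hp →ₚ[ℂ] ℂ, W'.Normal θ' ∧ Central (A' : Set (Cn hp)) θ' ∧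
      ∀ y, θ' (star y * y) = 0 → y = 0 := by
  refine ⟨θ.comp (corner_incl hp), fun ε hε => ?_, fun a ha y => hc _ ((hA a).1 ha) y.val,
    fun y hy => Cn.ext ?_⟩
  · obtain ⟨F, δ, hδ, h⟩ := hn ε hε
    exact ⟨F, δ, hδ, fun y hy hs => h y.val hy fun ξ hξ => hW y ▸ hs ξ hξ⟩
  · rw [← y.mul_p]
    exact hf _ hy

/-- `θ y = θ' (p y p)`.  Normality: `θ (y* y) = θ' (p y* y p)`; use Cauchy-Schwarz
`|θ' Y|² ≤ θ' 1 * θ' (Y* Y)` for `Y = p y* y p`, which is small on `F'` when `y` is small on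
`ρ p '' F'`. -/
theorem corner_extend (hp : IsStarProjection p) {W : WSt M H} {W' : WSt (Cn hp) H}
    (hW : ∀ y, W'.ρ y = W.ρ y.val) {A : StarSubalgebra ℂ M} (hM : Masa A) (hpA : p ∈ A)
    {A' : StarSubalgebra ℂ (Cn hp)} (hA : ∀ a, a ∈ A' ↔ a.val ∈ A) {θ' : Cn hp →ₚ[ℂ] ℂ}
    (hn : W'.Normal θ') (hc : Central (A' : Set (Cn hp)) θ') :
    ∃ θ : M →ₚ[ℂ] ℂ, W.Normal θ ∧ Central (A : Set M) θ ∧ θ p = θ' 1 := by
  classical
  have hpp : p * p = p := hp.isIdempotentElem.eq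
  refine ⟨θ'.comp (corner_comp hp), fun ε hε => ?_, fun a ha y => ?_,
    congrArg θ' (Cn.ext ?_)⟩
  · have h0 := n2_nonneg θ' 1
    obtain ⟨F, δ, hδ, h⟩ := hn ((ε / (n2 θ' 1 + 1)) ^ 2) (by positivity)
    refine ⟨F.image (W.ρ p), δ, hδ, fun y hy hs => ?_⟩
    have hp1 : ‖p‖ ≤ 1 := hp.norm_le
    have hpy : ‖p * star y‖ ≤ 1 := (norm_mul_le _ _).trans
      (mul_le_one₀ hp1 (norm_nonneg _) (by rwa [norm_star]))
    have hY : ‖Cn.comp hp (star y * y)‖ ≤ 1 := by
      rw [← Cn.norm_val, Cn.val_comp, ← mul_assoc, mul_assoc _ y]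
      exact (norm_mul_le _ _).trans (mul_le_one₀ hpy (norm_nonneg _)
        ((norm_mul_le _ _).trans (mul_le_one₀ hy (norm_nonneg _) hp1)))
    have h1 := h _ hY fun ξ hξ => by
      rw [hW, Cn.val_comp, ← mul_assoc, mul_assoc _ y]
      refine (W.norm_mul_apply_le _ _ ξ).trans_lt ((mul_le_of_le_one_left (norm_nonneg _) hpy).trans_lt ?_)
      rw [W.mul_apply]
      exact hs _ (Finset.mem_image_of_mem _ hξ)
    rw [← n2_sq] at h1
    have h2 := lt_of_pow_lt_pow_left₀ 2 (by positivity) h1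
    have h3 := pos_cs θ' 1 (Cn.comp hp (star y * y))
    rw [star_one, one_mul] at h3
    rw [lt_div_iff₀ (by positivity)] at h2
    have h4 := n2_nonneg θ' (Cn.comp hp (star y * y))
    refine ((Complex.re_le_norm _).trans h3).trans_lt ?_
    linarith
  · have h := hc (Cn.comp hp a) ((hA _).2 (A.mul_mem (A.mul_mem hpA ha) hpA)) (Cn.comp hp y)
    have e := hM.comm p hpA a ha
    have e1 : Cn.comp hp a * Cn.comp hp y = Cn.comp hp (a * y) := Cn.ext (by
      simp only [Cn.val_mul, Cn.val_comp, ← mul_assoc]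
      rw [mul_assoc _ p p, hpp, mul_assoc p a p, ← e, ← mul_assoc, hpp])
    have e2 : Cn.comp hp y * Cn.comp hp a = Cn.comp hp (y * a) := Cn.ext (by
      simp only [Cn.val_mul, Cn.val_comp, mul_assoc]
      rw [← mul_assoc p p, hpp, ← mul_assoc p a p, e, mul_assoc a p p, hpp])
    rw [e1, e2] at h
    exact h
  · change p * p * p = p
    rw [hpp, hpp]

end Crest.Agent.R109
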