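import Mathlib

/-!
Row 109, operator algebras: definitions.

A von Neumann algebra is a C⋆-algebra `M` with a faithful (possibly degenerate) representation
whose image is closed under bounded weak operator ultralimits (`WSt`).  A maximal abelian
subalgebra is presented as the image of `C(X, ℂ)` (`Gel`).
-/

set_option autoImplicit false

open scoped ComplexOrder InnerProductSpace ComplexConjugate
open Filter Topology MeasureTheory

namespace Crest.Agent.R109

section alg

variable {M : Type*} [CStarAlgebra M]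

/-- Maximal abelian ⋆-subalgebras. -/
structure Masa (A : StarSubalgebra ℂ M) : Prop where
  comm : ∀ a ∈ A, ∀ b ∈ A, a * b = b * a
  max : ∀ y, (∀ a ∈ A, a * y = y * a) → y ∈ A

/-- Partitions of unity by projections of `A`. -/
structure IsPart {ι : Type*} [Fintype ι] (A : Set M) (p : ι → M) : Prop where
  mem : ∀ i, p i ∈ A
  proj : ∀ i, IsStarProjection (p i)
  orth : ∀ i j, i ≠ j → p i * p j = 0
  sum : ∑ i, p i = 1

/-- The block diagonal part. -/
def pinch {ι : Type*} [Fintype ι] (p : ι → M) (y : M) : M := ∑ i, p i * y * p i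

variable [PartialOrder M]

/-- Functionals for which the elements of `A` are central. -/
def Central (A : Set M) (θ : M →ₚ[ℂ] ℂ) : Prop := ∀ a ∈ A, ∀ y, θ (a * y) = θ (y * a)

variable [StarOrderedRing M]

/-- The seminorm of a positive functional. -/
noncomputable def n2 (θ : M →ₚ[ℂ] ℂ) (y : M) : ℝ := ‖θ.toPreGNS y‖

end alg

/-- Weakly closed representations. -/
structure WSt (M H : Type*) [CStarAlgebra M] [NormedAddCommGroup H] [InnerProductSpace ℂ H]
    [CompleteSpace H] where
  ρ : M →⋆ₙₐ[ℂ] (H →L[ℂ] H)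
  inj : Function.Injective ρ
  wlim : ∀ (𝒰 : Ultrafilter M) (C : ℝ), (∀ᶠ y in (𝒰 : Filter M), ‖y‖ ≤ C) → ∃ z : M, ∀ ξ η : H,
    Tendsto (fun y => ⟪η, ρ y ξ⟫_ℂ) (𝒰 : Filter M) (𝓝 ⟪η, ρ z ξ⟫_ℂ)

section wst

variable {M H : Type*} [CStarAlgebra M] [NormedAddCommGroup H] [InnerProductSpace ℂ H]
  [CompleteSpace H]

/-- Weak operator convergence. -/
def WSt.WT (W : WSt M H) {ι : Type*} (l : Filter ι) (y : ι → M) (z : M) : Prop :=
  ∀ ξ η : H, Tendsto (fun i => ⟪η, W.ρ (y i) ξ⟫_ℂ) l (𝓝 ⟪η, W.ρ z ξ⟫_ℂ)

/-- Strong operator neighbourhoods of zero. -/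
def WSt.Small (W : WSt M H) (F : Finset H) (δ : ℝ) (y : M) : Prop := ∀ ξ ∈ F, ‖W.ρ y ξ‖ < δ

/-- Normal functionals: strongly continuous on the unit ball. -/
def WSt.Normal [PartialOrder M] (W : WSt M H) (θ : M →ₚ[ℂ] ℂ) : Prop :=
  ∀ ε : ℝ, 0 < ε → ∃ (F : Finset H) (δ : ℝ), 0 < δ ∧
    ∀ y : M, ‖y‖ ≤ 1 → W.Small F δ y → (θ (star y * y)).re < ε

end wst

section top

variable {X : Type*} [TopologicalSpace X]

open Classical in
/-- The indicator function of a clopen set (zero for other sets). -/
noncomputable def ind (V : Set X) : C(X, ℂ) :=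
  if h : IsClopen V then ⟨V.indicator 1, h.continuous_indicator continuous_const⟩ else 0

noncomputable instance [CompactSpace X] (P : DiscreteQuotient X) : Fintype P :=
  Fintype.ofFinite _

noncomputable instance (P : DiscreteQuotient X) : DecidableEq P := Classical.decEq _

/-- An ultrafilter on the finite clopen partitions that refines "fine enough". -/
noncomputable def fine (X : Type*) [TopologicalSpace X] : Ultrafilter (DiscreteQuotient X) :=
  Ultrafilter.of atBot

end top

/-- A maximal abelian subalgebra presented by its spectrum. -/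
structure Gel (M X : Type*) [CStarAlgebra M] [TopologicalSpace X] where
  Φ : C(X, ℂ) →⋆ₐ[ℂ] M
  inj : Function.Injective Φ
  max : ∀ y, (∀ f, Φ f * y = y * Φ f) → ∃ f, Φ f = y

section gel

variable {M X : Type*} [CStarAlgebra M] [TopologicalSpace X]

/-- The projection of a clopen set. -/
noncomputable def Gel.e (Γ : Gel M X) (V : Set X) : M := Γ.Φ (ind V)

/-- The projections of the atoms of a partition. -/
noncomputable def Gel.ea (Γ : Gel M X) (P : DiscreteQuotient X) (I : P) : M :=
  Γ.e (P.proj ⁻¹' {I})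

/-- The block diagonal part along a partition. -/
noncomputable def Gel.EP [CompactSpace X] (Γ : Gel M X) (P : DiscreteQuotient X) (y : M) : M :=
  pinch (Γ.ea P) y

/-- The projections of a locally constant colouring. -/
noncomputable def Gel.pc (Γ : Gel M X) {γ : Type*} (c : LocallyConstant X γ) (a : γ) : M :=
  Γ.e (c ⁻¹' {a})

/-- `u` is a unitary that normalises the subalgebra and induces `σ`. -/
structure Gel.IsNrm (Γ : Gel M X) (u : M) (σ : X ≃ₜ X) : Prop where
  unit : u ∈ unitary M
  comm : ∀ f : C(X, ℂ), Γ.Φ f * u = u * Γ.Φ (f.comp (σ : C(X, X)))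

/-- A group of normalising unitaries. -/
structure Gel.Act (Γ : Gel M X) (G : Type*) [Group G] [MulAction G X] [ContinuousConstSMul G X]
    where
  u : G → M
  one : u 1 = 1
  mul : ∀ g h, u (g * h) = u g * u h
  star : ∀ g, star (u g) = u g⁻¹
  nrm : ∀ g, Γ.IsNrm (u g) (Homeomorph.smul g)

end gel

/-- A von Neumann algebra, a maximal abelian subalgebra and a conditional expectation. -/
structure Ctx (M H X : Type*) [CStarAlgebra M] [NormedAddCommGroup H] [InnerProductSpace ℂ H]
    [CompleteSpace H] [TopologicalSpace X] [CompactSpace X] where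
  W : WSt M H
  Γ : Gel M X
  E : M →ₗ[ℂ] C(X, ℂ)
  E_spec : ∀ y, W.WT (fine X : Filter (DiscreteQuotient X)) (fun P => Γ.EP P y) (Γ.Φ (E y))

/-- The same with a faithful normal state that is central for the subalgebra. -/
structure NCtx (M H X : Type*) [CStarAlgebra M] [PartialOrder M] [NormedAddCommGroup H]
    [InnerProductSpace ℂ H] [CompleteSpace H] [TopologicalSpace X] [CompactSpace X]
    [MeasurableSpace X] extends Ctx M H X where
  θ : M →ₚ[ℂ] ℂ
  normal : W.Normal θ
  central : Central (Set.range Γ.Φ) θ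
  faithful : ∀ y, θ (star y * y) = 0 → y = 0
  μ : Measure X
  prob : IsProbabilityMeasure μ
  reg : μ.Regular
  int : ∀ f : C(X, ℂ), θ (Γ.Φ f) = ∫ t, f t ∂μ

end Crest.Agent.R109
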