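import Crest.Agent.R124.Kap

/-! Row 109, normal corner: the Hilbert space part of `Disc`. -/

set_option autoImplicit false

open scoped InnerProductSpace ComplexConjugate
open Filter Topology

namespace Crest.Agent.R109

variable {M K : Type*} [CStarAlgebra M] [NormedAddCommGroup K] [InnerProductSpace ℂ K]
  [CompleteSpace K]

/-- Compression to a closed subspace. -/
noncomputable def disc_cmp (K₀ : Submodule ℂ K) [CompleteSpace K₀] (T : K →L[ℂ] K) :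
    K₀ →L[ℂ] K₀ :=
  K₀.orthogonalProjectionOnto ∘L T ∘L K₀.subtypeL

omit [CompleteSpace K] in
theorem disc_cmp_inner (K₀ : Submodule ℂ K) [CompleteSpace K₀] (T : K →L[ℂ] K) (k k' : K₀) :
    ⟪k, disc_cmp K₀ T k'⟫_ℂ = ⟪(k : K), T k'⟫_ℂ :=
  Submodule.inner_orthogonalProjectionOnto_eq_of_mem_left _ _

omit [CompleteSpace K] in
theorem disc_cmp_coe (K₀ : Submodule ℂ K) [CompleteSpace K₀] {T : K →L[ℂ] K} {k : K₀}
    (h : T k ∈ K₀) : (disc_cmp K₀ T k : K) = T k :=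
  Submodule.starProjection_eq_self_iff.2 h

theorem disc_cmp_star (K₀ : Submodule ℂ K) [CompleteSpace K₀] (T : K →L[ℂ] K) :
    disc_cmp K₀ (star T) = star (disc_cmp K₀ T) := by
  rw [ContinuousLinearMap.star_eq_adjoint (disc_cmp K₀ T), ContinuousLinearMap.eq_adjoint_iff]
  intro k k'
  rw [disc_cmp_inner, ← inner_conj_symm, disc_cmp_inner, ContinuousLinearMap.star_eq_adjoint,
    ContinuousLinearMap.adjoint_inner_right, inner_conj_symm]

omit [CompleteSpace K] in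
theorem disc_cmp_norm (K₀ : Submodule ℂ K) [CompleteSpace K₀] (T : K →L[ℂ] K) :
    ‖disc_cmp K₀ T‖ ≤ ‖T‖ :=
  ContinuousLinearMap.opNorm_le_bound _ (norm_nonneg _) fun k =>
    (K₀.norm_orthogonalProjectionOnto_apply_le _).trans (T.le_opNorm k)

/-- The subrepresentation on an invariant subspace. -/
noncomputable def disc_rep {A : Type*} [CStarAlgebra A] (ρ : A →⋆ₐ[ℂ] (K →L[ℂ] K))
    (K₀ : Submodule ℂ K) [CompleteSpace K₀] (h : ∀ a, ∀ k ∈ K₀, ρ a k ∈ K₀) :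
    A →⋆ₐ[ℂ] (K₀ →L[ℂ] K₀) where
  toFun a := disc_cmp K₀ (ρ a)
  map_one' := by
    ext k
    rw [disc_cmp_coe _ (h _ _ k.2)]
    simp
  map_mul' a b := by
    ext k
    rw [disc_cmp_coe _ (h _ _ k.2), mul_apply_eq_comp,
      disc_cmp_coe _ (h _ _ (disc_cmp K₀ (ρ b) k).2), disc_cmp_coe _ (h _ _ k.2), map_mul,
      mul_apply_eq_comp]
  map_zero' := by
    ext k
    rw [disc_cmp_coe _ (h _ _ k.2)]
    simp
  map_add' a b := by
    ext k
    rw [add_apply, Submodule.coe_add, disc_cmp_coe _ (h _ _ k.2),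
      disc_cmp_coe _ (h _ _ k.2), disc_cmp_coe _ (h _ _ k.2), map_add,
      add_apply]
  commutes' c := by
    ext k
    rw [disc_cmp_coe _ (h _ _ k.2)]
    simp [Algebra.algebraMap_eq_smul_one]
  map_star' a := by rw [map_star, disc_cmp_star]

theorem disc_rep_coe {A : Type*} [CStarAlgebra A] (ρ : A →⋆ₐ[ℂ] (K →L[ℂ] K))
    (K₀ : Submodule ℂ K) [CompleteSpace K₀] (h : ∀ a, ∀ k ∈ K₀, ρ a k ∈ K₀) (a : A) (k : K₀) :
    (disc_rep ρ K₀ h a k : K) = ρ a k :=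
  disc_cmp_coe _ (h _ _ k.2)

theorem disc_inner_star (π : M →⋆ₐ[ℂ] (K →L[ℂ] K)) (a : M) (ξ η : K) :
    ⟪π (star a) ξ, η⟫_ℂ = ⟪ξ, π a η⟫_ℂ := by
  rw [map_star, ContinuousLinearMap.star_eq_adjoint, ContinuousLinearMap.adjoint_inner_left]

theorem disc_star_comm {A : Type*} [CStarAlgebra A] (ρ : A →⋆ₐ[ℂ] (K →L[ℂ] K)) {S : K →L[ℂ] K}
    (hS : ∀ a, S * ρ a = ρ a * S) (a : A) (k : K) : star S (ρ a k) = ρ a (star S k) := by
  have := congrArg star (hS (star a))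
  rw [star_mul, star_mul, map_star, star_star] at this
  exact (congrArg (fun U : K →L[ℂ] K => U k) this).symm

omit [CompleteSpace K] in
theorem disc_norm_le {a d : K} (h : ⟪a, d⟫_ℂ = 0) : ‖d‖ ≤ ‖a + d‖ := by
  have := norm_add_sq_eq_norm_sq_add_norm_sq_of_inner_eq_zero a d h
  exact le_of_sq_le_sq (by nlinarith [mul_self_nonneg ‖a‖]) (norm_nonneg _)

theorem disc_abstract (π : M →⋆ₐ[ℂ] (K →L[ℂ] K)) (Ω : K) (𝒜 : StarSubalgebra ℂ M)
    (hP : ∀ w₁ ∈ 𝒜, ∀ w₂ ∈ 𝒜, ∀ m, ∃ n ∈ 𝒜, ⟪π w₂ Ω, π (m - n) Ω⟫_ℂ = 0 ∧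
      ⟪π n Ω, π (m - n) Ω⟫_ℂ = 0 ∧ ⟪π w₁ Ω, π (star (m - n)) Ω⟫_ℂ = 0 ∧
      ⟪π (star n) Ω, π (star (m - n)) Ω⟫_ℂ = 0) {x : M} (hx : IsSelfAdjoint x) :
    ∃ ζ : K, (∀ w ∈ 𝒜, ⟪π w Ω, π x Ω - ζ⟫_ℂ = 0) ∧
      ∀ ε : ℝ, 0 < ε → ∃ a ∈ 𝒜, IsSelfAdjoint a ∧ ‖a‖ ≤ ‖x‖ + ε ∧ ‖π a Ω - ζ‖ ≤ ε := by
  have hπ : ∀ (a : M) (k : K), ‖π a k‖ ≤ ‖a‖ * ‖k‖ := fun a k =>
    ((π a).le_opNorm k).trans (mul_le_mul_of_nonneg_right
      (NonUnitalStarAlgHom.norm_apply_le π a) (norm_nonneg _))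
  let ev : M →ₗ[ℂ] K :=
    { toFun := fun y => π y Ω
      map_add' := fun a b => by simp
      map_smul' := fun c a => by simp }
  let K₁ : Submodule ℂ K := (Subalgebra.toSubmodule 𝒜.toSubalgebra).map ev
  have hK₁ : ∀ k, k ∈ K₁ ↔ ∃ n ∈ 𝒜, π n Ω = k := fun k => Iff.rfl
  let K₀ : Submodule ℂ K := K₁.topologicalClosure
  have hmem : ∀ n ∈ 𝒜, π n Ω ∈ K₀ := fun n hn => K₁.le_topologicalClosure ⟨n, hn, rfl⟩
  have happ : ∀ k ∈ K₀, ∀ δ : ℝ, 0 < δ → ∃ n ∈ 𝒜, ‖k - π n Ω‖ < δ := by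
    intro k hk δ hδ
    obtain ⟨_, ⟨n, hn, rfl⟩, h⟩ := Metric.mem_closure_iff.1 hk δ hδ
    exact ⟨n, hn, by rwa [dist_eq_norm] at h⟩
  have hinv₀ : ∀ a ∈ 𝒜, ∀ k ∈ K₀, π a k ∈ K₀ := by
    intro a ha k hk
    refine map_mem_closure (f := π a) (π a).continuous hk ?_
    rintro _ ⟨n, hn, rfl⟩
    exact ⟨a * n, 𝒜.mul_mem ha hn, by simp [ev]⟩
  have hinv : ∀ a ∈ 𝒜.topologicalClosure, ∀ k ∈ K₀, π a k ∈ K₀ := by
    intro a ha k hk
    have hc : Continuous fun a : M => π a k :=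
      (AddMonoidHomClass.continuous_of_bound π 1 fun a => by
        simpa using NonUnitalStarAlgHom.norm_apply_le π a).clm_apply continuous_const
    exact closure_minimal (s := (𝒜 : Set M)) (t := (fun a : M => π a k) ⁻¹' K₀)
      (fun a ha => hinv₀ a ha k hk) (K₁.isClosed_topologicalClosure.preimage hc) ha
  have _ : IsClosed (𝒜.topologicalClosure : Set M) := 𝒜.isClosed_topologicalClosure
  let ρ : 𝒜.topologicalClosure →⋆ₐ[ℂ] (K₀ →L[ℂ] K₀) :=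
    disc_rep (π.comp 𝒜.topologicalClosure.subtype) K₀ fun a => hinv a a.2
  have hρ : ∀ (a : 𝒜.topologicalClosure) (k : K₀), (ρ a k : K) = π a k := fun a k =>
    disc_rep_coe _ _ _ a k
  let Ω₀ : K₀ := ⟨Ω, by simpa using hmem 1 𝒜.one_mem⟩
  let j : ∀ n ∈ 𝒜, 𝒜.topologicalClosure := fun n hn => ⟨n, 𝒜.le_topologicalClosure hn⟩
  have hT : ∀ S : K₀ →L[ℂ] K₀, (∀ a, S * ρ a = ρ a * S) →
      S * disc_cmp K₀ (π x) = disc_cmp K₀ (π x) * S := by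
    intro S hS
    have hS1 : ∀ a k, S (ρ a k) = ρ a (S k) := fun a k =>
      congrArg (fun U : K₀ →L[ℂ] K₀ => U k) (hS a)
    have hS2 : ∀ a k, star S (ρ a k) = ρ a (star S k) := disc_star_comm ρ hS
    have hadj : ∀ k k' : K₀, ⟪star S k, k'⟫_ℂ = ⟪k, S k'⟫_ℂ := fun k k' => by
      rw [ContinuousLinearMap.star_eq_adjoint, ContinuousLinearMap.adjoint_inner_left]
    have hC₀ : ∀ n ∈ 𝒜, ⟪(star S Ω₀ : K), π n Ω⟫_ℂ = ⟪π (star n) Ω, (S Ω₀ : K)⟫_ℂ := by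
      intro n hn
      have := hadj Ω₀ (ρ (j n hn) Ω₀)
      rw [hS1, Submodule.coe_inner, Submodule.coe_inner, hρ, hρ] at this
      rw [disc_inner_star]
      exact this
    have hC : ∀ m, ⟪(star S Ω₀ : K), π m Ω⟫_ℂ = ⟪π (star m) Ω, (S Ω₀ : K)⟫_ℂ := by
      intro m
      rw [← sub_eq_zero, ← norm_le_zero_iff]
      refine le_of_forall_pos_le_add fun ε hε => ?_
      have hB : 0 < ‖π m Ω‖ + ‖π (star m) Ω‖ + 1 := by positivity
      obtain ⟨w₁, hw₁, h₁⟩ := happ _ (S Ω₀).2 _ (div_pos hε hB)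
      obtain ⟨w₂, hw₂, h₂⟩ := happ _ (star S Ω₀).2 _ (div_pos hε hB)
      obtain ⟨n, hn, o1, o2, o3, o4⟩ := hP w₁ hw₁ w₂ hw₂ m
      have e1 : π m Ω = π n Ω + π (m - n) Ω := by simp
      have e2 : π (star m) Ω = π (star n) Ω + π (star (m - n)) Ω := by simp
      have n1 : ‖π (m - n) Ω‖ ≤ ‖π m Ω‖ := e1 ▸ disc_norm_le o2
      have n2 : ‖π (star (m - n)) Ω‖ ≤ ‖π (star m) Ω‖ := e2 ▸ disc_norm_le o4
      have e3 : ⟪(star S Ω₀ : K), π m Ω⟫_ℂ - ⟪π (star m) Ω, (S Ω₀ : K)⟫_ℂ =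
          ⟪(star S Ω₀ : K) - π w₂ Ω, π (m - n) Ω⟫_ℂ -
            ⟪π (star (m - n)) Ω, (S Ω₀ : K) - π w₁ Ω⟫_ℂ := by
        rw [inner_sub_left, inner_sub_right, o1, inner_eq_zero_symm.1 o3, e1, e2, inner_add_right,
          inner_add_left, hC₀ n hn]
        ring
      rw [e3, zero_add]
      refine (norm_sub_le _ _).trans ?_
      have b1 := (norm_inner_le_norm (𝕜 := ℂ) ((star S Ω₀ : K) - π w₂ Ω) (π (m - n) Ω)).trans
        (mul_le_mul h₂.le n1 (norm_nonneg _) (div_pos hε hB).le)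
      have b2 := (norm_inner_le_norm (𝕜 := ℂ) (π (star (m - n)) Ω) ((S Ω₀ : K) - π w₁ Ω)).trans
        (mul_le_mul n2 h₁.le (norm_nonneg _) (norm_nonneg _))
      have b3 : ε / (‖π m Ω‖ + ‖π (star m) Ω‖ + 1) * (‖π m Ω‖ + ‖π (star m) Ω‖ + 1) = ε :=
        div_mul_cancel₀ _ hB.ne'
      nlinarith [div_pos hε hB]
    have hd : DenseRange fun n : 𝒜 => ρ (j n n.2) Ω₀ := by
      intro k
      rw [Metric.mem_closure_iff]
      intro δ hδ
      obtain ⟨n, hn, h⟩ := happ k k.2 δ hδ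
      refine ⟨_, ⟨⟨n, hn⟩, rfl⟩, ?_⟩
      rw [dist_eq_norm, Submodule.coe_norm, Submodule.coe_sub, hρ]
      exact h
    refine ContinuousLinearMap.ext fun k => ?_
    refine congrFun (hd.equalizer (S * disc_cmp K₀ (π x)).continuous
      (disc_cmp K₀ (π x) * S).continuous (funext fun n₂ => ?_)) k
    refine hd.eq_of_inner_right ℂ fun n₁ => ?_
    simp only [Function.comp_apply, mul_apply_eq_comp]
    rw [← hadj, hS2, hS1, disc_cmp_inner, disc_cmp_inner, hρ, hρ, hρ, hρ]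
    have := hC (star (n₁ : M) * x * n₂)
    rw [disc_inner_star] at this
    simp only [map_mul, mul_apply_eq_comp] at this
    rw [← disc_inner_star, ← disc_inner_star π (star (n₁ : M)), star_star] at this
    exact this
  have hsa : IsSelfAdjoint (disc_cmp K₀ (π x)) := by
    rw [IsSelfAdjoint, ← disc_cmp_star, ← map_star, hx.star_eq]
  refine ⟨disc_cmp K₀ (π x) Ω₀, fun w hw => ?_, fun ε hε => ?_⟩
  · have := disc_cmp_inner K₀ (π x) ⟨_, hmem w hw⟩ Ω₀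
    rw [Submodule.coe_inner] at this
    rw [inner_sub_right, sub_eq_zero]
    exact this.symm
  · obtain ⟨a, ha, ha1, ha2⟩ := R124.kap_sa ρ hsa hT {Ω₀} (half_pos hε)
    have ha3 := ha2 Ω₀ (Finset.mem_singleton_self _)
    rw [Submodule.coe_norm, Submodule.coe_sub, hρ] at ha3
    have hB : 0 < 2 * (‖Ω‖ + 1) := by positivity
    obtain ⟨b, hb, hab⟩ := Metric.mem_closure_iff.1 a.2 _ (div_pos hε hB)
    rw [dist_comm, dist_eq_norm] at hab
    have hsa' : star (a : M) = a := congrArg Subtype.val ha.star_eq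
    have hn : ‖(2 : ℂ)⁻¹ • (b + star b) - a‖ ≤ ε / (2 * (‖Ω‖ + 1)) := by
      have e : (2 : ℂ)⁻¹ • (b + star b) - a = (2 : ℂ)⁻¹ • ((b - a) + star (b - a)) := by
        rw [star_sub, hsa']
        module
      have := norm_add_le (b - a) (star (b - (a : M)))
      rw [norm_star] at this
      rw [e, norm_smul, norm_inv, Complex.norm_ofNat]
      linarith
    have b3 : ε / (2 * (‖Ω‖ + 1)) * (2 * (‖Ω‖ + 1)) = ε := div_mul_cancel₀ _ hB.ne'
    have b4 := div_pos hε hB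
    refine ⟨(2 : ℂ)⁻¹ • (b + star b), 𝒜.smul_mem (add_mem hb (star_mem (show b ∈ 𝒜 from hb))) _,
      by simp [IsSelfAdjoint, add_comm], ?_, ?_⟩
    · have h1 : ‖(a : M)‖ ≤ ‖x‖ :=
        ha1.trans ((disc_cmp_norm _ _).trans (NonUnitalStarAlgHom.norm_apply_le π x))
      have h2 := norm_add_le ((2 : ℂ)⁻¹ • (b + star b) - a) (a : M)
      rw [sub_add_cancel] at h2
      nlinarith [norm_nonneg Ω]
    · have h1 := hπ ((2 : ℂ)⁻¹ • (b + star b) - a) Ω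
      rw [map_sub, sub_apply] at h1
      have h2 := norm_sub_le_norm_sub_add_norm_sub (π ((2 : ℂ)⁻¹ • (b + star b)) Ω) (π a Ω)
        (disc_cmp K₀ (π x) Ω₀ : K)
      have h3 := mul_le_mul_of_nonneg_right hn (norm_nonneg Ω)
      change ‖π a Ω - _‖ < _ at ha3
      nlinarith

end Crest.Agent.R109
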