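import Crest.Agent.R109.Nrm
import Crest.Agent.R124.Kap
import Crest.Agent.R109.DiscAux

/-! Row 109, normal corner: the part of an operator that lives on the normaliser. -/

set_option autoImplicit false

open scoped ComplexOrder InnerProductSpace ComplexConjugate ENNReal
open Filter Topology MeasureTheory

namespace Crest.Agent.R109

variable {M H X : Type*} [CStarAlgebra M] [PartialOrder M] [StarOrderedRing M]
  [NormedAddCommGroup H] [InnerProductSpace ℂ H] [CompleteSpace H]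
  [TopologicalSpace X] [CompactSpace X] [T2Space X] [MeasurableSpace X] [BorelSpace X]

/-- The span of the elements `u * Φ a`. -/
noncomputable def Gel.span₀ (Γ : Gel M X) (𝒢 : Set M) : Submodule ℂ M :=
  Submodule.span ℂ {y | ∃ u ∈ 𝒢, ∃ a, y = u * Γ.Φ a}

/-- All normalising unitaries. -/
def Gel.nrmSet (Γ : Gel M X) : Set M := {u | ∃ σ, Γ.IsNrm u σ}

omit [PartialOrder M] [StarOrderedRing M] [CompactSpace X] [T2Space X] [MeasurableSpace X]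
  [BorelSpace X] in
theorem disc_span_mono (Γ : Gel M X) {𝒢 𝒢' : Set M} (h : 𝒢 ⊆ 𝒢') : Γ.span₀ 𝒢 ≤ Γ.span₀ 𝒢' :=
  Submodule.span_mono fun _ ⟨u, hu, e⟩ => ⟨u, h hu, e⟩

omit [PartialOrder M] [StarOrderedRing M] [CompactSpace X] [T2Space X] [MeasurableSpace X]
  [BorelSpace X] in
theorem disc_gen_mem (Γ : Gel M X) {𝒢 : Set M} {u : M} (hu : u ∈ 𝒢) (a : C(X, ℂ)) :
    u * Γ.Φ a ∈ Γ.span₀ 𝒢 :=
  Submodule.subset_span ⟨u, hu, a, rfl⟩

omit [PartialOrder M] [StarOrderedRing M] [CompactSpace X] [T2Space X] [MeasurableSpace X]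
  [BorelSpace X] in
theorem disc_span_sum (Γ : Gel M X) {𝒢 : Set M} {w : M} (hw : w ∈ Γ.span₀ 𝒢) :
    ∃ (N : ℕ) (u : Fin N → M) (a : Fin N → C(X, ℂ)), (∀ i, u i ∈ 𝒢) ∧
      ∑ i, u i * Γ.Φ (a i) = w := by
  obtain ⟨N, f, g, rfl⟩ := Submodule.mem_span_set'.1 hw
  choose u hu a ha using fun i => (g i).2
  refine ⟨N, u, fun i => f i • a i, hu, Finset.sum_congr rfl fun i _ => ?_⟩
  rw [ha i, map_smul, mul_smul_comm]

omit [PartialOrder M] [StarOrderedRing M] [CompactSpace X] [T2Space X] [MeasurableSpace X]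
  [BorelSpace X] in
theorem disc_star_mem (Γ : Gel M X) {𝒢 : Set M} (h : 𝒢 ⊆ Γ.nrmSet) (hs : ∀ u ∈ 𝒢, star u ∈ 𝒢)
    {w : M} (hw : w ∈ Γ.span₀ 𝒢) : star w ∈ Γ.span₀ 𝒢 := by
  obtain ⟨N, u, a, hu, rfl⟩ := disc_span_sum Γ hw
  rw [star_sum]
  refine Submodule.sum_mem _ fun i _ => ?_
  obtain ⟨σ, hσ⟩ := h (hu i)
  rw [star_mul, ← map_star, hσ.star.comm]
  exact disc_gen_mem Γ (hs _ (hu i)) _

/-- The ⋆-algebra generated by the normaliser. -/
noncomputable def disc_alg (Γ : Gel M X) : StarSubalgebra ℂ M where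
  toSubalgebra := (Γ.span₀ Γ.nrmSet).toSubalgebra
    (by simpa using disc_gen_mem Γ (𝒢 := Γ.nrmSet) ⟨1, Γ.isNrm_one⟩ 1)
    fun x y hx hy => by
      obtain ⟨N, u, a, hu, rfl⟩ := disc_span_sum Γ hx
      obtain ⟨N', v, b, hv, rfl⟩ := disc_span_sum Γ hy
      rw [Finset.sum_mul_sum]
      refine Submodule.sum_mem _ fun i _ => Submodule.sum_mem _ fun j _ => ?_
      obtain ⟨σ, hσ⟩ := hu i
      obtain ⟨τ, hτ⟩ := hv j
      rw [mul_assoc, ← mul_assoc (Γ.Φ (a i)), hτ.comm, mul_assoc, ← map_mul, ← mul_assoc]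
      exact disc_gen_mem Γ (𝒢 := Γ.nrmSet) ⟨_, hσ.mul hτ⟩ _
  star_mem' hx := disc_star_mem Γ le_rfl (fun _ ⟨_, h⟩ => ⟨_, h.star⟩) hx

variable (c : NCtx M H X)

/-- Induction on `𝒢`: if `n'` works for `𝒢'`, put `m' = m - n'` and `n = n' + u * Φ (E (u* m'))`.  For
`v ∈ 𝒢'`, with `χ = E (v* u)`, `q` the interior of the fixed set of `v* u`: `v* u e q = Φ χ`, so
`u e q = v Φ χ` and `ind q * E (u* m') = conj χ * E (v* m') = 0`, while `χ = χ * ind q`. -/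
theorem NCtx.exists_proj_fin (𝒢 : Finset M) (h : ∀ u ∈ 𝒢, u ∈ c.Γ.nrmSet) (m : M) :
    ∃ n ∈ c.Γ.span₀ 𝒢, ∀ u ∈ 𝒢, c.E (star u * (m - n)) = 0 := by
  classical
  induction 𝒢 using Finset.induction_on with
  | empty => exact ⟨0, Submodule.zero_mem _, by simp⟩
  | insert u 𝒢 _ ih =>
    obtain ⟨n', hn', ho⟩ := ih fun v hv => h v (Finset.mem_insert_of_mem hv)
    obtain ⟨σ, hσ⟩ := h u (Finset.mem_insert_self _ _)
    refine ⟨n' + u * c.Γ.Φ (c.E (star u * (m - n'))), Submodule.add_mem _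
      (disc_span_mono _ (by simp) hn') (disc_gen_mem _ (by simp) _), fun v hv => ?_⟩
    rw [← sub_sub, mul_sub, map_sub, ← mul_assoc, c.toCtx.E_mul_right]
    rcases Finset.mem_insert.1 hv with rfl | hv
    · rw [(Unitary.mem_iff.1 hσ.unit).1, c.toCtx.E_one, one_mul, sub_self]
    · obtain ⟨τ, hτ⟩ := h v (Finset.mem_insert_of_mem hv)
      have h1 := (c.nrm_mul_e (hτ.star.mul hσ)).1
      set q := interior {s | (τ⁻¹ * σ) s = s}
      have h2 : c.E (star v * u) * ind q = c.E (star v * u) := by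
        have := congrArg c.E h1
        rwa [Gel.e, c.toCtx.E_mul_right, c.toCtx.E_Φ] at this
      have h3 : u * c.Γ.e q = v * c.Γ.Φ (c.E (star v * u)) := by
        rw [← h1, ← mul_assoc, ← mul_assoc, (Unitary.mem_iff.1 hτ.unit).2, one_mul]
      have h4 : ind q * c.E (star u * (m - n')) = 0 := by
        have h5 := congrArg star h3
        rw [star_mul, star_mul, ← map_star, (c.Γ.e_proj q).isSelfAdjoint.star_eq, Gel.e] at h5
        rw [← c.toCtx.E_mul_left, ← mul_assoc, h5, mul_assoc, c.toCtx.E_mul_left, ho v hv,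
          mul_zero]
      rw [ho v hv, ← h2, mul_assoc, h4, mul_zero, sub_zero]

theorem NCtx.disc_orth {𝒢 : Set M} {d : M} (hd : ∀ u ∈ 𝒢, c.E (star u * d) = 0) {w : M}
    (hw : w ∈ c.Γ.span₀ 𝒢) : c.θ (star w * d) = 0 := by
  obtain ⟨N, u, a, hu, rfl⟩ := disc_span_sum c.Γ hw
  rw [star_sum, Finset.sum_mul, map_sum]
  refine Finset.sum_eq_zero fun i _ => ?_
  rw [star_mul, ← map_star, mul_assoc, c.θ_mul_E, hd _ (hu i)]
  simp

theorem NCtx.disc_proj {w₁ w₂ : M} (h₁ : w₁ ∈ disc_alg c.Γ) (h₂ : w₂ ∈ disc_alg c.Γ) (m : M) :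
    ∃ n ∈ disc_alg c.Γ, c.θ (star w₂ * (m - n)) = 0 ∧ c.θ (star n * (m - n)) = 0 ∧
      c.θ (star w₁ * star (m - n)) = 0 ∧ c.θ (star (star n) * star (m - n)) = 0 := by
  classical
  obtain ⟨N₁, u₁, a₁, hu₁, rfl⟩ := disc_span_sum c.Γ h₁
  obtain ⟨N₂, u₂, a₂, hu₂, rfl⟩ := disc_span_sum c.Γ h₂
  let 𝒢₀ : Finset M := Finset.univ.image u₁ ∪ Finset.univ.image u₂
  let 𝒢 : Finset M := 𝒢₀ ∪ 𝒢₀.image star
  have hs : ∀ u ∈ (𝒢 : Set M), star u ∈ (𝒢 : Set M) := by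
    intro u hu
    rcases Finset.mem_union.1 hu with h | h
    · exact Finset.mem_union_right _ (Finset.mem_image_of_mem _ h)
    · obtain ⟨v, hv, rfl⟩ := Finset.mem_image.1 h
      rw [star_star]
      exact Finset.mem_union_left _ hv
  have h0 : ∀ u ∈ 𝒢₀, u ∈ c.Γ.nrmSet := by
    intro u hu
    rcases Finset.mem_union.1 hu with h | h
    · obtain ⟨i, -, rfl⟩ := Finset.mem_image.1 h
      exact hu₁ i
    · obtain ⟨i, -, rfl⟩ := Finset.mem_image.1 h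
      exact hu₂ i
  have hn : ∀ u ∈ 𝒢, u ∈ c.Γ.nrmSet := by
    intro u hu
    rcases Finset.mem_union.1 hu with h | h
    · exact h0 u h
    · obtain ⟨v, hv, rfl⟩ := Finset.mem_image.1 h
      obtain ⟨σ, hσ⟩ := h0 v hv
      exact ⟨_, hσ.star⟩
  obtain ⟨n, hn1, hn2⟩ := c.exists_proj_fin 𝒢 hn m
  have hn3 : ∀ u ∈ (𝒢 : Set M), c.E (star u * star (m - n)) = 0 := by
    intro u hu
    obtain ⟨σ, hσ⟩ := hn u hu
    have h1 := hn2 _ (hs u hu)
    have h2 := c.E_conj hσ (u * (m - n))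
    rw [star_star] at h1
    rw [h1, ← mul_assoc, (Unitary.mem_iff.1 hσ.unit).1, one_mul] at h2
    rw [← star_mul, c.toCtx.E_star, h2]
    ext t
    simp
  have m1 : ∑ i, u₁ i * c.Γ.Φ (a₁ i) ∈ c.Γ.span₀ 𝒢 :=
    Submodule.sum_mem _ fun i _ => disc_gen_mem _ (Finset.mem_union_left _
      (Finset.mem_union_left _ (Finset.mem_image_of_mem _ (Finset.mem_univ i)))) _
  have m2 : ∑ i, u₂ i * c.Γ.Φ (a₂ i) ∈ c.Γ.span₀ 𝒢 :=
    Submodule.sum_mem _ fun i _ => disc_gen_mem _ (Finset.mem_union_left _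
      (Finset.mem_union_right _ (Finset.mem_image_of_mem _ (Finset.mem_univ i)))) _
  exact ⟨n, disc_span_mono _ hn hn1, c.disc_orth hn2 m2, c.disc_orth hn2 hn1, c.disc_orth hn3 m1,
    c.disc_orth hn3 (disc_star_mem _ hn hs hn1)⟩

/-- Let `π, Ω` be the GNS data of `θ`, `𝒜₀ = span₀ nrmSet` (a unital ⋆-subalgebra), `𝔄` its norm
closure, `K₀` the closure of `π 𝒜₀ Ω`, `e` the projection onto `K₀` (it commutes with `π 𝔄`), `ρ₀`
the representation of `𝔄` on `K₀` and `T = e π(x) |K₀`.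
Claim: `T` commutes with every `S` that commutes with `ρ₀`.  By density and invariance it suffices
to show `⟪e π(m*) Ω, S Ω⟫ = ⟪S* Ω, e π(m) Ω⟫` for all `m ∈ M` (apply it to `m = n₁* x n₂`); this holds
for `m ∈ 𝒜₀`.  Approximate `S Ω`, `S* Ω` by `π(w₁) Ω`, `π(w₂) Ω` with `w₁, w₂ ∈ span₀ 𝒢`, `𝒢` finite and
closed under `star`; take `n` from `exists_proj_fin`.  Then `m - n` and `(m - n)*` are
`θ`-orthogonal to `span₀ 𝒢 ∋ n, n*` (`E ((m-n) u) = E (u (m-n)) ∘ σ` by `E_conj`), so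
`n2 (m - n) ≤ n2 m`, `n2 (m - n)* ≤ n2 m*`, and both sides for `m - n` are small.
`R124.kap_sa` gives self-adjoint `a_k ∈ 𝔄`, `‖a_k‖ ≤ ‖x‖`, `π(a_k) Ω → e π(x) Ω`.  Let `xd` be a weak
ultralimit; `Normal.tendsto` gives `π(xd) Ω = e π(x) Ω`.  `E_eq_of_forall` gives the orthogonality.
Finally approximate `a_k` in norm by the real part of an element of `𝒜₀` and write elements of
`𝒜₀` as finite sums (`Submodule.span_induction`, or `Submodule.mem_span_set'`). -/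
theorem NCtx.exists_discrete {x : M} (hx : IsSelfAdjoint x) :
    ∃ xd : M, IsSelfAdjoint xd ∧ ‖xd‖ ≤ ‖x‖ ∧
      (∀ u σ, c.Γ.IsNrm u σ → c.E (star u * (x - xd)) = 0) ∧
      ∀ ε : ℝ, 0 < ε → ∃ (N : ℕ) (u : Fin N → M) (σ : Fin N → X ≃ₜ X) (a : Fin N → C(X, ℂ)),
        (∀ i, c.Γ.IsNrm (u i) (σ i)) ∧ IsSelfAdjoint (∑ i, u i * c.Γ.Φ (a i)) ∧
        ‖∑ i, u i * c.Γ.Φ (a i)‖ ≤ ‖x‖ + ε ∧ n2 c.θ (xd - ∑ i, u i * c.Γ.Φ (a i)) ≤ ε := by
  obtain ⟨Ω, hΩ1, hΩ2, hΩ3⟩ := exists_gns c.θ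
  set π := c.θ.gnsStarAlgHom
  have hin : ∀ a b, ⟪π a Ω, π b Ω⟫_ℂ = c.θ (star a * b) := by
    intro a b
    rw [← hΩ1, map_mul, mul_apply_eq_comp, ← disc_inner_star π (star a), star_star]
  obtain ⟨ζ, hζ, happ⟩ := disc_abstract π Ω (disc_alg c.Γ)
    (fun w₁ h₁ w₂ h₂ m => by simpa only [hin] using c.disc_proj h₁ h₂ m) hx
  have hpos : ∀ k : ℕ, (0 : ℝ) < 1 / ((k : ℝ) + 1) := fun k => by positivity
  choose a ha hsa hn1 hn2 using fun k : ℕ => happ _ (hpos k)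
  let 𝒰 : Ultrafilter ℕ := Ultrafilter.of atTop
  have h𝒰 : (𝒰 : Filter ℕ) ≤ atTop := Ultrafilter.of_le _
  have hb : ∀ ε : ℝ, 0 < ε → ∀ᶠ k in (𝒰 : Filter ℕ), ‖a k‖ ≤ ‖x‖ + ε := fun ε hε =>
    h𝒰 ((tendsto_one_div_add_atTop_nhds_zero_nat.eventually (ge_mem_nhds hε)).mono
      fun k hk => (hn1 k).trans (by linarith))
  obtain ⟨xd, hxd⟩ := c.W.exists_WT 𝒰 a _ (hb 1 one_pos)
  have hlim : Tendsto (fun k => π (a k) Ω) (𝒰 : Filter ℕ) (𝓝 ζ) := by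
    refine Tendsto.mono_left ?_ h𝒰
    rw [tendsto_iff_norm_sub_tendsto_zero]
    exact squeeze_zero (fun _ => norm_nonneg _) hn2 tendsto_one_div_add_atTop_nhds_zero_nat
  have hxζ : π xd Ω = ζ := by
    refine hΩ2.eq_of_inner_right ℂ fun b => ?_
    have h1 := c.normal.tendsto (hb 1 one_pos) hxd (star b)
    simp only [← hin] at h1
    exact tendsto_nhds_unique h1 (tendsto_const_nhds.inner hlim)
  refine ⟨xd, ?_, le_of_forall_pos_le_add fun ε hε => hxd.norm_le (hb ε hε), fun u σ hu => ?_,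
    fun ε hε => ?_⟩
  · exact hxd.star.eq_of_eventually hxd (Eventually.of_forall fun k => (hsa k).star_eq)
  · refine c.E_eq_of_forall fun f => ?_
    have h1 := hζ (u * c.Γ.Φ (star f)) (disc_gen_mem _ (𝒢 := c.Γ.nrmSet) ⟨σ, hu⟩ _)
    rw [← hxζ, ← sub_apply, ← map_sub, hin, star_mul, ← map_star, star_star, mul_assoc] at h1
    rw [h1]
    simp
  · obtain ⟨b, hb1, hb2, hb3, hb4⟩ := happ ε hε
    obtain ⟨N, u, f, hu, rfl⟩ := disc_span_sum c.Γ hb1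
    choose σ hσ using hu
    refine ⟨N, u, σ, f, hσ, hb2, hb3, ?_⟩
    rw [← hΩ3, map_sub, sub_apply, hxζ, norm_sub_rev]
    exact hb4

end Crest.Agent.R109
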