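import Crest.Agent.R109.DyeAux

/-! Row 109, normal corner: operators orthogonal to the normaliser are diffuse. -/

set_option autoImplicit false
set_option linter.unusedVariables false

open scoped ComplexOrder InnerProductSpace ComplexConjugate ENNReal
open Filter Topology MeasureTheory

namespace Crest.Agent.R109

variable {M H X : Type*} [CStarAlgebra M] [PartialOrder M] [StarOrderedRing M]
  [NormedAddCommGroup H] [InnerProductSpace ℂ H] [CompleteSpace H]
  [TopologicalSpace X] [CompactSpace X] [T2Space X] [MeasurableSpace X] [BorelSpace X]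

variable (c : NCtx M H X)

/-- Let `g = E (v* v) ≥ β²` on `q` (`pos_cs` for `Et t`).  For clopen `b ⊆ q`, `v e b v*` commutes
with the subalgebra, so it is `Φ (Ψ b)`, `Ψ b ≥ 0`, additive, `Ψ q ≤ 1`.  For `t ∈ b`:
`g t ≤ Ψ b (s t)` (for a clopen `V ∋ s t` on which `Ψ b ≤ Ψ b (s t) + ε`,
`‖v e b e (s⁻¹ V)‖² = ‖e V Φ (Ψ b)‖`, and `E` is contractive).  So every fibre of `s` on `q` has at most
`1/β²` points (disjoint clopen neighbourhoods), and `s '' b = {Ψ b > 0}` is clopen (if `V` misses the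
compact set `s '' b` then `e V v e b = 0`).  Take a fibre `t₁, …, t_N` of maximal size, disjoint clopen
neighbourhoods `b_k ⊆ q`, and `b = b₁ ∩ s⁻¹ (⋂ s '' b_k)`. -/
theorem NCtx.exists_inj {x : M} (hx : IsSelfAdjoint x) (hx1 : ‖x‖ ≤ 1) {β : ℝ} (hβ : 0 < β)
    {q : Set X} (hq : IsClopen q) (hne : q.Nonempty) {s : C(X, X)} {v : M} (hv : ‖v‖ ≤ 1)
    (hvq : v * c.Γ.e q = v) (hs : ∀ f : C(X, ℂ), c.Γ.Φ f * v = v * c.Γ.Φ (f.comp s))
    (hE : ∀ t ∈ q, β ≤ (c.E (x * v) t).re) :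
    ∃ b : Set X, IsClopen b ∧ b.Nonempty ∧ b ⊆ q ∧ Set.InjOn s b ∧
      (∀ b' ⊆ b, IsClopen b' → IsClopen (s '' b')) ∧
      ∀ t ∈ b, β ^ 2 ≤ (c.E (star v * v) t).re := by
  classical
  have : TotallyDisconnectedSpace X := Gel.totallyDisconnected c.W c.Γ
  have hg : ∀ t ∈ q, β ^ 2 ≤ (c.E (star v * v) t).re := fun t ht => by
    have h1 := pos_cs (c.toCtx.Et t) x v
    rw [hx.star_eq, Ctx.Et_apply] at h1
    have h2 := n2_le_norm (c.toCtx.Et t) (c.toCtx.Et_one t) x
    have h3 := n2_sq (c.toCtx.Et t) v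
    rw [Ctx.Et_apply] at h3
    have h4 := n2_nonneg (c.toCtx.Et t) v
    have h5 : β ≤ n2 (c.toCtx.Et t) v := by
      calc β ≤ (c.E (x * v) t).re := hE t ht
        _ ≤ ‖c.E (x * v) t‖ := Complex.re_le_norm _
        _ ≤ _ := h1
        _ ≤ 1 * n2 (c.toCtx.Et t) v := mul_le_mul_of_nonneg_right (h2.trans hx1) h4
        _ = _ := one_mul _
    rw [← h3]
    exact pow_le_pow_left₀ hβ.le h5 2
  have hβ2 : 0 < β ^ 2 := by positivity
  have himg : ∀ b' ⊆ q, IsClopen b' → IsClopen (s '' b') := fun b' hb'q hb' =>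
    dye_image_clopen c.toCtx hs hb' fun t ht => hβ2.trans_le (hg t (hb'q ht))
  set S : Set ℕ := {n | ∃ (F : Finset X) (y : X), F.card = n ∧ F.Nonempty ∧
    ∀ t ∈ F, t ∈ q ∧ s t = y} with hS
  have hSne : S.Nonempty := by
    obtain ⟨t, ht⟩ := hne
    exact ⟨1, {t}, s t, Finset.card_singleton t, Finset.singleton_nonempty t, fun t' ht' => by
      rw [Finset.mem_singleton.1 ht']; exact ⟨ht, rfl⟩⟩
  have hSb : BddAbove S := by
    obtain ⟨N, hN⟩ := exists_nat_ge (1 / β ^ 2)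
    refine ⟨N, ?_⟩
    rintro n ⟨F, y, rfl, -, hF⟩
    have := dye_fibre c.toCtx hv hs F (fun t ht => (hF t ht).2) fun t ht => hg t (hF t ht).1
    have h2 : (F.card : ℝ) ≤ 1 / β ^ 2 := by rw [le_div_iff₀ hβ2]; exact this
    exact_mod_cast h2.trans hN
  obtain ⟨F, y, hFc, ⟨t₁, ht₁⟩, hF⟩ := Nat.sSup_mem hSne hSb
  obtain ⟨U, hU, hd⟩ := dye_nhds hq F fun t ht => (hF t ht).1
  have hW : IsClopen (⋂ t ∈ F, s '' U t) :=
    isClopen_biInter_finset fun t ht => himg _ (hU t ht).2.2 (hU t ht).1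
  have hbq : U t₁ ∩ s ⁻¹' (⋂ t ∈ F, s '' U t) ⊆ q :=
    Set.inter_subset_left.trans (hU t₁ ht₁).2.2
  refine ⟨U t₁ ∩ s ⁻¹' (⋂ t ∈ F, s '' U t), (hU t₁ ht₁).1.inter (hW.preimage s.continuous),
    ⟨t₁, (hU t₁ ht₁).2.1, ?_⟩, hbq, ?_, fun b' hb' => himg b' (hb'.trans hbq),
    fun t ht => hg t (hbq ht)⟩
  · simp only [Set.mem_preimage, Set.mem_iInter]
    exact fun t ht => ⟨t, (hU t ht).2.1, by rw [(hF t ht).2, (hF t₁ ht₁).2]⟩
  · intro a ha a' ha' haa
    by_contra hne'
    have hex : ∀ t ∈ F, ∃ z, z ∈ U t ∧ s z = s a ∧ z ≠ a' := fun t ht => by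
      by_cases htt : t = t₁
      · exact ⟨a, htt ▸ ha.1, rfl, hne'⟩
      · have := ha.2
        simp only [Set.mem_preimage, Set.mem_iInter] at this
        obtain ⟨z, hz, hz'⟩ := this t ht
        refine ⟨z, hz, hz', fun e => ?_⟩
        exact Set.disjoint_left.1 (hd t ht t₁ ht₁ htt) hz (e ▸ ha'.1)
    choose! p hp using hex
    have hinj : Set.InjOn p F := fun t ht t' ht' e => by
      by_contra hne2
      exact Set.disjoint_left.1 (hd t ht t' ht' hne2) (hp t ht).1 (e ▸ (hp t' ht').1)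
    have hnot : a' ∉ F.image p := by
      rw [Finset.mem_image]
      rintro ⟨t, ht, e⟩
      exact (hp t ht).2.2 e
    have hmem : F.card + 1 ∈ S := by
      refine ⟨insert a' (F.image p), s a, ?_, Finset.insert_nonempty _ _, fun z hz => ?_⟩
      · rw [Finset.card_insert_of_notMem hnot, Finset.card_image_of_injOn hinj]
      · rcases Finset.mem_insert.1 hz with rfl | hz
        · exact ⟨hbq ha', haa.symm⟩
        · obtain ⟨t, ht, rfl⟩ := Finset.mem_image.1 hz
          exact ⟨(hU t ht).2.2 (hp t ht).1, (hp t ht).2.1⟩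
    have := le_csSup hSb hmem
    omega

/-- `v₁ = v e b`.  For clopen `W ⊆ b`, `e (s '' W) v₁ = v₁ e W`, so `v₁* v₁` commutes with all
`e W` and equals `Φ (g ind b)`.  `v₂ = v₁ Φ (g^(-1/2) on b)` has `v₂* v₂ = e b`,
`Φ f v₂ = v₂ Φ (f ∘ s)`, `v₂ A v₂* ⊆ A`, `v₂* A v₂ ⊆ A` and `E (x v₂) ≠ 0` on `b`.  If `s t = t` on `b`
then `v₂` commutes with `A`, so `v₂ = Φ a` and `E (x v₂) = E x * a = 0` (`u = 1`).  Otherwise take a
clopen `q' ⊆ b` with `s '' q' ∩ q' = ∅`, `w = v₂ e q'`: `w* w = e q'`, `e (s '' q') w = w`, `w w*` is a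
projection of `A` orthogonal to `e q'`, `w w = 0`; `u = w + w* + (1 - w* w - w w*)` is a self-adjoint
unitary normalising `A` (`exists_isNrm`), `u e q' = w`, and `E (x u) = star (E (u* x)) = 0`. -/
theorem NCtx.dye {x : M} (hx : IsSelfAdjoint x) (hx1 : ‖x‖ ≤ 1)
    (h : ∀ u σ, c.Γ.IsNrm u σ → c.E (star u * x) = 0) {η : ℝ} (hη : 0 < η) :
    ∃ P : DiscreteQuotient X, ∫ t, ∑ I : P, c.toCtx.ν x t (P.proj ⁻¹' {I}) ^ 2 ∂c.μ ≤ η := by
  have : TotallyDisconnectedSpace X := Gel.totallyDisconnected c.W c.Γ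
  by_contra hcon
  obtain ⟨β, q, I, hβ, hq, hI, hne, hat⟩ :=
    c.exists_atom hx hx1 hη fun P => not_le.1 fun hP => hcon ⟨P, hP⟩
  obtain ⟨s, v, hv, hvq, hs, hE⟩ := c.exists_intertwiner hx hx1 hβ hq hI hat
  obtain ⟨b, hb, ⟨t₁, ht₁⟩, hbq, hinj, himg, hg⟩ := c.exists_inj hx hx1 hβ hq hne hv hvq hs hE
  have hxv : ∀ t ∈ b, c.E (x * v) t ≠ 0 := fun t ht e => by
    have := hE t (hbq ht)
    rw [e, Complex.zero_re] at this
    linarith
  by_cases hfix : ∀ t ∈ b, s t = t
  · have hc : ∀ f : C(X, ℂ), c.Γ.Φ f * (v * c.Γ.Φ (ind b)) = v * c.Γ.Φ (ind b) * c.Γ.Φ f :=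
      fun f => by
        rw [dye_mul_comm hs, mul_assoc, mul_assoc, ← map_mul, ← map_mul]
        congr 2
        ext t
        by_cases ht : t ∈ b
        · simp [hfix t ht]
        · simp [ind_of_notMem ht]
    obtain ⟨r, hr⟩ := c.Γ.max _ hc
    have hx0 := h 1 1 c.Γ.isNrm_one
    rw [star_one, one_mul] at hx0
    have e1 := c.toCtx.E_mul_right r x
    rw [hr, ← mul_assoc, c.toCtx.E_mul_right, hx0, zero_mul] at e1
    have e2 := congrArg (fun f : C(X, ℂ) => f t₁) e1
    simp only [ContinuousMap.mul_apply, ind_of_mem hb ht₁, mul_one,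
      ContinuousMap.zero_apply] at e2
    exact hxv t₁ ht₁ e2
  · push Not at hfix
    obtain ⟨t₀, ht₀, hst⟩ := hfix
    obtain ⟨V, hV, hsV, htV⟩ := compact_exists_isClopen_in_isOpen
      (isOpen_compl_singleton (x := t₀)) (show s t₀ ∈ ({t₀}ᶜ : Set X) from hst)
    have htV' : t₀ ∉ V := fun h' => htV h' rfl
    set q' := b ∩ Vᶜ ∩ s ⁻¹' V with hq'
    have hq'c : IsClopen q' := (hb.inter hV.compl).inter (hV.preimage s.continuous)
    have ht₀q : t₀ ∈ q' := ⟨⟨ht₀, htV'⟩, hsV⟩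
    set g := c.E (star v * v) with hgdef
    have hβ2 : 0 < β ^ 2 := by positivity
    have hpos : ∀ t, 0 < √(max (g t).re (β ^ 2)) := fun t =>
      Real.sqrt_pos.2 (hβ2.trans_le (le_max_right _ _))
    let k : C(X, ℂ) := ⟨fun t => (((√(max (g t).re (β ^ 2)))⁻¹ : ℝ) : ℂ),
      Complex.continuous_ofReal.comp (Continuous.inv₀ (Real.continuous_sqrt.comp
        ((Complex.continuous_re.comp g.continuous).max continuous_const)) fun t => (hpos t).ne')⟩
    have hk : ∀ t, k t = (((√(max (g t).re (β ^ 2)))⁻¹ : ℝ) : ℂ) := fun _ => rfl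
    set m : C(X, ℂ) := ind q' * k with hm
    set w := v * c.Γ.Φ m with hw
    have hsw : ∀ f : C(X, ℂ), c.Γ.Φ f * w = w * c.Γ.Φ (f.comp s) := dye_mul_comm hs m
    have hbm : ind b * m = m := by
      rw [hm, ← mul_assoc, ind_mul hb hq'c, Set.inter_eq_right.2 fun t ht => ht.1.1]
    have hww : star w * w = c.Γ.Φ (ind q') := by
      have e1 : w = v * c.Γ.e b * c.Γ.Φ m := by
        rw [hw, mul_assoc]
        unfold Gel.e
        rw [← map_mul, hbm]
      have e2 := dye_star_mul_self c.toCtx hs hb hinj himg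
      have e3 : star w * w = c.Γ.Φ (star m) * (star (v * c.Γ.e b) * (v * c.Γ.e b)) *
          c.Γ.Φ m := by
        rw [e1, star_mul, map_star]; simp only [mul_assoc]
      rw [e3, e2, ← map_mul, ← map_mul]
      congr 1
      ext t
      by_cases ht : t ∈ q'
      · have htb : t ∈ b := ht.1.1
        have g0 : 0 ≤ g t := c.toCtx.E_nonneg (star_mul_self_nonneg v) t
        have g1 : g t = ((g t).re : ℂ) := Complex.eq_re_of_ofReal_le (r := 0) (by simpa using g0)
        have g2 : max (g t).re (β ^ 2) = (g t).re := max_eq_left (hg t htb)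
        have g3 : 0 < (g t).re := hβ2.trans_le (hg t htb)
        simp only [hm, ContinuousMap.mul_apply, ContinuousMap.star_apply, ind_of_mem hq'c ht,
          ind_of_mem hb htb, one_mul, mul_one, hk, g2]
        rw [← hgdef, g1, Complex.ofReal_re, Complex.star_def, Complex.conj_ofReal,
          ← Complex.ofReal_mul, ← Complex.ofReal_mul, Complex.ofReal_eq_one]
        have g4 := Real.mul_self_sqrt g3.le
        have g5 := Real.sqrt_pos.2 g3
        field_simp
        rw [sq, g4]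
      · simp [hm, ind_of_notMem ht]
    have h1 : w * star w * w = w := by
      rw [mul_assoc, hww, hw, mul_assoc, ← map_mul]
      congr 2
      rw [hm, mul_comm (ind q') k, mul_assoc, ind_mul hq'c hq'c, Set.inter_self]
    have h2 : w * w = 0 := by
      have a1 : c.Γ.Φ (ind V) * w = w := by
        rw [hsw, ind_comp hV, hw, mul_assoc, ← map_mul]
        congr 2
        rw [hm, mul_comm (ind q') k, mul_assoc, ind_mul hq'c (hV.preimage s.continuous),
          Set.inter_eq_left.2 fun t ht => ht.2]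
      have a2 : w * c.Γ.Φ (ind V) = 0 := by
        have : q' ∩ V = ∅ := Set.eq_empty_of_forall_notMem fun t ht => ht.1.1.2 ht.2
        rw [hw, mul_assoc, ← map_mul, hm, mul_comm (ind q') k, mul_assoc, ind_mul hq'c hV, this,
          ind_empty, mul_zero, map_zero, mul_zero]
      calc w * w = w * (c.Γ.Φ (ind V) * w) := by rw [a1]
        _ = 0 := by rw [← mul_assoc, a2, zero_mul]
    obtain ⟨σ, hσ⟩ := dye_nrm hsw h1 h2 hww
    obtain ⟨b1, -, b3⟩ := dye_unitary h1 h2
    set u := w + star w + (1 - star w * w - w * star w) with hu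
    have e1 : c.E (x * u) = 0 := by
      have := c.toCtx.E_star (star u * x)
      rw [h u σ hσ, star_zero, star_mul, star_star, hx.star_eq] at this
      exact this
    have e2 : c.E (x * w) = 0 := by
      rw [← b3, hww, ← mul_assoc, c.toCtx.E_mul_right, e1, zero_mul]
    rw [hw, ← mul_assoc, c.toCtx.E_mul_right] at e2
    have e3 := congrArg (fun f : C(X, ℂ) => f t₀) e2
    simp only [hm, ContinuousMap.mul_apply, ind_of_mem hq'c ht₀q, one_mul,
      ContinuousMap.zero_apply, hk, mul_eq_zero, Complex.ofReal_eq_zero, inv_eq_zero] at e3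
    rcases e3 with e3 | e3
    · exact hxv t₀ ht₀ e3
    · exact (hpos t₀).ne' e3

end Crest.Agent.R109
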