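import Crest.Agent.R109.NBasic

/-! Row 109, normal corner: isolating an atom of the spectral measures. -/

set_option autoImplicit false

open scoped ComplexOrder InnerProductSpace ComplexConjugate ENNReal
open Filter Topology MeasureTheory

namespace Crest.Agent.R109

section abstract

variable {X : Type*} [TopologicalSpace X] [CompactSpace X]

/-- Continuous families of finitely additive set functions on the clopen sets. -/
structure DyeaNu (ν : X → Set X → ℝ) : Prop where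
  cont : ∀ V, Continuous fun t => ν t V
  nonneg : ∀ t V, 0 ≤ ν t V
  split : ∀ t V W, IsClopen V → IsClopen W → ν t W = ν t (V ∩ W) + ν t (Vᶜ ∩ W)
  univ : ∀ t, ν t Set.univ ≤ 1
  sum : ∀ t (P : DiscreteQuotient X), ∑ J : P, ν t (P.proj ⁻¹' {J}) = ν t Set.univ

variable {ν : X → Set X → ℝ}

theorem DyeaNu.mono (h : DyeaNu ν) (t : X) {V W : Set X} (hV : IsClopen V) (hW : IsClopen W)
    (hVW : V ⊆ W) : ν t V ≤ ν t W := by
  rw [h.split t V W hV hW, Set.inter_eq_left.2 hVW]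
  linarith [h.nonneg t (Vᶜ ∩ W)]

theorem DyeaNu.empty (h : DyeaNu ν) (t : X) : ν t ∅ = 0 := by
  have := h.split t ∅ ∅ isClopen_empty isClopen_empty
  simp only [Set.inter_empty] at this
  linarith

theorem DyeaNu.le_one (h : DyeaNu ν) (t : X) {V : Set X} (hV : IsClopen V) : ν t V ≤ 1 :=
  (h.mono t hV isClopen_univ (Set.subset_univ _)).trans (h.univ t)

/-- Points where some atom of `P` is heavy inside `I`. -/
def dyeaA (ν : X → Set X → ℝ) (β : ℝ) (I : Set X) (P : DiscreteQuotient X) : Set X :=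
  {t | ∃ J : P, β ≤ ν t (P.proj ⁻¹' {J} ∩ I)}

/-- Points where every partition has a heavy atom inside `I`. -/
def dyeaK (ν : X → Set X → ℝ) (β : ℝ) (I : Set X) : Set X :=
  ⋂ P : DiscreteQuotient X, dyeaA ν β I P

theorem DyeaNu.A_closed (h : DyeaNu ν) (β : ℝ) (I : Set X) (P : DiscreteQuotient X) :
    IsClosed (dyeaA ν β I P) := by
  have : dyeaA ν β I P = ⋃ J : P, {t | β ≤ ν t (P.proj ⁻¹' {J} ∩ I)} := by
    ext t; simp [dyeaA]
  rw [this]
  exact isClosed_iUnion_of_finite fun J => isClosed_le continuous_const (h.cont _)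

theorem DyeaNu.K_closed (h : DyeaNu ν) (β : ℝ) (I : Set X) : IsClosed (dyeaK ν β I) :=
  isClosed_iInter fun P => h.A_closed β I P

theorem DyeaNu.A_mono (h : DyeaNu ν) (β : ℝ) {I : Set X} (hI : IsClopen I)
    {P P' : DiscreteQuotient X} (hP : P ≤ P') : dyeaA ν β I P ⊆ dyeaA ν β I P' := by
  rintro t ⟨J, hJ⟩
  refine ⟨DiscreteQuotient.ofLE hP J, hJ.trans ?_⟩
  exact h.mono t ((P.isClopen_preimage _).inter hI) ((P'.isClopen_preimage _).inter hI)
    (Set.inter_subset_inter_left _ (DiscreteQuotient.fiber_subset_ofLE hP J))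

theorem DyeaNu.K_empty (h : DyeaNu ν) {β : ℝ} (hβ : 1 < β) : dyeaK ν β Set.univ = ∅ := by
  refine Set.eq_empty_of_forall_notMem fun t ht => ?_
  obtain ⟨J, hJ⟩ := Set.mem_iInter.1 ht ⊤
  have := h.le_one t (((⊤ : DiscreteQuotient X).isClopen_preimage {J}).inter isClopen_univ)
  linarith

theorem DyeaNu.K_subset (h : DyeaNu ν) (β : ℝ) (P : DiscreteQuotient X) :
    dyeaK ν β Set.univ ⊆ ⋃ I : P, dyeaK ν β (P.proj ⁻¹' {I}) := by
  intro t ht
  by_contra hn
  simp only [Set.mem_iUnion, dyeaK, Set.mem_iInter, not_exists, not_forall] at hn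
  choose Q hQ using hn
  obtain ⟨J, hJ⟩ := Set.mem_iInter.1 ht (P ⊓ Finset.univ.inf Q)
  have h1 : P ⊓ Finset.univ.inf Q ≤ P := inf_le_left
  set I := DiscreteQuotient.ofLE h1 J with hI
  have h2 : P ⊓ Finset.univ.inf Q ≤ Q I :=
    inf_le_right.trans (Finset.inf_le (Finset.mem_univ I))
  refine hQ I ⟨DiscreteQuotient.ofLE h2 J, hJ.trans ?_⟩
  refine h.mono t ((DiscreteQuotient.isClopen_preimage _ _).inter isClopen_univ)
    ((DiscreteQuotient.isClopen_preimage _ _).inter (DiscreteQuotient.isClopen_preimage _ _)) ?_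
  rintro y ⟨hy, -⟩
  exact ⟨DiscreteQuotient.fiber_subset_ofLE h2 J hy, DiscreteQuotient.fiber_subset_ofLE h1 J hy⟩

theorem DyeaNu.measure_A [MeasurableSpace X] [BorelSpace X] (h : DyeaNu ν) (μ : Measure X)
    [IsProbabilityMeasure μ] {η : ℝ} (hη : 0 < η) (P : DiscreteQuotient X)
    (hP : η < ∫ t, ∑ I : P, ν t (P.proj ⁻¹' {I}) ^ 2 ∂μ) :
    η / 2 < μ.real (dyeaA ν (η / 2) Set.univ P) := by
  have hm : MeasurableSet (dyeaA ν (η / 2) Set.univ P) := (h.A_closed _ _ P).measurableSet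
  have hle : ∀ t, ∑ I : P, ν t (P.proj ⁻¹' {I}) ^ 2 ≤
      (dyeaA ν (η / 2) Set.univ P).indicator (fun _ => (1 : ℝ)) t + η / 2 := by
    intro t
    by_cases ht : t ∈ dyeaA ν (η / 2) Set.univ P
    · rw [Set.indicator_of_mem ht]
      have : ∑ I : P, ν t (P.proj ⁻¹' {I}) ^ 2 ≤ ∑ I : P, ν t (P.proj ⁻¹' {I}) := by
        refine Finset.sum_le_sum fun I _ => ?_
        have h0 := h.nonneg t (P.proj ⁻¹' {I})
        have h1 := h.le_one t (P.isClopen_preimage {I})
        nlinarith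
      rw [h.sum] at this
      linarith [h.univ t]
    · rw [Set.indicator_of_notMem ht]
      simp only [dyeaA, Set.inter_univ, Set.mem_ofPred_eq, not_exists, not_le] at ht
      have : ∑ I : P, ν t (P.proj ⁻¹' {I}) ^ 2 ≤ ∑ I : P, η / 2 * ν t (P.proj ⁻¹' {I}) := by
        refine Finset.sum_le_sum fun I _ => ?_
        have h0 := h.nonneg t (P.proj ⁻¹' {I})
        have h1 := ht I
        nlinarith
      rw [← Finset.mul_sum, h.sum] at this
      have h1 := h.univ t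
      nlinarith
  have hi : Integrable
      (fun t => (dyeaA ν (η / 2) Set.univ P).indicator (fun _ => (1 : ℝ)) t + η / 2) μ :=
    ((integrable_const (1 : ℝ)).indicator hm).add (integrable_const _)
  have := integral_mono_of_nonneg (μ := μ)
    (f := fun t => ∑ I : P, ν t (P.proj ⁻¹' {I}) ^ 2)
    (Eventually.of_forall fun t => Finset.sum_nonneg fun I _ => sq_nonneg _) hi
    (Eventually.of_forall hle)
  rw [integral_add ((integrable_const (1 : ℝ)).indicator hm) (integrable_const _),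
    integral_indicator_const _ hm] at this
  simp only [smul_eq_mul, mul_one, integral_const, probReal_univ, one_mul] at this
  linarith

theorem DyeaNu.interior_K [MeasurableSpace X] [BorelSpace X] (h : DyeaNu ν) (μ : Measure X)
    [IsProbabilityMeasure μ] [μ.OuterRegular]
    (hd : ∀ K : Set X, IsClosed K → μ (K \ interior K) = 0) {η : ℝ} (hη : 0 < η)
    (hP : ∀ P : DiscreteQuotient X, η < ∫ t, ∑ I : P, ν t (P.proj ⁻¹' {I}) ^ 2 ∂μ) :
    (interior (dyeaK ν (η / 2) Set.univ)).Nonempty := by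
  by_contra hn
  rw [Set.not_nonempty_iff_eq_empty] at hn
  have h0 := hd _ (h.K_closed (η / 2) Set.univ)
  rw [hn, Set.sdiff_empty] at h0
  obtain ⟨U, hKU, hU, hμ⟩ := (dyeaK ν (η / 2) Set.univ).exists_isOpen_lt_of_lt (μ := μ)
    (ENNReal.ofReal (η / 2)) (by rw [h0]; simpa using hη)
  obtain ⟨P, hPU⟩ := hU.isClosed_compl.isCompact.elim_directed_family_closed
    (fun P => dyeaA ν (η / 2) Set.univ P) (fun P => h.A_closed _ _ P)
    (Set.eq_empty_of_forall_notMem fun t ht => ht.1 (hKU ht.2))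
    (fun P P' => ⟨P ⊓ P', h.A_mono _ isClopen_univ inf_le_left,
      h.A_mono _ isClopen_univ inf_le_right⟩)
  have hsub : dyeaA ν (η / 2) Set.univ P ⊆ U := fun t ht => by
    by_contra hc
    exact (Set.eq_empty_iff_forall_notMem.1 hPU t) ⟨hc, ht⟩
  have h1 := h.measure_A μ hη P (hP P)
  have h2 : μ.real U ≤ η / 2 := ENNReal.toReal_le_of_le_ofReal (by positivity) hμ.le
  have h3 : μ.real (dyeaA ν (η / 2) Set.univ P) ≤ μ.real U := measureReal_mono hsub
  linarith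

theorem DyeaNu.exists_atom [T2Space X] [TotallyDisconnectedSpace X] (h : DyeaNu ν) {η : ℝ}
    (hη : 0 < η) (hK : (interior (dyeaK ν η Set.univ)).Nonempty) :
    ∃ (β : ℝ) (q I : Set X), 0 < β ∧ IsClopen q ∧ IsClopen I ∧ q.Nonempty ∧
      ∀ t ∈ q, ∀ V, IsClopen V →
        (β ≤ ν t (V ∩ I) ∧ ν t (Vᶜ ∩ I) < β / 4) ∨
        (β ≤ ν t (Vᶜ ∩ I) ∧ ν t (V ∩ I) < β / 4) := by
  obtain ⟨k, hk, hk'⟩ := Nat.exists_not_and_succ_of_not_zero_of_exists
    (p := fun k : ℕ => interior (dyeaK ν ((5 / 4 : ℝ) ^ k * η) Set.univ) = ∅)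
    (by simpa using hK.ne_empty) (by
      obtain ⟨n, hn⟩ := pow_unbounded_of_one_lt (1 / η) (by norm_num : (1 : ℝ) < 5 / 4)
      refine ⟨n, ?_⟩
      rw [h.K_empty, interior_empty]
      rwa [div_lt_iff₀ hη] at hn)
  set β := (5 / 4 : ℝ) ^ k * η with hβ
  have hβ0 : 0 < β := by positivity
  have hβ' : (5 / 4 : ℝ) ^ (k + 1) * η = 5 / 4 * β := by rw [hβ]; ring
  rw [hβ'] at hk'
  obtain ⟨t₀, ht₀, ht₀'⟩ : ∃ t₀ ∈ interior (dyeaK ν β Set.univ),
      t₀ ∉ dyeaK ν (5 / 4 * β) Set.univ := by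
    by_contra hc
    push Not at hc
    have : interior (dyeaK ν β Set.univ) ⊆ interior (dyeaK ν (5 / 4 * β) Set.univ) :=
      interior_maximal hc isOpen_interior
    rw [hk'] at this
    exact hk (Set.subset_empty_iff.1 this)
  simp only [dyeaK, Set.mem_iInter, not_forall] at ht₀'
  obtain ⟨P, hP⟩ := ht₀'
  set O := interior (dyeaK ν β Set.univ) ∩ (dyeaA ν (5 / 4 * β) Set.univ P)ᶜ with hO
  have hOo : IsOpen O := isOpen_interior.inter (h.A_closed _ _ P).isOpen_compl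
  have hOn : O.Nonempty := ⟨t₀, ht₀, hP⟩
  have hden := dense_iUnion_interior_of_closed (X := X) (ι := Option P)
    (f := fun i => i.elim Oᶜ fun I => dyeaK ν β (P.proj ⁻¹' {I}))
    (by
      rintro (_ | I)
      · exact hOo.isClosed_compl
      · exact h.K_closed _ _)
    (by
      refine Set.eq_univ_of_forall fun t => ?_
      by_cases ht : t ∈ O
      · obtain ⟨I, hI⟩ := Set.mem_iUnion.1 (h.K_subset β P (interior_subset ht.1))
        exact Set.mem_iUnion.2 ⟨some I, hI⟩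
      · exact Set.mem_iUnion.2 ⟨none, ht⟩)
  obtain ⟨t₁, ht₁, ht₁'⟩ := hden.inter_open_nonempty O hOo hOn
  obtain ⟨i, hi⟩ := Set.mem_iUnion.1 ht₁'
  rcases i with _ | I
  · exact absurd ht₁ (interior_subset hi)
  obtain ⟨q, hq, htq, hqs⟩ := (isTopologicalBasis_isClopen (X := X)).exists_subset_of_mem_open
    (u := O ∩ interior (dyeaK ν β (P.proj ⁻¹' {I}))) ⟨ht₁, hi⟩ (hOo.inter isOpen_interior)
  have hIc := P.isClopen_preimage {I}
  refine ⟨β, q, P.proj ⁻¹' {I}, hβ0, hq, hIc, ⟨t₁, htq⟩, fun t ht V hV => ?_⟩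
  obtain ⟨⟨-, h1⟩, h2⟩ := hqs ht
  have h3 : ν t (P.proj ⁻¹' {I}) < 5 / 4 * β := by
    by_contra hc
    exact h1 ⟨I, by simpa using hc⟩
  rw [h.split t V _ hV hIc] at h3
  obtain ⟨J, hJ⟩ := Set.mem_iInter.1 (interior_subset h2) (DiscreteQuotient.ofIsClopen hV)
  have hJc := ((DiscreteQuotient.ofIsClopen hV).isClopen_preimage {J}).inter hIc
  rcases atom_subset hV le_rfl J with hs | hs
  · have := hJ.trans (h.mono t hJc (hV.inter hIc) (Set.inter_subset_inter_left _ hs))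
    exact Or.inl ⟨this, by linarith⟩
  · have := hJ.trans (h.mono t hJc (hV.compl.inter hIc) (Set.inter_subset_inter_left _ hs))
    exact Or.inr ⟨this, by linarith⟩

theorem DyeaNu.exists_point (hν : DyeaNu ν) {β : ℝ} {I : Set X} (hβ : 0 < β) (hI : IsClopen I)
    {t : X} (h : ∀ V, IsClopen V →
        (β ≤ ν t (V ∩ I) ∧ ν t (Vᶜ ∩ I) < β / 4) ∨ (β ≤ ν t (Vᶜ ∩ I) ∧ ν t (V ∩ I) < β / 4)) :
    ∃ p : X, ∀ V, IsClopen V → (p ∈ V ↔ β ≤ ν t (V ∩ I)) := by
  have hne : ∀ V, β ≤ ν t (V ∩ I) → V.Nonempty := by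
    intro V hV
    by_contra hc
    rw [Set.not_nonempty_iff_eq_empty] at hc
    rw [hc, Set.empty_inter, hν.empty] at hV
    linarith
  have huniv : β ≤ ν t (Set.univ ∩ I) := by
    rcases h _ isClopen_univ with h1 | h1
    · exact h1.1
    · exact absurd (hne _ h1.1) (by simp)
  have hint : ∀ V W, IsClopen V → IsClopen W → β ≤ ν t (V ∩ I) → β ≤ ν t (W ∩ I) →
      β ≤ ν t (V ∩ W ∩ I) := by
    intro V W hV hW h1 h2
    rcases h _ (hV.inter hW) with h3 | h3
    · exact h3.1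
    rcases h _ hW with h4 | h4
    · have h5 := hν.split t W (V ∩ I) hW (hV.inter hI)
      have h6 : ν t (W ∩ (V ∩ I)) ≤ ν t (V ∩ W ∩ I) :=
        hν.mono t (hW.inter (hV.inter hI)) ((hV.inter hW).inter hI)
          fun y hy => ⟨⟨hy.2.1, hy.1⟩, hy.2.2⟩
      have h7 : ν t (Wᶜ ∩ (V ∩ I)) ≤ ν t (Wᶜ ∩ I) :=
        hν.mono t (hW.compl.inter (hV.inter hI)) (hW.compl.inter hI) fun y hy => ⟨hy.1, hy.2.2⟩
      linarith [h3.2, h4.2]
    · linarith [h4.2]
  have : Nonempty {V : Set X | IsClopen V ∧ β ≤ ν t (V ∩ I)} := ⟨⟨_, isClopen_univ, huniv⟩⟩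
  obtain ⟨p, hp⟩ := IsCompact.nonempty_sInter_of_directed_nonempty_isCompact_isClosed
    (S := {V : Set X | IsClopen V ∧ β ≤ ν t (V ∩ I)})
    (fun V hV W hW => ⟨V ∩ W, ⟨hV.1.inter hW.1, hint V W hV.1 hW.1 hV.2 hW.2⟩,
      Set.inter_subset_left, Set.inter_subset_right⟩)
    (fun V hV => hne V hV.2) (fun V hV => hV.1.1.isCompact) (fun V hV => hV.1.1)
  refine ⟨p, fun V hV => ⟨fun hpV => ?_, fun h1 => hp V ⟨hV, h1⟩⟩⟩
  rcases h V hV with h1 | h1
  · exact h1.1
  · exact absurd hpV (hp Vᶜ ⟨hV.compl, h1.1⟩)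

theorem DyeaNu.exists_map [T2Space X] [TotallyDisconnectedSpace X] (hν : DyeaNu ν) {β : ℝ}
    {q I : Set X} (hβ : 0 < β) (hq : IsClopen q) (hI : IsClopen I)
    (h : ∀ t ∈ q, ∀ V, IsClopen V →
        (β ≤ ν t (V ∩ I) ∧ ν t (Vᶜ ∩ I) < β / 4) ∨ (β ≤ ν t (Vᶜ ∩ I) ∧ ν t (V ∩ I) < β / 4)) :
    ∃ s : C(X, X), ∀ t ∈ q, ∀ V, IsClopen V → s t ∈ V → β ≤ ν t (V ∩ I) := by
  classical
  have h1 : ∀ t, ∃ p : X, (t ∈ q → ∀ V, IsClopen V → (p ∈ V ↔ β ≤ ν t (V ∩ I))) ∧
      (t ∉ q → p = t) := by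
    intro t
    by_cases ht : t ∈ q
    · obtain ⟨p, hp⟩ := hν.exists_point hβ hI (h t ht)
      exact ⟨p, fun _ => hp, fun h' => absurd ht h'⟩
    · exact ⟨t, fun h' => absurd h' ht, fun _ => rfl⟩
  choose s hs hs' using h1
  refine ⟨⟨s, isTopologicalBasis_isClopen.continuous_iff.2 fun V hV => ?_⟩,
    fun t ht V hV hsV => (hs t ht V hV).1 hsV⟩
  have : s ⁻¹' V = (q ∩ {t | β / 2 < ν t (V ∩ I)}) ∪ (qᶜ ∩ V) := by
    ext t
    by_cases ht : t ∈ q
    · simp only [Set.mem_preimage, hs t ht V hV, Set.mem_union, Set.mem_inter_iff, ht,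
        Set.mem_ofPred_eq, true_and, Set.mem_compl_iff, not_true_eq_false, false_and, or_false]
      rcases h t ht V hV with h2 | h2
      · exact ⟨fun _ => by linarith [h2.1], fun _ => h2.1⟩
      · exact ⟨fun _ => by linarith, fun _ => by linarith [h2.2]⟩
    · simp [hs' t ht, ht]
  rw [this]
  exact (hq.2.inter (isOpen_lt continuous_const (hν.cont _))).union (hq.1.isOpen_compl.inter hV.2)

end abstract

variable {M H X : Type*} [CStarAlgebra M] [PartialOrder M] [StarOrderedRing M]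
  [NormedAddCommGroup H] [InnerProductSpace ℂ H] [CompleteSpace H]
  [TopologicalSpace X] [CompactSpace X] [T2Space X] [MeasurableSpace X] [BorelSpace X]

/-- The mass that the spectral measure at `t` gives to a clopen set. -/
noncomputable def Ctx.ν (c : Ctx M H X) (x : M) (t : X) (V : Set X) : ℝ :=
  (c.E (x * c.Γ.e V * x) t).re

omit [T2Space X] [MeasurableSpace X] [BorelSpace X] in
theorem Ctx.dyeaNu (c : Ctx M H X) {x : M} (hx : IsSelfAdjoint x) (hx1 : ‖x‖ ≤ 1) :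
    DyeaNu (c.ν x) where
  cont V := Complex.continuous_re.comp (c.E (x * c.Γ.e V * x)).continuous
  nonneg t V := by
    have h0 : 0 ≤ x * c.Γ.e V * x := by
      have := star_left_conjugate_nonneg (c.Γ.e_proj V).nonneg x
      rwa [hx.star_eq] at this
    exact (Complex.nonneg_iff.1 (c.E_nonneg h0 t)).1
  split t V W hV hW := by
    have : c.Γ.e W = c.Γ.e (V ∩ W) + c.Γ.e (Vᶜ ∩ W) := by
      rw [← c.Γ.e_mul hV hW, ← c.Γ.e_mul hV.compl hW, c.Γ.e_compl hV]
      noncomm_ring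
    simp only [Ctx.ν]
    rw [this, mul_add, add_mul, map_add]
    simp
  univ t := by
    simp only [Ctx.ν, Gel.e, ind_univ, map_one, mul_one]
    calc (c.E (x * x) t).re ≤ ‖c.E (x * x) t‖ := Complex.re_le_norm _
      _ ≤ ‖c.E (x * x)‖ := ContinuousMap.norm_coe_le_norm _ _
      _ ≤ ‖x * x‖ := c.norm_E_le _
      _ ≤ ‖x‖ * ‖x‖ := norm_mul_le _ _
      _ ≤ 1 := mul_le_one₀ hx1 (norm_nonneg _) hx1
  sum t P := by
    have h1 : c.Γ.e Set.univ = ∑ J : P, c.Γ.e (P.proj ⁻¹' {J}) := by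
      have := (c.Γ.ea_isPart P).sum
      simp only [Gel.ea] at this
      rw [this, Gel.e, ind_univ, map_one]
    simp only [Ctx.ν]
    rw [h1, Finset.mul_sum, Finset.sum_mul, map_sum, ContinuousMap.sum_apply, Complex.re_sum]

variable (c : NCtx M H X)

/-- `ν t` is a finitely additive nonnegative function of clopen sets with total mass `≤ 1`,
continuous in `t`.  For `β > 0` and a clopen `I` let
`K β I = {t | ∀ P, ∃ J : P, β ≤ ν t (atom J ∩ I)}` (closed; the sets for fixed `P` decrease under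
refinement), `K β = K β univ`.  Since `∑_J ν t J² ≤ max_J ν t J`, the hypothesis gives measure
`≥ η/2` to each `{∃ J : P, η/2 ≤ ν t J}`, so `μ (K (η/2)) ≥ η/2` (compactness and outer
regularity) and its interior is nonempty (`measure_diff_interior`).  As `K β = ∅` for `β > 1` there
is `β = (5/4)^k η/2` with `interior (K β) ≠ ∅ = interior (K (5β/4))`.  Pick
`t₀ ∈ interior (K β) \ K (5β/4)`, `P` with `ν t₀ J < 5β/4` for all atoms `J`, and an open
neighbourhood `O ⊆ K β` on which this persists.  `K β ⊆ ⋃_{I : P} K β I` (directedness), so some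
`K β I` contains a nonempty open subset of `O` (finite unions of nowhere dense closed sets), and
then a nonempty clopen `q`.  For clopen `V` refine by `ofIsClopen`: the heavy atom lies in `V` or
in `Vᶜ`. -/
theorem NCtx.exists_atom {x : M} (hx : IsSelfAdjoint x) (hx1 : ‖x‖ ≤ 1) {η : ℝ} (hη : 0 < η)
    (h : ∀ P : DiscreteQuotient X,
      η < ∫ t, ∑ I : P, c.toCtx.ν x t (P.proj ⁻¹' {I}) ^ 2 ∂c.μ) :
    ∃ (β : ℝ) (q I : Set X), 0 < β ∧ IsClopen q ∧ IsClopen I ∧ q.Nonempty ∧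
      ∀ t ∈ q, ∀ V, IsClopen V →
        (β ≤ c.toCtx.ν x t (V ∩ I) ∧ c.toCtx.ν x t (Vᶜ ∩ I) < β / 4) ∨
        (β ≤ c.toCtx.ν x t (Vᶜ ∩ I) ∧ c.toCtx.ν x t (V ∩ I) < β / 4) := by
  have := c.prob
  have := c.reg
  have := Gel.totallyDisconnected c.W c.Γ
  have hν := c.toCtx.dyeaNu hx hx1
  exact hν.exists_atom (half_pos hη)
    (hν.interior_K c.μ (fun K hK => c.measure_diff_interior hK) hη h)

/-- `ϑ V = {t ∈ q | β/2 ≤ ν t (V ∩ I)} = {t ∈ q | β/2 < ν t (V ∩ I)}` is clopen.  For `t ∈ q` the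
clopen `V` with `t ∈ ϑ V` are closed under finite intersections and contain exactly one of `V`,
`Vᶜ`; by compactness there is a unique `s t` in all of them (`s t = t` off `q`), and
`s⁻¹ V ∩ q = ϑ V`, so `s` is continuous (clopen basis).  `x_P = ∑_{J : P} ea J * x * e (ϑ J)` has norm
`≤ 1` (`norm_sum_block_le`); let `v` be its weak limit along `fine X`.  For `P ≤ ofIsClopen V`,
`e V * x_P = x_P * e (s⁻¹ V)`; extend to all `f` by `ind_dense`.  `E (x * x_P) t = ν t J ≥ β` for the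
atom `J ∋ s t`; `le_E_of_WT`. -/
theorem NCtx.exists_intertwiner {x : M} (hx : IsSelfAdjoint x) (hx1 : ‖x‖ ≤ 1) {β : ℝ}
    {q I : Set X} (hβ : 0 < β) (hq : IsClopen q) (hI : IsClopen I)
    (h : ∀ t ∈ q, ∀ V, IsClopen V →
        (β ≤ c.toCtx.ν x t (V ∩ I) ∧ c.toCtx.ν x t (Vᶜ ∩ I) < β / 4) ∨
        (β ≤ c.toCtx.ν x t (Vᶜ ∩ I) ∧ c.toCtx.ν x t (V ∩ I) < β / 4)) :
    ∃ (s : C(X, X)) (v : M), ‖v‖ ≤ 1 ∧ v * c.Γ.e q = v ∧
      (∀ f : C(X, ℂ), c.Γ.Φ f * v = v * c.Γ.Φ (f.comp s)) ∧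
      ∀ t ∈ q, β ≤ (c.E (x * v) t).re := by
  have := Gel.totallyDisconnected c.W c.Γ
  have hν := c.toCtx.dyeaNu hx hx1
  obtain ⟨s, hs⟩ := hν.exists_map hβ hq hI h
  have hcl : ∀ (P : DiscreteQuotient X) (J : P), IsClopen (q ∩ s ⁻¹' (P.proj ⁻¹' {J})) :=
    fun P J => hq.inter ((P.isClopen_preimage _).preimage s.continuous)
  set y : DiscreteQuotient X → M := fun P =>
    ∑ J : P, c.Γ.ea P J * x * c.Γ.e (q ∩ s ⁻¹' (P.proj ⁻¹' {J})) with hy
  have he0 : c.Γ.e ∅ = 0 := by rw [Gel.e, ind_empty, map_zero]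
  have hyn : ∀ P, ‖y P‖ ≤ 1 := by
    intro P
    refine norm_sum_block_le (a := fun _ => x) (c.Γ.ea_isPart P).proj (c.Γ.ea_isPart P).orth
      (fun J => c.Γ.e_proj _) (fun J J' hJ => ?_) zero_le_one fun J => ?_
    · rw [c.Γ.e_mul (hcl P J) (hcl P J'), ← he0]
      congr 1
      refine Set.eq_empty_of_forall_notMem fun t ht => hJ ?_
      exact (Set.mem_singleton_iff.1 ht.1.2).symm.trans (Set.mem_singleton_iff.1 ht.2.2)
    · have h1 := ((c.Γ.ea_isPart P).proj J).norm_le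
      have h2 := (c.Γ.e_proj (q ∩ s ⁻¹' (P.proj ⁻¹' {J}))).norm_le
      exact (norm_mul_le _ _).trans (mul_le_one₀ ((norm_mul_le _ _).trans
        (mul_le_one₀ h1 (norm_nonneg _) hx1)) (norm_nonneg _) h2)
  obtain ⟨v, hv⟩ := c.W.exists_WT (fine X) y 1 (Eventually.of_forall hyn)
  refine ⟨s, v, hv.norm_le (Eventually.of_forall hyn), ?_, ?_, ?_⟩
  · refine (hv.mul_right (c.Γ.e q)).eq_of_eventually hv (Eventually.of_forall fun P => ?_)
    simp only [hy, Finset.sum_mul]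
    refine Finset.sum_congr rfl fun J _ => ?_
    rw [mul_assoc _ _ (c.Γ.e q), c.Γ.e_mul (hcl P J) hq,
      Set.inter_eq_left.2 Set.inter_subset_left]
  · refine ind_dense (fun f => c.Γ.Φ f * v = v * c.Γ.Φ (f.comp s)) ?_ ?_ ?_ ?_ ?_
    · have hΦ : Continuous c.Γ.Φ := map_continuous c.Γ.Φ
      exact isClosed_eq (hΦ.mul continuous_const)
        (continuous_const.mul (hΦ.comp (ContinuousMap.continuous_precomp s)))
    · simp
    · intro f g hf hg
      rw [ContinuousMap.add_comp, map_add, map_add, add_mul, mul_add, hf, hg]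
    · intro a f hf
      rw [ContinuousMap.smul_comp, map_smul, map_smul, smul_mul_assoc, mul_smul_comm, hf]
    · intro V hV
      rw [ind_comp hV]
      refine (hv.mul_left (c.Γ.e V)).eq_of_eventually (hv.mul_right (c.Γ.e (s ⁻¹' V))) ?_
      filter_upwards [fine_le (DiscreteQuotient.ofIsClopen hV)] with P hP
      simp only [hy, Finset.sum_mul, Finset.mul_sum]
      refine Finset.sum_congr rfl fun J _ => ?_
      rw [mul_assoc _ _ (c.Γ.e (s ⁻¹' V)), c.Γ.e_mul (hcl P J) (hV.preimage s.continuous),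
        ← mul_assoc, ← mul_assoc, Gel.ea, c.Γ.e_mul hV (P.isClopen_preimage _)]
      rcases atom_subset hV hP J with hs' | hs'
      · rw [Set.inter_eq_right.2 hs',
          show q ∩ s ⁻¹' (P.proj ⁻¹' {J}) ∩ s ⁻¹' V = q ∩ s ⁻¹' (P.proj ⁻¹' {J}) from
            Set.inter_eq_left.2 fun t ht => hs' ht.2]
      · rw [show V ∩ P.proj ⁻¹' {J} = ∅ from
            Set.eq_empty_of_forall_notMem fun t ht => hs' ht.2 ht.1,
          show q ∩ s ⁻¹' (P.proj ⁻¹' {J}) ∩ s ⁻¹' V = ∅ from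
            Set.eq_empty_of_forall_notMem fun t ht => hs' ht.1.2 ht.2, he0]
        simp
  · refine c.le_E_of_WT (C := 1) (Eventually.of_forall fun P => ?_) (hv.mul_left x) hq
      (Eventually.of_forall fun P t ht => ?_)
    · exact (norm_mul_le _ _).trans (mul_le_one₀ hx1 (norm_nonneg _) (hyn P))
    · have h1 : c.E (x * y P) t = c.E (x * c.Γ.e (P.proj ⁻¹' {P.proj (s t)}) * x) t := by
        simp only [hy, Finset.mul_sum, map_sum, ContinuousMap.sum_apply]
        rw [Finset.sum_eq_single (P.proj (s t))]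
        · rw [← mul_assoc, ← mul_assoc, Gel.e, c.toCtx.E_mul_right, ContinuousMap.mul_apply,
            ind_of_mem (hcl P _) ⟨ht, rfl⟩, mul_one, Gel.ea]
        · intro J _ hJ
          rw [← mul_assoc, ← mul_assoc, Gel.e, c.toCtx.E_mul_right, ContinuousMap.mul_apply,
            ind_of_notMem fun h' => hJ (Set.mem_singleton_iff.1 h'.2).symm, mul_zero]
        · simp
      rw [h1]
      have hJ := P.isClopen_preimage {P.proj (s t)}
      exact (hs t ht _ hJ rfl).trans (hν.mono t (hJ.inter hI) hJ Set.inter_subset_left)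

end Crest.Agent.R109
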