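import Crest.Agent.R109.NBasic

/-! Row 109, normal corner: normalising unitaries. -/

set_option autoImplicit false

open scoped ComplexOrder InnerProductSpace ComplexConjugate ENNReal
open Filter Topology MeasureTheory

namespace Crest.Agent.R109

variable {M H X : Type*} [CStarAlgebra M] [PartialOrder M] [StarOrderedRing M]
  [NormedAddCommGroup H] [InnerProductSpace ℂ H] [CompleteSpace H]
  [TopologicalSpace X] [CompactSpace X] [T2Space X] [MeasurableSpace X] [BorelSpace X]

section alg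

variable {Γ : Gel M X} {u v : M} {σ τ : X ≃ₜ X}

omit [PartialOrder M] [StarOrderedRing M] [CompactSpace X] [T2Space X] [MeasurableSpace X]
  [BorelSpace X] in
theorem Gel.isNrm_one (Γ : Gel M X) : Γ.IsNrm 1 1 := by
  refine ⟨one_mem _, fun f => ?_⟩
  rw [mul_one, one_mul]
  rfl

omit [PartialOrder M] [StarOrderedRing M] [CompactSpace X] [T2Space X] [MeasurableSpace X]
  [BorelSpace X] in
theorem Gel.IsNrm.mul (hu : Γ.IsNrm u σ) (hv : Γ.IsNrm v τ) : Γ.IsNrm (u * v) (σ * τ) := by
  refine ⟨mul_mem hu.unit hv.unit, fun f => ?_⟩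
  rw [← mul_assoc, hu.comm, mul_assoc, hv.comm, ← mul_assoc]
  rfl

omit [PartialOrder M] [StarOrderedRing M] [CompactSpace X] [T2Space X] [MeasurableSpace X]
  [BorelSpace X] in
theorem Gel.IsNrm.star (hu : Γ.IsNrm u σ) : Γ.IsNrm (star u) σ⁻¹ := by
  refine ⟨Unitary.star_mem hu.unit, fun f => ?_⟩
  have h := hu.comm (f.comp ((σ⁻¹ : X ≃ₜ X) : C(X, X)))
  have e : (f.comp ((σ⁻¹ : X ≃ₜ X) : C(X, X))).comp (σ : C(X, X)) = f := by
    ext t
    simp
  rw [e] at h
  have h1 := Unitary.star_mul_self_of_mem hu.unit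
  have h2 := Unitary.mul_star_self_of_mem hu.unit
  calc Γ.Φ f * Star.star u = Star.star u * (u * Γ.Φ f) * Star.star u := by
        rw [← mul_assoc, h1, one_mul]
    _ = _ := by rw [← h, mul_assoc, mul_assoc, h2, mul_one]

omit [MeasurableSpace X] [BorelSpace X] in
theorem nrm_sep {s t : X} (h : ∀ f : C(X, ℂ), f s = f t) : s = t :=
  (WeakDual.CharacterSpace.homeoEval X ℂ).injective (WeakDual.CharacterSpace.ext h)

omit [PartialOrder M] [StarOrderedRing M] [MeasurableSpace X] [BorelSpace X] in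
theorem nrm_exists_map (Γ : Gel M X) (hu : u ∈ unitary M)
    (h2 : ∀ f, star u * Γ.Φ f * u ∈ Set.range Γ.Φ) :
    ∃ s : C(X, X), ∀ f, star u * Γ.Φ f * u = Γ.Φ (f.comp s) := by
  choose α hα using h2
  have a1 := Unitary.star_mul_self_of_mem hu
  have a2 := Unitary.mul_star_self_of_mem hu
  let A : C(X, ℂ) →⋆ₐ[ℂ] C(X, ℂ) :=
    { toFun := α
      map_one' := Γ.inj (by rw [hα, map_one, mul_one, a1])
      map_mul' := fun f g => Γ.inj (by
        rw [map_mul, hα, hα, hα, map_mul]
        simp only [mul_assoc]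
        rw [← mul_assoc u, a2, one_mul])
      map_zero' := Γ.inj (by rw [hα, map_zero, mul_zero, zero_mul])
      map_add' := fun f g => Γ.inj (by rw [map_add, hα, hα, hα, map_add, mul_add, add_mul])
      commutes' := fun r => Γ.inj (by
        rw [hα, AlgHomClass.commutes, ← Algebra.commutes, mul_assoc, a1, mul_one])
      map_star' := fun f => Γ.inj (by
        rw [map_star, hα, hα, map_star, star_mul, star_mul, star_star, mul_assoc]) }
  let e := WeakDual.CharacterSpace.homeoEval X ℂ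
  refine ⟨((e.symm : C(_, _)).comp (WeakDual.CharacterSpace.compContinuousMap A)).comp (e : C(_, _)),
    fun f => ?_⟩
  rw [← hα]
  congr 1
  ext t
  exact (congrArg (fun φ : WeakDual.characterSpace ℂ C(X, ℂ) => φ f)
    (e.apply_symm_apply (WeakDual.CharacterSpace.compContinuousMap A (e t)))).symm

omit [PartialOrder M] [StarOrderedRing M] [MeasurableSpace X] [BorelSpace X] in
/-- `f ↦ Φ⁻¹ (u* Φ f u)` is a ⋆-automorphism `α` of `C(X, ℂ)`; for each `t` the character
`f ↦ α f t` is evaluation at a unique point `σ t` (`WeakDual.CharacterSpace.homeoEval`,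
`CharacterSpace.compContinuousMap`); the inverse comes from `u*`. -/
theorem Gel.exists_isNrm (Γ : Gel M X) (hu : u ∈ unitary M)
    (h1 : ∀ f, u * Γ.Φ f * star u ∈ Set.range Γ.Φ) (h2 : ∀ f, star u * Γ.Φ f * u ∈ Set.range Γ.Φ) :
    ∃ σ, Γ.IsNrm u σ := by
  have a1 := Unitary.star_mul_self_of_mem hu
  have a2 := Unitary.mul_star_self_of_mem hu
  obtain ⟨s, hs⟩ := nrm_exists_map Γ hu h2
  obtain ⟨s', hs'⟩ := nrm_exists_map Γ (Unitary.star_mem hu) (by simpa using h1)
  simp only [star_star] at hs'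
  have b1 : ∀ t, s' (s t) = t := fun t => nrm_sep fun f => by
    have h : Γ.Φ ((f.comp s').comp s) = Γ.Φ f := by
      rw [← hs, ← hs']
      simp only [← mul_assoc]
      rw [a1, one_mul, mul_assoc, a1, mul_one]
    exact congrArg (fun g : C(X, ℂ) => g t) (Γ.inj h)
  have b2 : ∀ t, s (s' t) = t := fun t => nrm_sep fun f => by
    have h : Γ.Φ ((f.comp s).comp s') = Γ.Φ f := by
      rw [← hs', ← hs]
      simp only [← mul_assoc]
      rw [a2, one_mul, mul_assoc, a2, mul_one]
    exact congrArg (fun g : C(X, ℂ) => g t) (Γ.inj h)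
  refine ⟨⟨⟨s, s', b1, b2⟩, s.continuous, s'.continuous⟩, hu, fun f => ?_⟩
  change _ = u * Γ.Φ (f.comp s)
  rw [← hs, ← mul_assoc, ← mul_assoc, a2, one_mul]

omit [PartialOrder M] [StarOrderedRing M] [CompactSpace X] [T2Space X] [MeasurableSpace X]
  [BorelSpace X] in
/-- The free group on a finite family of normalising unitaries acts: lift to the subgroup of
`unitary M × (X ≃ₜ X)` given by `IsNrm`. -/
theorem Gel.exists_act (Γ : Gel M X) {ι : Type} (u : ι → M) (σ : ι → X ≃ₜ X)
    (h : ∀ i, Γ.IsNrm (u i) (σ i)) :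
    ∃ (_ : MulAction (FreeGroup ι) X) (_ : ContinuousConstSMul (FreeGroup ι) X)
      (a : Γ.Act (FreeGroup ι)), ∀ i, a.u (FreeGroup.of i) = u i := by
  let S : Subgroup (unitary M × (X ≃ₜ X)) :=
    { carrier := {p | Γ.IsNrm (p.1 : M) p.2}
      mul_mem' := fun ha hb => ha.mul hb
      one_mem' := Γ.isNrm_one
      inv_mem' := fun ha => ha.star }
  let φ : FreeGroup ι →* S := FreeGroup.lift fun i => ⟨(⟨u i, (h i).unit⟩, σ i), h i⟩
  let act : MulAction (FreeGroup ι) X :=
    { smul := fun g t => (φ g).1.2 t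
      one_smul := fun t => by
        change (φ 1).1.2 t = t
        rw [map_one]
        rfl
      mul_smul := fun g g' t => by
        change (φ (g * g')).1.2 t = (φ g).1.2 ((φ g').1.2 t)
        rw [map_mul]
        rfl }
  have cont : ContinuousConstSMul (FreeGroup ι) X := ⟨fun g => (φ g).1.2.continuous⟩
  refine ⟨act, cont, ⟨fun g => ((φ g).1.1 : M), ?_, fun g g' => ?_, fun g => ?_, fun g => ?_⟩,
    fun i => ?_⟩
  · rw [map_one]
    rfl
  · rw [map_mul]
    rfl
  · rw [map_inv]
    rfl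
  · have e : (Homeomorph.smul g : X ≃ₜ X) = (φ g).1.2 := Homeomorph.ext fun _ => rfl
    rw [e]
    exact (φ g).2
  · simp only [φ, FreeGroup.lift_apply_of]

omit [PartialOrder M] [StarOrderedRing M] [CompactSpace X] [T2Space X] [MeasurableSpace X]
  [BorelSpace X] in
theorem Gel.IsNrm.conj (hu : Γ.IsNrm u σ) (f : C(X, ℂ)) :
    Star.star u * Γ.Φ f * u = Γ.Φ (f.comp (σ : C(X, X))) := by
  rw [mul_assoc, hu.comm, ← mul_assoc, Unitary.star_mul_self_of_mem hu.unit, one_mul]

omit [PartialOrder M] [StarOrderedRing M] [CompactSpace X] [T2Space X] [MeasurableSpace X]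
  [BorelSpace X] in
theorem Gel.IsNrm.comm' (hu : Γ.IsNrm u σ) (f : C(X, ℂ)) :
    Γ.Φ (f.comp (σ : C(X, X))) * Star.star u = Star.star u * Γ.Φ f := by
  rw [← hu.conj, mul_assoc, Unitary.mul_star_self_of_mem hu.unit, mul_one]

end alg

variable (c : NCtx M H X) {u : M} {σ : X ≃ₜ X}

/-- `θ_u = θ (u* · u)` is central and weakly continuous on bounded sets, so `θ_u ∘ Φ ∘ E = θ_u`;
use `E_eq_of_forall`. -/
theorem NCtx.E_conj (h : c.Γ.IsNrm u σ) (y : M) :
    c.E (star u * y * u) = (c.E y).comp (σ : C(X, X)) := by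
  have key : ∀ z : M, c.θ (star u * (z * u)) = c.θ (star u * (c.Γ.Φ (c.E z) * u)) := by
    intro z
    have h1 := c.normal.tendsto (C := ‖z‖ * ‖u‖)
      (Eventually.of_forall fun P => (norm_mul_le _ _).trans
        (mul_le_mul_of_nonneg_right ((c.Γ.ea_isPart P).norm_pinch_le z) (norm_nonneg _)))
      ((c.E_spec z).mul_right u) (star u)
    have h2 : ∀ P : DiscreteQuotient X,
        c.θ (star u * (c.Γ.EP P z * u)) = c.θ (star u * (z * u)) := by
      intro P
      have hP := c.Γ.ea_isPart P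
      have h3 : ∀ I : P, c.θ (star u * (c.Γ.ea P I * z * c.Γ.ea P I * u)) =
          c.θ (star u * (c.Γ.ea P I * z * u)) := by
        intro I
        obtain ⟨g, hg⟩ := hP.mem I
        have h4 : c.Γ.Φ g * c.Γ.Φ g = c.Γ.Φ g := by rw [hg]; exact (hP.proj I).isIdempotentElem.eq
        rw [← hg, mul_assoc _ (c.Γ.Φ g) u, h.comm, ← mul_assoc, ← mul_assoc,
          ← c.central _ ⟨_, rfl⟩]
        simp only [← mul_assoc]
        rw [h.comm', mul_assoc (star u) (c.Γ.Φ g), h4]
      unfold Gel.EP pinch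
      rw [Finset.sum_mul, Finset.mul_sum, map_sum, Finset.sum_congr rfl fun I _ => h3 I, ← map_sum,
        ← Finset.mul_sum, ← Finset.sum_mul, ← Finset.sum_mul, hP.sum, one_mul]
    have h5 : Tendsto (fun _ : DiscreteQuotient X => c.θ (star u * (z * u)))
        (fine X : Filter (DiscreteQuotient X)) (𝓝 (c.θ (star u * (c.Γ.Φ (c.E z) * u)))) :=
      h1.congr h2
    exact tendsto_nhds_unique tendsto_const_nhds h5
  refine c.E_eq_of_forall fun f => ?_
  obtain ⟨g, rfl⟩ : ∃ g : C(X, ℂ), f = g.comp (σ : C(X, X)) :=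
    ⟨f.comp (σ.symm : C(X, X)), by ext t; simp⟩
  have e1 : c.Γ.Φ (g.comp (σ : C(X, X))) * (star u * y * u) = star u * (c.Γ.Φ g * y * u) := by
    simp only [← mul_assoc]
    rw [h.comm']
  rw [e1, key, ← mul_assoc, h.conj, c.int, c.E_mul_left]
  rfl

/-- For a clopen `V ∋ t` with `V ∩ σ⁻¹ V = ∅`: `e V * u * e V = 0`; continuity for the closure. -/
theorem NCtx.E_nrm_zero (h : c.Γ.IsNrm u σ) {t : X} (ht : t ∉ interior {s | σ s = s}) :
    c.E u t = 0 := by
  have h1 : {s | σ s = s}ᶜ ⊆ {s | c.E u s = 0} := by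
    intro s hs
    by_contra h0
    refine hs (nrm_sep fun f => ?_)
    have h2 := congrArg c.E (h.comm f)
    rw [c.E_mul_left, c.E_mul_right] at h2
    have h3 : f s * c.E u s = c.E u s * f (σ s) := congrArg (fun g : C(X, ℂ) => g s) h2
    rw [mul_comm] at h3
    exact (mul_left_cancel₀ h0 h3).symm
  have h2 : IsClosed {s | c.E u s = 0} := isClosed_eq (c.E u).continuous continuous_const
  exact h2.closure_subset_iff.2 h1 (by rwa [closure_compl])

/-- `u * e q` commutes with the subalgebra for `q = interior {σ s = s}` (clopen,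
`interior_closed`). -/
theorem NCtx.nrm_mul_e (h : c.Γ.IsNrm u σ) :
    u * c.Γ.e (interior {s | σ s = s}) = c.Γ.Φ (c.E u) ∧
      ∀ t ∈ interior {s | σ s = s}, ‖c.E u t‖ = 1 := by
  set q := interior {s | σ s = s} with hq
  have hc : IsClopen q := c.Γ.interior_closed c.W (isClosed_eq σ.continuous continuous_id)
  obtain ⟨g, hg⟩ := c.Γ.max (u * c.Γ.e q) fun f => by
    have e : f.comp (σ : C(X, X)) * ind q = ind q * f := by
      ext t
      by_cases ht : t ∈ q
      · have h1 : σ t = t := interior_subset (s := {s | σ s = s}) ht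
        simp [h1, mul_comm]
      · simp [ind_of_notMem ht]
    unfold Gel.e
    rw [← mul_assoc, h.comm, mul_assoc, mul_assoc, ← map_mul, ← map_mul, e]
  have h1 : c.E u = g := by
    have h2 := congrArg c.E hg
    unfold Gel.e at h2
    rw [c.E_Φ, c.E_mul_right] at h2
    rw [h2]
    ext t
    by_cases ht : t ∈ q
    · simp [ind_of_mem hc ht]
    · simp [c.E_nrm_zero h ht]
  rw [h1]
  refine ⟨hg.symm, fun t ht => ?_⟩
  have h3 : star g * g = ind q := by
    refine c.Γ.inj ?_
    rw [map_mul, map_star, hg, star_mul, (c.Γ.e_proj q).isSelfAdjoint.star_eq, mul_assoc,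
      ← mul_assoc (star u), Unitary.star_mul_self_of_mem h.unit, one_mul]
    exact (c.Γ.e_proj q).isIdempotentElem.eq
  have h4 : star (g t) * g t = ind q t := congrArg (fun k : C(X, ℂ) => k t) h3
  rw [ind_of_mem hc ht] at h4
  have h5 := congrArg norm h4
  rw [norm_mul, norm_star, norm_one] at h5
  exact (mul_self_eq_one_iff.1 h5).resolve_right (by linarith [norm_nonneg (g t)])

/-- `Normal.modulus` with `x = u`, `Y = e V`, and regularity of `μ`. -/
theorem NCtx.map_ac (h : c.Γ.IsNrm u σ) : c.μ.map σ ≪ c.μ := by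
  have := c.prob
  have := c.reg
  refine Measure.AbsolutelyContinuous.mk fun N hN h0 => ?_
  rw [Measure.map_apply σ.continuous.measurable hN]
  suffices H : ∀ ε : ℝ, 0 < ε → c.μ.real (σ ⁻¹' N) ≤ ε by
    have h1 : c.μ.real (σ ⁻¹' N) ≤ 0 := le_of_forall_pos_le_add fun ε hε => by
      simpa using H ε hε
    exact (measureReal_eq_zero_iff).1 (le_antisymm h1 measureReal_nonneg)
  intro ε hε
  obtain ⟨δ, hδ, hmod⟩ := c.normal.modulus c.faithful u 1 hε
  obtain ⟨U, hNU, hU, hUδ⟩ := N.exists_isOpen_lt_of_lt (μ := c.μ) (ENNReal.ofReal δ)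
    (by rw [h0]; exact ENNReal.ofReal_pos.2 hδ)
  have hV : IsClopen (closure U) := (c.Γ.closure_open c.W hU).1
  have h1 : c.μ (closure U) ≤ c.μ U := by
    calc c.μ (closure U) ≤ c.μ (U ∪ (closure U \ U)) := measure_mono fun t ht => by
          by_cases h : t ∈ U
          · exact Or.inl h
          · exact Or.inr ⟨ht, h⟩
      _ ≤ c.μ U + c.μ (closure U \ U) := measure_union_le _ _
      _ = c.μ U := by rw [c.measure_closure hU, add_zero]
  have h2 := hmod (c.Γ.e (closure U)) (c.Γ.e_proj _).nonneg (c.Γ.e_proj _).norm_le (by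
    rw [c.θ_e hV, Complex.ofReal_re]
    exact ENNReal.toReal_le_of_le_ofReal hδ.le (h1.trans hUδ.le))
  have h3 : star u * c.Γ.e (closure U) * u = c.Γ.e (σ ⁻¹' closure U) := by
    unfold Gel.e
    rw [h.conj, ind_comp hV]
    rfl
  rw [h3, c.θ_e (hV.preimage σ.continuous), Complex.ofReal_re] at h2
  exact (measureReal_mono (Set.preimage_mono (hNU.trans subset_closure))).trans h2

end Crest.Agent.R109
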