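import Crest.Agent.R109.DyeA
import Crest.Agent.R109.Nrm

/-! Row 109, normal corner: auxiliary lemmas for `Dye`. -/

set_option autoImplicit false
set_option linter.unusedSectionVars false

open scoped ComplexOrder InnerProductSpace ComplexConjugate ENNReal
open Filter Topology MeasureTheory

namespace Crest.Agent.R109

variable {M H X : Type*} [CStarAlgebra M] [PartialOrder M] [StarOrderedRing M]
  [NormedAddCommGroup H] [InnerProductSpace ℂ H] [CompleteSpace H]
  [TopologicalSpace X] [CompactSpace X] [T2Space X] [MeasurableSpace X] [BorelSpace X]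

section aux

variable {Γ : Gel M X} {s : C(X, X)} {v : M}

theorem dye_star_comm (hs : ∀ f : C(X, ℂ), Γ.Φ f * v = v * Γ.Φ (f.comp s)) (f : C(X, ℂ)) :
    star v * Γ.Φ f = Γ.Φ (f.comp s) * star v := by
  have h := congrArg star (hs (star f))
  rw [star_mul, star_mul, ← map_star, ← map_star, star_star] at h
  rw [h]
  congr 2
  ext t
  simp

theorem dye_conj_mem (hs : ∀ f : C(X, ℂ), Γ.Φ f * v = v * Γ.Φ (f.comp s)) (m : C(X, ℂ)) :
    ∃ r, Γ.Φ r = v * Γ.Φ m * star v :=
  Γ.max _ fun f => by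
    calc Γ.Φ f * (v * Γ.Φ m * star v) = (Γ.Φ f * v) * Γ.Φ m * star v := by
          simp only [mul_assoc]
      _ = v * (Γ.Φ (f.comp s) * Γ.Φ m) * star v := by rw [hs]; simp only [mul_assoc]
      _ = v * Γ.Φ m * (Γ.Φ (f.comp s) * star v) := by rw [Γ.comm]; simp only [mul_assoc]
      _ = v * Γ.Φ m * star v * Γ.Φ f := by rw [← dye_star_comm hs]; simp only [mul_assoc]

theorem dye_mul_comm (hs : ∀ f : C(X, ℂ), Γ.Φ f * v = v * Γ.Φ (f.comp s)) (m f : C(X, ℂ)) :
    Γ.Φ f * (v * Γ.Φ m) = v * Γ.Φ m * Γ.Φ (f.comp s) := by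
  rw [← mul_assoc, hs, mul_assoc, Γ.comm, mul_assoc]

theorem dye_e_star (V : Set X) : star (Γ.e V) = Γ.e V := (Γ.e_proj V).isSelfAdjoint

theorem dye_e_comm (hs : ∀ f : C(X, ℂ), Γ.Φ f * v = v * Γ.Φ (f.comp s)) {V : Set X}
    (hV : IsClopen V) : Γ.e V * v = v * Γ.e (s ⁻¹' V) := by
  unfold Gel.e
  rw [hs, ind_comp hV]

end aux

section psi

variable (c : Ctx M H X) {s : C(X, X)} {v : M}

theorem dye_Φ_E (hs : ∀ f : C(X, ℂ), c.Γ.Φ f * v = v * c.Γ.Φ (f.comp s)) (m : C(X, ℂ)) :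
    c.Γ.Φ (c.E (v * c.Γ.Φ m * star v)) = v * c.Γ.Φ m * star v := by
  obtain ⟨r, hr⟩ := dye_conj_mem hs m
  rw [← hr, c.E_Φ]

theorem dye_psi_nonneg (v : M) {b : Set X} (hb : IsClopen b) (y : X) :
    0 ≤ c.E (v * c.Γ.e b * star v) y := by
  refine c.E_nonneg ?_ y
  have : v * c.Γ.e b * star v = (v * c.Γ.e b) * star (v * c.Γ.e b) := by
    rw [star_mul, dye_e_star, mul_assoc v (c.Γ.e b) (c.Γ.e b * _), ← mul_assoc (c.Γ.e b),
      c.Γ.e_mul hb hb, Set.inter_self, mul_assoc]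
  rw [this]
  exact mul_star_self_nonneg _

theorem dye_key [TotallyDisconnectedSpace X]
    (hs : ∀ f : C(X, ℂ), c.Γ.Φ f * v = v * c.Γ.Φ (f.comp s)) {b : Set X} (hb : IsClopen b)
    {t : X} (ht : t ∈ b) :
    (c.E (star v * v) t).re ≤ (c.E (v * c.Γ.e b * star v) (s t)).re := by
  set Ψ := c.E (v * c.Γ.e b * star v) with hΨ
  have hΨ0 : ∀ y, 0 ≤ Ψ y := dye_psi_nonneg c v hb
  have hΨn : ∀ y, ‖Ψ y‖ = (Ψ y).re := fun y => by
    have := hΨ0 y
    rw [← Complex.ofReal_inj, Complex.norm_of_nonneg' this]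
    exact (Complex.eq_re_of_ofReal_le (r := 0) (by simpa using this))
  refine le_of_forall_pos_le_add fun ε hε => ?_
  have hO : IsOpen {y | (Ψ y).re < (Ψ (s t)).re + ε} :=
    isOpen_lt (Complex.continuous_re.comp Ψ.continuous) continuous_const
  obtain ⟨V, hV, htV, hVO⟩ := compact_exists_isClopen_in_isOpen hO
    (show s t ∈ {y | (Ψ y).re < (Ψ (s t)).re + ε} by simp [hε])
  have hsV : IsClopen (s ⁻¹' V) := hV.preimage s.continuous
  set w := c.Γ.e V * v * c.Γ.e b with hw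
  have h1 : w * star w = c.Γ.Φ (ind V * Ψ * ind V) := by
    rw [map_mul, map_mul, hΨ]
    have := dye_Φ_E c hs (ind b)
    change c.Γ.Φ (c.E (v * c.Γ.e b * star v)) = v * c.Γ.e b * star v at this
    rw [this, hw, star_mul, star_mul, dye_e_star, dye_e_star]
    have e := c.Γ.e_mul hb hb
    rw [Set.inter_self] at e
    change _ = c.Γ.e V * (v * c.Γ.e b * star v) * c.Γ.e V
    calc c.Γ.e V * v * c.Γ.e b * (c.Γ.e b * (star v * c.Γ.e V))
        = c.Γ.e V * v * (c.Γ.e b * c.Γ.e b) * (star v * c.Γ.e V) := by simp only [mul_assoc]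
      _ = _ := by rw [e]; simp only [mul_assoc]
  have h2 : ‖w * star w‖ ≤ (Ψ (s t)).re + ε := by
    rw [h1, c.Γ.norm_map]
    have h0 : 0 ≤ (Ψ (s t)).re + ε := by
      have := (Complex.nonneg_iff.1 (hΨ0 (s t))).1
      linarith
    refine (ContinuousMap.norm_le _ h0).2 fun y => ?_
    by_cases hy : y ∈ V
    · simp only [ContinuousMap.mul_apply, ind_of_mem hV hy, one_mul, mul_one]
      rw [hΨn]
      exact (hVO hy).le
    · simp only [ContinuousMap.mul_apply, ind_of_notMem hy, zero_mul, mul_zero, norm_zero]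
      exact h0
  have h3 : c.E (star w * w) t = c.E (star v * v) t := by
    have e : w = v * c.Γ.Φ (ind (s ⁻¹' V) * ind b) := by
      rw [hw, dye_e_comm hs hV, map_mul, mul_assoc]; rfl
    have e' : star w * w = c.Γ.Φ (star (ind (s ⁻¹' V) * ind b)) * (star v * v) *
        c.Γ.Φ (ind (s ⁻¹' V) * ind b) := by
      rw [e, star_mul, map_star]; simp only [mul_assoc]
    rw [e', c.E_mul_right, c.E_mul_left]
    simp [ind_of_mem hb ht, ind_of_mem hsV (show t ∈ s ⁻¹' V from htV)]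
  calc (c.E (star v * v) t).re = (c.E (star w * w) t).re := by rw [h3]
    _ ≤ ‖c.E (star w * w) t‖ := Complex.re_le_norm _
    _ ≤ ‖c.E (star w * w)‖ := ContinuousMap.norm_coe_le_norm _ _
    _ ≤ ‖star w * w‖ := c.norm_E_le _
    _ = ‖w * star w‖ := by rw [CStarRing.norm_star_mul_self, CStarRing.norm_self_mul_star]
    _ ≤ _ := h2

theorem dye_image_clopen [TotallyDisconnectedSpace X]
    (hs : ∀ f : C(X, ℂ), c.Γ.Φ f * v = v * c.Γ.Φ (f.comp s)) {b : Set X} (hb : IsClopen b)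
    (hg : ∀ t ∈ b, 0 < (c.E (star v * v) t).re) : IsClopen (s '' b) := by
  have hcl : IsClosed (s '' b) := (hb.isClosed.isCompact.image s.continuous).isClosed
  refine ⟨hcl, ?_⟩
  have : s '' b = {y | 0 < (c.E (v * c.Γ.e b * star v) y).re} := by
    ext y
    constructor
    · rintro ⟨t, ht, rfl⟩
      exact (hg t ht).trans_le (dye_key c hs hb ht)
    · intro hy
      by_contra hn
      obtain ⟨V, hV, hyV, hVO⟩ := compact_exists_isClopen_in_isOpen hcl.isOpen_compl hn
      have hsV : IsClopen (s ⁻¹' V) := hV.preimage s.continuous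
      have e0 : s ⁻¹' V ∩ b = ∅ := by
        ext t
        simp only [Set.mem_inter_iff, Set.mem_preimage, Set.mem_empty_iff_false, iff_false,
          not_and]
        exact fun h1 h2 => hVO h1 ⟨t, h2, rfl⟩
      have e1 : c.Γ.e V * (v * c.Γ.e b * star v) = 0 := by
        rw [← mul_assoc, ← mul_assoc, dye_e_comm hs hV, mul_assoc v, c.Γ.e_mul hsV hb, e0]
        unfold Gel.e
        rw [ind_empty, map_zero, mul_zero, zero_mul]
      have e2 := c.E_mul_left (ind V) (v * c.Γ.e b * star v)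
      change c.E (c.Γ.e V * _) = _ at e2
      rw [e1, map_zero] at e2
      have e3 := congrArg (fun f : C(X, ℂ) => f y) e2
      simp only [ContinuousMap.zero_apply, ContinuousMap.mul_apply, ind_of_mem hV hyV,
        one_mul] at e3
      simp only [Set.mem_ofPred_eq, ← e3, Complex.zero_re, lt_self_iff_false] at hy
  rw [this]
  exact isOpen_lt continuous_const (Complex.continuous_re.comp (ContinuousMap.continuous _))

theorem dye_nhds [TotallyDisconnectedSpace X] {q : Set X} (hq : IsClopen q) (F : Finset X)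
    (hF : ∀ t ∈ F, t ∈ q) : ∃ U : X → Set X, (∀ t ∈ F, IsClopen (U t) ∧ t ∈ U t ∧ U t ⊆ q) ∧
      ∀ t ∈ F, ∀ t' ∈ F, t ≠ t' → Disjoint (U t) (U t') := by
  obtain ⟨U, hU, hd⟩ := F.finite_toSet.t2_separation
  choose V hV using fun t => compact_exists_isClopen_in_isOpen (hU t).2 (hU t).1
  refine ⟨fun t => V t ∩ q, fun t ht => ⟨(hV t).1.inter hq, ⟨(hV t).2.1, hF t ht⟩,
    Set.inter_subset_right⟩, fun t ht t' ht' hne => ?_⟩
  exact (hd ht ht' hne).mono (Set.inter_subset_left.trans (hV t).2.2)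
    (Set.inter_subset_left.trans (hV t').2.2)

theorem dye_fibre [TotallyDisconnectedSpace X] (hv : ‖v‖ ≤ 1)
    (hs : ∀ f : C(X, ℂ), c.Γ.Φ f * v = v * c.Γ.Φ (f.comp s)) {γ : ℝ} (F : Finset X) {y : X}
    (hF : ∀ t ∈ F, s t = y) (hg : ∀ t ∈ F, γ ≤ (c.E (star v * v) t).re) :
    (F.card : ℝ) * γ ≤ 1 := by
  classical
  obtain ⟨U, hU, hd⟩ := dye_nhds isClopen_univ F fun t _ => Set.mem_univ t
  have hn : ‖∑ t ∈ F, ind (U t)‖ ≤ 1 := by
    refine (ContinuousMap.norm_le _ zero_le_one).2 fun z => ?_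
    rw [ContinuousMap.sum_apply]
    by_cases hz : ∃ t ∈ F, z ∈ U t
    · obtain ⟨t, ht, hzt⟩ := hz
      rw [Finset.sum_eq_single_of_mem t ht, ind_of_mem (hU t ht).1 hzt, norm_one]
      intro t' ht' hne
      exact ind_of_notMem fun h => Set.disjoint_left.1 (hd t' ht' t ht hne) h hzt
    · rw [Finset.sum_eq_zero fun t ht => ind_of_notMem fun h => hz ⟨t, ht, h⟩, norm_zero]
      exact zero_le_one
  calc (F.card : ℝ) * γ = ∑ _t ∈ F, γ := by rw [Finset.sum_const, nsmul_eq_mul]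
    _ ≤ ∑ t ∈ F, (c.E (v * c.Γ.e (U t) * star v) y).re := by
        refine Finset.sum_le_sum fun t ht => (hg t ht).trans ?_
        rw [← hF t ht]
        exact dye_key c hs (hU t ht).1 (hU t ht).2.1
    _ = (c.E (v * c.Γ.Φ (∑ t ∈ F, ind (U t)) * star v) y).re := by
        rw [map_sum, Finset.mul_sum, Finset.sum_mul, map_sum, ContinuousMap.sum_apply,
          Complex.re_sum]
        rfl
    _ ≤ ‖c.E (v * c.Γ.Φ (∑ t ∈ F, ind (U t)) * star v) y‖ := Complex.re_le_norm _
    _ ≤ ‖c.E (v * c.Γ.Φ (∑ t ∈ F, ind (U t)) * star v)‖ := ContinuousMap.norm_coe_le_norm _ _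
    _ ≤ ‖v * c.Γ.Φ (∑ t ∈ F, ind (U t)) * star v‖ := c.norm_E_le _
    _ ≤ ‖v‖ * ‖c.Γ.Φ (∑ t ∈ F, ind (U t))‖ * ‖star v‖ :=
        (norm_mul_le _ _).trans (mul_le_mul_of_nonneg_right (norm_mul_le _ _) (norm_nonneg _))
    _ ≤ 1 := by
        rw [norm_star, c.Γ.norm_map]
        exact mul_le_one₀ (mul_le_one₀ hv (norm_nonneg _) hn) (norm_nonneg _) hv

end psi

section unit

theorem dye_z {w : M} (h1 : w * star w * w = w) (h2 : w * w = 0) :
    w * (1 - star w * w - w * star w) = 0 ∧ (1 - star w * w - w * star w) * w = 0 ∧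
      star w * (1 - star w * w - w * star w) = 0 ∧ (1 - star w * w - w * star w) * star w = 0 ∧
      star (1 - star w * w - w * star w) = 1 - star w * w - w * star w := by
  have a1 : w * (1 - star w * w - w * star w) = 0 := by
    rw [mul_sub, mul_sub, mul_one, ← mul_assoc, ← mul_assoc, h1, h2]; simp
  have a2 : (1 - star w * w - w * star w) * w = 0 := by
    rw [sub_mul, sub_mul, one_mul, h1, mul_assoc, h2]; simp
  have a5 : star (1 - star w * w - w * star w) = 1 - star w * w - w * star w := by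
    simp [star_mul]
  refine ⟨a1, a2, ?_, ?_, a5⟩
  · have := congrArg star a2
    rwa [star_mul, a5, star_zero] at this
  · have := congrArg star a1
    rwa [star_mul, a5, star_zero] at this

theorem dye_unitary {w : M} (h1 : w * star w * w = w) (h2 : w * w = 0) :
    star (w + star w + (1 - star w * w - w * star w)) = w + star w + (1 - star w * w - w * star w) ∧
      (w + star w + (1 - star w * w - w * star w)) *
        (w + star w + (1 - star w * w - w * star w)) = 1 ∧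
      (w + star w + (1 - star w * w - w * star w)) * (star w * w) = w := by
  obtain ⟨a1, a2, a3, a4, a5⟩ := dye_z h1 h2
  have h3 : star w * star w = 0 := by rw [← star_mul, h2, star_zero]
  set z := 1 - star w * w - w * star w with hz
  refine ⟨?_, ?_, ?_⟩
  · rw [star_add, star_add, star_star, a5, add_comm (star w)]
  · have hzz : z * z = z := by
      conv_lhs => rw [hz]
      rw [sub_mul, sub_mul, one_mul, mul_assoc, mul_assoc, ← hz, a1, a3]; simp
    simp only [add_mul, mul_add, a1, a2, a3, a4, h2, h3, hzz]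
    rw [hz]
    abel
  · rw [add_mul, add_mul, ← mul_assoc, ← mul_assoc, ← mul_assoc, h1, h3, a4]
    simp

theorem dye_nrm {Γ : Gel M X} {s : C(X, X)} {w : M}
    (hs : ∀ f : C(X, ℂ), Γ.Φ f * w = w * Γ.Φ (f.comp s)) (h1 : w * star w * w = w)
    (h2 : w * w = 0) {p : C(X, ℂ)} (hp : star w * w = Γ.Φ p) :
    ∃ σ, Γ.IsNrm (w + star w + (1 - star w * w - w * star w)) σ := by
  obtain ⟨a1, a2, a3, a4, a5⟩ := dye_z h1 h2
  obtain ⟨b1, b2, -⟩ := dye_unitary h1 h2
  have h3 : star w * star w = 0 := by rw [← star_mul, h2, star_zero]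
  obtain ⟨r, hr⟩ := dye_conj_mem hs 1
  rw [map_one, mul_one] at hr
  have hzm : 1 - star w * w - w * star w = Γ.Φ (1 - p - r) := by
    rw [map_sub, map_sub, map_one, hr, hp]
  set z := 1 - star w * w - w * star w with hz
  have key : ∀ f, (w + star w + z) * Γ.Φ f * (w + star w + z) ∈ Set.range Γ.Φ := fun f => by
    obtain ⟨r', hr'⟩ := dye_conj_mem hs f
    have zc : z * Γ.Φ f = Γ.Φ f * z := by rw [hzm, Γ.comm]
    have c1 : w * Γ.Φ f * w = 0 := by rw [mul_assoc, hs, ← mul_assoc, h2, zero_mul]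
    have c3 : w * Γ.Φ f * z = 0 := by rw [mul_assoc, ← zc, ← mul_assoc, a1, zero_mul]
    have c4 : star w * Γ.Φ f * w = Γ.Φ (p * f.comp s) := by
      rw [mul_assoc, hs, ← mul_assoc, hp, map_mul]
    have c5 : star w * Γ.Φ f * star w = 0 := by
      rw [dye_star_comm hs, mul_assoc, h3, mul_zero]
    have c6 : star w * Γ.Φ f * z = 0 := by rw [mul_assoc, ← zc, ← mul_assoc, a3, zero_mul]
    have c7 : z * Γ.Φ f * w = 0 := by rw [zc, mul_assoc, a2, mul_zero]
    have c8 : z * Γ.Φ f * star w = 0 := by rw [zc, mul_assoc, a4, mul_zero]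
    have c9 : z * Γ.Φ f * z = Γ.Φ ((1 - p - r) * f * (1 - p - r)) := by
      rw [hzm, map_mul, map_mul]
    refine ⟨r' + p * f.comp s + (1 - p - r) * f * (1 - p - r), ?_⟩
    rw [map_add, map_add, hr', ← c4, ← c9]
    simp only [add_mul, mul_add, c1, c3, c5, c6, c7, c8]
    abel
  refine Γ.exists_isNrm ⟨by rw [b1, b2], by rw [b1, b2]⟩ (fun f => ?_) fun f => ?_
  · rw [b1]; exact key f
  · rw [b1]; exact key f

theorem dye_star_mul_self [TotallyDisconnectedSpace X] (c : Ctx M H X) {s : C(X, X)} {v : M}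
    (hs : ∀ f : C(X, ℂ), c.Γ.Φ f * v = v * c.Γ.Φ (f.comp s)) {b : Set X} (hb : IsClopen b)
    (hinj : Set.InjOn s b) (himg : ∀ b' ⊆ b, IsClopen b' → IsClopen (s '' b')) :
    star (v * c.Γ.e b) * (v * c.Γ.e b) = c.Γ.Φ (ind b * c.E (star v * v) * ind b) := by
  set a := star (v * c.Γ.e b) * (v * c.Γ.e b) with ha
  have hc : ∀ V, IsClopen V → c.Γ.e V * a = a * c.Γ.e V := fun V hV => by
    have hW : IsClopen (s '' (b ∩ V)) := himg _ Set.inter_subset_left (hb.inter hV)
    have e0 : s ⁻¹' (s '' (b ∩ V)) ∩ b = b ∩ V := by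
      ext t
      constructor
      · rintro ⟨⟨t', ht', e⟩, ht⟩
        rw [← hinj ht'.1 ht e]
        exact ht'
      · intro ht
        exact ⟨⟨t, ht, rfl⟩, ht.1⟩
    have e1 : v * c.Γ.e b * c.Γ.e V = c.Γ.e (s '' (b ∩ V)) * (v * c.Γ.e b) := by
      rw [← mul_assoc, dye_e_comm hs hW, mul_assoc, mul_assoc,
        c.Γ.e_mul (hW.preimage s.continuous) hb, e0, c.Γ.e_mul hb hV]
    have e2 : a * c.Γ.e V = star (v * c.Γ.e b) * c.Γ.e (s '' (b ∩ V)) * (v * c.Γ.e b) := by
      rw [ha, mul_assoc, e1, mul_assoc (star _)]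
    have e3 : star (a * c.Γ.e V) = a * c.Γ.e V := by
      rw [e2, star_mul, star_mul (star _), star_star, dye_e_star, mul_assoc (star _)]
    rw [← e3, star_mul, dye_e_star, ha, star_mul (star _), star_star]
  obtain ⟨r, hr⟩ := c.Γ.max a (c.Γ.comm_of_e hc)
  have e4 : a = c.Γ.Φ (ind b) * (star v * v) * c.Γ.Φ (ind b) := by
    rw [ha, star_mul, dye_e_star]
    unfold Gel.e
    simp only [mul_assoc]
  have e5 : c.E a = ind b * c.E (star v * v) * ind b := by
    rw [e4, c.E_mul_right, c.E_mul_left]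
  rw [← e5, ← hr, c.E_Φ]

end unit

end Crest.Agent.R109
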