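import Crest.Agent.R109.Marg

/-! Row 109, finite part: a large eigenvalue forces a large potential. -/

set_option autoImplicit false

open scoped ComplexConjugate
open Polynomial

namespace Crest.Agent.R109

variable {α : Type*} [DecidableEq α] {𝒦 : Type*} [Fintype 𝒦] [DecidableEq 𝒦]

open Matrix ComplexOrder in
theorem ffinal_ivt {n : Type*} [Fintype n] [DecidableEq n] (A : ℝ → Matrix n n ℂ)
    (hc : Continuous A) (hH : ∀ s, (A s).IsHermitian) {s₀ s₁ : ℝ} (h01 : s₀ ≤ s₁) {ξ : n → ℂ}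
    (h0 : (star ξ ⬝ᵥ A s₀ *ᵥ ξ).re < 0) (h1 : ∀ ξ, 0 ≤ (star ξ ⬝ᵥ A s₁ *ᵥ ξ).re) :
    ∃ s ∈ Set.Icc s₀ s₁, (A s).det = 0 := by
  set q : ℝ → (n → ℂ) → ℝ := fun s ξ => (star ξ ⬝ᵥ A s *ᵥ ξ).re with hq
  have hqc : Continuous ↿q := by
    change Continuous fun p : ℝ × (n → ℂ) => (star p.2 ⬝ᵥ A p.1 *ᵥ p.2).re
    exact Complex.continuous_re.comp ((continuous_star.comp continuous_snd).dotProduct
      ((hc.comp continuous_fst).matrix_mulVec continuous_snd))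
  have hqs : ∀ s, Continuous (q s) := fun s => hqc.comp (Continuous.prodMk_right s)
  have scale : ∀ ξ : n → ℂ, ξ ≠ 0 → ∃ ξ' ∈ Metric.sphere (0 : n → ℂ) 1, ∃ r : ℝ, 0 < r ∧
      ∀ s, q s ξ = r * q s ξ' := by
    intro ξ hξ
    have hn : 0 < ‖ξ‖ := norm_pos_iff.2 hξ
    have hn' : (‖ξ‖ : ℂ) ≠ 0 := by exact_mod_cast hn.ne'
    refine ⟨(‖ξ‖ : ℂ)⁻¹ • ξ, by simp [norm_smul, hn.ne'], ‖ξ‖ ^ 2, by positivity, fun s => ?_⟩
    simp only [hq, star_smul, mulVec_smul, dotProduct_smul, smul_dotProduct, smul_eq_mul,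
      star_inv₀, Complex.star_def, Complex.conj_ofReal]
    rw [← Complex.re_ofReal_mul]
    congr 1
    push_cast
    field_simp
  have hK : IsCompact (Metric.sphere (0 : n → ℂ) 1) := isCompact_sphere _ _
  have hξ : ξ ≠ 0 := by
    rintro rfl
    simp at h0
  obtain ⟨ξ', hξ', r, hr, e⟩ := scale ξ hξ
  have hne : (Metric.sphere (0 : n → ℂ) 1).Nonempty := ⟨ξ', hξ'⟩
  have hle : ∀ s, ∀ x ∈ Metric.sphere (0 : n → ℂ) 1,
      sInf (q s '' Metric.sphere (0 : n → ℂ) 1) ≤ q s x := fun s x hx =>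
    csInf_le (hK.image (hqs s)).bddBelow (Set.mem_image_of_mem _ hx)
  have m0 : sInf (q s₀ '' Metric.sphere (0 : n → ℂ) 1) ≤ 0 := by
    have h2 : r * q s₀ ξ' < 0 := e s₀ ▸ h0
    exact (hle s₀ ξ' hξ').trans (by nlinarith)
  have m1 : 0 ≤ sInf (q s₁ '' Metric.sphere (0 : n → ℂ) 1) :=
    le_csInf (hne.image _) (by rintro _ ⟨x, -, rfl⟩; exact h1 x)
  obtain ⟨s, hs, hs0⟩ := intermediate_value_Icc h01 (hK.continuous_sInf hqc).continuousOn ⟨m0, m1⟩
  have hs0' : sInf (q s '' Metric.sphere (0 : n → ℂ) 1) = 0 := hs0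
  obtain ⟨x, hx, hx'⟩ := hK.exists_sInf_image_eq hne (hqs s).continuousOn
  have him : ∀ y : n → ℂ, (star y ⬝ᵥ A s *ᵥ y).im = 0 := fun y =>
    (hH s).im_star_dotProduct_mulVec_self y
  have hP : (A s).PosSemidef := by
    refine .of_dotProduct_mulVec_nonneg (hH s) fun y => Complex.nonneg_iff.2 ⟨?_, (him y).symm⟩
    by_cases hy : y = 0
    · simp [hy]
    · obtain ⟨y', hy', t, ht, e⟩ := scale y hy
      have h2 := hle s y' hy'
      rw [hs0'] at h2
      exact (mul_nonneg ht.le h2).trans_eq (e s).symm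
  refine ⟨s, hs, Matrix.exists_mulVec_eq_zero_iff.1 ⟨x, ?_,
    (hP.dotProduct_mulVec_zero_iff x).1 (Complex.ext (hx'.symm.trans hs0') (him x))⟩⟩
  rintro rfl
  simp at hx

open Matrix in
theorem ffinal_form {n : Type*} [Fintype n] [DecidableEq n] (d : n → ℝ) (Y : Matrix n n ℂ)
    (ξ : n → ℂ) :
    (star ξ ⬝ᵥ (diagonal (fun u => (d u : ℂ)) - (((1 / 2 : ℝ) : ℂ) * 1) • Y) *ᵥ ξ).re =
      ∑ u, d u * ‖ξ u‖ ^ 2 - 1 / 2 * (∑ a, ∑ b, conj (ξ a) * Y a b * ξ b).re := by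
  have e1 : star ξ ⬝ᵥ diagonal (fun u => (d u : ℂ)) *ᵥ ξ = ((∑ u, d u * ‖ξ u‖ ^ 2 : ℝ) : ℂ) := by
    push_cast
    refine Finset.sum_congr rfl fun u _ => ?_
    rw [mulVec_diagonal, Pi.star_apply, Complex.star_def, ← Complex.conj_mul']
    ring
  have e2 : star ξ ⬝ᵥ Y *ᵥ ξ = ∑ a, ∑ b, conj (ξ a) * Y a b * ξ b := by
    simp only [dotProduct, mulVec, Finset.mul_sum, mul_assoc, Pi.star_apply, Complex.star_def]
  rw [sub_mulVec, dotProduct_sub, smul_mulVec, dotProduct_smul, e1, e2, mul_one, smul_eq_mul,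
    Complex.sub_re, Complex.ofReal_re, Complex.re_ofReal_mul]

theorem ffinal_bound {n : Type*} [Fintype n] (Y : n → n → ℂ) (ξ : n → ℂ) :
    (∑ a, ∑ b, conj (ξ a) * Y a b * ξ b).re ≤ (∑ a, ∑ b, ‖Y a b‖) * ∑ u, ‖ξ u‖ ^ 2 := by
  have h : ∀ a, ‖ξ a‖ ^ 2 ≤ ∑ u, ‖ξ u‖ ^ 2 := fun a =>
    Finset.single_le_sum (f := fun u => ‖ξ u‖ ^ 2) (fun _ _ => by positivity) (Finset.mem_univ a)
  refine (Complex.re_le_norm _).trans ((norm_sum_le _ _).trans ?_)
  rw [Finset.sum_mul]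
  refine Finset.sum_le_sum fun a _ => (norm_sum_le _ _).trans ?_
  rw [Finset.sum_mul]
  refine Finset.sum_le_sum fun b _ => ?_
  rw [norm_mul, norm_mul, Complex.norm_conj, mul_comm ‖ξ a‖, mul_assoc]
  refine mul_le_mul_of_nonneg_left ?_ (norm_nonneg _)
  nlinarith [h a, h b, sq_nonneg (‖ξ a‖ - ‖ξ b‖)]

/-- For real `s > 0`, `pH (Zs s) 1 = det (D(s) - Y/2)` (`pH_dirac`, `t = 1/2`) with `D(s)` real
diagonal, continuous in `s`, tending to `+∞`.  At `s₀ = γ w₀ / M` all entries of `D` are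
`≤ M z + γ`, so `⟪ξ, (D - Y/2) ξ⟫ < 0`.  Let `s*` be the infimum of the `s ≥ s₀` such that
`D(s') - Y/2` is positive semidefinite for all `s' ≥ s` (or use the intermediate value theorem for
`s ↦ min_{‖ξ‖=1} ⟪ξ, (D(s) - Y/2) ξ⟫`): at `s*` the matrix is positive semidefinite and not positive
definite, so its determinant vanishes; `fU_eval` and `le_rs` conclude. -/
theorem FS.Phi_ge_of_qf {F : FS α 𝒦} {U : Finset α} (h : F.Ok U) {z η M γ w₀ : ℝ} (hz : 0 ≤ z)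
    (hη : 0 < η) (hγ : 0 < γ) (hw₀ : 0 < w₀) (hw : ∀ u ∈ U, w₀ ≤ F.w u) (hM : 0 < M)
    (hμ : ∀ u ∈ U, F.μ u ≤ M) (cl : α → 𝒦)
    (hπ : ∀ u ∈ U, ∀ k, F.π u k = if k = cl u then 1 / 2 else 0) (ξ : α → ℂ)
    (hξ : (2 * M * z + 2 * γ) * ∑ u ∈ U, ‖ξ u‖ ^ 2 <
      qf (fun a b => if cl a = cl b then F.y (cl a) a b else 0) U ξ) :
    γ * w₀ / M ≤ F.Phi z η U := by
  have s0 : 0 < γ * w₀ / M := by positivity
  set s₀ := γ * w₀ / M with hs₀
  have hm : ∀ s, 0 < max s s₀ := fun s => s0.trans_le (le_max_right _ _)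
  set d : ℝ → U → ℝ := fun s u => F.μ u * (z + max s s₀ / F.w u) - η ^ 2 * F.w u / max s s₀
    with hd
  set Y := ymat F.y U (fun u => cl u) with hY
  have hYH : Y.IsHermitian := by
    ext a b
    simp only [hY, ymat, Matrix.conjTranspose_apply, Matrix.of_apply]
    by_cases hab : cl a = cl b
    · rw [if_pos hab, if_pos hab.symm, h.herm.symm, hab]
      simp
    · rw [if_neg hab, if_neg (Ne.symm hab), star_zero]
  obtain ⟨s₁, h1, h2⟩ : ∃ s₁, s₀ ≤ s₁ ∧ ∀ u : U, (∑ a, ∑ b, ‖Y a b‖) ≤ d s₁ u := by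
    have ev : ∀ u : U, ∀ᶠ s in Filter.atTop, (∑ a, ∑ b, ‖Y a b‖) ≤ d s u := by
      intro u
      have w0 := h.wpos u
      filter_upwards [Filter.eventually_ge_atTop s₀, Filter.eventually_ge_atTop 1,
        Filter.eventually_ge_atTop (((∑ a, ∑ b, ‖Y a b‖) + η ^ 2 * F.w u) * F.w u)] with s a1 a2 a3
      simp only [hd, max_eq_left a1]
      rw [← le_div_iff₀ w0] at a3
      have a4 : η ^ 2 * F.w u / s ≤ η ^ 2 * F.w u := div_le_self (by positivity) a2
      have a5 : 0 ≤ z + s / F.w u := by positivity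
      nlinarith [mul_le_mul_of_nonneg_right (h.mu u) a5]
    exact ((Filter.eventually_ge_atTop s₀).and (Filter.eventually_all.2 ev)).exists
  obtain ⟨s, hs, hdet⟩ := ffinal_ivt
    (fun s => Matrix.diagonal (fun u => (d s u : ℂ)) - (((1 / 2 : ℝ) : ℂ) * 1) • Y)
    (Continuous.sub (Continuous.matrix_diagonal (continuous_pi fun u =>
      Complex.continuous_ofReal.comp (Continuous.sub (by fun_prop)
        (continuous_const.div (by fun_prop) fun s => (hm s).ne')))) continuous_const)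
    (fun s => Matrix.IsHermitian.sub (Matrix.isHermitian_diagonal_of_self_adjoint _
      (funext fun u => Complex.conj_ofReal _)) (by
        unfold Matrix.IsHermitian
        rw [Matrix.conjTranspose_smul, hYH.eq, mul_one, Complex.star_def, Complex.conj_ofReal]))
    h1 (ξ := fun u => ξ u) (by
      rw [ffinal_form]
      have e1 : (∑ a : U, ∑ b : U, conj (ξ a) * Y a b * ξ b).re =
          qf (fun a b => if cl a = cl b then F.y (cl a) a b else 0) U ξ := by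
        unfold qf
        rw [← Finset.sum_coe_sort U]
        refine congrArg Complex.re (Finset.sum_congr rfl fun a _ => ?_)
        rw [← Finset.sum_coe_sort U]
        rfl
      have e2 : ∑ u : U, d s₀ u * ‖ξ u‖ ^ 2 ≤ (M * z + γ) * ∑ u ∈ U, ‖ξ u‖ ^ 2 := by
        rw [← Finset.sum_coe_sort U, Finset.mul_sum]
        refine Finset.sum_le_sum fun u _ => mul_le_mul_of_nonneg_right ?_ (by positivity)
        have w0 := h.wpos u
        have a1 : 0 ≤ η ^ 2 * F.w u / s₀ := by positivity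
        have a2 : s₀ / F.w u ≤ s₀ / w₀ := div_le_div_of_nonneg_left s0.le hw₀ (hw u u.2)
        have a3 : M * (s₀ / w₀) = γ := by rw [hs₀]; field_simp
        have a4 : 0 ≤ z + s₀ / F.w u := by positivity
        simp only [hd, max_self]
        nlinarith [mul_le_mul_of_nonneg_right (hμ u u.2) a4, mul_le_mul_of_nonneg_left a2 hM.le]
      rw [e1]
      linarith)
    (fun ξ => by
      rw [ffinal_form]
      have a1 := ffinal_bound Y ξ
      have a2 : (∑ a, ∑ b, ‖Y a b‖) * ∑ u, ‖ξ u‖ ^ 2 ≤ ∑ u, d s₁ u * ‖ξ u‖ ^ 2 := by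
        rw [Finset.mul_sum]
        exact Finset.sum_le_sum fun u _ => mul_le_mul_of_nonneg_right (h2 u) (by positivity)
      have a3 : 0 ≤ (∑ a, ∑ b, ‖Y a b‖) * ∑ u, ‖ξ u‖ ^ 2 := by positivity
      linarith)
  have hs' : (s : ℂ) ≠ 0 := by exact_mod_cast (s0.trans_le hs.1).ne'
  refine hs.1.trans (le_rs (s := s) (FS.fU_natDegree h z η).2.2 ?_)
  rw [IsRoot.def, F.fU_eval z η U (fun u => (h.wpos u).ne') hs', pH_dirac _ _ _ cl _ hπ]
  refine mul_eq_zero_of_right _ (Eq.trans ?_ hdet)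
  congr 3
  funext u
  simp [hd, FS.Zs, max_eq_left hs.1]

end Crest.Agent.R109
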