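import Crest.Agent.R109.Marg

/-! Row 109, finite part: the potential as an integral along the imaginary axis. -/

open MeasureTheory

set_option autoImplicit false

open scoped ComplexConjugate
open Polynomial

namespace Crest.Agent.R109

variable {α : Type*} [DecidableEq α] {𝒦 : Type*} [Fintype 𝒦] [DecidableEq 𝒦]

/-- Near `0`: `log (1 + σ⁻²) ≤ log 2 - 2 log σ` (or `≤ 4 σ^(-1/2)`); near `∞`: `≤ σ⁻²`. -/
theorem c0_integrable : IntegrableOn (fun σ : ℝ => Real.log (1 + σ⁻¹ ^ 2)) (Set.Ioi 0) := by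
  rw [← Set.Ioc_union_Ioi_eq_Ioi (zero_le_one' ℝ)]
  refine IntegrableOn.union ?_ ?_
  · have h1 : IntegrableOn (fun σ : ℝ => Real.log (σ ^ 2 + 1)) (Set.Ioc 0 1) :=
      (Continuous.integrableOn_Icc
        (Continuous.log (by fun_prop) fun x => by positivity)).mono_set Set.Ioc_subset_Icc_self
    have h2 : IntegrableOn Real.log (Set.Ioc 0 1) :=
      (intervalIntegral.intervalIntegrable_log' (a := 0) (b := 1)).1
    refine IntegrableOn.congr_fun (h1.sub (h2.const_mul 2)) (fun σ hσ => ?_) measurableSet_Ioc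
    have h0 : 0 < σ := hσ.1
    have e : 1 + σ⁻¹ ^ 2 = (σ ^ 2 + 1) / σ ^ 2 := by field_simp
    show Real.log (σ ^ 2 + 1) - 2 * Real.log σ = _
    rw [e, Real.log_div (by positivity) (by positivity), Real.log_pow]
    norm_num
  · refine (integrableOn_Ioi_rpow_of_lt (a := -2) (by norm_num) one_pos).mono' ?_ ?_
    · exact Measurable.aestronglyMeasurable (by fun_prop)
    · filter_upwards [ae_restrict_mem measurableSet_Ioi] with σ hσ
      have h0 : (0 : ℝ) < σ := lt_trans one_pos hσ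
      have e : σ ^ (-2 : ℝ) = σ⁻¹ ^ 2 := by
        rw [Real.rpow_neg h0.le, inv_pow, Real.rpow_two]
      have h3 : 0 ≤ σ⁻¹ ^ 2 := by positivity
      rw [e, Real.norm_eq_abs, abs_of_nonneg (Real.log_nonneg (by linarith))]
      have := Real.log_le_sub_one_of_pos (show 0 < 1 + σ⁻¹ ^ 2 by positivity)
      linarith

theorem c0_pos : 0 < c0 := by
  unfold c0
  rw [setIntegral_pos_iff_support_of_nonneg_ae _ c0_integrable]
  · have : Function.support (fun σ : ℝ => Real.log (1 + σ⁻¹ ^ 2)) ∩ Set.Ioi 0 = Set.Ioi 0 := by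
      refine Set.inter_eq_right.2 fun σ hσ => ?_
      have h0 : (0 : ℝ) < σ := hσ
      have h3 : 0 < σ⁻¹ ^ 2 := by positivity
      exact (Real.log_pos (by linarith)).ne'
    rw [this]
    simp
  · refine Filter.Eventually.of_forall fun σ => Real.log_nonneg ?_
    have h3 : 0 ≤ σ⁻¹ ^ 2 := by positivity
    linarith

/-- Scaling (`integral_comp_mul_left_Ioi`). -/
theorem log_root_integral (q : ℝ) :
    IntegrableOn (fun σ : ℝ => Real.log (1 + q ^ 2 * σ⁻¹ ^ 2)) (Set.Ioi 0) ∧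
      ∫ σ in Set.Ioi (0 : ℝ), Real.log (1 + q ^ 2 * σ⁻¹ ^ 2) = |q| * c0 := by
  by_cases hq : q = 0
  · subst hq
    simp
  have ha : 0 < |q|⁻¹ := inv_pos.2 (abs_pos.2 hq)
  have e : (fun σ : ℝ => Real.log (1 + q ^ 2 * σ⁻¹ ^ 2)) =
      fun σ => (fun x : ℝ => Real.log (1 + x⁻¹ ^ 2)) (|q|⁻¹ * σ) := by
    funext σ
    simp only [mul_inv, inv_inv, mul_pow, sq_abs]
  rw [e]
  constructor
  · rw [integrableOn_Ioi_comp_mul_left_iff (fun x : ℝ => Real.log (1 + x⁻¹ ^ 2)) 0 ha, mul_zero]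
    exact c0_integrable
  · rw [integral_comp_mul_left_Ioi (fun x : ℝ => Real.log (1 + x⁻¹ ^ 2)) 0 ha, mul_zero, inv_inv,
      smul_eq_mul, c0]

/-- the sum of the logarithmic terms -/
noncomputable def intf_L (M : Multiset ℂ) (σ : ℝ) : ℝ :=
  (M.map fun s => Real.log (1 + s.re ^ 2 * σ⁻¹ ^ 2)).sum

theorem intf_L_int (M : Multiset ℂ) : IntegrableOn (intf_L M) (Set.Ioi 0) ∧
    ∫ σ in Set.Ioi (0 : ℝ), intf_L M σ = (M.map fun s => |s.re|).sum * c0 := by
  induction M using Multiset.induction_on with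
  | empty =>
    have : intf_L 0 = fun _ => 0 := by funext σ; simp [intf_L]
    rw [this]
    simp
  | cons a M ih =>
    have e : intf_L (a ::ₘ M) = fun σ => Real.log (1 + a.re ^ 2 * σ⁻¹ ^ 2) + intf_L M σ := by
      funext σ; simp [intf_L]
    obtain ⟨h1, h2⟩ := log_root_integral a.re
    rw [e]
    refine ⟨h1.add ih.1, ?_⟩
    rw [integral_add h1 ih.1, h2, ih.2, Multiset.map_cons, Multiset.sum_cons, add_mul]

theorem intf_prod (M : Multiset ℂ) (hM : ∀ s ∈ M, s.im = 0) {σ : ℝ} (hσ : 0 < σ) :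
    (M.map fun a => X - C a).prod.eval (σ * Complex.I) ≠ 0 ∧
      Real.log ‖(M.map fun a => X - C a).prod.eval (σ * Complex.I)‖ =
        M.card * Real.log σ + intf_L M σ / 2 := by
  induction M using Multiset.induction_on with
  | empty => simp [intf_L]
  | cons a M ih =>
    obtain ⟨h1, h2⟩ := ih fun s hs => hM s (Multiset.mem_cons_of_mem hs)
    have ha := hM a (Multiset.mem_cons_self _ _)
    have n1 : ‖(σ : ℂ) * Complex.I - a‖ ^ 2 = σ ^ 2 * (1 + a.re ^ 2 * σ⁻¹ ^ 2) := by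
      rw [Complex.sq_norm, Complex.normSq_apply]
      simp only [Complex.sub_re, Complex.mul_re, Complex.ofReal_re, Complex.I_re, mul_zero,
        Complex.ofReal_im, Complex.I_im, mul_one, sub_self, zero_sub, Complex.sub_im,
        Complex.mul_im, add_zero, ha, sub_zero]
      field_simp
      ring
    have n2 : 0 < ‖(σ : ℂ) * Complex.I - a‖ ^ 2 := by rw [n1]; positivity
    have n3 : ‖(σ : ℂ) * Complex.I - a‖ ≠ 0 := fun h => by rw [h] at n2; simp at n2
    have n4 : 2 * Real.log ‖(σ : ℂ) * Complex.I - a‖ =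
        2 * Real.log σ + Real.log (1 + a.re ^ 2 * σ⁻¹ ^ 2) := by
      have := congrArg Real.log n1
      rw [Real.log_pow, Real.log_mul (by positivity) (by positivity), Real.log_pow] at this
      exact_mod_cast this
    rw [Multiset.map_cons, Multiset.prod_cons, eval_mul, eval_sub, eval_X, eval_C]
    refine ⟨mul_ne_zero (norm_ne_zero_iff.1 n3) h1, ?_⟩
    rw [norm_mul, Real.log_mul n3 (norm_ne_zero_iff.2 h1), h2]
    simp only [intf_L, Multiset.card_cons, Multiset.map_cons, Multiset.sum_cons]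
    push_cast
    linarith

theorem intf_eval {f : ℂ[X]} (hf : f ≠ 0) (hfr : ∀ s, f.IsRoot s → s.im = 0) {σ : ℝ}
    (hσ : 0 < σ) : f.eval (σ * Complex.I) ≠ 0 ∧ Real.log ‖f.eval (σ * Complex.I)‖ =
      Real.log ‖f.leadingCoeff‖ + f.natDegree * Real.log σ + intf_L f.roots σ / 2 := by
  obtain ⟨h1, h2⟩ := intf_prod f.roots (fun s hs => hfr s ((mem_roots hf).1 hs)) hσ
  have hl := leadingCoeff_ne_zero.2 hf
  have e := congrArg (eval (σ * Complex.I))
    (C_leadingCoeff_mul_prod_multiset_X_sub_C (p := f) IsAlgClosed.card_roots_eq_natDegree)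
  rw [eval_mul, eval_C] at e
  rw [← e]
  refine ⟨mul_ne_zero hl h1, ?_⟩
  rw [norm_mul, Real.log_mul (norm_ne_zero_iff.2 hl) (norm_ne_zero_iff.2 h1), h2,
    IsAlgClosed.card_roots_eq_natDegree, add_assoc]

theorem intf_max (M : Multiset ℂ) : (M.map fun s => max s.re 0).sum =
    (M.sum.re + (M.map fun s => |s.re|).sum) / 2 := by
  induction M using Multiset.induction_on with
  | empty => simp
  | cons a M ih =>
    simp only [Multiset.map_cons, Multiset.sum_cons, ih, Complex.add_re]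
    rcases le_total a.re 0 with h | h
    · rw [max_eq_right h, abs_of_nonpos h]; ring
    · rw [max_eq_left h, abs_of_nonneg h]; ring

/-- Two real-rooted polynomials with the same degree and the same two top coefficients:
`max q 0 = (q + |q|) / 2`, the sums of the roots agree (Vieta), and
`log ‖σ I - q‖ = log σ + log (1 + q² σ⁻²) / 2`. -/
theorem rs_sub_eq {f g : ℂ[X]} (hf : f ≠ 0) (hfr : ∀ s, f.IsRoot s → s.im = 0)
    (hgr : ∀ s, g.IsRoot s → s.im = 0) (hd : f.natDegree = g.natDegree)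
    (hl : f.leadingCoeff = g.leadingCoeff) (hn : f.nextCoeff = g.nextCoeff) :
    IntegrableOn (fun σ : ℝ => Real.log ‖f.eval (σ * Complex.I) / g.eval (σ * Complex.I)‖)
        (Set.Ioi 0) ∧
      rs f - rs g = c0⁻¹ * ∫ σ in Set.Ioi (0 : ℝ),
        Real.log ‖f.eval (σ * Complex.I) / g.eval (σ * Complex.I)‖ := by
  have hlf := leadingCoeff_ne_zero.2 hf
  have hg : g ≠ 0 := leadingCoeff_ne_zero.1 (hl ▸ hlf)
  have e : Set.EqOn (fun σ : ℝ => (intf_L f.roots σ - intf_L g.roots σ) / 2)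
      (fun σ : ℝ => Real.log ‖f.eval (σ * Complex.I) / g.eval (σ * Complex.I)‖) (Set.Ioi 0) := by
    intro σ hσ
    obtain ⟨f1, f2⟩ := intf_eval hf hfr hσ
    obtain ⟨g1, g2⟩ := intf_eval hg hgr hσ
    dsimp only
    rw [norm_div, Real.log_div (norm_ne_zero_iff.2 f1) (norm_ne_zero_iff.2 g1), f2, g2, hd, hl]
    ring
  obtain ⟨i1, i2⟩ := intf_L_int f.roots
  obtain ⟨j1, j2⟩ := intf_L_int g.roots
  refine ⟨IntegrableOn.congr_fun ((i1.sub j1).div_const 2) e measurableSet_Ioi, ?_⟩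
  have v : f.roots.sum = g.roots.sum := by
    rw [(IsAlgClosed.splits f).nextCoeff_eq_neg_sum_roots_mul_leadingCoeff,
      (IsAlgClosed.splits g).nextCoeff_eq_neg_sum_roots_mul_leadingCoeff, ← hl] at hn
    exact mul_left_cancel₀ (neg_ne_zero.2 hlf) hn
  rw [← setIntegral_congr_fun measurableSet_Ioi e, integral_div, integral_sub i1 j1, i2, j2, rs, rs,
    intf_max, intf_max, v]
  have := c0_pos.ne'
  field_simp
  ring

theorem intf_quad_ne (z η : ℝ) {μ w : ℝ} (hμ : 0 < μ) (hw : 0 < w) : quad z η μ w ≠ 0 := by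
  intro h
  have := congrArg (fun p => coeff p 2) h
  simp only [quad, coeff_sub, coeff_add, coeff_C_mul, coeff_X_pow, coeff_X, coeff_C] at this
  simp [hμ.ne', hw.ne'] at this

theorem rs_quad (z : ℝ) {η μ w : ℝ} (hη : 0 < η) (hμ : 0 < μ) (hw : 0 < w) :
    rs (quad z η μ w) = w * rho z η μ := by
  set D : ℝ := √(z ^ 2 + 4 * η ^ 2 / μ) with hD
  have hD2 : D ^ 2 = z ^ 2 + 4 * η ^ 2 / μ := Real.sq_sqrt (by positivity)
  have hz : |z| ≤ D := Real.abs_le_sqrt (by
    have : 0 ≤ 4 * η ^ 2 / μ := by positivity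
    linarith)
  obtain ⟨z1, z2⟩ := abs_le.1 hz
  have e1 : μ * z = -(μ / w * (w * ((-z + D) / 2) + w * ((-z - D) / 2))) := by
    field_simp
    ring
  have e2 : η ^ 2 * w = -(μ / w * (w * ((-z + D) / 2) * (w * ((-z - D) / 2)))) := by
    have : η ^ 2 = μ * (D ^ 2 - z ^ 2) / 4 := by
      rw [hD2]; field_simp; ring
    rw [this]
    field_simp
    ring
  have e : quad z η μ w = C ((μ / w : ℝ) : ℂ) * ((X - C ((w * ((-z + D) / 2) : ℝ) : ℂ)) *
      (X - C ((w * ((-z - D) / 2) : ℝ) : ℂ))) := by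
    unfold quad
    rw [e1, e2]
    generalize μ / w = a
    generalize w * ((-z + D) / 2) = b
    generalize w * ((-z - D) / 2) = c
    simp only [Complex.ofReal_neg, Complex.ofReal_mul, Complex.ofReal_add, map_neg, map_mul,
      map_add]
    ring
  have hc : (C ((μ / w : ℝ) : ℂ) : ℂ[X]) ≠ 0 := by
    rw [C_ne_zero, Complex.ofReal_ne_zero]; positivity
  rw [e, rs_mul hc (mul_ne_zero (X_sub_C_ne_zero _) (X_sub_C_ne_zero _)),
    rs_mul (X_sub_C_ne_zero _) (X_sub_C_ne_zero _), rs_C, rs_X_sub_C, rs_X_sub_C,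
    Complex.ofReal_re, Complex.ofReal_re, max_eq_left (mul_nonneg hw.le (by linarith)),
    max_eq_right (mul_nonpos_of_nonneg_of_nonpos hw.le (by linarith)), rho]
  ring

theorem rho_le {z η μ : ℝ} (hz : 0 ≤ z) (hη : 0 < η) (hμ : 1 ≤ μ) :
    0 ≤ rho z η μ ∧ rho z η μ ≤ η := by
  have h0 : 0 ≤ 4 * η ^ 2 / μ := by positivity
  have h1 : z ≤ √(z ^ 2 + 4 * η ^ 2 / μ) := Real.le_sqrt_of_sq_le (by linarith)
  have h2 : 4 * η ^ 2 / μ ≤ 4 * η ^ 2 := div_le_self (by positivity) hμ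
  have h3 : √(z ^ 2 + 4 * η ^ 2 / μ) ≤ z + 2 * η :=
    Real.sqrt_le_iff.2 ⟨by positivity, by nlinarith [mul_nonneg hz hη.le]⟩
  unfold rho
  constructor <;> linarith

theorem intf_quad_natDegree (z η μ w : ℝ) : (quad z η μ w).natDegree ≤ 2 := by
  unfold quad
  compute_degree

theorem intf_rs_prod (U : Finset α) (q : α → ℂ[X]) (hq : ∀ u, q u ≠ 0) :
    rs (∏ u ∈ U, q u) = ∑ u ∈ U, rs (q u) := by
  induction U using Finset.induction_on with
  | empty => simpa using rs_C 1
  | insert a s ha ih =>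
    rw [Finset.prod_insert ha, Finset.sum_insert ha,
      rs_mul (hq a) (Finset.prod_ne_zero_iff.2 fun u _ => hq u), ih]

/-- Compare `fU` with `∏ quad` (the term `T = ∅`); the other terms have degree `≤ 2 |U| - 2`
(`cT_singleton`); the ratio at `s = σ I` is `ph (Zs s) 1` (`fU_eval`, `ph_eq`). -/
theorem FS.Phi_eq {F : FS α 𝒦} {U : Finset α} (h : F.Ok U) (z : ℝ) {η : ℝ} (hη : 0 < η) :
    IntegrableOn (fun σ : ℝ => Real.log ‖ph F.y F.π U (F.Zs z η (σ * Complex.I)) 1‖)
        (Set.Ioi 0) ∧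
      F.Phi z η U = ∑ u ∈ U, F.w u * rho z η (F.μ u) + c0⁻¹ * ∫ σ in Set.Ioi (0 : ℝ),
        Real.log ‖ph F.y F.π U (F.Zs z η (σ * Complex.I)) 1‖ := by
  set F' : FS α 𝒦 := ⟨F.y, fun u k => 0 * F.π u k, F.μ, F.w⟩ with hF'
  have h' : F'.Ok U := ⟨h.herm, h.bnd, fun v => by simp [hF'], h.mu, h.wpos⟩
  have hμ : ∀ u, 0 < F.μ u := fun u => lt_of_lt_of_le one_pos (h.mu u)
  have hg : F'.fU z η U = ∏ u ∈ U, quad z η (F.μ u) (F.w u) := by
    unfold FS.fU
    rw [Finset.sum_eq_single ∅]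
    · simp [cT_empty, hF']
    · intro T _ hT
      have : cT F'.y F'.π T = 0 := by
        show cT F.y (fun u k => 0 * F.π u k) T = 0
        rw [cT_smul_prob, Complex.ofReal_zero, zero_pow (Finset.card_ne_zero.2
          (Finset.nonempty_iff_ne_empty.2 hT)), zero_mul]
      rw [this]
      simp
    · simp
  obtain ⟨d1, l1, n1⟩ := FS.fU_natDegree h z η
  obtain ⟨d2, l2, -⟩ := FS.fU_natDegree h' z η
  have hnext : (F.fU z η U).nextCoeff = (F'.fU z η U).nextCoeff := by
    unfold nextCoeff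
    rw [d1, d2]
    split_ifs with h0
    · rfl
    rw [hg, FS.fU, finsetSum_coeff, Finset.sum_eq_single ∅]
    · simp [cT_empty]
    · intro T hT hT0
      rw [Finset.mem_powerset] at hT
      have hc : T.card ≠ 0 := Finset.card_ne_zero.2 (Finset.nonempty_iff_ne_empty.2 hT0)
      by_cases h1 : T.card = 1
      · obtain ⟨v, rfl⟩ := Finset.card_eq_one.1 h1
        rw [cT_singleton h.herm.diag]
        simp
      · refine coeff_eq_zero_of_natDegree_lt ?_
        have a1 : (C (cT F.y F.π T) * X ^ T.card).natDegree ≤ T.card := natDegree_C_mul_X_pow_le _ _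
        have a2 : (∏ u ∈ U \ T, quad z η (F.μ u) (F.w u)).natDegree ≤ (U \ T).card * 2 := by
          refine (natDegree_prod_le _ _).trans ?_
          exact Finset.sum_le_card_nsmul _ _ _ fun u _ => intf_quad_natDegree _ _ _ _
        have a3 := Finset.card_sdiff_add_card_eq_card hT
        have a4 := natDegree_mul_le (p := C (cT F.y F.π T) * X ^ T.card)
          (q := ∏ u ∈ U \ T, quad z η (F.μ u) (F.w u))
        omega
    · simp
  obtain ⟨r1, r2⟩ := rs_sub_eq n1 (fun s hs => (FS.fU_root h z hη hs).1)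
    (fun s hs => (FS.fU_root h' z hη hs).1) (d1.trans d2.symm) (l1.trans l2.symm) hnext
  have e : Set.EqOn (fun σ : ℝ => Real.log
        ‖(F.fU z η U).eval (σ * Complex.I) / (F'.fU z η U).eval (σ * Complex.I)‖)
      (fun σ : ℝ => Real.log ‖ph F.y F.π U (F.Zs z η (σ * Complex.I)) 1‖) (Set.Ioi 0) := by
    intro σ hσ
    have h0 : (0 : ℝ) < σ := hσ
    have hs : (σ : ℂ) * Complex.I ≠ 0 :=
      mul_ne_zero (Complex.ofReal_ne_zero.2 h0.ne') Complex.I_ne_zero
    have hZ : ∀ u ∈ U, F.Zs z η (σ * Complex.I) u ≠ 0 := by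
      intro u _ hu
      have := F.Zs_im z η (σ * Complex.I) u
      rw [hu] at this
      have p1 := hμ u
      have p2 := h.wpos u
      have p3 : 0 < ((σ : ℂ) * Complex.I).im *
          (F.μ u / F.w u + η ^ 2 * F.w u / ‖(σ : ℂ) * Complex.I‖ ^ 2) :=
        mul_pos (by simpa using h0) (by positivity)
      rw [← this] at p3
      simp at p3
    have hq : (F'.fU z η U).eval (σ * Complex.I) =
        ((σ : ℂ) * Complex.I) ^ U.card * ∏ u ∈ U, F.Zs z η (σ * Complex.I) u := by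
      rw [hg, eval_prod, ← Finset.prod_const, ← Finset.prod_mul_distrib]
      refine Finset.prod_congr rfl fun u _ => ?_
      have hw : (F.w u : ℂ) ≠ 0 := Complex.ofReal_ne_zero.2 (h.wpos u).ne'
      generalize (σ : ℂ) * Complex.I = s at hs
      simp only [quad, FS.Zs, eval_sub, eval_add, eval_mul, eval_C, eval_pow, eval_X]
      push_cast
      field_simp
      ring
    dsimp only
    rw [hq, F.fU_eval z η U (fun u => (h.wpos u).ne') hs, ph_eq _ _ _ hZ,
      mul_div_mul_left _ _ (pow_ne_zero _ hs)]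
  refine ⟨r1.congr_fun e measurableSet_Ioi, ?_⟩
  rw [← setIntegral_congr_fun measurableSet_Ioi e, ← r2, hg,
    intf_rs_prod U _ fun u => intf_quad_ne z η (hμ u) (h.wpos u),
    Finset.sum_congr rfl fun u _ => rs_quad z hη (hμ u) (h.wpos u), FS.Phi]
  ring

end Crest.Agent.R109
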