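import Crest.Agent.R109.Garding
import Crest.Agent.R109.IntF
import Crest.Agent.R109.Switch

/-! Row 109, finite part: the marginal potential of the uniform state is small. -/

open MeasureTheory

set_option autoImplicit false

open scoped ComplexConjugate
open Polynomial

namespace Crest.Agent.R109

variable {α : Type*} [DecidableEq α] {𝒦 : Type*} [Fintype 𝒦] [DecidableEq 𝒦]

/-- The uniform state. -/
def FS.Unif (F : FS α 𝒦) (U : Finset α) : Prop :=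
  ∀ u ∈ U, F.μ u = 1 ∧ ∀ k, F.π u k = (Fintype.card 𝒦 : ℝ)⁻¹

omit [DecidableEq α] [DecidableEq 𝒦] in
theorem FS.Unif.init_mono {F : FS α 𝒦} {U U' : Finset α} (h : F.Unif U) (hU : U' ⊆ U) :
    F.Unif U' := fun u hu => h u (hU hu)

theorem FS.Unif.init_pH {F : FS α 𝒦} {U : Finset α} (h : F.Unif U) (Z : α → ℂ) (κ : ℂ) :
    pH F.y F.π U Z κ = pH F.y (fun _ _ => (Fintype.card 𝒦 : ℝ)⁻¹) U Z κ :=
  pH_congr U κ (fun u hu k => ((h u hu).2 k).symm) (fun _ _ _ _ _ _ _ => rfl) fun _ _ => rfl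

omit [DecidableEq 𝒦] in
theorem init_z0_pos (hm : 4 ≤ Fintype.card 𝒦) : 0 < 4 / √(Fintype.card 𝒦 : ℝ) := by
  have : (0 : ℝ) < Fintype.card 𝒦 := by exact_mod_cast (by omega : 0 < Fintype.card 𝒦)
  positivity

/-- With `z = 2 z₀`, `z₀ = 4 / √m`: a root `s` is real; if `s > η² w₁ / z₀` then `Zs s u ≥ z₀` for all
`u`, and `barrier` gives `fU.eval s ≠ 0`; `rs_le`. -/
theorem FS.Phi_unif_le {F : FS α 𝒦} {U : Finset α} (h : F.Ok U) (hm : 4 ≤ Fintype.card 𝒦)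
    (hu : F.Unif U) {η w₁ : ℝ} (hη : 0 < η) (hw₁ : 0 ≤ w₁) (hw : ∀ u ∈ U, F.w u ≤ w₁) :
    F.Phi (8 / √(Fintype.card 𝒦 : ℝ)) η U ≤
      2 * U.card * (η ^ 2 * w₁ / (4 / √(Fintype.card 𝒦 : ℝ))) := by
  have hz := init_z0_pos hm
  have h8 : 8 / √(Fintype.card 𝒦 : ℝ) = 2 * (4 / √(Fintype.card 𝒦 : ℝ)) := by ring
  rw [h8]
  set z₀ := 4 / √(Fintype.card 𝒦 : ℝ) with hz₀
  have hb : 0 ≤ η ^ 2 * w₁ / z₀ := by positivity
  have := rs_le (f := F.fU (2 * z₀) η U) hb fun s hs => by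
    by_contra hlt
    push Not at hlt
    obtain ⟨him, hs0⟩ := FS.fU_root h (2 * z₀) hη hs
    obtain ⟨r, rfl⟩ : ∃ r : ℝ, s = r := ⟨s.re, Complex.ext (by simp) (by simp [him])⟩
    rw [Complex.ofReal_re] at hlt
    have hr : 0 < r := hb.trans_lt hlt
    have hZ : F.Zs (2 * z₀) η (r : ℂ) =
        fun u => ((F.μ u * (2 * z₀ + r / F.w u) - η ^ 2 * F.w u / r : ℝ) : ℂ) := by
      funext u
      simp only [FS.Zs]
      push_cast
      rfl
    have h1 := barrier h.herm hm h.bnd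
      (fun u => F.μ u * (2 * z₀ + r / F.w u) - η ^ 2 * F.w u / r) fun u hu' => by
        have h2 : 0 ≤ r / F.w u := div_nonneg hr.le (h.wpos u).le
        have h3 : η ^ 2 * F.w u / r ≤ z₀ := by
          rw [div_lt_iff₀ hz] at hlt
          rw [div_le_iff₀ hr]
          nlinarith [mul_le_mul_of_nonneg_left (hw u hu') (sq_nonneg η)]
        rw [(hu u hu').1]
        linarith
    have h2 := FS.fU_eval F (2 * z₀) η U (fun u => (h.wpos u).ne') hs0
    rw [hs.eq_zero, hZ, hu.init_pH] at h2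
    rcases mul_eq_zero.1 h2.symm with h3 | h3
    · exact hs0 (pow_eq_zero_iff'.1 h3).1
    · rw [h3] at h1
      simp at h1
  rw [(FS.fU_natDegree h _ _).1] at this
  unfold FS.Phi
  exact_mod_cast this

omit [DecidableEq α] [Fintype 𝒦] [DecidableEq 𝒦] in
theorem init_Zs_re (F : FS α 𝒦) (z η σ : ℝ) (u : α) :
    (F.Zs z η (σ * Complex.I) u).re = F.μ u * z := by
  have : F.Zs z η (σ * Complex.I) u =
      ((F.μ u * z : ℝ) : ℂ) + ((F.μ u * σ / F.w u + η ^ 2 * F.w u / σ : ℝ) : ℂ) * Complex.I := by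
    simp only [FS.Zs]
    push_cast
    rw [div_mul_eq_div_div, Complex.div_I]
    ring
  rw [this, Complex.add_re, Complex.ofReal_re, Complex.re_ofReal_mul, Complex.I_re]
  ring

theorem init_Zs_im_ge {F : FS α 𝒦} {U : Finset α} (h : F.Ok U) (z η : ℝ) {σ : ℝ} (hσ : 0 < σ)
    (u : α) : σ / F.w u ≤ (F.Zs z η (σ * Complex.I) u).im := by
  rw [FS.Zs_im]
  have hw := h.wpos u
  have h1 : ((σ : ℂ) * Complex.I).im = σ := by simp
  rw [h1, div_eq_mul_one_div]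
  refine mul_le_mul_of_nonneg_left ?_ hσ.le
  have h2 : 1 / F.w u ≤ F.μ u / F.w u := div_le_div_of_nonneg_right (h.mu u) hw.le
  have h3 : 0 ≤ η ^ 2 * F.w u / ‖(σ : ℂ) * Complex.I‖ ^ 2 := by positivity
  linarith

theorem init_ratio {F : FS α 𝒦} {U : Finset α} (h : F.Ok U) (hm : 4 ≤ Fintype.card 𝒦)
    (hu : F.Unif U) {v : α} (hv : v ∈ U) (η σ : ℝ) {κ : ℂ} (hκ : ‖κ‖ ≤ 2) {Z : α → ℂ}
    (hZ : Z = F.Zs (8 / √(Fintype.card 𝒦 : ℝ)) η (σ * Complex.I)) :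
    pH F.y F.π (U.erase v) Z κ ≠ 0 ∧ ph F.y F.π (U.erase v) Z κ ≠ 0 ∧
      ph F.y F.π U Z κ / ph F.y F.π (U.erase v) Z κ =
        1 + nH F.y F.π U v Z κ / (Z v * pH F.y F.π (U.erase v) Z κ) ∧
      ph F.y F.π U Z κ / ph F.y F.π (U.erase v) Z κ ∈ Complex.slitPlane := by
  have hz := init_z0_pos hm
  have hre : ∀ u ∈ U, (Z u).re = 2 * (4 / √(Fintype.card 𝒦 : ℝ)) := by
    intro u hu'
    rw [hZ, init_Zs_re, (hu u hu').1]
    ring
  have hκ' : 4 / √(Fintype.card 𝒦 : ℝ) * |κ.re| ≤ 2 * (4 / √(Fintype.card 𝒦 : ℝ)) := by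
    have := (Complex.abs_re_le_norm κ).trans hκ
    nlinarith
  have hP : pH F.y F.π (U.erase v) Z κ ≠ 0 := by
    rw [(hu.init_mono (Finset.erase_subset v U)).init_pH]
    refine garding h.herm hm (h.mono (Finset.erase_subset v U)).bnd Z κ (fun u hu' => ?_)
      fun u hu' => ?_
    · rw [hre u (Finset.mem_of_mem_erase hu')]; linarith
    · rw [hre u (Finset.mem_of_mem_erase hu')]; exact hκ'
  refine ⟨hP, ph_ratio_slit F.y F.π hv Z κ (fun u hu' h0 => ?_) hP fun t ht => ?_⟩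
  · have := hre u hu'
    rw [h0, Complex.zero_re] at this
    linarith
  · have hre' : ∀ u ∈ U, 2 * (4 / √(Fintype.card 𝒦 : ℝ)) ≤
        (Function.update Z v (t * Z v) u).re := by
      intro u hu'
      by_cases huv : u = v
      · subst huv
        rw [Function.update_self, Complex.re_ofReal_mul, hre u hu']
        nlinarith
      · rw [Function.update_of_ne huv, hre u hu']
    rw [hu.init_pH]
    refine garding h.herm hm h.bnd _ κ (fun u hu' => ?_) fun u hu' => hκ'.trans (hre' u hu')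
    linarith [hre' u hu']

/-- The marginal integrand. -/
noncomputable def init_ell (F : FS α 𝒦) (z η : ℝ) (U : Finset α) (v : α) (σ : ℝ) : ℝ :=
  Real.log ‖ph F.y F.π U (F.Zs z η (σ * Complex.I)) 1‖ -
    Real.log ‖ph F.y F.π (U.erase v) (F.Zs z η (σ * Complex.I)) 1‖

theorem init_ell_eq {F : FS α 𝒦} {U : Finset α} (h : F.Ok U) (hm : 4 ≤ Fintype.card 𝒦)
    (hu : F.Unif U) {v : α} (hv : v ∈ U) (η σ : ℝ) {Z : α → ℂ}
    (hZ : Z = F.Zs (8 / √(Fintype.card 𝒦 : ℝ)) η (σ * Complex.I)) :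
    init_ell F (8 / √(Fintype.card 𝒦 : ℝ)) η U v σ =
      Real.log ‖ph F.y F.π U Z 1 / ph F.y F.π (U.erase v) Z 1‖ := by
  obtain ⟨-, h1, -, h2⟩ := init_ratio h hm hu hv η σ (κ := 1) (by simp) hZ
  have h3 : ph F.y F.π U Z 1 ≠ 0 := by
    intro h0
    rw [h0, zero_div] at h2
    exact Complex.zero_notMem_slitPlane h2
  rw [norm_div, Real.log_div (norm_ne_zero_iff.2 h3) (norm_ne_zero_iff.2 h1), hZ, init_ell]

theorem init_L_eq {F : FS α 𝒦} {U : Finset α} (h : F.Ok U) {v : α} (hv : v ∈ U) (z : ℝ) {η : ℝ}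
    (hη : 0 < η) : IntegrableOn (init_ell F z η U v) (Set.Ioi 0) ∧
      F.L z η U v = F.w v * rho z η (F.μ v) +
        c0⁻¹ * ∫ σ in Set.Ioi (0 : ℝ), init_ell F z η U v σ := by
  obtain ⟨i1, e1⟩ := FS.Phi_eq h z hη
  obtain ⟨i2, e2⟩ := FS.Phi_eq (h.mono (Finset.erase_subset v U)) z hη
  refine ⟨i1.sub i2, ?_⟩
  unfold init_ell
  rw [integral_sub i1 i2, FS.L, e1, e2, ← Finset.add_sum_erase _ _ hv]
  ring

theorem init_jet (hm : 4 ≤ Fintype.card 𝒦) {ε : ℝ} (hε : 0 < ε) :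
    ∃ N : ℕ, ∀ (η σ : ℝ) (F : FS α 𝒦) (U : Finset α) (v : α) (Z : α → ℂ), F.Ok U → F.Unif U →
      v ∈ U → Z = F.Zs (8 / √(Fintype.card 𝒦 : ℝ)) η (σ * Complex.I) →
      |init_ell F (8 / √(Fintype.card 𝒦 : ℝ)) η U v σ -
        (jet id N (ph F.y F.π U Z) - jet id N (ph F.y F.π (U.erase v) Z)).re| ≤ ε * Real.pi := by
  obtain ⟨C, -, -, hC⟩ := jet_approx (R := 3 / 2) (by norm_num)
  obtain ⟨N, hN⟩ := hC ε hε
  refine ⟨N, fun η σ F U v Z h hu hv hZ => ?_⟩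
  have hr : ∀ ζ ∈ Metric.ball (0 : ℂ) (3 / 2), ‖ζ‖ ≤ 2 := by
    intro ζ hζ
    rw [mem_ball_zero_iff] at hζ
    linarith
  have h1 := hN N le_rfl id (fun κ => ph F.y F.π U Z κ / ph F.y F.π (U.erase v) Z κ) Real.pi
    (((ph_differentiable F.y F.π U Z).differentiableOn).div
      (ph_differentiable F.y F.π (U.erase v) Z).differentiableOn
      fun ζ hζ => (init_ratio h hm hu hv η σ (hr ζ hζ) hZ).2.1)
    (by simp [ph_zero])
    fun ζ hζ => ⟨(init_ratio h hm hu hv η σ (hr ζ hζ) hZ).2.2.2, Complex.abs_arg_le_pi _⟩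
  rw [jet_div analyticAt_id rfl ((ph_differentiable F.y F.π U Z).analyticAt 0)
    ((ph_differentiable F.y F.π (U.erase v) Z).analyticAt 0) (ph_zero _ _ _ _)
    (ph_zero _ _ _ _)] at h1
  refine le_trans (le_of_eq ?_) ((Complex.abs_re_le_norm _).trans h1)
  rw [init_ell_eq h hm hu hv η σ hZ, Complex.sub_re (Complex.log _), Complex.log_re]
  rfl

theorem init_tail {F : FS α 𝒦} {U : Finset α} (h : F.Ok U) (hm : 4 ≤ Fintype.card 𝒦)
    (hu : F.Unif U) {v : α} (hv : v ∈ U) {K : ℝ} (hK : 1 ≤ K) (hcut : F.Kcut K U v) (η : ℝ)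
    {σ : ℝ} (hσ : 0 < σ) (hs : K * (F.w v / σ) ^ 2 ≤ 1 / 2) :
    |init_ell F (8 / √(Fintype.card 𝒦 : ℝ)) η U v σ| ≤ 2 * (K * (F.w v / σ) ^ 2) := by
  obtain ⟨Z, hZ⟩ : ∃ Z, Z = F.Zs (8 / √(Fintype.card 𝒦 : ℝ)) η (σ * Complex.I) := ⟨_, rfl⟩
  obtain ⟨hP, -, h2, -⟩ := init_ratio h hm hu hv η σ (κ := 1) (by simp) hZ
  have hwv := h.wpos v
  have him : ∀ u, σ / F.w u ≤ (Z u).im := fun u => hZ ▸ init_Zs_im_ge h _ η hσ u
  have hpos : ∀ u, 0 < (Z u).im := fun u => (div_pos hσ (h.wpos u)).trans_le (him u)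
  have hρ0 : 0 ≤ K * F.w v / σ := by positivity
  have h3 := nH_norm_le h.herm h.bnd h.sub hv (-Complex.I) 1 (by simp) Z (fun u => (Z u).im) hpos
    (fun u _ => by simp) (ρ := K * F.w v / σ) (fun k => by
      have h4 : ∀ u ∈ U.erase v, ‖F.y k u v‖ ^ 2 / (Z u).im ≤
          ‖F.y k u v‖ ^ 2 * (K * F.w v / σ) := by
        intro u hu'
        by_cases h0 : F.y k u v = 0
        · simp [h0]
        · have h5 := (hcut k u (Finset.mem_of_mem_erase hu') h0).1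
          rw [div_eq_mul_inv]
          refine mul_le_mul_of_nonneg_left ?_ (sq_nonneg _)
          refine (inv_anti₀ (div_pos hσ (h.wpos u)) (him u)).trans ?_
          rw [inv_div]
          exact div_le_div_of_nonneg_right h5 hσ.le
      refine (Finset.sum_le_sum h4).trans ?_
      rw [← Finset.sum_mul]
      refine mul_le_of_le_one_left hρ0 (le_trans ?_ ((h.bnd k).col hv))
      exact Finset.sum_le_sum_of_subset_of_nonneg (Finset.erase_subset v U)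
        fun _ _ _ => sq_nonneg _) hρ0
  have hZv : σ / F.w v ≤ ‖Z v‖ := (him v).trans ((le_abs_self _).trans (Complex.abs_im_le_norm _))
  have hPn : 0 < ‖pH F.y F.π (U.erase v) Z 1‖ := norm_pos_iff.2 hP
  have hZn : 0 < ‖Z v‖ := (div_pos hσ hwv).trans_le hZv
  have h6 : ‖nH F.y F.π U v Z 1 / (Z v * pH F.y F.π (U.erase v) Z 1)‖ ≤ K * (F.w v / σ) ^ 2 := by
    rw [norm_div, norm_mul, div_le_iff₀ (by positivity)]
    refine h3.trans ?_
    rw [norm_one, one_pow, one_mul, ← mul_assoc]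
    refine mul_le_mul_of_nonneg_right ?_ hPn.le
    have h7 : K * F.w v / σ = K * (F.w v / σ) ^ 2 * (σ / F.w v) := by field_simp
    rw [h7]
    exact mul_le_mul_of_nonneg_left hZv (by positivity)
  rw [init_ell_eq h hm hu hv η σ hZ, h2]
  exact (abs_log_norm_one_add_le (h6.trans hs)).trans (by linarith)

theorem init_integral {D : ℝ → ℝ} (hD : IntegrableOn D (Set.Ioi 0)) {a A B : ℝ} (ha : 0 < a)
    (h1 : ∀ σ, 0 < σ → |D σ| ≤ A) (h2 : ∀ σ, a < σ → |D σ| ≤ B / σ ^ 2) :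
    |∫ σ in Set.Ioi (0 : ℝ), D σ| ≤ A * a + B / a := by
  rw [← Set.Ioc_union_Ioi_eq_Ioi ha.le, setIntegral_union Set.Ioc_disjoint_Ioi_same
    measurableSet_Ioi (hD.mono_set Set.Ioc_subset_Ioi_self) (hD.mono_set (Set.Ioi_subset_Ioi ha.le))]
  refine (abs_add_le _ _).trans (add_le_add ?_ ?_)
  · have := norm_setIntegral_le_of_norm_le_const (μ := volume) (s := Set.Ioc 0 a) (f := D) (C := A)
      (by simp) fun x hx => h1 x hx.1
    simpa [ha.le] using this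
  · have hi : IntegrableOn (fun σ : ℝ => B * σ ^ (-2 : ℝ)) (Set.Ioi a) :=
      (integrableOn_Ioi_rpow_of_lt (by norm_num) ha).const_mul B
    have := norm_integral_le_of_norm_le (f := D) hi
      ((ae_restrict_iff' measurableSet_Ioi).2 (Filter.Eventually.of_forall fun σ hσ => by
        have h3 := h2 σ hσ
        have hσ0 : 0 < σ := ha.trans hσ
        rw [Real.rpow_neg hσ0.le, Real.rpow_two, ← div_eq_mul_inv]
        exact h3))
    rw [integral_const_mul, integral_Ioi_rpow_of_lt (by norm_num) ha] at this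
    refine this.trans (le_of_eq ?_)
    norm_num [Real.rpow_neg_one, div_eq_mul_inv]

/-- Locality that is uniform in `η`.  Let `ℓ U σ = log ‖ph U 1‖ - log ‖ph (U.erase v) 1‖` at
`Z = Zs (σ I)`; `re (Z u) = z = 2 z₀`.  For `‖κ‖ < 3/2`, `garding` gives the hypotheses of
`ph_ratio_slit`; `jet_approx` (`φ = id`, `R = 3/2`, `a = π`), `jet_div` and `jet_loc` give
`|ℓ U σ - ℓ U' σ| ≤ 2 ε π`.  For `σ ≥ u₀ w v`, `u₀² ≥ 2 K`: `nH_norm_le` with `κ = 1`, `e = -I`,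
`h u = im (Z u) ≥ σ / w u`, `ρ = K w v / σ` and `‖Z v‖ ≥ σ / w v` give `‖ω‖ ≤ K (w v / σ)²`, so
`|ℓ| ≤ 2 K (w v / σ)²` (`abs_log_norm_one_add_le`) for `U` and for `U'`.  Integrate (`Phi_eq`):
`|L U - L U'| ≤ c0⁻¹ (2 ε π u₀ + 4 K / u₀) w v`. -/
theorem L_unif_loc (hm : 4 ≤ Fintype.card 𝒦) {K : ℝ} (hK : 1 ≤ K) {δ : ℝ} (hδ : 0 < δ) :
    ∃ N : ℕ, ∀ (η : ℝ) (F : FS α 𝒦) (U U' : Finset α) (v : α) (adj : α → α → Prop), 0 < η →
      F.Ok U → F.Unif U → U' ⊆ U → v ∈ U' → F.Kcut K U v →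
      (∀ k a b, F.y k a b ≠ 0 → adj a b) → Cover adj U v N U' →
      |F.L (8 / √(Fintype.card 𝒦 : ℝ)) η U v - F.L (8 / √(Fintype.card 𝒦 : ℝ)) η U' v| ≤
        δ * F.w v := by
  have hc := c0_pos
  have hπ := Real.pi_pos
  obtain ⟨u₀, hu₀, hu₁⟩ : ∃ u₀ : ℝ, 2 * K ≤ u₀ ∧ 8 * K / (c0 * δ) ≤ u₀ :=
    ⟨max _ _, le_max_left _ _, le_max_right _ _⟩
  have hu0 : 0 < u₀ := by linarith
  obtain ⟨N, hN⟩ := init_jet (α := α) hm (ε := c0 * δ / (4 * Real.pi * u₀)) (by positivity)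
  refine ⟨N, fun η F U U' v adj hη h hu hU hv hcut hadj hcov => ?_⟩
  have hw := h.wpos v
  have h' := h.mono hU
  have hu' := hu.init_mono hU
  have hcut' : F.Kcut K U' v := fun k u hu => hcut k u (hU hu)
  obtain ⟨i1, e1⟩ := init_L_eq h (hU hv) (8 / √(Fintype.card 𝒦 : ℝ)) hη
  obtain ⟨i2, e2⟩ := init_L_eq h' hv (8 / √(Fintype.card 𝒦 : ℝ)) hη
  have key := init_integral (i1.sub i2) (a := u₀ * F.w v) (A := c0 * δ / (2 * u₀))
    (B := 4 * K * F.w v ^ 2) (by positivity) (fun σ _ => by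
      have a1 := hN η σ F U v _ h hu (hU hv) rfl
      have a2 := hN η σ F U' v _ h' hu' hv rfl
      rw [jet_loc F.y F.π _ hadj hU hv hcov analyticAt_id rfl] at a1
      have a3 : c0 * δ / (2 * u₀) = c0 * δ / (4 * Real.pi * u₀) * Real.pi +
          c0 * δ / (4 * Real.pi * u₀) * Real.pi := by field_simp; ring
      rw [a3, Pi.sub_apply]
      exact (abs_sub_le _ _ _).trans (add_le_add a1 (by rwa [abs_sub_comm]))) fun σ hσ => by
      have hσ0 : 0 < σ := lt_trans (by positivity) hσ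
      have hs : K * (F.w v / σ) ^ 2 ≤ 1 / 2 := by
        have b1 : F.w v / σ ≤ 1 / u₀ := by
          rw [div_le_div_iff₀ hσ0 hu0]; linarith
        have b2 : (F.w v / σ) ^ 2 ≤ (1 / u₀) ^ 2 := pow_le_pow_left₀ (by positivity) b1 2
        have b3 : K * (1 / u₀) ^ 2 ≤ 1 / 2 := by
          rw [div_pow, one_pow, mul_one_div, div_le_iff₀ (by positivity)]
          nlinarith
        nlinarith
      have a1 := init_tail h hm hu (hU hv) hK hcut η hσ0 hs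
      have a2 := init_tail h' hm hu' hv hK hcut' η hσ0 hs
      have a3 : 4 * K * F.w v ^ 2 / σ ^ 2 =
          2 * (K * (F.w v / σ) ^ 2) + 2 * (K * (F.w v / σ) ^ 2) := by ring
      rw [a3, Pi.sub_apply]
      exact (abs_sub _ _).trans (add_le_add a1 a2)
  simp only [Pi.sub_apply] at key
  rw [integral_sub i1 i2] at key
  rw [e1, e2, add_sub_add_left_eq_sub, ← mul_sub, abs_mul, abs_of_pos (inv_pos.2 hc),
    inv_mul_le_iff₀ hc]
  refine key.trans ?_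
  have b1 : c0 * δ / (2 * u₀) * (u₀ * F.w v) = c0 * δ / 2 * F.w v := by field_simp
  have b2 : 4 * K * F.w v ^ 2 / (u₀ * F.w v) = 4 * K / u₀ * F.w v := by field_simp
  have b3 : 4 * K / u₀ ≤ c0 * δ / 2 := by
    rw [div_le_iff₀ (by positivity)] at hu₁
    rw [div_le_iff₀ hu0]
    linarith
  rw [b1, b2]
  nlinarith

open Classical in
/-- The balls around `v`. -/
noncomputable def init_ball (F : FS α 𝒦) (U : Finset α) (v : α) : ℕ → Finset α
  | 0 => {v}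
  | n + 1 => init_ball F U v n ∪
      U.filter fun u' => ∃ u ∈ init_ball F U v n, ∃ k, F.y k u' u ≠ 0

omit [DecidableEq 𝒦] in
theorem init_mem_ball_succ {F : FS α 𝒦} {U : Finset α} {v u' : α} {n : ℕ} :
    u' ∈ init_ball F U v (n + 1) ↔ u' ∈ init_ball F U v n ∨
      (u' ∈ U ∧ ∃ u ∈ init_ball F U v n, ∃ k, F.y k u' u ≠ 0) := by
  simp only [init_ball, Finset.mem_union, Finset.mem_filter]

omit [DecidableEq 𝒦] in
theorem init_ball_spec {F : FS α 𝒦} {U : Finset α} {v : α} (hv : v ∈ U) (hw : 0 < F.w v) {K : ℝ}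
    (hK : 1 ≤ K) (hcut : ∀ u ∈ U, F.Kcut K U u) {nb : α → Finset α}
    (hnb : ∀ k a b, F.y k a b ≠ 0 → a ∈ nb b) {Δ : ℕ} (hΔ : ∀ b, (nb b).card ≤ Δ) (n : ℕ) :
    v ∈ init_ball F U v n ∧ init_ball F U v n ⊆ U ∧ (init_ball F U v n).card ≤ (Δ + 1) ^ n ∧
      ∀ u ∈ init_ball F U v n, F.w u ≤ K ^ n * F.w v := by
  induction n with
  | zero => simp [init_ball, hv]
  | succ n ih =>
    obtain ⟨h1, h2, h3, h4⟩ := ih
    refine ⟨init_mem_ball_succ.2 (Or.inl h1), fun u hu => ?_, ?_, fun u hu => ?_⟩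
    · rcases init_mem_ball_succ.1 hu with h | h
      · exact h2 h
      · exact h.1
    · have hsub : init_ball F U v (n + 1) ⊆
          (init_ball F U v n).biUnion fun u => insert u (nb u) := by
        intro u hu
        rcases init_mem_ball_succ.1 hu with h | ⟨-, u', hu', k, hk⟩
        · exact Finset.mem_biUnion.2 ⟨u, h, Finset.mem_insert_self _ _⟩
        · exact Finset.mem_biUnion.2 ⟨u', hu', Finset.mem_insert_of_mem (hnb k _ _ hk)⟩
      refine (Finset.card_le_card hsub).trans ((Finset.card_biUnion_le_card_mul _ _ (Δ + 1)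
        fun u _ => (Finset.card_insert_le _ _).trans (Nat.succ_le_succ (hΔ u))).trans ?_)
      rw [pow_succ]
      exact Nat.mul_le_mul_right _ h3
    · have h5 : 0 ≤ K ^ n * F.w v := by positivity
      have h6 : K ^ (n + 1) * F.w v = K * (K ^ n * F.w v) := by ring
      rw [h6]
      rcases init_mem_ball_succ.1 hu with h | ⟨hU, u', hu', k, hk⟩
      · exact (h4 u h).trans (le_mul_of_one_le_left h5 hK)
      · exact (hcut u' (h2 hu') k u hU hk).1.trans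
          (mul_le_mul_of_nonneg_left (h4 u' hu') (by linarith))

/-- Take `N` from `L_unif_loc` and `U' = R_N`, `R₀ = {v}`,
`R_{n+1} = R_n ∪ {u' ∈ U | ∃ u ∈ R_n, ∃ k, y k u' u ≠ 0}`: `|R_n| ≤ (Δ+1)^n`, `w ≤ K^n w v` on `R_n`;
`L U' v ≤ Phi U'`; `Phi_unif_le`; then take `η` small. -/
theorem L_unif_le (hm : 4 ≤ Fintype.card 𝒦) {K : ℝ} (hK : 1 ≤ K) (Δ : ℕ) {δ : ℝ} (hδ : 0 < δ) :
    ∃ η : ℝ, 0 < η ∧ ∀ (F : FS α 𝒦) (U : Finset α) (v : α) (nb : α → Finset α),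
      F.Ok U → F.Unif U → v ∈ U → (∀ u ∈ U, F.Kcut K U u) →
      (∀ k a b, F.y k a b ≠ 0 → a ∈ nb b) → (∀ b, (nb b).card ≤ Δ) →
      F.L (8 / √(Fintype.card 𝒦 : ℝ)) η U v ≤ δ * F.w v := by
  obtain ⟨N, hN⟩ := L_unif_loc (α := α) hm hK (half_pos hδ)
  have hz := init_z0_pos hm
  have hK0 : 0 < K := by linarith
  obtain ⟨η, hη, hη2⟩ : ∃ η : ℝ, 0 < η ∧
      η ^ 2 = δ / 2 * (4 / √(Fintype.card 𝒦 : ℝ)) / (2 * ((Δ : ℝ) + 1) ^ N * K ^ N) :=
    ⟨√_, Real.sqrt_pos.2 (by positivity), Real.sq_sqrt (by positivity)⟩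
  refine ⟨η, hη, fun F U v nb h hu hv hcut hnb hΔ => ?_⟩
  have hw := h.wpos v
  obtain ⟨h1, h2, h3, h4⟩ := init_ball_spec hv hw hK hcut hnb hΔ N
  have hcov : Cover (fun a b => ∃ k, F.y k a b ≠ 0) U v N (init_ball F U v N) :=
    ⟨fun n => init_ball F U v n, by simp [init_ball],
      fun n u hu => init_mem_ball_succ.2 (Or.inl hu),
      fun n u u' hu _ hu' hadj => init_mem_ball_succ.2 (Or.inr ⟨hu', u, hu, hadj⟩),
      fun u _ hu => hu⟩
  have a1 := hN η F U _ v _ hη h hu h2 h1 (hcut v hv) (fun k a b hk => ⟨k, hk⟩) hcov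
  have a2 := FS.Phi_unif_le (h.mono h2) hm (hu.init_mono h2) hη (by positivity) h4
  have a3 := F.Phi_nonneg (8 / √(Fintype.card 𝒦 : ℝ)) η ((init_ball F U v N).erase v)
  have a4 : ((init_ball F U v N).card : ℝ) ≤ ((Δ : ℝ) + 1) ^ N := by exact_mod_cast h3
  have a5 : 2 * ((init_ball F U v N).card : ℝ) *
      (η ^ 2 * (K ^ N * F.w v) / (4 / √(Fintype.card 𝒦 : ℝ))) ≤ δ / 2 * F.w v := by
    refine (mul_le_mul_of_nonneg_right (mul_le_mul_of_nonneg_left a4 zero_le_two)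
      (by positivity)).trans (le_of_eq ?_)
    rw [hη2]
    generalize 4 / √(Fintype.card 𝒦 : ℝ) = z₀ at hz
    field_simp
  have a6 := (abs_le.1 a1).2
  unfold FS.L at a6 ⊢
  linarith

end Crest.Agent.R109
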