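import Crest.Agent.R109.ExPotMeas
import Crest.Agent.R109.Approx
import Crest.Agent.R109.Init
import Crest.Agent.R109.FFinal

/-! Row 109, local algorithm: the truncated potential has the required properties. -/

set_option autoImplicit false

open scoped ComplexConjugate ENNReal Pointwise
open MeasureTheory

namespace Crest.Agent.R109

variable {G X : Type*} [Group G] [DecidableEq G] [MulAction G X] [DecidableEq X]
  [MeasurableSpace X] {S : Finset G} {μ : Measure X} {x : X → X → ℂ} {w : X → ℝ} {r : ℕ}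

theorem expot_pi_nonneg (s : St r) (k : Fin r × Bool) : 0 ≤ s.pi k := by
  cases s <;> simp only [St.pi] <;> positivity

theorem expot_pi_half (c : Fin r) : ∑ k, (St.half c).pi k = 1 := by
  simp [St.pi, Fintype.sum_prod_type, Finset.sum_add_distrib]
  norm_num

theorem expot_perm_dead (π : Equiv.Perm (Fin r)) (s : St r) :
    s.perm π ≠ St.dead ↔ s ≠ St.dead := by
  cases s <;> simp [St.perm]

theorem expot_perm_pi (π : Equiv.Perm (Fin r)) (s : St r) (k : Fin r × Bool) :
    (s.perm π).pi (Equiv.prodCongr π (Equiv.refl _) k) = s.pi k := by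
  cases s <;> simp [St.perm, St.pi, Prod.ext_iff]

theorem expot_perm_mu (π : Equiv.Perm (Fin r)) (s : St r) : (s.perm π).mu = s.mu := by
  cases s <;> simp [St.perm, St.mu]

theorem expot_pi_sum (s : St r) : ∑ k, s.pi k ≤ 1 := by
  cases s with
  | dead => simp [St.pi]
  | unif =>
    simp only [St.pi, Finset.sum_const, Finset.card_univ, nsmul_eq_mul]
    exact mul_inv_le_one
  | half c => exact (expot_pi_half c).le
  | sgn b c =>
    simp only [St.pi, Finset.sum_ite_eq', Finset.mem_univ, if_true]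
    norm_num

theorem expot_mu (s : St r) : 1 ≤ s.mu := by
  cases s <;> norm_num [St.mu]

theorem expot_ok (h : LS S μ x w) (σ : X → St r) {U : Finset X} (hU : ∃ t R, U ⊆ B S R t) :
    (fsys x w σ).Ok U := by
  obtain ⟨t, R, hU⟩ := hU
  refine ⟨⟨fun k a b => ?_, fun k a => ?_⟩, fun k => Bnd.mono (fun ξ => ?_) hU,
    fun v => ⟨expot_pi_nonneg _, expot_pi_sum _⟩, fun u => expot_mu _, h.wpos⟩
  · simp only [fsys, map_mul, ← h.symm]
    congr 1
    unfold sy
    split_ifs <;> simp
  · simp [fsys, h.diag]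
  · refine le_of_eq_of_le (Finset.sum_congr rfl fun a _ => ?_) (h.bnd t R ξ)
    simp only [fsys, mul_assoc, ← Finset.mul_sum, norm_mul]
    have : ‖sy k.2‖ = 1 := by
      unfold sy
      split_ifs <;> simp
    rw [this, one_mul]

theorem expot_adj (h : LS S μ x w) (σ : X → St r) (k : Fin r × Bool) (a b : X)
    (hab : (fsys x w σ).y k a b ≠ 0) : a ∈ B S 1 b :=
  h.supp a b (right_ne_zero_of_mul hab)

theorem expot_kcut (h : LS S μ x w) (σ : X → St r) {K : ℝ} {v : X} (hv : Kg S w K v)
    (U : Finset X) : (fsys x w σ).Kcut K U v := by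
  intro k u _ hu
  obtain ⟨g, hg, rfl⟩ := mem_B.1 (expot_adj h σ k u v hu)
  exact hv g (by simpa using hg)

omit [Group G] [DecidableEq G] [MulAction G X] [MeasurableSpace X] in
theorem expot_fsys_update (σ : X → St r) (v : X) (s : St r) :
    fsys x w (Function.update σ v s) = (fsys x w σ).upd v s.pi s.mu := by
  simp only [fsys, FS.upd, FS.mk.injEq, true_and, and_true]
  constructor <;> funext u <;> by_cases hu : u = v <;> simp [hu]

omit [Group G] [DecidableEq G] [MulAction G X] [MeasurableSpace X] in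
theorem expot_live_update (σ : X → St r) {v : X} (hv : σ v ≠ St.dead) {s : St r}
    (hs : s ≠ St.dead) (u : X) : Function.update σ v s u ≠ St.dead ↔ σ u ≠ St.dead := by
  by_cases hu : u = v <;> simp [hu, hv, hs]

omit [Group G] [DecidableEq G] [MulAction G X] [MeasurableSpace X] in
theorem expot_mg (z η : ℝ) (N : ℕ) (σ : X → St r) (U : Finset X) (v : X) :
    mg (PsiX x w z η N) σ U v = (fsys x w σ).Psi z η N (U.filter fun u => σ u ≠ St.dead) -
      (fsys x w σ).Psi z η N ((U.filter fun u => σ u ≠ St.dead).erase v) := by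
  simp only [mg, PsiX, Finset.filter_erase]

omit [Group G] [DecidableEq G] [MulAction G X] [MeasurableSpace X] in
theorem expot_mg_dead (z η : ℝ) (N : ℕ) (σ : X → St r) (U : Finset X) {v : X}
    (hv : σ v = St.dead) : mg (PsiX x w z η N) σ U v = 0 := by
  rw [expot_mg, Finset.erase_eq_of_notMem (by simp [hv]), sub_self]

theorem expot_Psi_Phi {α : Type*} [DecidableEq α] {𝒦 : Type*} [Fintype 𝒦] [DecidableEq 𝒦]
    (F : FS α 𝒦) {z η err : ℝ} {N : ℕ} (U : Finset α)
    (h : ∀ V ⊆ U, ∀ v ∈ V,
      |F.Psi z η N V - F.Psi z η N (V.erase v) - F.L z η V v| ≤ err * F.w v) :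
    F.Phi z η U - err * ∑ u ∈ U, F.w u ≤ F.Psi z η N U := by
  induction U using Finset.induction_on with
  | empty =>
    have : F.fU z η ∅ = Polynomial.C 1 := by simp [FS.fU, cT_empty]
    simp only [FS.Phi, this, rs_C, FS.Psi_empty]
    simp
  | insert v U hv ih =>
    have h1 := ih fun V hV => h V (hV.trans (Finset.subset_insert _ _))
    have h2 := (abs_le.1 (h _ subset_rfl v (Finset.mem_insert_self _ _))).1
    rw [FS.L, Finset.erase_insert hv] at h2
    rw [Finset.sum_insert hv]
    linarith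

/-- Take `η` from `L_unif_le` (`Δ = S.card`, `nb = B S 1`, `card (Fin r × Bool) = 2 r ≥ 4`), then
`C₀`, `N` from `Psi_approx`, and `Ψ = PsiX x w z η N`.  For admissible `(σ, U)` the system
`fsys x w σ` is `Ok` on the live part and `Kcut` at every live vertex; updating the state of a live
vertex to a live state is `FS.upd` and does not change the live part.  `step`: `L_step` with
`pc c = (half c).pi`, `M = 48`; `rs`: `L_mono`; `final`: `Phi_ge_of_qf` with `γ = z`, `M = 48`,
`cl u = (c u, b)` and `|Psi U - Phi U| ≤ err ∑ w` by induction on `U`; `perm`: `cT_perm` with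
`Equiv.prodCongr π (refl)`. -/
theorem LS.exists_pot (h : LS S μ x w) (hr : 2 ≤ r) {K small err : ℝ} (hK : 1 ≤ K)
    (hsmall : 0 < small) (herr : 0 < err) (N₁ : ℕ) :
    ∃ (N : ℕ) (C₀ : ℝ) (Ψ : (X → St r) → Finset X → ℝ), N₁ ≤ N ∧
      Pot S x w K (8 / √(2 * r)) small err (8 / √(2 * r) / 48) (98 * (8 / √(2 * r))) C₀ N Ψ := by
  have hcard : (Fintype.card (Fin r × Bool) : ℝ) = 2 * r := by simp [mul_comm]
  have hr0 : (0 : ℝ) < r := by exact_mod_cast (by omega : 0 < r)
  have : Nonempty (Fin r) := ⟨⟨0, by omega⟩⟩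
  obtain ⟨η, hη, hunif⟩ := L_unif_le (α := X) (𝒦 := Fin r × Bool) (by simp; omega) hK S.card hsmall
  rw [hcard] at hunif
  have hz : 0 < 8 / √(2 * r : ℝ) := by positivity
  generalize 8 / √(2 * r : ℝ) = z at *
  obtain ⟨C₀, hC₀, happ⟩ := Psi_approx (α := X) (𝒦 := Fin r × Bool) hz.le hη hK
  obtain ⟨N₀, hN₀⟩ := happ err herr
  replace hN₀ := hN₀ (max N₀ N₁) (le_max_left _ _)
  replace hC₀ := hC₀ (max N₀ N₁)
  refine ⟨max N₀ N₁, max C₀ 0, PsiX x w z η (max N₀ N₁), le_max_right _ _, ?_⟩
  generalize max N₀ N₁ = N at *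
  have hok : ∀ {σ : X → St r} {U V : Finset X}, Adm S w K σ U → V ⊆ U → (fsys x w σ).Ok V :=
    fun hA hV => (expot_ok h _ hA.1).mono hV
  have hmem : ∀ {σ : X → St r} {U : Finset X} {v : X}, v ∈ U → σ v ≠ St.dead →
      v ∈ U.filter fun u => σ u ≠ St.dead := fun hv hl => Finset.mem_filter.2 ⟨hv, hl⟩
  have hA : ∀ {σ : X → St r} {U : Finset X} {v : X}, Adm S w K σ U → v ∈ U → σ v ≠ St.dead →
      |mg (PsiX x w z η N) σ U v - (fsys x w σ).L z η (U.filter fun u => σ u ≠ St.dead) v| ≤
        err * w v := fun {σ U v} hA hv hl => by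
    rw [expot_mg]
    exact hN₀ _ _ v (hok hA (Finset.filter_subset _ _)) (hmem hv hl)
      (expot_kcut h σ (hA.2 v hl) _)
  have hupd : ∀ {σ : X → St r} {U : Finset X} {v : X} {s : St r}, Adm S w K σ U → v ∈ U →
      σ v ≠ St.dead → s ≠ St.dead →
      ((fsys x w σ).upd v s.pi s.mu).L z η (U.filter fun u => σ u ≠ St.dead) v ≤
        (fsys x w σ).L z η (U.filter fun u => σ u ≠ St.dead) v →
      mg (PsiX x w z η N) (Function.update σ v s) U v ≤
        mg (PsiX x w z η N) σ U v + 2 * err * w v := fun {σ U v s} hU hv hl hs hle => by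
    have h1 := (abs_le.1 (hA hU hv hl)).1
    have h2 := (abs_le.1 (hA (σ := Function.update σ v s) (U := U) (v := v)
      ⟨hU.1, fun u hu => hU.2 u ((expot_live_update σ hl hs u).1 hu)⟩ hv (by simpa using hs))).2
    rw [expot_fsys_update, Finset.filter_congr fun u _ => expot_live_update σ hl hs u] at h2
    linarith
  refine ⟨fun σ σ' U hσ => ?_, fun σ U v hv => ?_, fun σ => ?_, fun σ U U' v hU hU' hv hc => ?_,
    fun σ U v hU hv => ?_, fun σ U v hU hv => ?_, fun σ U v hU hv hσ => ?_,
    fun σ U v b c hU hv hσ => ?_, fun σ U v hU hv hσ => ?_,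
    fun σ U b c w₀ ξ hU hσ hw₀ hw hξ => ?_, fun π σ U => ?_,
    fun τ R hτ => h.PsiX_measurable z η N τ R hτ⟩
  · unfold PsiX
    rw [Finset.filter_congr (q := fun u => σ' u ≠ St.dead) fun u hu => by rw [hσ u hu]]
    refine FS.Psi_congr (F := fsys x w σ) (F' := fsys x w σ') _
      (fun T hT => cT_congr T (fun u hu k => ?_) fun _ _ _ _ _ _ _ => rfl)
      (fun u hu => ?_) (fun _ _ => rfl) _ _ _
    · simp only [fsys, hσ u (Finset.filter_subset _ _ (hT hu))]
    · simp only [fsys, hσ u (Finset.filter_subset _ _ hu)]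
  · exact (sub_eq_zero.1 (expot_mg_dead z η N σ U hv)).symm
  · simp [PsiX, FS.Psi_empty]
  · by_cases hl : σ v = St.dead
    · rw [expot_mg_dead _ _ _ _ _ hl, expot_mg_dead _ _ _ _ _ hl]
    rw [expot_mg, expot_mg]
    obtain ⟨d, h0, h1, h2, h3⟩ := hc
    exact FS.Psi_loc (hok hU (Finset.filter_subset _ _)) z hη (expot_adj h σ)
      (Finset.filter_subset_filter _ hU') (hmem hv hl)
      ⟨d, h0, h1, h2, fun u hu hd => hmem (h3 u hu hd) (Finset.mem_filter.1 hu).2⟩
  · have hw := (h.wpos v).le
    by_cases hl : σ v = St.dead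
    · rw [expot_mg_dead _ _ _ _ _ hl, abs_zero]
      exact mul_nonneg (le_max_right _ _) hw
    rw [expot_mg]
    exact (hC₀ _ _ v (hok hU (Finset.filter_subset _ _)) (hmem hv hl)
      (expot_kcut h σ (hU.2 v hl) _)).trans (mul_le_mul_of_nonneg_right (le_max_left _ _) hw)
  · have hw := (h.wpos v).le
    by_cases hl : σ v = St.dead
    · rw [expot_mg_dead _ _ _ _ _ hl, neg_nonpos]
      positivity
    have h1 := (abs_le.1 (hA hU hv hl)).1
    have h2 := FS.L_nonneg (hok hU (Finset.filter_subset _ _)) (hmem hv hl) z hη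
    linarith
  · have hl : σ v ≠ St.dead := by simp [hσ]
    rcases FS.L_step (hok hU (Finset.filter_subset _ _)) (hmem hv hl) hz hη
      (by simp [fsys, hσ, St.mu]) (fun c : Fin r => (St.half c).pi)
      (fun c => expot_pi_nonneg _) (fun c => expot_pi_sum _) (fun k => by
        simp only [fsys, hσ, St.pi, hcard, Finset.sum_ite_eq, Finset.mem_univ, if_true,
          Fintype.card_fin]
        field_simp) (M := 48) (by norm_num) with h1 | ⟨c, h1⟩
    · left
      have h2 := (abs_le.1 (hA hU hv hl)).1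
      have : (fsys x w σ).w v = w v := rfl
      rw [this] at h1
      linarith
    · exact Or.inr ⟨c, hupd hU hv hl (by simp) h1⟩
  · have hl : σ v ≠ St.dead := by simp [hσ]
    refine hupd hU hv hl (by simp) ?_
    have h1 := FS.L_mono (hok hU (Finset.filter_subset _ _)) (hmem hv hl) z hη
      (p := (St.sgn b c).pi) (expot_pi_nonneg _) (fun k => by
        simp only [fsys, hσ, St.pi]
        split_ifs with h1 h2
        · exact le_rfl
        · exact absurd (congrArg Prod.fst h1) h2
        · norm_num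
        · exact le_rfl)
    have : (fsys x w σ).μ v = (St.sgn b c).mu := by simp [fsys, hσ, St.mu]
    rwa [this] at h1
  · have hw := (h.wpos v).le
    by_cases hl : σ v = St.dead
    · rw [expot_mg_dead _ _ _ _ _ hl]
      positivity
    have h1 := (abs_le.1 (hA hU hv hl)).2
    have h2 := hunif (fsys x w σ) _ v (B S 1) (hok hU (Finset.filter_subset _ _))
      (fun u hu => by
        have := (hσ u).resolve_left (Finset.mem_filter.1 hu).2
        simp [fsys, this, St.mu, St.pi]) (hmem hv hl)
      (fun u hu => expot_kcut h σ (hU.2 u (Finset.mem_filter.1 hu).2) _) (expot_adj h σ)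
      (fun b => by simpa using card_B_le (S := S) 1 b)
    have : (fsys x w σ).w v = w v := rfl
    rw [this] at h2
    linarith
  · have hl : ∀ u ∈ U, σ u ≠ St.dead := fun u hu => by simp [hσ u hu]
    have h1 := FS.Phi_ge_of_qf (hok hU subset_rfl) (M := 48) hz.le hη hz hw₀ hw (by norm_num)
      (fun u hu => by simp [fsys, hσ u hu, St.mu]) (fun u => (c u, b))
      (fun u hu k => by simp only [fsys, hσ u hu, St.pi]) ξ (by
        convert hξ using 2
        · ring
        · funext a a'
          simp [fsys, ycol])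
    have h2 := expot_Psi_Phi (fsys x w σ) U fun V hV v hv =>
      hN₀ _ V v (hok hU hV) hv (expot_kcut h σ (hU.2 v (hl v (hV hv))) _)
    unfold PsiX
    rw [Finset.filter_true_of_mem hl]
    have : (fsys x w σ).w = w := rfl
    rw [this] at h2
    linarith
  · unfold PsiX
    rw [Finset.filter_congr (q := fun u => σ u ≠ St.dead) fun u _ => expot_perm_dead π (σ u)]
    exact (FS.Psi_congr (F := fsys x w σ) (F' := fsys x w fun u => (σ u).perm π) _
      (fun T _ => cT_perm T (Equiv.prodCongr π (Equiv.refl _))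
      (fun _ _ _ => rfl) fun u _ k => expot_perm_pi π (σ u) k)
      (fun u _ => expot_perm_mu π (σ u)) (fun _ _ => rfl) _ _ _).symm

end Crest.Agent.R109
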