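import Crest.Agent.R109.Ball
import Crest.Agent.R109.PsiInv

/-! Row 109, local algorithm: measurability of the potential of a ball. -/

set_option autoImplicit false

open scoped ComplexConjugate ENNReal Pointwise
open MeasureTheory

namespace Crest.Agent.R109

variable {G X : Type*} [Group G] [DecidableEq G] [MulAction G X] [DecidableEq X]
  [MeasurableSpace X] {S : Finset G} {μ : Measure X} {x : X → X → ℂ} {w : X → ℝ} {r : ℕ}

/-- Fix a linear order or an enumeration of `S ^ R`.  For `t` let `P t ⊆ S ^ R` be the set of `g`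
with `τ t (g t) ≠ dead` that are first among the `g'` with `g' t = g t`; `g ↦ g t` is injective on
`P t` with image the live part of `B R t`.  The pair (`P t`, states `g ↦ τ t (g t)` on `S ^ R`) takes
finitely many values on measurable sets.  On each piece, `Psi_map` (with `cT_map`, `cT_gauge` and
`LS.gauge`) and `Psi_scale` identify the function with `Psi` of the system on `G` with matrices
`sy k.2 * k g g' t`, weights `w (g t) / w t`, fixed `π`, `μ` and vertex set; `Psi_measurable`. -/
theorem LS.PsiX_measurable (h : LS S μ x w) (z η : ℝ) (N : ℕ) (τ : X → X → St r) (R : ℕ)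
    (hτ : ∀ g : G, Measurable fun t => τ t (g • t)) :
    Measurable fun t => PsiX x w z η N (τ t) (B S R t) / w t := by
  classical
  obtain ⟨k, hk, hg⟩ := h.gauge
  let ι := (S ^ R : Finset G)
  let e : ι ≃ Fin (Fintype.card ι) := Fintype.equivFin ι
  let D : X → ι → St r := fun t a =>
    if ∀ a' : ι, e a' < e a → (a' : G) • t ≠ (a : G) • t then τ t ((a : G) • t) else St.dead
  let Φ : X × (ι → St r) → ℝ := fun p =>
    (FS.mk (fun (c : Fin r × Bool) (a b : ι) => sy c.2 * k a b p.1) (fun a => (p.2 a).pi)
      (fun a => (p.2 a).mu) (fun a => w ((a : G) • p.1) / w p.1)).Psi z η N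
      (Finset.univ.filter fun a => p.2 a ≠ St.dead)
  have hD : Measurable D := by
    refine measurable_pi_lambda _ fun a => Measurable.ite ?_ (hτ a) measurable_const
    rw [Set.ofPred_forall]
    refine MeasurableSet.iInter fun a' => ?_
    by_cases ha : e a' < e a
    · simp only [ha, true_implies]
      exact (h.measurableSet_eq a' a).compl
    · simp [ha]
  have hΦ : Measurable Φ := by
    refine measurable_from_prod_countable_left fun d => ?_
    exact FS.Psi_measurable (fun (t : X) (c : Fin r × Bool) (a b : ι) => sy c.2 * k a b t)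
      (fun a => (d a).pi) (fun a => (d a).mu) (fun t a => w ((a : G) • t) / w t)
      (Finset.univ.filter fun a => d a ≠ St.dead)
      (fun c a _ b _ => (hk a b).const_mul _) (fun a _ => h.wmeas a) z η N
  have key : ∀ t, PsiX x w z η N (τ t) (B S R t) / w t = Φ (t, D t) := by
    intro t
    obtain ⟨χ, hχ, hχ'⟩ := hg t
    have hU : ∀ a ∈ Finset.univ.filter fun a => D t a ≠ St.dead,
        (∀ a' : ι, e a' < e a → (a' : G) • t ≠ (a : G) • t) ∧ D t a = τ t ((a : G) • t) := by
      intro a ha
      have ha := (Finset.mem_filter.1 ha).2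
      by_cases h1 : ∀ a' : ι, e a' < e a → (a' : G) • t ≠ (a : G) • t
      · exact ⟨h1, if_pos h1⟩
      · exact absurd (if_neg h1) ha
    have hinj : Set.InjOn (fun a : ι => (a : G) • t)
        (Finset.univ.filter fun a => D t a ≠ St.dead : Finset ι) := by
      intro a ha b hb hab
      rcases lt_trichotomy (e a) (e b) with h1 | h1 | h1
      · exact absurd hab ((hU b hb).1 a h1)
      · exact e.injective h1
      · exact absurd hab.symm ((hU a ha).1 b h1)
    have himg : (B S R t).filter (fun u => τ t u ≠ St.dead) =
        (Finset.univ.filter fun a => D t a ≠ St.dead).image fun a : ι => (a : G) • t := by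
      ext u
      simp only [Finset.mem_filter, Finset.mem_image, mem_B]
      constructor
      · rintro ⟨⟨g, hg1, rfl⟩, hu⟩
        obtain ⟨a, ha, hmin⟩ := Finset.exists_min_image
          (Finset.univ.filter fun a : ι => (a : G) • t = g • t) e
          ⟨⟨g, hg1⟩, Finset.mem_filter.2 ⟨Finset.mem_univ _, rfl⟩⟩
        have ha := (Finset.mem_filter.1 ha).2
        have h1 : ∀ a' : ι, e a' < e a → (a' : G) • t ≠ (a : G) • t := fun a' h2 h3 =>
          absurd (hmin a' (Finset.mem_filter.2 ⟨Finset.mem_univ _, h3.trans ha⟩)) (not_le.2 h2)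
        refine ⟨a, ⟨Finset.mem_univ _, ?_⟩, ha⟩
        have h2 : D t a = τ t ((a : G) • t) := if_pos h1
        rw [h2, ha]
        exact hu
      · rintro ⟨a, ha, rfl⟩
        refine ⟨⟨a, a.2, rfl⟩, ?_⟩
        rw [← (hU a (Finset.mem_filter.2 ha)).2]
        exact ha.2
    rw [PsiX, ← FS.Psi_scale _ (h.wpos t), himg]
    refine FS.Psi_map _ _ hinj _ _ (fun T hT => ?_) (fun a ha => ?_) (fun a _ => rfl) z η N
    · rw [cT_map (fun a : ι => (a : G) • t) T (hinj.mono hT) _ _
        (fun (c : Fin r × Bool) (a b : ι) => sy c.2 * x ((a : G) • t) ((b : G) • t))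
        (fun a => (D t a).pi) (fun a ha c => by rw [(hU a (hT ha)).2]; rfl)
        fun _ _ _ _ _ _ _ => rfl]
      refine cT_gauge T _ (fun a => χ a) (fun a _ => hχ a) fun c a _ b _ => ?_
      simp only [hχ']
      ring
    · show (D t a).mu = (τ t ((a : G) • t)).mu
      rw [(hU a ha).2]
  simp only [key]
  exact hΦ.comp (measurable_id.prodMk hD)

end Crest.Agent.R109
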