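import Crest.Agent.R109.FBasicA

/-! Row 109, finite part: algebraic properties of `pH`, `nH`, `ph`. -/

set_option autoImplicit false

open scoped ComplexConjugate
open Polynomial

namespace Crest.Agent.R109

variable {α : Type*} [DecidableEq α] {𝒦 : Type*} [Fintype 𝒦] [DecidableEq 𝒦]

theorem pH_empty (y : 𝒦 → α → α → ℂ) (π : α → 𝒦 → ℝ) (Z : α → ℂ) (κ : ℂ) :
    pH y π ∅ Z κ = 1 := by
  simp [pH, cT_empty]

/-- `pH` is affine in every variable. -/
theorem pH_erase (y : 𝒦 → α → α → ℂ) (π : α → 𝒦 → ℝ) {U : Finset α} {v : α} (hv : v ∈ U)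
    (Z : α → ℂ) (κ : ℂ) :
    pH y π U Z κ = Z v * pH y π (U.erase v) Z κ + nH y π U v Z κ := by
  rw [pH, ← Finset.sum_filter_add_sum_filter_not U.powerset (fun T => v ∈ T), add_comm]
  congr 1
  have e : U.powerset.filter (fun T => ¬ v ∈ T) = (U.erase v).powerset := by
    ext T
    simp [Finset.subset_erase]
  rw [e, pH, Finset.mul_sum]
  refine Finset.sum_congr rfl fun T hT => ?_
  have hT' := Finset.subset_erase.1 (Finset.mem_powerset.1 hT)
  have e2 : U \ T = insert v (U.erase v \ T) := by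
    ext u
    by_cases hu : u = v
    · subst hu; simp [hv, hT'.2]
    · simp [hu]
  rw [e2, Finset.prod_insert (by simp)]
  ring

theorem pH_congr (U : Finset α) {y y' : 𝒦 → α → α → ℂ} {π π' : α → 𝒦 → ℝ} {Z Z' : α → ℂ}
    (κ : ℂ) (hπ : ∀ u ∈ U, ∀ k, π' u k = π u k)
    (hy : ∀ k, ∀ a ∈ U, ∀ b ∈ U, π' a k ≠ 0 → π' b k ≠ 0 → y' k a b = y k a b)
    (hZ : ∀ u ∈ U, Z' u = Z u) : pH y π U Z κ = pH y' π' U Z' κ := by
  refine Finset.sum_congr rfl fun T hT => ?_
  have hT' := Finset.mem_powerset.1 hT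
  rw [cT_congr T (fun u hu => hπ u (hT' hu)) (fun k a ha b hb => hy k a (hT' ha) b (hT' hb)),
    Finset.prod_congr rfl fun u hu => (hZ u (Finset.mem_sdiff.1 hu).1).symm]

/-- `nH` does not depend on the variable of `v`. -/
theorem nH_congr (y : 𝒦 → α → α → ℂ) (π : α → 𝒦 → ℝ) (U : Finset α) (v : α) {Z Z' : α → ℂ}
    (κ : ℂ) (hZ : ∀ u ∈ U.erase v, Z' u = Z u) : nH y π U v Z κ = nH y π U v Z' κ := by
  refine Finset.sum_congr rfl fun T hT => ?_
  have hv := (Finset.mem_filter.1 hT).2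
  congr 1
  refine Finset.prod_congr rfl fun u hu => (hZ u ?_).symm
  have := Finset.mem_sdiff.1 hu
  exact Finset.mem_erase.2 ⟨fun h => this.2 (h ▸ hv), this.1⟩

theorem nH_linear (y : 𝒦 → α → α → ℂ) (π : α → 𝒦 → ℝ) (U : Finset α) (v : α) (Z : α → ℂ)
    (κ : ℂ) :
    nH y π U v Z κ = ∑ k, (π v k : ℂ) * nH y (Function.update π v (Pi.single k 1)) U v Z κ := by
  simp only [nH, Finset.mul_sum]
  rw [Finset.sum_comm]
  refine Finset.sum_congr rfl fun T hT => ?_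
  rw [cT_linear T y π (Finset.mem_filter.1 hT).2, Finset.sum_mul, Finset.sum_mul]
  exact Finset.sum_congr rfl fun k _ => by ring

theorem pH_map {β : Type*} [DecidableEq β] (e : β → α) (U : Finset β) (he : Set.InjOn e U)
    (y : 𝒦 → α → α → ℂ) (π : α → 𝒦 → ℝ) (y' : 𝒦 → β → β → ℂ) (π' : β → 𝒦 → ℝ)
    (hπ : ∀ u ∈ U, ∀ k, π' u k = π (e u) k)
    (hy : ∀ k, ∀ a ∈ U, ∀ b ∈ U, π' a k ≠ 0 → π' b k ≠ 0 → y' k a b = y k (e a) (e b))
    (Z : α → ℂ) (κ : ℂ) :
    pH y π (U.image e) Z κ = pH y' π' U (fun u => Z (e u)) κ := by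
  have hinj : Set.InjOn (fun T : Finset β => T.image e) U.powerset := by
    intro T hT T' hT' h
    have h1 : T ⊆ U := by simpa using hT
    have h2 : T' ⊆ U := by simpa using hT'
    have key : ∀ A B : Finset β, A ⊆ U → B ⊆ U → A.image e = B.image e → A ⊆ B := by
      intro A B hA hB hAB a ha
      have : e a ∈ B.image e := hAB ▸ Finset.mem_image_of_mem e ha
      obtain ⟨b, hb, hab⟩ := Finset.mem_image.1 this
      exact he (hB hb) (hA ha) hab ▸ hb
    exact Finset.Subset.antisymm (key T T' h1 h2 h) (key T' T h2 h1 h.symm)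
  rw [pH, Finset.powerset_image, Finset.sum_image hinj, pH]
  refine Finset.sum_congr rfl fun T hT => ?_
  have hT' := Finset.mem_powerset.1 hT
  have heT : Set.InjOn e T := he.mono (Finset.coe_subset.2 hT')
  rw [cT_map e T heT y π y' π' (fun u hu => hπ u (hT' hu))
      (fun k a ha b hb => hy k a (hT' ha) b (hT' hb)), Finset.card_image_of_injOn heT,
    ← Finset.image_sdiff_of_injOn he hT',
    Finset.prod_image (he.mono (Finset.coe_subset.2 Finset.sdiff_subset))]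

theorem pH_smul (y : 𝒦 → α → α → ℂ) (π : α → 𝒦 → ℝ) (U : Finset α) (Z : α → ℂ) (κ t : ℂ) :
    pH (fun k a b => t * y k a b) π U Z κ = pH y π U Z (t * κ) := by
  refine Finset.sum_congr rfl fun T _ => ?_
  rw [cT_smul, mul_pow]
  ring

theorem pH_homog (y : 𝒦 → α → α → ℂ) (π : α → 𝒦 → ℝ) (U : Finset α) (Z : α → ℂ) (κ t : ℂ) :
    pH y π U (fun u => t * Z u) (t * κ) = t ^ U.card * pH y π U Z κ := by
  rw [pH, pH, Finset.mul_sum]
  refine Finset.sum_congr rfl fun T hT => ?_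
  rw [Finset.prod_mul_distrib, Finset.prod_const, mul_pow,
    ← Finset.card_sdiff_add_card_eq_card (Finset.mem_powerset.1 hT), pow_add]
  ring

theorem pH_zero (y : 𝒦 → α → α → ℂ) (π : α → 𝒦 → ℝ) (U : Finset α) (Z : α → ℂ) :
    pH y π U Z 0 = ∏ u ∈ U, Z u := by
  rw [pH, Finset.sum_eq_single ∅]
  · simp [cT_empty]
  · intro T _ hT
    rw [zero_pow (by simpa using hT)]
    simp
  · simp

theorem pH_conj {y : 𝒦 → α → α → ℂ} (hy : Herm y) (π : α → 𝒦 → ℝ) (U : Finset α) (Z : α → ℂ)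
    (κ : ℂ) : conj (pH y π U Z κ) = pH y π U (fun u => conj (Z u)) (conj κ) := by
  simp only [pH, map_sum, map_mul, map_pow, map_prod, cT_conj hy]

theorem pH_continuous (y : 𝒦 → α → α → ℂ) (π : α → 𝒦 → ℝ) (U : Finset α) :
    Continuous fun p : (α → ℂ) × ℂ => pH y π U p.1 p.2 := by
  unfold pH
  fun_prop

/-- expansion of `det (diagonal Z + B)` along principal minors -/
theorem fbasic_det_diagonal_add {ι : Type*} [Fintype ι] [DecidableEq ι] (Z : ι → ℂ)
    (B : Matrix ι ι ℂ) : (Matrix.diagonal Z + B).det =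
      ∑ T : Finset ι, (B.submatrix (Subtype.val : T → ι) (Subtype.val : T → ι)).det *
        ∏ u ∈ Tᶜ, Z u := by
  have h := (Matrix.detRowAlternating : (ι → ℂ) [⋀^ι]→ₗ[ℂ] ℂ).map_add_univ B.row
    (Matrix.diagonal Z).row
  rw [add_comm]
  refine Eq.trans h (Finset.sum_congr rfl fun T _ => ?_)
  have e : Matrix.of (T.piecewise B.row (Matrix.diagonal Z).row)
      = Matrix.diagonal (fun i => if i ∈ T then 1 else Z i) *
        Matrix.of (T.piecewise B.row (1 : Matrix ι ι ℂ).row) := by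
    ext i j
    rw [Matrix.diagonal_mul]
    by_cases hi : i ∈ T
    · simp [hi]
    · simp [hi, Matrix.diagonal_apply, Matrix.one_apply]
  change (Matrix.of (T.piecewise B.row (Matrix.diagonal Z).row)).det = _
  rw [e, Matrix.det_mul, Matrix.det_piecewise_one_eq_submatrix_det, Matrix.det_diagonal, mul_comm]
  congr 1
  rw [← Finset.prod_mul_prod_compl T, Finset.prod_congr rfl fun i hi => if_pos hi,
    Finset.prod_const_one, one_mul]
  exact Finset.prod_congr rfl fun i hi => if_neg (Finset.mem_compl.1 hi)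

theorem fbasic_cT_dirac (y : 𝒦 → α → α → ℂ) (π : α → 𝒦 → ℝ) (T : Finset α) (cl : α → 𝒦) (t : ℝ)
    (hπ : ∀ u ∈ T, ∀ k, π u k = if k = cl u then t else 0) :
    cT y π T = (t : ℂ) ^ T.card * (-ymat y T fun u => cl u).det := by
  rw [cT, Finset.sum_eq_single fun u : T => cl u]
  · congr 1
    rw [Finset.prod_congr rfl fun (v : T) _ => by rw [hπ v v.2, if_pos rfl]]
    simp
  · intro cl' _ hne
    obtain ⟨v, hv⟩ := Function.ne_iff.1 hne
    rw [Finset.prod_eq_zero (Finset.mem_univ v) (by rw [hπ v v.2, if_neg hv]; simp), zero_mul]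
  · simp

/-- Deterministic systems (with probabilities scaled by `t`): `pH` is a determinant.  Expand
`det (diagonal Z + B) = ∑_T det B[T] ∏_{U \ T} Z` (multilinearity in the rows,
`MultilinearMap.map_add_univ`, `Matrix.det_piecewise_one_eq_submatrix_det`, or induction on
`U`). -/
theorem pH_dirac (y : 𝒦 → α → α → ℂ) (π : α → 𝒦 → ℝ) (U : Finset α) (cl : α → 𝒦) (t : ℝ)
    (hπ : ∀ u ∈ U, ∀ k, π u k = if k = cl u then t else 0) (Z : α → ℂ) (κ : ℂ) :
    pH y π U Z κ =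
      (Matrix.diagonal (fun u : U => Z u) - ((t : ℂ) * κ) • ymat y U (fun u => cl u)).det := by
  have h := pH_map (Subtype.val : U → α) Finset.univ Subtype.val_injective.injOn y π
    (fun k a b => y k a b) (fun u k => π u k) (fun _ _ _ => rfl) (fun _ _ _ _ _ _ _ => rfl) Z κ
  rw [Finset.univ_eq_attach, Finset.attach_image_val, ← Finset.univ_eq_attach] at h
  rw [h, sub_eq_add_neg, fbasic_det_diagonal_add, pH, Finset.powerset_univ]
  refine Finset.sum_congr rfl fun T _ => ?_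
  rw [fbasic_cT_dirac _ _ T (fun u : U => cl u) t (fun u _ k => hπ u u.2 k), ← smul_neg,
    Matrix.submatrix_smul, Pi.smul_apply, Pi.smul_apply, Matrix.det_smul, Fintype.card_coe, mul_pow,
    Finset.compl_eq_univ_sdiff]
  have e : (-ymat y U fun u => cl u).submatrix (Subtype.val : T → U) (Subtype.val : T → U)
      = -ymat (fun k (a b : U) => y k a b) T fun u => cl u := rfl
  rw [e]
  ring

theorem ph_eq (y : 𝒦 → α → α → ℂ) (π : α → 𝒦 → ℝ) (U : Finset α) {Z : α → ℂ}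
    (hZ : ∀ u ∈ U, Z u ≠ 0) (κ : ℂ) : ph y π U Z κ = pH y π U Z κ / ∏ u ∈ U, Z u := by
  rw [ph, pH, Finset.sum_div]
  refine Finset.sum_congr rfl fun T hT => ?_
  have hT' := Finset.mem_powerset.1 hT
  have h1 : ∏ u ∈ U \ T, Z u ≠ 0 :=
    Finset.prod_ne_zero_iff.2 fun u hu => hZ u (Finset.mem_sdiff.1 hu).1
  have h2 : ∏ u ∈ T, Z u ≠ 0 := Finset.prod_ne_zero_iff.2 fun u hu => hZ u (hT' hu)
  rw [← Finset.prod_sdiff hT', Finset.prod_inv_distrib]
  field_simp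

theorem ph_zero (y : 𝒦 → α → α → ℂ) (π : α → 𝒦 → ℝ) (U : Finset α) (Z : α → ℂ) :
    ph y π U Z 0 = 1 := by
  rw [ph, Finset.sum_eq_single ∅]
  · simp [cT_empty]
  · intro T _ hT
    rw [zero_pow (by simpa using hT)]
    simp
  · simp

theorem ph_empty (y : 𝒦 → α → α → ℂ) (π : α → 𝒦 → ℝ) (Z : α → ℂ) (κ : ℂ) :
    ph y π ∅ Z κ = 1 := by
  simp [ph, cT_empty]

theorem ph_differentiable (y : 𝒦 → α → α → ℂ) (π : α → 𝒦 → ℝ) (U : Finset α) (Z : α → ℂ) :
    Differentiable ℂ (ph y π U Z) := by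
  unfold ph
  fun_prop

omit [Fintype 𝒦] [DecidableEq 𝒦] in
theorem Bnd.mono {c : ℝ} {y : α → α → ℂ} {U U' : Finset α} (h : Bnd c y U) (hU : U' ⊆ U) :
    Bnd c y U' := by
  intro ξ
  have h1 := h fun b => if b ∈ U' then ξ b else 0
  have e1 : ∀ a, ∑ b ∈ U, y a b * (if b ∈ U' then ξ b else 0) = ∑ b ∈ U', y a b * ξ b := by
    intro a
    simp only [mul_ite, mul_zero]
    rw [Finset.sum_ite_mem, Finset.inter_eq_right.2 hU]
  have e2 : ∑ b ∈ U, ‖(if b ∈ U' then ξ b else 0)‖ ^ 2 = ∑ b ∈ U', ‖ξ b‖ ^ 2 := by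
    have : ∀ b, ‖(if b ∈ U' then ξ b else 0)‖ ^ 2 = if b ∈ U' then ‖ξ b‖ ^ 2 else 0 := by
      intro b; split_ifs <;> simp
    simp only [this]
    rw [Finset.sum_ite_mem, Finset.inter_eq_right.2 hU]
  simp only [e1, e2] at h1
  exact (Finset.sum_le_sum_of_subset_of_nonneg hU fun _ _ _ => by positivity).trans h1

omit [Fintype 𝒦] [DecidableEq 𝒦] in
/-- The columns of a contraction have norm at most one. -/
theorem Bnd.col {y : α → α → ℂ} {U : Finset α} (h : Bnd 1 y U) {v : α} (hv : v ∈ U) :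
    ∑ u ∈ U, ‖y u v‖ ^ 2 ≤ 1 := by
  have h1 := h fun b => if b = v then 1 else 0
  have e2 : ∀ b, ‖(if b = v then (1 : ℂ) else 0)‖ ^ 2 = if b = v then 1 else 0 := by
    intro b; split_ifs <;> simp
  simpa only [mul_ite, mul_one, mul_zero, Finset.sum_ite_eq', hv, if_true, e2, one_pow] using h1

omit [DecidableEq α] [Fintype 𝒦] [DecidableEq 𝒦] in
/-- Cauchy-Schwarz. -/
theorem Bnd.form_le {c : ℝ} (hc : 0 ≤ c) {y : α → α → ℂ} {U : Finset α} (h : Bnd c y U)
    (ξ : α → ℂ) :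
    ‖∑ a ∈ U, ∑ b ∈ U, conj (ξ a) * y a b * ξ b‖ ≤ c * ∑ a ∈ U, ‖ξ a‖ ^ 2 := by
  have h1 := h ξ
  have h2 : ‖∑ a ∈ U, ∑ b ∈ U, conj (ξ a) * y a b * ξ b‖
      ≤ ∑ a ∈ U, ‖ξ a‖ * ‖∑ b ∈ U, y a b * ξ b‖ := by
    refine (norm_sum_le _ _).trans (Finset.sum_le_sum fun a _ => le_of_eq ?_)
    simp only [mul_assoc, ← Finset.mul_sum, norm_mul, RCLike.norm_conj]
  refine h2.trans ?_
  have h3 := Finset.sum_mul_sq_le_sq_mul_sq U (fun a => ‖ξ a‖) fun a => ‖∑ b ∈ U, y a b * ξ b‖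
  have h4 : 0 ≤ ∑ a ∈ U, ‖ξ a‖ ^ 2 := by positivity
  refine (sq_le_sq₀ (by positivity) (by positivity)).1 (h3.trans ?_)
  calc _ ≤ (∑ a ∈ U, ‖ξ a‖ ^ 2) * (c ^ 2 * ∑ a ∈ U, ‖ξ a‖ ^ 2) :=
        mul_le_mul_of_nonneg_left h1 h4
    _ = _ := by ring

omit [DecidableEq α] [Fintype 𝒦] [DecidableEq 𝒦] in
/-- Polarisation: for Hermitian `y` the numerical radius is the norm.  (With `η = y ξ`:
`4 re ⟪η', y ξ⟫ = qf (ξ + η') - qf (ξ - η') ≤ 2 c (‖ξ‖² + ‖η'‖²)`, `η' = η / c` if `c > 0`;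
for `c = 0` let `η' = t η`.) -/
theorem bnd_of_qf {c : ℝ} (hc : 0 ≤ c) {y : α → α → ℂ} {U : Finset α}
    (hy : ∀ a b, y b a = conj (y a b))
    (h1 : ∀ ξ, qf y U ξ ≤ c * ∑ a ∈ U, ‖ξ a‖ ^ 2)
    (h2 : ∀ ξ, -qf y U ξ ≤ c * ∑ a ∈ U, ‖ξ a‖ ^ 2) : Bnd c y U := by
  intro ξ
  set η : α → ℂ := fun a => ∑ b ∈ U, y a b * ξ b with hη
  change ∑ a ∈ U, ‖η a‖ ^ 2 ≤ _
  set S : ℝ := ∑ a ∈ U, ‖η a‖ ^ 2 with hS
  set X : ℝ := ∑ a ∈ U, ‖ξ a‖ ^ 2 with hX
  have hSc : (S : ℂ) = ∑ a ∈ U, conj (η a) * η a := by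
    rw [hS]
    push_cast
    exact Finset.sum_congr rfl fun a _ => (Complex.conj_mul' _).symm
  have hB1 : ∑ a ∈ U, ∑ b ∈ U, conj (η a) * y a b * ξ b = S := by
    rw [hSc]
    refine Finset.sum_congr rfl fun a _ => ?_
    simp only [mul_assoc, ← Finset.mul_sum]
    rfl
  have hB2 : ∑ a ∈ U, ∑ b ∈ U, conj (ξ a) * y a b * η b = S := by
    rw [hSc, Finset.sum_comm]
    refine Finset.sum_congr rfl fun b _ => ?_
    rw [← Finset.sum_mul]
    congr 1
    rw [hη]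
    simp only [map_sum, map_mul]
    exact Finset.sum_congr rfl fun a _ => by rw [hy b a, mul_comm]
  have key : ∀ t : ℝ, 4 * t * S ≤ 2 * c * (X + t ^ 2 * S) := by
    intro t
    have a1 := h1 fun a => ξ a + t * η a
    have a2 := h2 fun a => ξ a - t * η a
    have a3 : qf y U (fun a => ξ a + t * η a) - qf y U (fun a => ξ a - t * η a) = 4 * t * S := by
      have : (∑ a ∈ U, ∑ b ∈ U, conj (ξ a + t * η a) * y a b * (ξ b + t * η b))
          - (∑ a ∈ U, ∑ b ∈ U, conj (ξ a - t * η a) * y a b * (ξ b - t * η b))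
          = 2 * t * ((∑ a ∈ U, ∑ b ∈ U, conj (η a) * y a b * ξ b)
            + ∑ a ∈ U, ∑ b ∈ U, conj (ξ a) * y a b * η b) := by
        simp only [← Finset.sum_sub_distrib, ← Finset.sum_add_distrib, Finset.mul_sum]
        refine Finset.sum_congr rfl fun a _ => Finset.sum_congr rfl fun b _ => ?_
        simp only [map_add, map_sub, map_mul, Complex.conj_ofReal]
        ring
      rw [hB1, hB2] at this
      rw [qf, qf, ← Complex.sub_re, this]
      have e : (2 * t * ((S : ℂ) + S)) = ((4 * t * S : ℝ) : ℂ) := by push_cast; ring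
      rw [e, Complex.ofReal_re]
    have a4 : ∑ a ∈ U, ‖ξ a + t * η a‖ ^ 2 + ∑ a ∈ U, ‖ξ a - t * η a‖ ^ 2
        = 2 * (X + t ^ 2 * S) := by
      rw [hX, hS, Finset.mul_sum, ← Finset.sum_add_distrib, ← Finset.sum_add_distrib,
        Finset.mul_sum]
      refine Finset.sum_congr rfl fun a _ => ?_
      have := parallelogram_law_with_norm ℂ (ξ a) (t * η a)
      rw [norm_mul, Complex.norm_real, Real.norm_eq_abs] at this
      have h5 : |t| ^ 2 = t ^ 2 := sq_abs t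
      rw [← h5]
      linarith
    have a5 : c * ∑ a ∈ U, ‖ξ a + t * η a‖ ^ 2 + c * ∑ a ∈ U, ‖ξ a - t * η a‖ ^ 2
        = 2 * c * (X + t ^ 2 * S) := by rw [← mul_add, a4]; ring
    linarith
  rcases hc.eq_or_lt with rfl | hc
  · have := key 1
    linarith
  · have h3 := key c⁻¹
    have h4 := mul_le_mul_of_nonneg_left h3 hc.le
    have e1 : c * (4 * c⁻¹ * S) = 4 * S := by field_simp
    have e2 : c * (2 * c * (X + c⁻¹ ^ 2 * S)) = 2 * (c ^ 2 * X) + 2 * S := by field_simp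
    rw [e1, e2] at h4
    linarith

theorem FS.Ok.mono {F : FS α 𝒦} {U U' : Finset α} (h : F.Ok U) (hU : U' ⊆ U) : F.Ok U' :=
  ⟨h.herm, fun k => (h.bnd k).mono hU, h.sub, h.mu, h.wpos⟩

theorem FS.Ok.upd {F : FS α 𝒦} {U : Finset α} (h : F.Ok U) (v : α) {p : 𝒦 → ℝ} {m : ℝ}
    (hp : ∀ k, 0 ≤ p k) (hp1 : ∑ k, p k ≤ 1) (hm : 1 ≤ m) : (F.upd v p m).Ok U := by
  refine ⟨h.herm, h.bnd, fun u => ?_, fun u => ?_, h.wpos⟩
  · by_cases hu : u = v
    · subst hu
      simp only [FS.upd, Function.update_self]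
      exact ⟨hp, hp1⟩
    · simp only [FS.upd, Function.update_of_ne hu]
      exact h.sub u
  · by_cases hu : u = v
    · subst hu
      simpa only [FS.upd, Function.update_self] using hm
    · simpa only [FS.upd, Function.update_of_ne hu] using h.mu u

theorem FS.upd_self (F : FS α 𝒦) (v : α) : F.upd v (F.π v) (F.μ v) = F := by
  simp [FS.upd]

/-- `fU` only depends on the data on `U`. -/
theorem FS.fU_congr {F F' : FS α 𝒦} (z η : ℝ) (U : Finset α)
    (hc : ∀ T ⊆ U, cT F'.y F'.π T = cT F.y F.π T) (hμ : ∀ u ∈ U, F'.μ u = F.μ u)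
    (hw : ∀ u ∈ U, F'.w u = F.w u) : F'.fU z η U = F.fU z η U := by
  refine Finset.sum_congr rfl fun T hT => ?_
  rw [hc T (Finset.mem_powerset.1 hT)]
  congr 1
  refine Finset.prod_congr rfl fun u hu => ?_
  have := (Finset.mem_sdiff.1 hu).1
  rw [hμ u this, hw u this]

theorem FS.fU_upd_erase (F : FS α 𝒦) (z η : ℝ) (U : Finset α) (v : α) (p : 𝒦 → ℝ) (m : ℝ) :
    (F.upd v p m).fU z η (U.erase v) = F.fU z η (U.erase v) := by
  refine FS.fU_congr z η _ (fun T hT => ?_) (fun u hu => ?_) fun _ _ => rfl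
  · refine cT_congr T (fun u hu k => ?_) fun _ _ _ _ _ _ _ => rfl
    simp only [FS.upd, Function.update_of_ne (Finset.ne_of_mem_erase (hT hu))]
  · simp only [FS.upd, Function.update_of_ne (Finset.ne_of_mem_erase hu)]

theorem FS.fU_eval (F : FS α 𝒦) (z η : ℝ) (U : Finset α) (hw : ∀ u, F.w u ≠ 0) {s : ℂ}
    (hs : s ≠ 0) : (F.fU z η U).eval s = s ^ U.card * pH F.y F.π U (F.Zs z η s) 1 := by
  have hq : ∀ u, (quad z η (F.μ u) (F.w u)).eval s = s * F.Zs z η s u := by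
    intro u
    have : (F.w u : ℂ) ≠ 0 := by exact_mod_cast hw u
    simp only [quad, FS.Zs, eval_sub, eval_add, eval_mul, eval_C, eval_pow, eval_X]
    push_cast
    field_simp
    ring
  rw [FS.fU, eval_finsetSum, pH, Finset.mul_sum]
  refine Finset.sum_congr rfl fun T hT => ?_
  simp only [eval_mul, eval_C, eval_pow, eval_X, eval_prod, hq]
  rw [Finset.prod_mul_distrib, Finset.prod_const,
    ← Finset.card_sdiff_add_card_eq_card (Finset.mem_powerset.1 hT), pow_add]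
  ring

theorem rs_nonneg (f : ℂ[X]) : 0 ≤ rs f := by
  refine Multiset.sum_nonneg fun x hx => ?_
  obtain ⟨s, _, rfl⟩ := Multiset.mem_map.1 hx
  exact le_max_right _ _

theorem rs_mul {f g : ℂ[X]} (hf : f ≠ 0) (hg : g ≠ 0) : rs (f * g) = rs f + rs g := by
  simp only [rs, roots_mul (mul_ne_zero hf hg), Multiset.map_add, Multiset.sum_add]

theorem rs_C (c : ℂ) : rs (C c) = 0 := by
  simp [rs]

theorem rs_X_sub_C (c : ℂ) : rs (X - C c) = max c.re 0 := by
  simp [rs]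

theorem le_rs {f : ℂ[X]} (hf : f ≠ 0) {s : ℂ} (hs : f.IsRoot s) : s.re ≤ rs f := by
  refine (le_max_left s.re 0).trans (Multiset.single_le_sum (fun x hx => ?_) _ ?_)
  · obtain ⟨s, _, rfl⟩ := Multiset.mem_map.1 hx
    exact le_max_right _ _
  · exact Multiset.mem_map_of_mem _ ((mem_roots hf).2 hs)

theorem rs_le {f : ℂ[X]} {b : ℝ} (hb : 0 ≤ b) (h : ∀ s, f.IsRoot s → s.re ≤ b) :
    rs f ≤ f.natDegree * b := by
  have h1 : rs f ≤ (f.roots.map fun s => max s.re 0).card • b := by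
    refine Multiset.sum_le_card_nsmul _ _ fun x hx => ?_
    obtain ⟨s, hs, rfl⟩ := Multiset.mem_map.1 hx
    exact max_le (h s (isRoot_of_mem_roots hs)) hb
  rw [Multiset.card_map, nsmul_eq_mul] at h1
  exact h1.trans (mul_le_mul_of_nonneg_right (by exact_mod_cast card_roots' f) hb)

end Crest.Agent.R109
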