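import Crest.Agent.R109.FDefs

/-! Row 109, finite part: algebraic properties of `cT`. -/

set_option autoImplicit false

open scoped ComplexConjugate
open Polynomial

namespace Crest.Agent.R109

variable {α : Type*} [DecidableEq α] {𝒦 : Type*} [Fintype 𝒦] [DecidableEq 𝒦]

/-- `cT` for an arbitrary finite index type. -/
noncomputable def fbasicaG {ι : Type*} [Fintype ι] [DecidableEq ι] (y : 𝒦 → ι → ι → ℂ)
    (π : ι → 𝒦 → ℝ) : ℂ :=
  ∑ cl : ι → 𝒦, (∏ v, ((π v (cl v) : ℝ) : ℂ)) *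
    (-(Matrix.of fun u v => if cl u = cl v then y (cl u) u v else 0 : Matrix ι ι ℂ)).det

theorem fbasica_cT_eq (y : 𝒦 → α → α → ℂ) (π : α → 𝒦 → ℝ) (T : Finset α) :
    cT y π T = fbasicaG (ι := T) (fun k a b => y k a b) (fun a => π a) := rfl

theorem fbasicaG_equiv {ι ι' : Type*} [Fintype ι] [DecidableEq ι] [Fintype ι'] [DecidableEq ι']
    (e : ι' ≃ ι) (y : 𝒦 → ι → ι → ℂ) (π : ι → 𝒦 → ℝ) :
    fbasicaG y π = fbasicaG (fun k a b => y k (e a) (e b)) (fun a => π (e a)) := by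
  unfold fbasicaG
  refine Fintype.sum_equiv (e.symm.arrowCongr (Equiv.refl 𝒦)) _ _ fun cl => ?_
  rw [← Matrix.det_submatrix_equiv_self e, ← Equiv.prod_comp e]
  rfl

theorem fbasicaG_congr {ι : Type*} [Fintype ι] [DecidableEq ι] {y y' : 𝒦 → ι → ι → ℂ}
    (π : ι → 𝒦 → ℝ) (hy : ∀ k a b, π a k ≠ 0 → π b k ≠ 0 → y' k a b = y k a b) :
    fbasicaG y π = fbasicaG y' π := by
  unfold fbasicaG
  refine Finset.sum_congr rfl fun cl _ => ?_
  by_cases h : ∀ v, π v (cl v) ≠ 0
  · congr 3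
    funext u v
    simp only [Matrix.of_apply]
    split_ifs with huv
    · exact (hy _ _ _ (h u) (huv ▸ h v)).symm
    · rfl
  · obtain ⟨v, hv⟩ := not_forall.1 h
    rw [Finset.prod_eq_zero (Finset.mem_univ v) (by simpa using hv), zero_mul, zero_mul]

theorem fbasicaG_sum {ι ι' : Type*} [Fintype ι] [DecidableEq ι] [Fintype ι'] [DecidableEq ι']
    (y : 𝒦 → ι ⊕ ι' → ι ⊕ ι' → ℂ) (π : ι ⊕ ι' → 𝒦 → ℝ)
    (h0 : ∀ k a b, y k (Sum.inr a) (Sum.inl b) = 0) :
    fbasicaG y π = fbasicaG (fun k a b => y k (Sum.inl a) (Sum.inl b)) (fun a => π (Sum.inl a)) *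
      fbasicaG (fun k a b => y k (Sum.inr a) (Sum.inr b)) (fun a => π (Sum.inr a)) := by
  unfold fbasicaG
  rw [Finset.sum_mul_sum, ← Fintype.sum_prod_type']
  refine Fintype.sum_equiv (Equiv.sumArrowEquivProdArrow ι ι' 𝒦) _ _ fun cl => ?_
  have e : (-(Matrix.of fun u v => if cl u = cl v then y (cl u) u v else 0 :
      Matrix (ι ⊕ ι') (ι ⊕ ι') ℂ)) = Matrix.fromBlocks
      (-(Matrix.of fun u v => if cl (Sum.inl u) = cl (Sum.inl v) then
        y (cl (Sum.inl u)) (Sum.inl u) (Sum.inl v) else 0))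
      (-(Matrix.of fun u v => if cl (Sum.inl u) = cl (Sum.inr v) then
        y (cl (Sum.inl u)) (Sum.inl u) (Sum.inr v) else 0)) 0
      (-(Matrix.of fun u v => if cl (Sum.inr u) = cl (Sum.inr v) then
        y (cl (Sum.inr u)) (Sum.inr u) (Sum.inr v) else 0)) := by
    ext (u | u) (v | v) <;> simp [h0]
  rw [e, Matrix.det_fromBlocks_zero₂₁, Fintype.prod_sum_type, mul_mul_mul_comm]
  rfl

theorem cT_empty (y : 𝒦 → α → α → ℂ) (π : α → 𝒦 → ℝ) : cT y π ∅ = 1 := by
  simp [cT]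

/-- `1 × 1` minors vanish. -/
theorem cT_singleton {y : 𝒦 → α → α → ℂ} (hy : ∀ k a, y k a a = 0) (π : α → 𝒦 → ℝ) (v : α) :
    cT y π {v} = 0 := by
  unfold cT
  refine Finset.sum_eq_zero fun cl _ => ?_
  rw [Matrix.det_unique]
  simp [ymat, hy]

/-- Transport along a map that is injective on `T`; the matrices only have to agree on pairs of
vertices that can both be in the class.  (Use the equivalence `T ≃ T.image e`, reindex the sum
over class assignments and `Matrix.det_submatrix_equiv_self`; terms with a vanishing product of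
probabilities are zero.)  With `e = id` this is a congruence lemma. -/
theorem cT_map {β : Type*} [DecidableEq β] (e : β → α) (T : Finset β) (he : Set.InjOn e T)
    (y : 𝒦 → α → α → ℂ) (π : α → 𝒦 → ℝ) (y' : 𝒦 → β → β → ℂ) (π' : β → 𝒦 → ℝ)
    (hπ : ∀ u ∈ T, ∀ k, π' u k = π (e u) k)
    (hy : ∀ k, ∀ a ∈ T, ∀ b ∈ T, π' a k ≠ 0 → π' b k ≠ 0 → y' k a b = y k (e a) (e b)) :
    cT y π (T.image e) = cT y' π' T := by
  let e' : T ≃ T.image e := Equiv.ofBijective
    (fun u => ⟨e u, Finset.mem_image_of_mem e u.2⟩)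
    ⟨fun a b h => Subtype.ext (he a.2 b.2 (congrArg Subtype.val h)), fun ⟨a, ha⟩ => by
      obtain ⟨b, hb, rfl⟩ := Finset.mem_image.1 ha
      exact ⟨⟨b, hb⟩, rfl⟩⟩
  rw [fbasica_cT_eq, fbasica_cT_eq, fbasicaG_equiv e']
  have h1 : (fun a : T => π (e' a)) = fun a : T => π' a :=
    funext fun a => funext fun k => (hπ a a.2 k).symm
  rw [h1]
  exact fbasicaG_congr _ fun k a b ha hb => hy k a a.2 b b.2 ha hb

theorem cT_congr (T : Finset α) {y y' : 𝒦 → α → α → ℂ} {π π' : α → 𝒦 → ℝ}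
    (hπ : ∀ u ∈ T, ∀ k, π' u k = π u k)
    (hy : ∀ k, ∀ a ∈ T, ∀ b ∈ T, π' a k ≠ 0 → π' b k ≠ 0 → y' k a b = y k a b) :
    cT y π T = cT y' π' T := by
  have := cT_map id T (fun _ _ _ _ h => h) y π y' π' hπ hy
  rwa [Finset.image_id] at this

/-- Gauge invariance (conjugation by a diagonal unitary). -/
theorem cT_gauge (T : Finset α) {y y' : 𝒦 → α → α → ℂ} (π : α → 𝒦 → ℝ) (χ : α → ℂ)
    (hχ : ∀ u ∈ T, ‖χ u‖ = 1)
    (hy : ∀ k, ∀ a ∈ T, ∀ b ∈ T, y' k a b = conj (χ a) * y k a b * χ b) :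
    cT y' π T = cT y π T := by
  unfold cT
  refine Finset.sum_congr rfl fun cl _ => ?_
  have e : -(ymat y' T cl) = Matrix.diagonal (fun a : T => conj (χ a)) * (-(ymat y T cl)) *
      Matrix.diagonal (fun a : T => χ a) := by
    ext u v
    rw [Matrix.mul_diagonal, Matrix.diagonal_mul]
    simp only [ymat, Matrix.neg_apply, Matrix.of_apply]
    split_ifs
    · rw [hy _ _ u.2 _ v.2]; ring
    · simp
  have h1 : (∏ a : T, conj (χ a)) * ∏ a : T, χ a = 1 := by
    rw [← Finset.prod_mul_distrib]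
    refine Finset.prod_eq_one fun a _ => ?_
    rw [Complex.conj_mul', hχ a a.2]
    simp
  rw [e, Matrix.det_mul, Matrix.det_mul, Matrix.det_diagonal, Matrix.det_diagonal,
    mul_right_comm (∏ a : T, conj (χ a)), h1, one_mul]

/-- Invariance under renaming of the classes. -/
theorem cT_perm (T : Finset α) (e : 𝒦 ≃ 𝒦) {y y' : 𝒦 → α → α → ℂ} {π π' : α → 𝒦 → ℝ}
    (hy : ∀ k a b, y' (e k) a b = y k a b) (hπ : ∀ u ∈ T, ∀ k, π' u (e k) = π u k) :
    cT y' π' T = cT y π T := by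
  unfold cT
  refine (Fintype.sum_equiv ((Equiv.refl T).arrowCongr e) _ _ fun cl => ?_).symm
  have e1 : ymat y' T ((Equiv.refl T).arrowCongr e cl) = ymat y T cl := by
    ext u v
    simp [ymat, hy]
  rw [e1]
  congr 1
  refine Finset.prod_congr rfl fun u _ => ?_
  simp [hπ u u.2]

/-- Homogeneity in the matrices. -/
theorem cT_smul (T : Finset α) (y : 𝒦 → α → α → ℂ) (π : α → 𝒦 → ℝ) (t : ℂ) :
    cT (fun k a b => t * y k a b) π T = t ^ T.card * cT y π T := by
  unfold cT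
  rw [Finset.mul_sum]
  refine Finset.sum_congr rfl fun cl _ => ?_
  have e : -(ymat (fun k a b => t * y k a b) T cl) = t • -(ymat y T cl) := by
    ext u v
    simp [ymat]
  rw [e, Matrix.det_smul, Fintype.card_coe]
  ring

/-- Homogeneity in the probabilities. -/
theorem cT_smul_prob (T : Finset α) (y : 𝒦 → α → α → ℂ) (π : α → 𝒦 → ℝ) (t : ℝ) :
    cT y (fun u k => t * π u k) T = (t : ℂ) ^ T.card * cT y π T := by
  unfold cT
  rw [Finset.mul_sum]
  refine Finset.sum_congr rfl fun cl _ => ?_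
  simp only [Complex.ofReal_mul, Finset.prod_mul_distrib, Finset.prod_const, Finset.card_univ,
    Fintype.card_coe]
  ring

/-- Linearity in the probability vector of a vertex of `T`. -/
theorem cT_linear (T : Finset α) (y : 𝒦 → α → α → ℂ) (π : α → 𝒦 → ℝ) {v : α} (hv : v ∈ T) :
    cT y π T = ∑ k, (π v k : ℂ) * cT y (Function.update π v (Pi.single k 1)) T := by
  unfold cT
  simp only [Finset.mul_sum]
  rw [Finset.sum_comm]
  refine Finset.sum_congr rfl fun cl _ => ?_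
  have e : ∀ k, ∏ u : T, ((Function.update π v (Pi.single k 1) u (cl u) : ℝ) : ℂ) =
      (if cl ⟨v, hv⟩ = k then 1 else 0) *
        ∏ u ∈ Finset.univ.erase (⟨v, hv⟩ : T), ((π u (cl u) : ℝ) : ℂ) := by
    intro k
    rw [← Finset.mul_prod_erase _ _ (Finset.mem_univ (⟨v, hv⟩ : T))]
    congr 1
    · simp only [Function.update_self, Pi.single_apply]
      split_ifs <;> simp
    · refine Finset.prod_congr rfl fun u hu => ?_
      rw [Function.update_of_ne fun h => (Finset.mem_erase.1 hu).1 (Subtype.ext h)]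
  simp only [e, ite_mul, one_mul, zero_mul, mul_ite, mul_zero, Finset.sum_ite_eq, Finset.mem_univ,
    if_true]
  rw [← Finset.mul_prod_erase _ _ (Finset.mem_univ (⟨v, hv⟩ : T)), mul_assoc]

/-- Multiplicativity over a block triangular decomposition (transport to `T₁ ⊕ T₂`,
`Matrix.det_fromBlocks_zero₂₁`, `Equiv.sumArrowEquivProdArrow`). -/
theorem cT_union {T₁ T₂ : Finset α} (hd : Disjoint T₁ T₂) (y : 𝒦 → α → α → ℂ) (π : α → 𝒦 → ℝ)
    (h0 : ∀ k, ∀ a ∈ T₂, ∀ b ∈ T₁, y k a b = 0) :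
    cT y π (T₁ ∪ T₂) = cT y π T₁ * cT y π T₂ := by
  rw [fbasica_cT_eq, fbasicaG_equiv (Equiv.Finset.union T₁ T₂ hd), fbasicaG_sum]
  · rfl
  · intro k a b
    exact h0 k _ a.2 _ b.2

/-- Determinants of Hermitian matrices are real. -/
theorem cT_conj {y : 𝒦 → α → α → ℂ} (hy : Herm y) (π : α → 𝒦 → ℝ) (T : Finset α) :
    conj (cT y π T) = cT y π T := by
  unfold cT
  rw [map_sum]
  refine Finset.sum_congr rfl fun cl _ => ?_
  have e : (-(ymat y T cl)).conjTranspose = -(ymat y T cl) := by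
    ext u v
    simp only [ymat, Matrix.conjTranspose_apply, Matrix.neg_apply, Matrix.of_apply, star_neg]
    by_cases h : cl u = cl v
    · rw [if_pos h, if_pos h.symm, hy.symm (cl u) v u, h]
      rfl
    · rw [if_neg h, if_neg (Ne.symm h), star_zero]
  have e2 := Matrix.det_conjTranspose (-(ymat y T cl))
  rw [e] at e2
  rw [map_mul, map_prod]
  simp only [Complex.conj_ofReal]
  congr 1
  exact e2.symm

end Crest.Agent.R109
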