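import Mathlib

/-!
Row 109, finite part: definitions.

A finite system has vertices `u ∈ U : Finset α`, classes `k : 𝒦`, one matrix `y k` per class and
a sub-probability vector `π u` on the classes for every vertex.  `pH y π U Z κ` is the expected
determinant `E det (diag Z - κ y_cl)` over independent random class choices `cl` (the missing mass
of `π u` makes `u` an isolated vertex), expanded along the principal minors.
-/

set_option autoImplicit false

open scoped ComplexConjugate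
open Polynomial

namespace Crest.Agent.R109

section defs

variable {α : Type*} [DecidableEq α] {𝒦 : Type*} [Fintype 𝒦] [DecidableEq 𝒦]

/-- The block matrix of a class assignment. -/
def ymat (y : 𝒦 → α → α → ℂ) (T : Finset α) (cl : T → 𝒦) : Matrix T T ℂ :=
  Matrix.of fun u v => if cl u = cl v then y (cl u) u v else 0

/-- The expected principal minor. -/
noncomputable def cT (y : 𝒦 → α → α → ℂ) (π : α → 𝒦 → ℝ) (T : Finset α) : ℂ :=
  ∑ cl : T → 𝒦, (∏ v : T, ((π v (cl v) : ℝ) : ℂ)) * (-(ymat y T cl)).det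

/-- The homogenised expected characteristic polynomial. -/
noncomputable def pH (y : 𝒦 → α → α → ℂ) (π : α → 𝒦 → ℝ) (U : Finset α) (Z : α → ℂ) (κ : ℂ) :
    ℂ :=
  ∑ T ∈ U.powerset, cT y π T * κ ^ T.card * ∏ u ∈ U \ T, Z u

/-- The part of `pH` made of the minors through `v`. -/
noncomputable def nH (y : 𝒦 → α → α → ℂ) (π : α → 𝒦 → ℝ) (U : Finset α) (v : α) (Z : α → ℂ)
    (κ : ℂ) : ℂ :=
  ∑ T ∈ U.powerset.filter (fun T => v ∈ T), cT y π T * κ ^ T.card * ∏ u ∈ U \ T, Z u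

/-- The normalised polynomial `pH / ∏ Z`. -/
noncomputable def ph (y : 𝒦 → α → α → ℂ) (π : α → 𝒦 → ℝ) (U : Finset α) (Z : α → ℂ) (κ : ℂ) :
    ℂ :=
  ∑ T ∈ U.powerset, cT y π T * κ ^ T.card * ∏ u ∈ T, (Z u)⁻¹

/-- Hermitian matrices with zero diagonal. -/
structure Herm (y : 𝒦 → α → α → ℂ) : Prop where
  symm : ∀ k a b, y k b a = conj (y k a b)
  diag : ∀ k a, y k a a = 0

/-- The compression of `y` to `U` has operator norm at most `c`. -/
def Bnd (c : ℝ) (y : α → α → ℂ) (U : Finset α) : Prop :=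
  ∀ ξ : α → ℂ, ∑ a ∈ U, ‖∑ b ∈ U, y a b * ξ b‖ ^ 2 ≤ c ^ 2 * ∑ b ∈ U, ‖ξ b‖ ^ 2

/-- The real part of the quadratic form of `y` on `U`. -/
noncomputable def qf (y : α → α → ℂ) (U : Finset α) (ξ : α → ℂ) : ℝ :=
  (∑ a ∈ U, ∑ b ∈ U, conj (ξ a) * y a b * ξ b).re

/-- Sub-probability vectors. -/
def SubP (π : α → 𝒦 → ℝ) : Prop := ∀ v, (∀ k, 0 ≤ π v k) ∧ ∑ k, π v k ≤ 1

/-- `U'` contains every vertex of `U` that can be reached from `v` by a path of length at most
`N` inside `U`. -/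
def Cover (adj : α → α → Prop) (U : Finset α) (v : α) (N : ℕ) (U' : Finset α) : Prop :=
  ∃ d : ℕ → Set α, v ∈ d 0 ∧ (∀ n, d n ⊆ d (n + 1)) ∧
    (∀ n u u', u ∈ d n → u ∈ U → u' ∈ U → adj u' u → u' ∈ d (n + 1)) ∧
    ∀ u ∈ U, u ∈ d N → u ∈ U'

/-- The sum of the positive parts of the (real parts of the) roots. -/
noncomputable def rs (f : ℂ[X]) : ℝ := (f.roots.map fun s => max s.re 0).sum

/-- A weighted system. -/
structure FS (α 𝒦 : Type*) where
  y : 𝒦 → α → α → ℂ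
  π : α → 𝒦 → ℝ
  μ : α → ℝ
  w : α → ℝ

/-- The standing hypotheses on a weighted system. -/
structure FS.Ok (F : FS α 𝒦) (U : Finset α) : Prop where
  herm : Herm F.y
  bnd : ∀ k, Bnd 1 (F.y k) U
  sub : SubP F.π
  mu : ∀ u, 1 ≤ F.μ u
  wpos : ∀ u, 0 < F.w u

/-- Change the state of the vertex `v`. -/
def FS.upd (F : FS α 𝒦) (v : α) (p : 𝒦 → ℝ) (m : ℝ) : FS α 𝒦 :=
  { F with π := Function.update F.π v p, μ := Function.update F.μ v m }

/-- The weights of the neighbours of `v` in `U` are comparable with the weight of `v`. -/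
def FS.Kcut (F : FS α 𝒦) (K : ℝ) (U : Finset α) (v : α) : Prop :=
  ∀ k, ∀ u ∈ U, F.y k u v ≠ 0 → F.w u ≤ K * F.w v ∧ F.w v ≤ K * F.w u

/-- The Pick function substituted for the variable of `u`. -/
noncomputable def FS.Zs (F : FS α 𝒦) (z η : ℝ) (s : ℂ) (u : α) : ℂ :=
  (F.μ u : ℂ) * (z + s / (F.w u : ℂ)) - (η : ℂ) ^ 2 * (F.w u : ℂ) / s

/-- `s * Zs s` as a polynomial in `s`. -/
noncomputable def quad (z η μ w : ℝ) : ℂ[X] :=
  C ((μ / w : ℝ) : ℂ) * X ^ 2 + C ((μ * z : ℝ) : ℂ) * X - C ((η ^ 2 * w : ℝ) : ℂ)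

/-- `s ^ |U| * pH (Zs s) 1` as a polynomial in `s`. -/
noncomputable def FS.fU (F : FS α 𝒦) (z η : ℝ) (U : Finset α) : ℂ[X] :=
  ∑ T ∈ U.powerset, C (cT F.y F.π T) * X ^ T.card * ∏ u ∈ U \ T, quad z η (F.μ u) (F.w u)

/-- The potential. -/
noncomputable def FS.Phi (F : FS α 𝒦) (z η : ℝ) (U : Finset α) : ℝ := rs (F.fU z η U)

/-- The marginal potential of `v` in `U`. -/
noncomputable def FS.L (F : FS α 𝒦) (z η : ℝ) (U : Finset α) (v : α) : ℝ :=
  F.Phi z η U - F.Phi z η (U.erase v)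

/-- The positive root of `quad z η μ 1`. -/
noncomputable def rho (z η μ : ℝ) : ℝ := (-z + √(z ^ 2 + 4 * η ^ 2 / μ)) / 2

/-- A positive constant (it equals `π`, which is never needed). -/
noncomputable def c0 : ℝ := ∫ σ in Set.Ioi (0 : ℝ), Real.log (1 + σ⁻¹ ^ 2)

/-- The Taylor polynomial of order `N` at `0` of `log ∘ g ∘ φ`, evaluated at `1`. -/
noncomputable def jet (φ : ℂ → ℂ) (N : ℕ) (g : ℂ → ℂ) : ℂ :=
  ∑ n ∈ Finset.range (N + 1),
    iteratedDeriv n (fun ζ => Complex.log (g (φ ζ))) 0 / (n.factorial : ℂ)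

/-- Barvinok's map from a disc of radius `> 1` into the strip `|im| ≤ η`, fixing `0` and `1`. -/
noncomputable def phi (η : ℝ) (ζ : ℂ) : ℂ :=
  -((η / 2 : ℝ) : ℂ) * Complex.log (1 - ((1 - Real.exp (-2 / η) : ℝ) : ℂ) * ζ)

/-- The integrand of the truncated potential. -/
noncomputable def FS.jt (F : FS α 𝒦) (z η : ℝ) (N : ℕ) (U : Finset α) (σ : ℝ) : ℝ :=
  (jet (phi η) N (ph F.y F.π U (F.Zs z η (σ * Complex.I)))).re

/-- The truncated (exactly local) potential. -/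
noncomputable def FS.Psi (F : FS α 𝒦) (z η : ℝ) (N : ℕ) (U : Finset α) : ℝ :=
  ∑ u ∈ U, F.w u * rho z η (F.μ u) + c0⁻¹ * ∫ σ in Set.Ioi (0 : ℝ), F.jt z η N U σ

end defs

section arrow

variable {ι : Type*} [Fintype ι] [DecidableEq ι]

/-- The characteristic polynomial of the arrowhead matrix with corner `-a`, diagonal `q` and
squared off-diagonal entries `b2`. -/
noncomputable def ap (a : ℝ) (q b2 : ι → ℝ) : ℂ[X] :=
  (X + C (a : ℂ)) * ∏ i, (X - C (q i : ℂ)) -
    ∑ i, C (b2 i : ℂ) * ∏ j ∈ Finset.univ.erase i, (X - C (q j : ℂ))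

/-- The increase of the trace of the positive part caused by the border of the arrowhead. -/
noncomputable def Larr (a : ℝ) (q b2 : ι → ℝ) : ℝ := rs (ap a q b2) - ∑ i, max (q i) 0

end arrow

end Crest.Agent.R109
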