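import Crest.Agent.R109.FockBAux

/-! Row 109, normal corner: a Fock space estimate (Fourier analysis on a finite product). -/

set_option autoImplicit false

open scoped ComplexOrder InnerProductSpace ComplexConjugate ENNReal
open Filter Topology MeasureTheory

namespace Crest.Agent.R109

variable {M : Type*} [CStarAlgebra M] [PartialOrder M] [StarOrderedRing M]

section aux

variable {J Λ A : Type*} [Fintype J] [DecidableEq J] [Fintype Λ] [DecidableEq Λ] [Nonempty Λ]
  [Fintype A]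

omit [PartialOrder M] [StarOrderedRing M] in
theorem fockb_mul_sum {h : A → M} (hh : IsPart Set.univ h) [DecidableEq A] (s : A) (U : Finset A) :
    h s * ∑ s' ∈ U, h s' = if s ∈ U then h s else 0 := by
  rw [Finset.mul_sum]
  split_ifs with hs
  · rw [Finset.sum_eq_single_of_mem s hs fun s' _ hne => hh.orth _ _ hne.symm]
    exact (hh.proj s).isIdempotentElem
  · exact Finset.sum_eq_zero fun s' hs' => hh.orth _ _ fun e => hs (e ▸ hs')

omit [PartialOrder M] [StarOrderedRing M] in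
theorem fockb_proj_sum {h : A → M} (hh : IsPart Set.univ h) (U : Finset A) :
    IsStarProjection (∑ s ∈ U, h s) := by
  classical
  refine ⟨?_, ?_⟩
  · unfold IsIdempotentElem
    rw [Finset.sum_mul]
    exact Finset.sum_congr rfl fun s hs => by rw [fockb_mul_sum hh, if_pos hs]
  · unfold IsSelfAdjoint
    rw [star_sum]
    exact Finset.sum_congr rfl fun s _ => (hh.proj s).isSelfAdjoint

/-- The projection attached to a set of coordinates. -/
noncomputable def fockbe (h : A → M) (R : A → Finset J) (T : Finset J) : M :=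
  ∑ s ∈ Finset.univ.filter (fun s => ¬ Disjoint (R s) T), h s

omit [PartialOrder M] [StarOrderedRing M] in
/-- `P D P = a P` -/
theorem fockb_PDP {D : (J → Λ) → M} {h : A → M}
    (hh : IsPart Set.univ h) (hc : ∀ s ω, h s * D ω = D ω * h s) {R : A → Finset J}
    (hdep : ∀ s ω ω', (∀ j ∈ R s, ω j = ω' j) → h s * D ω = h s * D ω') {a : ℝ}
    (ha : ∑ ω, D ω = ((Fintype.card (J → Λ) : ℝ) * a) • (1 : M)) (η : (J → Λ) → M) :
    ∑ ω, star (fockbM (fun T => 1 - fockbe h R T) η ω) * D ω *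
        fockbM (fun T => 1 - fockbe h R T) η ω =
      a • ∑ ω, star (fockbM (fun T => 1 - fockbe h R T) η ω) *
        fockbM (fun T => 1 - fockbe h R T) η ω := by
  classical
  set f := fockbM (fun T => 1 - fockbe h R T) η with hf
  have hi : ∀ s, h s * h s = h s := fun s => (hh.proj s).isIdempotentElem
  have hs : ∀ s, star (h s) = h s := fun s => (hh.proj s).isSelfAdjoint
  have key : ∀ s, ∑ ω, star (f ω) * (h s * D ω) * f ω = a • ∑ ω, star (f ω) * h s * f ω := by
    intro s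
    have hF : ∀ ω ω' : J → Λ, (∀ j, j ∉ R s → ω j = ω' j) → h s * f ω = h s * f ω' := by
      intro ω ω' hω
      simp only [hf, fockbM, Finset.mul_sum, ← mul_assoc]
      refine Finset.sum_congr rfl fun T _ => ?_
      by_cases hT : Disjoint (R s) T
      · rw [fockbE_dep T η fun j hj => hω j (Finset.disjoint_right.1 hT hj)]
      · rw [mul_sub, fockbe, fockb_mul_sum hh, if_pos (by simpa using hT)]
        simp
    have h1 := fockb_indep (R s) hF (hdep s)
    have e1 : ∀ ω, star (h s * f ω) * (h s * D ω) * (h s * f ω) =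
        star (f ω) * (h s * D ω) * f ω := by
      intro ω
      have : h s * (h s * D ω) * h s = h s * D ω := by
        rw [← mul_assoc, hi, mul_assoc, ← hc, ← mul_assoc, hi]
      rw [star_mul, hs]
      calc star (f ω) * h s * (h s * D ω) * (h s * f ω)
          = star (f ω) * (h s * (h s * D ω) * h s) * f ω := by simp only [mul_assoc]
        _ = _ := by rw [this]
    have e2 : ∀ ω, star (h s * f ω) * (∑ u, h s * D u) * (h s * f ω) =
        ((Fintype.card (J → Λ) : ℝ) * a) • (star (f ω) * h s * f ω) := by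
      intro ω
      rw [← Finset.mul_sum, ha, star_mul, hs]
      simp only [mul_smul_comm, smul_mul_assoc, mul_one]
      congr 1
      calc star (f ω) * h s * h s * (h s * f ω) = star (f ω) * (h s * h s * h s) * f ω := by
            simp only [mul_assoc]
        _ = _ := by rw [hi, hi]
    simp only [e1, e2] at h1
    rw [← Finset.smul_sum, mul_smul] at h1
    exact smul_right_injective M (Nat.cast_ne_zero.2 Fintype.card_ne_zero) h1
  have h2 := Finset.sum_congr (rfl : (Finset.univ : Finset A) = _) fun s _ => key s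
  rw [← Finset.smul_sum, Finset.sum_comm, Finset.sum_comm (s := (Finset.univ : Finset A))] at h2
  simpa only [← Finset.sum_mul, ← Finset.mul_sum, hh.sum, one_mul, mul_one] using h2

theorem fockb_step (θ : M →ₚ[ℂ] ℂ) {x : M} (hx : IsSelfAdjoint x) (hx1 : ‖x‖ ≤ 1)
    {D : (J → Λ) → M} (hD : ∀ ω, IsStarProjection (D ω)) {h : A → M}
    (hh : IsPart Set.univ h) (hc : ∀ s ω, h s * D ω = D ω * h s) {R : A → Finset J}
    (hdep : ∀ s ω ω', (∀ j ∈ R s, ω j = ω' j) → h s * D ω = h s * D ω') {a : ℝ} (ha0 : 0 ≤ a)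
    (ha : ∑ ω, D ω = ((Fintype.card (J → Λ) : ℝ) * a) • (1 : M)) {Y : M} {n : ℕ}
    (hT : ∀ T : Finset J, T.card ≤ n → fockbe h R T * x * fockbe h R T * x * fockbe h R T ≤ Y)
    {ζ : (J → Λ) → M} (hζ : fockbDeg n ζ) (hDζ : ∀ ω, D ω * ζ ω = ζ ω) :
    fockbN θ (fun ω => D ω * x * ζ ω) ≤
      2 * √a * fockbN θ ζ + √((θ (∑ ω, star (ζ ω) * Y * ζ ω)).re) := by
  set e := fockbe h R with he
  have hep : ∀ T, IsStarProjection (e T) := fun T => fockb_proj_sum hh _
  have hD1 : ∀ ω, ‖D ω‖ ≤ 1 := fun ω => (hD ω).norm_le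
  have hP1 : ∀ T, ‖1 - e T‖ ≤ 1 := fun T => (hep T).one_sub.norm_le
  have hsa : 0 ≤ √a := Real.sqrt_nonneg a
  -- `‖D P‖ ≤ √a`
  have hDP : ∀ η : (J → Λ) → M, fockbN θ (fun ω => D ω * fockbM (fun T => 1 - e T) η ω) ≤
      √a * fockbN θ (fockbM (fun T => 1 - e T) η) := by
    intro η
    refine (pow_le_pow_iff_left₀ (fockbN_nonneg θ _) (mul_nonneg hsa (fockbN_nonneg θ _))
      two_ne_zero).1 (le_of_eq ?_)
    rw [mul_pow, Real.sq_sqrt ha0, fockbN_sq, fockbN_sq]
    have h1 : ∀ ω, star (D ω * fockbM (fun T => 1 - e T) η ω) *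
        (D ω * fockbM (fun T => 1 - e T) η ω) =
        star (fockbM (fun T => 1 - e T) η ω) * D ω * fockbM (fun T => 1 - e T) η ω := by
      intro ω
      rw [star_mul, (hD ω).isSelfAdjoint.star_eq, mul_assoc, ← mul_assoc (D ω),
        (hD ω).isIdempotentElem.eq, mul_assoc]
    simp only [h1]
    rw [fockb_PDP hh hc hdep ha η, ← Complex.coe_smul, map_smul, smul_eq_mul,
      Complex.re_ofReal_mul]
  -- `‖P D‖ ≤ √a`
  have hPD : fockbN θ (fockbM (fun T => 1 - e T) ζ) ≤ √a * fockbN θ ζ := by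
    set f := fockbM (fun T => 1 - e T) ζ with hf
    have h1 : ∑ ω, star (f ω) * f ω = ∑ ω, star (D ω * f ω) * ζ ω := by
      have h2 : ∀ ω, star (D ω * f ω) * ζ ω = star (f ω) * fockbM (fun _ => 1) ζ ω := by
        intro ω
        rw [star_mul, (hD ω).isSelfAdjoint.star_eq, mul_assoc, hDζ, fockbM_const, one_mul]
      simp only [h2]
      simp only [hf, fockbM_form]
      refine Finset.sum_congr rfl fun T _ => ?_
      rw [(hep T).one_sub.isSelfAdjoint.star_eq, (hep T).one_sub.isIdempotentElem.eq, mul_one]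
    have h3 : fockbN θ f ^ 2 ≤ √a * fockbN θ f * fockbN θ ζ := by
      rw [fockbN_sq, h1]
      exact (fockbN_cs θ _ _).trans (mul_le_mul_of_nonneg_right (hDP ζ) (fockbN_nonneg θ _))
    rcases (fockbN_nonneg θ f).eq_or_lt with h0 | h0
    · rw [← h0]; exact mul_nonneg hsa (fockbN_nonneg θ _)
    · nlinarith
  have hxM : (fun ω => x * ζ ω) = fockbM (fun _ => x) ζ := by
    funext ω; rw [fockbM_const]
  have hdec : (fun ω => D ω * x * ζ ω) = fun ω =>
      (D ω * fockbM (fun T => 1 - e T) (fun ω => x * ζ ω) ω +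
        D ω * fockbM (fun T => e T * x) (fockbM (fun T => 1 - e T) ζ) ω) +
        D ω * fockbM (fun T => e T * x * e T) ζ ω := by
    funext ω
    rw [hxM, fockbM_M, fockbM_M, ← mul_add, ← mul_add, mul_assoc, ← fockbM_const]
    congr 1
    simp only [fockbM, ← Finset.sum_add_distrib, ← add_mul]
    refine Finset.sum_congr rfl fun T _ => ?_
    congr 1
    noncomm_ring
  have t1 : fockbN θ (fun ω => D ω * fockbM (fun T => 1 - e T) (fun ω => x * ζ ω) ω) ≤
      √a * fockbN θ ζ :=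
    (hDP _).trans (mul_le_mul_of_nonneg_left ((fockbN_M_le θ hP1 _).trans
      (fockbN_mul_le θ (y := fun _ => x) (fun _ => hx1) ζ)) hsa)
  have t2 : fockbN θ (fun ω => D ω * fockbM (fun T => e T * x) (fockbM (fun T => 1 - e T) ζ) ω) ≤
      √a * fockbN θ ζ := by
    refine (fockbN_mul_le θ hD1 _).trans ((fockbN_M_le θ (fun T => ?_) _).trans hPD)
    exact (norm_mul_le _ _).trans (mul_le_one₀ (hep T).norm_le (norm_nonneg _) hx1)
  have t3 : fockbN θ (fun ω => D ω * fockbM (fun T => e T * x * e T) ζ ω) ≤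
      √((θ (∑ ω, star (ζ ω) * Y * ζ ω)).re) := by
    refine (fockbN_mul_le θ hD1 _).trans (Real.le_sqrt_of_sq_le ?_)
    rw [fockbN_sq]
    refine pos_re_mono θ (fockbM_le fun T => ?_)
    by_cases hn : n < T.card
    · exact Or.inl (hζ T hn)
    · refine Or.inr (le_trans (le_of_eq ?_) (hT T (not_lt.1 hn)))
      simp only [star_mul, (hep T).isSelfAdjoint.star_eq, hx.star_eq, mul_assoc]
      rw [← mul_assoc (e T) (e T), (hep T).isIdempotentElem.eq]
  rw [hdec]
  refine (fockbN_add_le θ _ _).trans (add_le_add ((fockbN_add_le θ _ _).trans ?_) t3)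
  linarith

end aux

/-- Abstract form.  `Ω = J → Λ`; `D ω` are projections; `h s` (`s : A`, the addresses) is a
partition of unity by projections commuting with all `D ω`, and `h s * D ω` only depends on the
coordinates in `R s`, `|R s| ≤ d`; the mean of `D` is `a`.  `eT T = ∑_{s : R s ∩ T ≠ ∅} h s`.

Work in the seminormed space of functions `ζ : Ω → M`, `‖ζ‖² = ∑_ω n2 (ζ ω)²` (e.g.
`PiLp 2 (fun _ => θ.PreGNS)`).  WLOG `Λ = ZMod m`, `m = card Λ` (or choose any orthonormal basis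
of `ℂ^Λ` containing the constants, or use the Efron-Stein projections); `ζ̂ α` are the Fourier
coefficients, `supp α ⊆ J`; Parseval: `∑_ω (ζ ω)* Z (ζ' ω) = |Ω| ∑_α (ζ̂ α)* Z (ζ̂' α)`.  `h s * D̂ β = 0`
unless `supp β ⊆ R s`, so `D̂ β = 0` if `|supp β| > d`, and `ζ_j = (D x D)^j D` has `ζ̂_j α = 0` if
`|supp α| > (j+1) d` (convolution).  Let `Q` multiply the coefficient `α` by `eT (supp α)` and
`P = 1 - Q` (orthogonal projections; equivalently `P ζ = ∑_s h s * (average of ζ over the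
coordinates in R s)`).  `P D P = a P`, so `‖D P‖, ‖P D‖ ≤ √a`.  From `x = P x + Q x P + Q x Q` and
`D ζ_j = ζ_j`: `‖ζ_{j+1}‖ ≤ 2 √a ‖ζ_j‖ + ‖Q x Q ζ_j‖`, and
`‖Q x Q ζ_j‖² = |Ω| ∑_α n2 (eT x eT ζ̂_j α)² ≤ τ ‖ζ_j‖² + ∑_ω θ (ζ_j* Z ζ_j) ≤ 2 τ |Ω|`. -/
theorem fock_abstract (θ : M →ₚ[ℂ] ℂ) (h1 : θ 1 = 1) {x : M} (hx : IsSelfAdjoint x)
    (hx1 : ‖x‖ ≤ 1) {J Λ A : Type*} [Fintype J] [DecidableEq J] [Fintype Λ] [Nonempty Λ]
    [Fintype A] (D : (J → Λ) → M) (hD : ∀ ω, IsStarProjection (D ω)) (h : A → M)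
    (hh : IsPart Set.univ h) (hc : ∀ s ω, h s * D ω = D ω * h s) (R : A → Finset J) {d : ℕ}
    (hR : ∀ s, (R s).card ≤ d)
    (hdep : ∀ s ω ω', (∀ j ∈ R s, ω j = ω' j) → h s * D ω = h s * D ω') {a : ℝ} (ha0 : 0 ≤ a)
    (ha : ∑ ω, D ω = ((Fintype.card (J → Λ) : ℝ) * a) • (1 : M)) (k : ℕ) {τ : ℝ} (hτ : 0 ≤ τ)
    {Z : M} (hZ : 0 ≤ Z)
    (hT : ∀ T : Finset J, T.card ≤ (k + 1) * d →
      (∑ s ∈ Finset.univ.filter (fun s => ¬ Disjoint (R s) T), h s) * x *
        (∑ s ∈ Finset.univ.filter (fun s => ¬ Disjoint (R s) T), h s) * x *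
        (∑ s ∈ Finset.univ.filter (fun s => ¬ Disjoint (R s) T), h s) ≤ τ • (1 : M) + Z)
    (hZs : ∀ ω, ∀ j ≤ k, (θ (star ((D ω * x * D ω) ^ j * D ω) * Z *
      ((D ω * x * D ω) ^ j * D ω))).re ≤ τ) (j : ℕ) (hj : j ≤ k) :
    √(∑ ω, n2 θ ((D ω * x * D ω) ^ (j + 1)) ^ 2) ≤
      √(Fintype.card (J → Λ) : ℝ) *
        ((2 * √a) ^ (j + 1) + √(2 * τ) * ∑ i ∈ Finset.range (j + 1), (2 * √a) ^ i) := by
  classical
  set ζ : ℕ → (J → Λ) → M := fun i ω => (D ω * x * D ω) ^ i * D ω with hζ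
  have hi : ∀ ω, D ω * D ω = D ω := fun ω => (hD ω).isIdempotentElem
  have hDζ : ∀ i ω, D ω * ζ i ω = ζ i ω := by
    intro i ω
    cases i with
    | zero => simp [hζ, hi]
    | succ i => simp only [hζ, pow_succ', ← mul_assoc, hi]
  have hsucc : ∀ i, ζ (i + 1) = fun ω => D ω * x * ζ i ω := by
    intro i
    funext ω
    rw [← hDζ i ω]
    simp only [hζ, pow_succ', mul_assoc]
  have hdeg : ∀ i, fockbDeg ((i + 1) * d) (ζ i) := by
    intro i
    induction i with
    | zero => simpa [hζ] using fockbDeg_mul hh.sum hR hdep fockbDeg_one 1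
    | succ i ih =>
      rw [hsucc, add_mul (i + 1), one_mul]
      exact fockbDeg_mul hh.sum hR hdep ih x
  have hnorm : ∀ i ω, ‖ζ i ω‖ ≤ 1 := by
    intro i ω
    induction i with
    | zero => simpa [hζ] using (hD ω).norm_le
    | succ i ih =>
      rw [hsucc]
      exact (norm_mul_le _ _).trans (mul_le_one₀ ((norm_mul_le _ _).trans
        (mul_le_one₀ (hD ω).norm_le (norm_nonneg _) hx1)) (norm_nonneg _) ih)
  have hn2 : ∀ i ω, n2 θ (ζ i ω) ^ 2 ≤ 1 := fun i ω =>
    pow_le_one₀ (n2_nonneg θ _) ((n2_le_norm θ h1 _).trans (hnorm i ω))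
  have hrec : ∀ i ≤ k, fockbN θ (ζ (i + 1)) ≤
      2 * √a * fockbN θ (ζ i) + √(Fintype.card (J → Λ) : ℝ) * √(2 * τ) := by
    intro i hik
    rw [hsucc]
    refine (fockb_step θ hx hx1 hD hh hc hdep ha0 ha (Y := τ • (1 : M) + Z) (n := (i + 1) * d)
      (fun T hT' => hT T (hT'.trans (Nat.mul_le_mul_right d (by omega)))) (hdeg i) (hDζ i)).trans ?_
    refine add_le_add le_rfl ?_
    rw [← Real.sqrt_mul (Nat.cast_nonneg _)]
    refine Real.sqrt_le_sqrt ?_
    rw [map_sum, Complex.re_sum]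
    have h2 : ∀ ω ∈ (Finset.univ : Finset (J → Λ)),
        (θ (star (ζ i ω) * (τ • (1 : M) + Z) * ζ i ω)).re ≤ 2 * τ := by
      intro ω _
      have h3 := hZs ω i hik
      have h4 : (θ (star (ζ i ω) * (τ • (1 : M)) * ζ i ω)).re = τ * n2 θ (ζ i ω) ^ 2 := by
        rw [mul_smul_comm, smul_mul_assoc, mul_one, ← Complex.coe_smul, map_smul, n2_sq]
        simp
      rw [mul_add, add_mul, map_add, Complex.add_re, h4]
      have h5 := mul_le_mul_of_nonneg_left (hn2 i ω) hτ
      simp only [hζ] at h5 ⊢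
      linarith
    simpa using Finset.sum_le_card_nsmul _ _ _ h2
  have hmain : ∀ i ≤ k + 1, fockbN θ (ζ i) ≤ √(Fintype.card (J → Λ) : ℝ) *
      ((2 * √a) ^ i + √(2 * τ) * ∑ l ∈ Finset.range i, (2 * √a) ^ l) := by
    intro i
    induction i with
    | zero =>
      intro _
      simp only [pow_zero, Finset.range_zero, Finset.sum_empty, mul_zero, add_zero, mul_one]
      refine Real.sqrt_le_sqrt ?_
      simpa using Finset.sum_le_card_nsmul Finset.univ _ _ fun ω _ => hn2 0 ω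
    | succ i ih =>
      intro hi'
      refine (hrec i (by omega)).trans ?_
      have h2 := mul_le_mul_of_nonneg_left (ih (by omega)) (by positivity : 0 ≤ 2 * √a)
      refine (add_le_add h2 le_rfl).trans (le_of_eq ?_)
      rw [Finset.sum_range_succ', pow_succ]
      simp only [pow_succ, ← Finset.sum_mul]
      ring
  have hfin : ∀ ω, (D ω * x * D ω) ^ (j + 1) = ζ (j + 1) ω := by
    intro ω
    simp only [hζ, pow_succ, mul_assoc, hi]
  simp only [hfin]
  exact hmain (j + 1) (by omega)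

end Crest.Agent.R109
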