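import Crest.Agent.R109.FockA
import Crest.Agent.R109.FockB

/-! Row 109, normal corner: moments of diffuse operators compressed by local random sets. -/

set_option autoImplicit false

open scoped ComplexOrder InnerProductSpace ComplexConjugate ENNReal
open Filter Topology MeasureTheory

namespace Crest.Agent.R109

variable {M H X : Type*} [CStarAlgebra M] [PartialOrder M] [StarOrderedRing M]
  [NormedAddCommGroup H] [InnerProductSpace ℂ H] [CompleteSpace H]
  [TopologicalSpace X] [CompactSpace X] [T2Space X] [MeasurableSpace X] [BorelSpace X]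

omit [PartialOrder M] [StarOrderedRing M] [CompactSpace X] [T2Space X] [MeasurableSpace X]
  [BorelSpace X] in
theorem fock_isClopen_pre {γ : Type*} (l : LocallyConstant X γ) (S : Set γ) :
    IsClopen (l ⁻¹' S) :=
  ⟨⟨l.isLocallyConstant Sᶜ⟩, l.isLocallyConstant S⟩

omit [PartialOrder M] [StarOrderedRing M] [CompactSpace X] [T2Space X] [MeasurableSpace X]
  [BorelSpace X] in
theorem fock_sum_pc (Γ : Gel M X) {γ : Type*} (l : LocallyConstant X γ) (F : Finset γ) :
    ∑ s ∈ F, Γ.pc l s = Γ.e (l ⁻¹' (F : Set γ)) := by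
  classical
  unfold Gel.pc Gel.e
  rw [← map_sum]
  congr 1
  ext t
  rw [ContinuousMap.coe_sum, Finset.sum_apply]
  by_cases ht : l t ∈ F
  · rw [ind_of_mem (fock_isClopen_pre l (F : Set γ)) (t := t) ht, Finset.sum_eq_single_of_mem (l t) ht]
    · exact ind_of_mem (fock_isClopen_pre l _) rfl
    · intro s _ hs
      exact ind_of_notMem fun h => hs (Set.mem_singleton_iff.1 h).symm
  · rw [ind_of_notMem (V := l ⁻¹' (F : Set γ)) (t := t) ht]
    refine Finset.sum_eq_zero fun s hs => ind_of_notMem fun h => ht ?_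
    rw [Set.mem_singleton_iff.1 h]
    exact hs

omit [PartialOrder M] [StarOrderedRing M] [CompactSpace X] [T2Space X] [MeasurableSpace X]
  [BorelSpace X] in
theorem fock_sum_e (Γ : Gel M X) {Ω : Type*} [Fintype Ω] (p : Ω → Set X)
    (hp : ∀ ω, IsClopen (p ω)) {b : ℝ} (hb : ∀ t, (Set.ncard {ω | t ∈ p ω} : ℝ) = b) :
    ∑ ω, Γ.e (p ω) = b • (1 : M) := by
  classical
  unfold Gel.e
  rw [← map_sum, ← Complex.coe_smul, ← map_one Γ.Φ, ← map_smul]
  congr 1
  ext t
  rw [ContinuousMap.coe_sum, Finset.sum_apply, ContinuousMap.smul_apply, ContinuousMap.one_apply,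
    smul_eq_mul, mul_one, ← hb t]
  have : ∀ ω, ind (p ω) t = if t ∈ p ω then 1 else 0 := by
    intro ω
    split_ifs with h
    · exact ind_of_mem (hp ω) h
    · exact ind_of_notMem h
  simp only [this]
  rw [Finset.sum_boole, Complex.ofReal_natCast, ← Set.ncard_coe_finset]
  congr 2
  ext ω
  simp

variable (c : NCtx M H X)

/-- `fock_abstract` with addresses `s : ι → Q`, `h s = e {t | ∀ i, Q.proj (σ i t) = s i}`,
`R s = univ.image s`, `d = card ι`, and `Q`, `Z` from `fock_ineq` (with a smaller `τ`). -/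
theorem NCtx.fock {x : M} (hx : IsSelfAdjoint x) (hx1 : ‖x‖ ≤ 1)
    (hd : ∀ η : ℝ, 0 < η → ∃ P : DiscreteQuotient X,
      ∫ t, ∑ I : P, c.toCtx.ν x t (P.proj ⁻¹' {I}) ^ 2 ∂c.μ ≤ η)
    {ι : Type*} [Fintype ι] (σ : ι → X ≃ₜ X) (Λ : Type*) [Fintype Λ] [Nonempty Λ] {a : ℝ}
    (ha : 0 ≤ a) {k : ℕ} (hk : 1 ≤ k) {τ : ℝ} (hτ : 0 < τ) :
    ∃ Q : DiscreteQuotient X, ∀ p : (Q → Λ) → Set X, (∀ ω, IsClopen (p ω)) →
      (∀ ω ω' t, (∀ i, ω (Q.proj (σ i t)) = ω' (Q.proj (σ i t))) → (t ∈ p ω ↔ t ∈ p ω')) →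
      (∀ t, (Set.ncard {ω | t ∈ p ω} : ℝ) = Fintype.card (Q → Λ) * a) →
      ∑ ω, n2 c.θ ((c.Γ.e (p ω) * x * c.Γ.e (p ω)) ^ k) ^ 2 ≤
        Fintype.card (Q → Λ) * ((2 * √a) ^ k + τ) ^ 2 := by
  classical
  obtain ⟨j, rfl⟩ : ∃ j, k = j + 1 := ⟨k - 1, by omega⟩
  set S : ℝ := ∑ i ∈ Finset.range (j + 1), (2 * √a) ^ i with hS
  have hS0 : 0 ≤ S := Finset.sum_nonneg fun i _ => by positivity
  have hτ' : 0 < (τ / (S + 1)) ^ 2 / 2 := by positivity
  obtain ⟨Q, Z, hZ, hT, hZs⟩ := c.fock_ineq hx hx1 hd σ ((j + 1) * Fintype.card ι) j hτ'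
  refine ⟨Q, fun p hp hdep hcount => ?_⟩
  let l : LocallyConstant X (ι → Q) :=
    ⟨fun t i => Q.proj (σ i t), (IsLocallyConstant.iff_continuous _).2
      (continuous_pi fun i => Q.proj_continuous.comp (σ i).continuous)⟩
  have hl : ∀ t i, l t i = Q.proj (σ i t) := fun _ _ => rfl
  have hpart := c.Γ.pc_isPart l
  have key := fock_abstract c.θ c.θ_one hx hx1 (fun ω => c.Γ.e (p ω)) (fun ω => c.Γ.e_proj _)
    (c.Γ.pc l) ⟨fun _ => trivial, hpart.proj, hpart.orth, hpart.sum⟩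
    (fun s ω => c.Γ.comm _ _) (fun s => Finset.univ.image s) (d := Fintype.card ι)
    (fun s => Finset.card_image_le) ?_ ha (fock_sum_e c.Γ p hp hcount) j hτ'.le hZ ?_
    (fun ω => hZs (p ω) (hp ω)) j le_rfl
  · have e : √(2 * ((τ / (S + 1)) ^ 2 / 2)) = τ / (S + 1) := by
      rw [mul_div_cancel₀ _ two_ne_zero, Real.sqrt_sq (by positivity)]
    rw [e, ← hS] at key
    have h1 : τ / (S + 1) * S ≤ τ := by
      rw [div_mul_eq_mul_div, div_le_iff₀ (by positivity)]
      nlinarith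
    have h2 : √(∑ ω, n2 c.θ ((c.Γ.e (p ω) * x * c.Γ.e (p ω)) ^ (j + 1)) ^ 2) ≤
        √(Fintype.card (Q → Λ) : ℝ) * ((2 * √a) ^ (j + 1) + τ) :=
      key.trans (mul_le_mul_of_nonneg_left (by linarith) (Real.sqrt_nonneg _))
    have h3 := pow_le_pow_left₀ (Real.sqrt_nonneg _) h2 2
    rwa [Real.sq_sqrt (Finset.sum_nonneg fun _ _ => sq_nonneg _), mul_pow,
      Real.sq_sqrt (Nat.cast_nonneg _)] at h3
  · intro s ω ω' hω
    unfold Gel.pc
    rw [c.Γ.e_mul (fock_isClopen_pre l _) (hp ω), c.Γ.e_mul (fock_isClopen_pre l _) (hp ω')]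
    congr 1
    ext t
    refine and_congr_right fun ht => hdep ω ω' t fun i => hω _ ?_
    rw [← hl, Set.mem_singleton_iff.1 ht]
    exact Finset.mem_image_of_mem _ (Finset.mem_univ i)
  · intro T hTc
    have e : ∑ s ∈ Finset.univ.filter (fun s : ι → Q => ¬ Disjoint (Finset.univ.image s) T),
        c.Γ.pc l s = c.Γ.e (seen σ Q T) := by
      rw [fock_sum_pc]
      congr 1
      ext t
      simp only [Finset.coe_filter, Finset.mem_univ, true_and, Set.mem_preimage,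
        Set.mem_ofPred_eq, seen, Finset.not_disjoint_iff, Finset.mem_image]
      constructor
      · rintro ⟨_, ⟨i, rfl⟩, h⟩
        exact ⟨i, h⟩
      · rintro ⟨i, h⟩
        exact ⟨_, ⟨i, rfl⟩, h⟩
    have := hT T hTc
    rw [← e] at this
    convert this

end Crest.Agent.R109
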