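import Crest.Agent.R109.DyeA

/-! Row 109, normal corner: an operator inequality for diffuse operators. -/

set_option autoImplicit false

open scoped ComplexOrder InnerProductSpace ComplexConjugate ENNReal
open Filter Topology MeasureTheory

namespace Crest.Agent.R109

variable {M H X : Type*} [CStarAlgebra M] [PartialOrder M] [StarOrderedRing M]
  [NormedAddCommGroup H] [InnerProductSpace ℂ H] [CompleteSpace H]
  [TopologicalSpace X] [CompactSpace X] [T2Space X] [MeasurableSpace X] [BorelSpace X]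

variable (c : NCtx M H X)

set_option linter.unusedVariables false in
/-- Iterate `θ_conj_le` and `Normal.modulus`: `(P x P)^(j+1) P = P x ((P x P)^j P)`. -/
theorem NCtx.word_modulus {x : M} (hx : IsSelfAdjoint x) (hx1 : ‖x‖ ≤ 1) (k : ℕ) (C : ℝ) {τ : ℝ}
    (hτ : 0 < τ) : ∃ δ : ℝ, 0 < δ ∧ ∀ Z, 0 ≤ Z → ‖Z‖ ≤ C → (c.θ Z).re ≤ δ →
      ∀ V, IsClopen V → ∀ j ≤ k,
        (c.θ (star ((c.Γ.e V * x * c.Γ.e V) ^ j * c.Γ.e V) * Z *
          ((c.Γ.e V * x * c.Γ.e V) ^ j * c.Γ.e V))).re ≤ τ := by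
  have hP : ∀ V (Z : M), 0 ≤ Z → (c.θ (star (c.Γ.e V) * Z * c.Γ.e V)).re ≤ (c.θ Z).re := by
    intro V Z hZ
    have h1 := c.θ_conj_le (ind V) hZ
    have h2 : ‖ind V‖ ≤ 1 := by
      rw [← c.Γ.norm_map]; exact IsStarProjection.norm_le _ (c.Γ.e_proj V)
    have h3 := pos_re_nonneg c.θ hZ
    have h4 : ‖ind V‖ ^ 2 ≤ 1 := pow_le_one₀ (norm_nonneg _) h2
    exact h1.trans (mul_le_of_le_one_left h3 h4)
  induction k with
  | zero =>
    refine ⟨τ, hτ, fun Z hZ _ hθ V _ j hj => ?_⟩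
    obtain rfl : j = 0 := by omega
    simpa using (hP V Z hZ).trans hθ
  | succ k ih =>
    obtain ⟨δ, hδ, h⟩ := ih
    obtain ⟨δ', hδ', h'⟩ := c.normal.modulus c.faithful x C hδ
    refine ⟨min δ δ', lt_min hδ hδ', fun Z hZ hC hθ V hV j hj => ?_⟩
    rcases j with _ | j
    · exact h Z hZ hC (hθ.trans (min_le_left _ _)) V hV 0 (Nat.zero_le _)
    · set P := c.Γ.e V with hPdef
      have hp : IsStarProjection P := c.Γ.e_proj V
      have hPP : P * P = P := hp.isIdempotentElem.eq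
      have hn : ‖P‖ ≤ 1 := IsStarProjection.norm_le _ hp
      have hw : P * ((P * x * P) ^ j * P) = (P * x * P) ^ j * P := by
        rcases j with _ | j
        · simpa using hPP
        · rw [pow_succ']
          simp only [← mul_assoc, hPP]
      have e : (P * x * P) ^ (j + 1) * P = P * x * ((P * x * P) ^ j * P) := by
        rw [pow_succ', mul_assoc (P * x * P), mul_assoc (P * x), hw]
      have hZ1 : 0 ≤ star P * Z * P := star_left_conjugate_nonneg hZ P
      have hcj : ∀ a Y : M, ‖a‖ ≤ 1 → ‖star a * Y * a‖ ≤ ‖Y‖ := by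
        intro a Y ha
        calc ‖star a * Y * a‖ ≤ ‖star a‖ * ‖Y‖ * ‖a‖ :=
              (norm_mul_le _ _).trans (mul_le_mul_of_nonneg_right (norm_mul_le _ _) (norm_nonneg _))
          _ ≤ 1 * ‖Y‖ * 1 := by rw [norm_star]; gcongr
          _ = ‖Y‖ := by ring
      have hC1 : ‖star P * Z * P‖ ≤ C := (hcj P Z hn).trans hC
      have h2 := h' _ hZ1 hC1 ((hP V Z hZ).trans (hθ.trans (min_le_right _ _)))
      have h3 := h _ (star_left_conjugate_nonneg hZ1 x) ((hcj x _ hx1).trans hC1) h2 V hV j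
        (by omega)
      rw [e]
      convert h3 using 3
      simp only [star_mul, mul_assoc, ← hPdef]

/-- The points that see an atom of `T` through one of the `σ i`. -/
def seen {ι : Type*} (σ : ι → X ≃ₜ X) (Q : DiscreteQuotient X) (T : Finset Q) : Set X :=
  {t | ∃ i, Q.proj (σ i t) ∈ T}

omit [CompactSpace X] [T2Space X] [MeasurableSpace X] [BorelSpace X] in
theorem focka_proj_eq (S : DiscreteQuotient X) (t t' : X) :
    S.proj t = S.proj t' ↔ S.toSetoid t t' := Quotient.eq''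

omit [CompactSpace X] [T2Space X] [MeasurableSpace X] [BorelSpace X] in
theorem focka_proj_inf {ι : Type*} (G : Finset ι) (f : ι → DiscreteQuotient X) (t t' : X) :
    (G.inf f).proj t = (G.inf f).proj t' ↔ ∀ i ∈ G, (f i).proj t = (f i).proj t' := by
  simp only [focka_proj_eq]
  induction G using Finset.cons_induction with
  | empty => exact iff_of_true trivial (by simp)
  | cons a G ha ih =>
    rw [Finset.inf_cons, Finset.forall_mem_cons]
    exact and_congr Iff.rfl ih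

/-- The sets of the inclusion-exclusion formula. -/
def fockaCell {ι : Type*} (σ : ι → X ≃ₜ X) (Q : DiscreteQuotient X) (φ : ι → Option Q) : Set X :=
  {t | ∀ i J, φ i = some J → Q.proj (σ i t) = J}

/-- The signs of the inclusion-exclusion formula. -/
noncomputable def fockaSgn {ι κ : Type*} [Fintype ι] (φ : ι → Option κ) : ℂ :=
  ∏ i, (φ i).elim 1 fun _ => -1

theorem focka_sgn {ι κ : Type*} [Fintype ι] (φ : ι → Option κ) :
    star (fockaSgn φ) * fockaSgn φ = 1 := by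
  simp only [fockaSgn, star_prod, ← Finset.prod_mul_distrib]
  refine Finset.prod_eq_one fun i _ => ?_
  cases φ i <;> simp

omit [CompactSpace X] [T2Space X] [MeasurableSpace X] [BorelSpace X] in
theorem focka_clopen {ι : Type*} [Fintype ι] (σ : ι → X ≃ₜ X) (Q : DiscreteQuotient X)
    (S : Set (ι → Q)) : IsClopen ((fun t i => Q.proj (σ i t)) ⁻¹' S) :=
  (isClopen_discrete S).preimage
    (continuous_pi fun i => Q.proj_continuous.comp (σ i).continuous)

omit [CompactSpace X] [T2Space X] [MeasurableSpace X] [BorelSpace X] in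
theorem focka_clopen_seen {ι : Type*} [Fintype ι] (σ : ι → X ≃ₜ X) (Q : DiscreteQuotient X)
    (T : Finset Q) : IsClopen (seen σ Q T) := focka_clopen σ Q {g | ∃ i, g i ∈ T}

omit [CompactSpace X] [T2Space X] [MeasurableSpace X] [BorelSpace X] in
theorem focka_clopen_cell {ι : Type*} [Fintype ι] (σ : ι → X ≃ₜ X) (Q : DiscreteQuotient X)
    (φ : ι → Option Q) : IsClopen (fockaCell σ Q φ) :=
  focka_clopen σ Q {g | ∀ i J, φ i = some J → g i = J}

omit [CompactSpace X] [T2Space X] [MeasurableSpace X] [BorelSpace X] in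
theorem focka_incl_excl {ι : Type*} [Fintype ι] [DecidableEq ι] (σ : ι → X ≃ₜ X)
    (Q : DiscreteQuotient X) (T : Finset Q) :
    ind (seen σ Q T) = ∑ φ ∈ (Fintype.piFinset fun _ : ι => Finset.insertNone T).erase
      (fun _ => none), (-fockaSgn φ) • ind (fockaCell σ Q φ) := by
  ext t
  let b : ι → Option Q → ℂ := fun i o => o.elim 1 fun J => if Q.proj (σ i t) = J then -1 else 0
  have h1 : ∀ φ : ι → Option Q, fockaSgn φ * ind (fockaCell σ Q φ) t = ∏ i, b i (φ i) := by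
    intro φ
    by_cases ht : t ∈ fockaCell σ Q φ
    · rw [ind_of_mem (focka_clopen_cell σ Q φ) ht, mul_one]
      refine Finset.prod_congr rfl fun i _ => ?_
      rcases h : φ i with _ | J
      · rfl
      · simp [b, ht i J h]
    · rw [ind_of_notMem ht, mul_zero]
      simp only [fockaCell, Set.mem_ofPred_eq, not_forall] at ht
      obtain ⟨i, J, h, h'⟩ := ht
      exact (Finset.prod_eq_zero (Finset.mem_univ i) (by simp [b, h, h'])).symm
  have h2 : ∑ φ ∈ Fintype.piFinset (fun _ : ι => Finset.insertNone T), ∏ i, b i (φ i) =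
      1 - ind (seen σ Q T) t := by
    rw [← Finset.prod_univ_sum]
    have h3 : ∀ i, ∑ o ∈ Finset.insertNone T, b i o = if Q.proj (σ i t) ∈ T then 0 else 1 := by
      intro i
      rw [Finset.sum_insertNone]
      simp only [b, Option.elim, Finset.sum_ite_eq]
      split_ifs <;> simp
    simp only [h3]
    by_cases ht : t ∈ seen σ Q T
    · rw [ind_of_mem (focka_clopen_seen σ Q T) ht, sub_self]
      obtain ⟨i, hi⟩ := ht
      exact Finset.prod_eq_zero (Finset.mem_univ i) (if_pos hi)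
    · rw [ind_of_notMem ht, sub_zero]
      exact Finset.prod_eq_one fun i _ => if_neg fun hi => ht ⟨i, hi⟩
  have h4 : (fun _ => none) ∈ Fintype.piFinset fun _ : ι => Finset.insertNone T := by simp
  rw [← Finset.add_sum_erase _ _ h4] at h2
  have h5 : ∏ i, b i none = 1 := Finset.prod_eq_one fun i _ => rfl
  rw [h5] at h2
  simp only [ContinuousMap.coe_sum, Finset.sum_apply, ContinuousMap.smul_apply, smul_eq_mul,
    neg_mul, h1, Finset.sum_neg_distrib]
  linear_combination h2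

theorem focka_main {κ₁ κ₂ : Type*} (S₁ : Finset κ₁) (S₂ : Finset κ₂) (a : κ₁ → M) (Y : κ₂ → M)
    (hY : ∀ j, 0 ≤ Y j) {B : M} (hB : 0 ≤ B) (h : ∀ i ∈ S₁, ∀ j ∈ S₂, star (a i) * Y j * a i ≤ B)
    {N₁ N₂ : ℕ} (h1 : S₁.card ≤ N₁) (h2 : S₂.card ≤ N₂) :
    star (∑ i ∈ S₁, a i) * (∑ j ∈ S₂, Y j) * ∑ i ∈ S₁, a i ≤ ((N₁ : ℝ) ^ 2 * N₂) • B := by
  refine (star_sum_conj_le S₁ a (Finset.sum_nonneg fun j _ => hY j)).trans ?_
  have h3 : ∑ i ∈ S₁, star (a i) * (∑ j ∈ S₂, Y j) * a i ≤ S₁.card • S₂.card • B := by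
    refine Finset.sum_le_card_nsmul _ _ _ fun i hi => ?_
    rw [Finset.mul_sum, Finset.sum_mul]
    exact Finset.sum_le_card_nsmul _ _ _ (h i hi)
  refine (smul_le_smul_of_nonneg_left h3 (Nat.cast_nonneg _)).trans ?_
  rw [← Nat.cast_smul_eq_nsmul ℝ, ← Nat.cast_smul_eq_nsmul ℝ, smul_smul, smul_smul]
  refine smul_le_smul_of_nonneg_right ?_ hB
  have h1' : (S₁.card : ℝ) ≤ N₁ := by exact_mod_cast h1
  have h2' : (S₂.card : ℝ) ≤ N₂ := by exact_mod_cast h2
  rw [sq]
  gcongr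

omit [T2Space X] [MeasurableSpace X] [BorelSpace X] in
theorem focka_cell_le (Γ : Gel M X) {ι : Type*} [Fintype ι] (σ : ι → X ≃ₜ X)
    (Q : DiscreteQuotient X) (φ : ι → Option Q) {Y : M} (hY : 0 ≤ Y) :
    Γ.e (fockaCell σ Q φ) * Y * Γ.e (fockaCell σ Q φ) ≤
      Γ.EP ((Finset.univ.filter fun i => (φ i).isSome).inf
        fun i => Q.comap (σ i : C(X, X))) Y := by
  set R := (Finset.univ.filter fun i => (φ i).isSome).inf fun i => Q.comap (σ i : C(X, X)) with hR
  rcases (fockaCell σ Q φ).eq_empty_or_nonempty with h | ⟨t₀, ht₀⟩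
  · rw [h, Gel.e, ind_empty, map_zero, mul_zero]
    exact (Γ.ea_isPart R).pinch_nonneg hY
  · have e : fockaCell σ Q φ = R.proj ⁻¹' {R.proj t₀} := by
      have key : ∀ i t t', (Q.comap (σ i : C(X, X))).proj t = (Q.comap (σ i : C(X, X))).proj t' ↔
          Q.proj (σ i t) = Q.proj (σ i t') := fun i t t' =>
        (focka_proj_eq _ _ _).trans (focka_proj_eq Q (σ i t) (σ i t')).symm
      ext t
      refine Iff.trans ?_ (focka_proj_inf _ _ t t₀).symm
      simp only [key, Finset.mem_filter, Finset.mem_univ, true_and, Option.isSome_iff_exists]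
      constructor
      · rintro ht i ⟨J, hJ⟩
        rw [ht i J hJ, ht₀ i J hJ]
      · intro ht i J hJ
        rw [ht i ⟨J, hJ⟩, ht₀ i J hJ]
    rw [e]
    exact (Γ.ea_isPart R).le_pinch hY (R.proj t₀)

/-- Let `Y_I = x (ea I) x` for the atoms `I` of the partition `P₀` of the hypothesis,
`β = η₁⁻¹ Φ (∑_I (E Y_I)²)` (norm `≤ 1/η₁`, `θ β ≤ η/η₁`, `Φ (E Y_I) ≤ η₁ + β`).  For nonempty
`G ⊆ ι` let `Q_G = ⊓_{i ∈ G} Q.comap (σ i)`, `R_{G,I} = EP Q_G Y_I - Φ (E Y_I)`,
`Z_G = η₁⁻¹ ∑_I R_{G,I}²` (norm `≤ 4 |P₀| / η₁`; `θ Z_G` is small by `EP_tendsto` once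
`Q ≤ ⊓_i (P₀ ⊓ P*).comap (σ i).symm`).  For a set `f` that is empty or an atom of `Q_G`:
`e f Y_I e f ≤ EP Q_G Y_I ≤ 2 η₁ + β + Z_G` (`le_pinch`, `le_add_sq`).  With `e_T = e (seen T)`:
`x e_T x ≤ ∑_{i, J ∈ T} Y_{I(i,J)}` (`n |ι|` terms), and by inclusion-exclusion
`e_T = 1 - ∏_i (1 - e (σ_i⁻¹ T)) = ∑ ± e (⋂_{i ∈ G} σ_i⁻¹ (J i))` over nonempty `G` and `J : G → T`, at
most `N' = (n+1)^|ι|` terms; `star_sum_conj_le`.  So `Z = N'² n |ι| (β + ∑_G Z_G)` and
`2 η₁ N'² n |ι| ≤ τ`.  Choose `η₁`, then `η` and `P₀` (`word_modulus` with `C = 1/η₁`), then `P*`. -/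
theorem NCtx.fock_ineq {x : M} (hx : IsSelfAdjoint x) (hx1 : ‖x‖ ≤ 1)
    (hd : ∀ η : ℝ, 0 < η → ∃ P : DiscreteQuotient X,
      ∫ t, ∑ I : P, c.toCtx.ν x t (P.proj ⁻¹' {I}) ^ 2 ∂c.μ ≤ η)
    {ι : Type*} [Fintype ι] (σ : ι → X ≃ₜ X) (n k : ℕ) {τ : ℝ} (hτ : 0 < τ) :
    ∃ (Q : DiscreteQuotient X) (Z : M), 0 ≤ Z ∧
      (∀ T : Finset Q, T.card ≤ n →
        c.Γ.e (seen σ Q T) * x * c.Γ.e (seen σ Q T) * x * c.Γ.e (seen σ Q T) ≤
          τ • (1 : M) + Z) ∧
      ∀ V, IsClopen V → ∀ j ≤ k,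
        (c.θ (star ((c.Γ.e V * x * c.Γ.e V) ^ j * c.Γ.e V) * Z *
          ((c.Γ.e V * x * c.Γ.e V) ^ j * c.Γ.e V))).re ≤ τ := by
  classical
  -- constants
  set N₁ : ℕ := (n + 1) ^ Fintype.card ι with hN₁
  set N₂ : ℕ := Fintype.card ι * n with hN₂
  set K : ℝ := (N₁ : ℝ) ^ 2 * N₂ with hK
  have hK0 : 0 ≤ K := by positivity
  set η₁ : ℝ := τ / (2 * (K + 1)) with hη₁
  have hη₁0 : 0 < η₁ := by positivity
  have hη₁K : K * (2 * η₁) ≤ τ := by
    rw [hη₁, show K * (2 * (τ / (2 * (K + 1)))) = τ * (K / (K + 1)) by field_simp]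
    exact mul_le_of_le_one_right hτ.le ((div_le_one (by positivity)).2 (by linarith))
  set L : ℝ := K * η₁⁻¹ with hL
  have hL0 : 0 ≤ L := by positivity
  obtain ⟨δ₁, hδ₁, hw₁⟩ := c.word_modulus hx hx1 k 1 (τ := τ / (2 * (L + 1))) (by positivity)
  obtain ⟨P₀, hP₀⟩ := hd δ₁ hδ₁
  set Y : P₀ → M := fun I => x * c.Γ.ea P₀ I * x with hY
  have hpart := c.Γ.ea_isPart P₀
  have hY0 : ∀ I, 0 ≤ Y I := fun I => by
    have := star_left_conjugate_nonneg (hpart.proj I).nonneg x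
    rwa [hx.star_eq] at this
  have hYsa : ∀ I, IsSelfAdjoint (Y I) := fun I => (hY0 I).isSelfAdjoint
  have hY1 : ∀ I, ‖Y I‖ ≤ 1 := fun I => by
    have := IsStarProjection.norm_le _ (hpart.proj I)
    calc ‖Y I‖ ≤ ‖x‖ * ‖c.Γ.ea P₀ I‖ * ‖x‖ :=
          (norm_mul_le _ _).trans (mul_le_mul_of_nonneg_right (norm_mul_le _ _) (norm_nonneg _))
      _ ≤ 1 * 1 * 1 := by gcongr
      _ = 1 := by ring
  have hν : ∀ I t, c.E (Y I) t = (c.toCtx.ν x t (P₀.proj ⁻¹' {I}) : ℂ) := fun I t => by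
    have := c.toCtx.E_nonneg (hY0 I) t
    exact (Complex.ext rfl (by simpa using (Complex.nonneg_iff.1 this).2.symm))
  have hν0 : ∀ I t, 0 ≤ c.toCtx.ν x t (P₀.proj ⁻¹' {I}) := fun I t =>
    (Complex.nonneg_iff.1 (c.toCtx.E_nonneg (hY0 I) t)).1
  have hνs : ∀ t, ∑ I, c.toCtx.ν x t (P₀.proj ⁻¹' {I}) ≤ 1 := fun t => by
    have e1 : ∑ I, Y I = x * x := by
      simp only [hY, ← Finset.sum_mul, ← Finset.mul_sum, hpart.sum, mul_one]
    have e2 : ((∑ I, c.toCtx.ν x t (P₀.proj ⁻¹' {I}) : ℝ) : ℂ) = c.E (x * x) t := by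
      rw [← e1, map_sum, ContinuousMap.coe_sum, Finset.sum_apply, Complex.ofReal_sum]
      exact Finset.sum_congr rfl fun I _ => (hν I t).symm
    have e3 : ‖c.E (x * x) t‖ ≤ 1 := by
      refine ((c.E (x * x)).norm_coe_le_norm t).trans ((c.toCtx.norm_E_le _).trans ?_)
      exact (norm_mul_le _ _).trans (mul_le_one₀ hx1 (norm_nonneg _) hx1)
    rw [← e2, Complex.norm_real] at e3
    exact (le_abs_self _).trans e3
  set D : P₀ → M := fun I => c.Γ.Φ (c.E (Y I)) with hD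
  have hDsa : ∀ I, IsSelfAdjoint (D I) := fun I => c.toCtx.Φ_E_selfAdjoint (hYsa I)
  have hsq : ∀ {R : M}, IsSelfAdjoint R → 0 ≤ R * R := fun {R} h => by
    have := star_mul_self_nonneg R
    rwa [h.star_eq] at this
  set β : M := ∑ I, D I * D I with hβ
  have hβ0 : 0 ≤ β := Finset.sum_nonneg fun I _ => hsq (hDsa I)
  have hβΦ : β = c.Γ.Φ (∑ I, c.E (Y I) * c.E (Y I)) := by
    simp only [hβ, hD, map_sum, map_mul]
  have hg : ∀ t, (∑ I, c.E (Y I) * c.E (Y I)) t =
      ((∑ I, c.toCtx.ν x t (P₀.proj ⁻¹' {I}) ^ 2 : ℝ) : ℂ) := fun t => by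
    rw [ContinuousMap.coe_sum, Finset.sum_apply, Complex.ofReal_sum]
    refine Finset.sum_congr rfl fun I _ => ?_
    rw [ContinuousMap.mul_apply, hν, sq, Complex.ofReal_mul]
  have hβ1 : ‖β‖ ≤ 1 := by
    rw [hβΦ, c.Γ.norm_map, ContinuousMap.norm_le _ zero_le_one]
    intro t
    rw [hg, Complex.norm_real, Real.norm_of_nonneg (Finset.sum_nonneg fun I _ => sq_nonneg _)]
    refine (Finset.sum_sq_le_sq_sum_of_nonneg fun I _ => hν0 I t).trans ?_
    exact pow_le_one₀ (Finset.sum_nonneg fun I _ => hν0 I t) (hνs t)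
  have hβθ : (c.θ β).re ≤ δ₁ := by
    rw [hβΦ, c.int]
    simp only [hg]
    rw [integral_complex_ofReal]
    exact hP₀
  set N₃ : ℕ := Fintype.card ({G : Finset ι // G.Nonempty} × P₀) with hN₃
  obtain ⟨δ₂, hδ₂, hw₂⟩ := c.word_modulus hx hx1 k 4 (τ := τ / (2 * (L + 1) * (N₃ + 1)))
    (by positivity)
  choose Ps hPs using fun I => c.EP_tendsto (Y I) (ε := √δ₂) (Real.sqrt_pos.2 hδ₂)
  set P₁ : DiscreteQuotient X := P₀ ⊓ Finset.univ.inf Ps with hP₁
  set Q : DiscreteQuotient X := Finset.univ.inf fun i => P₁.comap ((σ i).symm : C(X, X)) with hQ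
  have hQi : ∀ i, Q.comap (σ i : C(X, X)) ≤ P₁ := fun i => by
    have h1 : Q ≤ P₁.comap ((σ i).symm : C(X, X)) := Finset.inf_le (Finset.mem_univ i)
    refine (DiscreteQuotient.comap_mono _ h1).trans (le_of_eq ?_)
    rw [← DiscreteQuotient.comap_comp, Homeomorph.symm_comp_toContinuousMap,
      DiscreteQuotient.comap_id]
  set QG : Finset ι → DiscreteQuotient X := fun G => G.inf fun i => Q.comap (σ i : C(X, X))
    with hQG
  set R : {G : Finset ι // G.Nonempty} × P₀ → M := fun p => c.Γ.EP (QG p.1) (Y p.2) - D p.2 with hR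
  have hRsa : ∀ p, IsSelfAdjoint (R p) := fun p =>
    ((c.Γ.ea_isPart _).pinch_nonneg (hY0 p.2)).isSelfAdjoint.sub (hDsa p.2)
  have hR4 : ∀ p, ‖R p * R p‖ ≤ 4 := fun p => by
    have h1 : ‖R p‖ ≤ 2 := by
      refine (norm_sub_le _ _).trans ?_
      have := ((c.Γ.ea_isPart (QG p.1)).norm_pinch_le (Y p.2)).trans (hY1 p.2)
      have := (c.toCtx.norm_Φ_E_le (Y p.2)).trans (hY1 p.2)
      change ‖pinch _ _‖ + ‖c.Γ.Φ _‖ ≤ 2
      linarith
    calc ‖R p * R p‖ ≤ ‖R p‖ * ‖R p‖ := norm_mul_le _ _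
      _ ≤ 2 * 2 := by gcongr
      _ = 4 := by norm_num
  have hRθ : ∀ p, (c.θ (R p * R p)).re ≤ δ₂ := fun p => by
    obtain ⟨i, hi⟩ := p.1.2
    have h1 : QG p.1 ≤ Ps p.2 :=
      (Finset.inf_le hi).trans ((hQi i).trans
        (inf_le_right.trans (Finset.inf_le (Finset.mem_univ _))))
    have h2 := hPs p.2 _ h1
    have h3 := n2_sq c.θ (R p)
    rw [(hRsa p).star_eq] at h3
    rw [← h3, ← Real.sq_sqrt hδ₂.le]
    exact pow_le_pow_left₀ (n2_nonneg _ _) h2 2
  set W : M := β + ∑ p, R p * R p with hW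
  have hS0 : 0 ≤ ∑ p, R p * R p := Finset.sum_nonneg fun p _ => hsq (hRsa p)
  have hW0 : 0 ≤ W := add_nonneg hβ0 hS0
  have h01 : (0 : M) ≤ 1 := zero_le_one
  refine ⟨Q, L • W, smul_nonneg hL0 hW0, fun T hT => ?_, fun V hV j hj => ?_⟩
  · set B : M := (2 * η₁) • (1 : M) + η₁⁻¹ • W with hB
    have hB0 : 0 ≤ B := add_nonneg (smul_nonneg (by positivity) h01) (smul_nonneg (by positivity) hW0)
    have hcell : ∀ φ : ι → Option Q, φ ≠ (fun _ => none) → ∀ I,
        c.Γ.e (fockaCell σ Q φ) * Y I * c.Γ.e (fockaCell σ Q φ) ≤ B := by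
      intro φ hφ I
      have hne : (Finset.univ.filter fun i => (φ i).isSome).Nonempty := by
        by_contra h
        refine hφ (funext fun i => ?_)
        by_contra h'
        exact h ⟨i, by simpa [Option.isSome_iff_ne_none] using h'⟩
      refine (focka_cell_le c.Γ σ Q φ (hY0 I)).trans ?_
      let p : {G : Finset ι // G.Nonempty} × P₀ := (⟨_, hne⟩, I)
      have e : c.Γ.EP (QG p.1) (Y I) = D I + R p := by simp [hR, p]
      change c.Γ.EP (QG p.1) (Y I) ≤ B
      have h1 : D I * D I ≤ β :=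
        Finset.single_le_sum (f := fun I => D I * D I) (fun I _ => hsq (hDsa I)) (Finset.mem_univ I)
      have h2 : R p * R p ≤ ∑ p, R p * R p :=
        Finset.single_le_sum (f := fun p => R p * R p) (fun p _ => hsq (hRsa p)) (Finset.mem_univ p)
      calc c.Γ.EP (QG p.1) (Y I) = D I + R p := e
        _ ≤ (η₁ • (1 : M) + η₁⁻¹ • (D I * D I)) + (η₁ • (1 : M) + η₁⁻¹ • (R p * R p)) :=
            add_le_add (le_add_sq (hDsa I) hη₁0) (le_add_sq (hRsa p) hη₁0)
        _ = (2 * η₁) • (1 : M) + η₁⁻¹ • (D I * D I + R p * R p) := by module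
        _ ≤ B := add_le_add le_rfl
            (smul_le_smul_of_nonneg_left (add_le_add h1 h2) (by positivity))
    have hI : ∀ (i : ι) (J : Q), ∃ I : P₀, ∀ t, Q.proj (σ i t) = J → P₀.proj t = I := by
      intro i J
      obtain ⟨s, rfl⟩ := Q.proj_surjective J
      refine ⟨P₀.proj ((σ i).symm s), fun t ht => ?_⟩
      have h1 : (Q.comap (σ i : C(X, X))).toSetoid t ((σ i).symm s) := by
        change Q.toSetoid (σ i t) (σ i ((σ i).symm s))
        rw [Homeomorph.apply_symm_apply]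
        exact Quotient.eq''.1 ht
      exact Quotient.eq''.2 (((hQi i).trans inf_le_left) h1)
    choose I hI using hI
    have hle : c.Γ.e (seen σ Q T) ≤ ∑ q ∈ Finset.univ ×ˢ T, c.Γ.ea P₀ (I q.1 q.2) := by
      rw [← sub_nonneg]
      simp only [Gel.ea, Gel.e]
      rw [← map_sum, ← map_sub, c.Γ.nonneg_iff]
      intro t
      rw [ContinuousMap.sub_apply, sub_nonneg, ContinuousMap.coe_sum, Finset.sum_apply]
      have h0 : ∀ V : Set X, (0 : ℂ) ≤ ind V t := fun V =>
        (c.Γ.nonneg_iff _).1 (c.Γ.e_proj V).nonneg t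
      by_cases ht : t ∈ seen σ Q T
      · rw [ind_of_mem (focka_clopen_seen σ Q T) ht]
        obtain ⟨i, hi⟩ := ht
        have h1 := Finset.single_le_sum (s := Finset.univ ×ˢ T)
          (f := fun q : ι × Q => ind (P₀.proj ⁻¹' {I q.1 q.2}) t) (fun q _ => h0 _)
          (a := (i, Q.proj (σ i t))) (by simpa using hi)
        rwa [ind_of_mem (P₀.isClopen_preimage _) (hI i _ t rfl)] at h1
      · rw [ind_of_notMem ht]
        exact Finset.sum_nonneg fun q _ => h0 _
    have hle' : x * c.Γ.e (seen σ Q T) * x ≤ ∑ q ∈ Finset.univ ×ˢ T, Y (I q.1 q.2) := by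
      have := star_left_conjugate_le_conjugate hle x
      rwa [hx.star_eq, Finset.mul_sum, Finset.sum_mul] at this
    have hsum : c.Γ.e (seen σ Q T) = ∑ φ ∈ (Fintype.piFinset fun _ : ι => Finset.insertNone T).erase
        (fun _ => none), (-fockaSgn φ) • c.Γ.e (fockaCell σ Q φ) := by
      simp only [Gel.e]
      rw [focka_incl_excl, map_sum]
      simp only [map_smul]
    have hmain := focka_main ((Fintype.piFinset fun _ : ι => Finset.insertNone T).erase
        (fun _ => none)) (Finset.univ ×ˢ T) (fun φ => (-fockaSgn φ) • c.Γ.e (fockaCell σ Q φ))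
        (fun q : ι × Q => Y (I q.1 q.2)) (fun q => hY0 _) hB0 (N₁ := N₁) (N₂ := N₂)
        (fun φ hφ q _ => by
          have := hcell φ (Finset.ne_of_mem_erase hφ) (I q.1 q.2)
          rwa [star_smul, smul_mul_assoc, smul_mul_smul_comm, star_neg, neg_mul_neg, focka_sgn,
            one_smul, (c.Γ.e_proj _).isSelfAdjoint.star_eq])
        (by
          refine Finset.card_erase_le.trans ?_
          rw [Fintype.card_piFinset, Finset.prod_const, Finset.card_insertNone, Finset.card_univ]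
          exact Nat.pow_le_pow_left (by omega) _)
        (by
          rw [Finset.card_product, Finset.card_univ]
          exact Nat.mul_le_mul_left _ hT)
    rw [← hsum] at hmain
    have h1 := star_left_conjugate_le_conjugate hle' (c.Γ.e (seen σ Q T))
    refine le_trans (le_of_eq ?_) (h1.trans (hmain.trans ?_))
    · rw [(c.Γ.e_proj _).isSelfAdjoint.star_eq]
      simp only [mul_assoc]
    · rw [← hK, hB, smul_add, smul_smul, smul_smul]
      exact add_le_add (smul_le_smul_of_nonneg_right hη₁K h01) le_rfl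
  · have h1 := hw₁ β hβ0 hβ1 hβθ V hV j hj
    have h2 := fun p => hw₂ (R p * R p) (hsq (hRsa p)) (hR4 p) (hRθ p) V hV j hj
    generalize (c.Γ.e V * x * c.Γ.e V) ^ j * c.Γ.e V = w at h1 h2 ⊢
    clear_value W β
    have e : star w * (L • W) * w =
        (L : ℂ) • (star w * β * w + ∑ p, star w * (R p * R p) * w) := by
      rw [hW, mul_smul_comm, smul_mul_assoc, mul_add, add_mul, Finset.mul_sum, Finset.sum_mul,
        Complex.coe_smul]
    rw [e, map_smul, map_add, map_sum, smul_eq_mul, Complex.re_ofReal_mul, Complex.add_re,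
      Complex.re_sum]
    have h3 : ∑ p, (c.θ (star w * (R p * R p) * w)).re ≤ τ / (2 * (L + 1)) := by
      refine (Finset.sum_le_card_nsmul _ _ _ fun p _ => h2 p).trans ?_
      rw [Finset.card_univ, ← hN₃, nsmul_eq_mul,
        show (N₃ : ℝ) * (τ / (2 * (L + 1) * (N₃ + 1))) = τ / (2 * (L + 1)) * (N₃ / (N₃ + 1)) by
          field_simp]
      exact mul_le_of_le_one_right (by positivity) ((div_le_one (by positivity)).2 (by linarith))
    calc _ ≤ L * (τ / (2 * (L + 1)) + τ / (2 * (L + 1))) :=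
          mul_le_mul_of_nonneg_left (add_le_add h1 h3) hL0
      _ = τ * (L / (L + 1)) := by field_simp; ring
      _ ≤ τ := mul_le_of_le_one_right hτ.le ((div_le_one (by positivity)).2 (by linarith))

end Crest.Agent.R109
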