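import Crest.Agent.R109.Pos

/-! Row 109: the Efron-Stein decomposition of operator valued functions on a finite product. -/

set_option autoImplicit false
set_option linter.unusedSectionVars false

open scoped ComplexOrder InnerProductSpace ComplexConjugate ENNReal
open Filter Topology MeasureTheory

namespace Crest.Agent.R109

section kernel

variable {J Λ : Type*} [Fintype J] [DecidableEq J] [Fintype Λ] [DecidableEq Λ] [Nonempty Λ]

/-- The one coordinate kernel of the projection onto functions of mean zero. -/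
noncomputable def fockbk (l l' : Λ) : ℝ := (if l = l' then 1 else 0) - (Fintype.card Λ : ℝ)⁻¹

/-- The Efron-Stein kernel. -/
noncomputable def fockbK (T : Finset J) (ω ω' : J → Λ) : ℝ :=
  ∏ j, if j ∈ T then fockbk (ω j) (ω' j) else (Fintype.card Λ : ℝ)⁻¹

theorem fockb_card_ne : (Fintype.card Λ : ℝ) ≠ 0 := Nat.cast_ne_zero.2 Fintype.card_ne_zero

theorem fockbk_symm (l l' : Λ) : fockbk l l' = fockbk l' l := by
  simp only [fockbk, eq_comm]

theorem fockbk_sum (l : Λ) : ∑ l', fockbk l l' = 0 := by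
  simp [fockbk, Finset.sum_sub_distrib]

theorem fockbk_mul (l l' : Λ) : ∑ u, fockbk l u * fockbk u l' = fockbk l l' := by
  have h : ∀ u, fockbk l u * fockbk u l' =
      (if l = u then fockbk u l' else 0) - (Fintype.card Λ : ℝ)⁻¹ * fockbk l' u := by
    intro u
    rw [fockbk_symm l' u]
    conv_lhs => rw [fockbk]
    split_ifs <;> ring
  simp only [h, Finset.sum_sub_distrib, ← Finset.mul_sum, fockbk_sum]
  simp

theorem fockbK_symm (T : Finset J) (ω ω' : J → Λ) : fockbK T ω ω' = fockbK T ω' ω := by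
  simp only [fockbK, fockbk_symm (ω _)]

theorem fockbK_sum (ω ω' : J → Λ) :
    ∑ T : Finset J, fockbK T ω ω' = if ω = ω' then 1 else 0 := by
  have h : ∀ T : Finset J, fockbK T ω ω' =
      (∏ j ∈ T, fockbk (ω j) (ω' j)) * ∏ _j ∈ Tᶜ, (Fintype.card Λ : ℝ)⁻¹ := by
    intro T
    rw [fockbK, ← Finset.prod_mul_prod_compl T]
    congr 1
    · exact Finset.prod_congr rfl fun j hj => if_pos hj
    · exact Finset.prod_congr rfl fun j hj => if_neg (Finset.mem_compl.1 hj)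
  simp only [h]
  rw [← Fintype.prod_add]
  simp only [fockbk, sub_add_cancel]
  rw [Finset.prod_ite_zero]
  simp [funext_iff]

theorem fockbK_mul (T T' : Finset J) (ω ω' : J → Λ) :
    ∑ u, fockbK T ω u * fockbK T' u ω' = if T = T' then fockbK T ω ω' else 0 := by
  simp only [fockbK, ← Finset.prod_mul_distrib]
  rw [← Fintype.prod_sum (fun j l => (if j ∈ T then fockbk (ω j) l else (Fintype.card Λ : ℝ)⁻¹) *
    (if j ∈ T' then fockbk l (ω' j) else (Fintype.card Λ : ℝ)⁻¹))]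
  split_ifs with h
  · subst h
    refine Finset.prod_congr rfl fun j _ => ?_
    split_ifs
    · exact fockbk_mul _ _
    · simp
  · obtain ⟨j, hj⟩ : ∃ j, ¬ (j ∈ T ↔ j ∈ T') := by
      by_contra hc
      push Not at hc
      exact h (Finset.ext hc)
    refine Finset.prod_eq_zero (Finset.mem_univ j) ?_
    by_cases h1 : j ∈ T
    · have h2 : j ∉ T' := fun h2 => hj ⟨fun _ => h2, fun _ => h1⟩
      simp only [if_pos h1, if_neg h2, ← Finset.sum_mul, fockbk_sum, zero_mul]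
    · have h2 : j ∈ T' := by
        by_contra h2
        exact hj ⟨fun h => absurd h h1, fun h => absurd h h2⟩
      simp only [if_neg h1, if_pos h2, ← Finset.mul_sum, fockbk_symm _ (ω' j), fockbk_sum, mul_zero]

theorem fockbK_dep (T : Finset J) {ω₁ ω₂ : J → Λ} (h : ∀ j ∈ T, ω₁ j = ω₂ j) (ω' : J → Λ) :
    fockbK T ω₁ ω' = fockbK T ω₂ ω' := by
  refine Finset.prod_congr rfl fun j _ => ?_
  split_ifs with hj
  · rw [h j hj]
  · rfl

theorem fockbK_kill {T S : Finset J} {j : J} (hT : j ∈ T) (hS : j ∉ S) (ω ω' : J → Λ) :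
    ∑ u, fockbK T ω (S.piecewise ω' u) = 0 := by
  have h : ∀ u, fockbK T ω (S.piecewise ω' u) = ∏ i, (fun i l => if i ∈ T then
      fockbk (ω i) (if i ∈ S then ω' i else l) else (Fintype.card Λ : ℝ)⁻¹) i (u i) := by
    intro u
    simp only [fockbK, Finset.piecewise]
  simp only [h]
  rw [← Fintype.prod_sum (fun i l => if i ∈ T then
      fockbk (ω i) (if i ∈ S then ω' i else l) else (Fintype.card Λ : ℝ)⁻¹)]
  refine Finset.prod_eq_zero (Finset.mem_univ j) ?_
  simp only [if_pos hT, if_neg hS, fockbk_sum]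

/-- Exchanging the coordinates in `S` of two independent samples. -/
theorem fockb_swap {N : Type*} [AddCommMonoid N] (S : Finset J) (f : (J → Λ) → N) :
    ∑ ω, ∑ u, f (S.piecewise ω u) = Fintype.card (J → Λ) • ∑ ω, f ω := by
  have hinv : Function.Involutive (fun q : (J → Λ) × (J → Λ) =>
      (S.piecewise q.1 q.2, S.piecewise q.2 q.1)) := by
    rintro ⟨ω, u⟩
    ext j <;> by_cases hj : j ∈ S <;> simp [Finset.piecewise, hj]
  have h := Equiv.sum_comp hinv.toPerm (fun q => f q.1)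
  rw [Fintype.sum_prod_type, Fintype.sum_prod_type] at h
  simp only [Function.Involutive.coe_toPerm] at h
  rw [h, Finset.smul_sum]
  simp

end kernel

variable {M : Type*} [CStarAlgebra M]
variable {J Λ : Type*} [Fintype J] [DecidableEq J] [Fintype Λ] [DecidableEq Λ] [Nonempty Λ]

/-- The Efron-Stein component. -/
noncomputable def fockbE (T : Finset J) (ζ : (J → Λ) → M) (ω : J → Λ) : M :=
  ∑ u, fockbK T ω u • ζ u

theorem fockbE_sum_eq (ζ : (J → Λ) → M) (ω : J → Λ) : ∑ T : Finset J, fockbE T ζ ω = ζ ω := by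
  unfold fockbE
  rw [Finset.sum_comm]
  simp only [← Finset.sum_smul, fockbK_sum]
  simp

theorem fockbE_sum {ι : Type*} (s : Finset ι) (T : Finset J) (ζ : ι → (J → Λ) → M) (ω : J → Λ) :
    fockbE T (fun u => ∑ i ∈ s, ζ i u) ω = ∑ i ∈ s, fockbE T (ζ i) ω := by
  unfold fockbE
  simp only [Finset.smul_sum]
  exact Finset.sum_comm

theorem fockbE_mul (T : Finset J) (y : M) (ζ : (J → Λ) → M) (ω : J → Λ) :
    fockbE T (fun u => y * ζ u) ω = y * fockbE T ζ ω := by
  unfold fockbE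
  simp only [Finset.mul_sum, mul_smul_comm]

theorem fockbE_E (T T' : Finset J) (ζ : (J → Λ) → M) (ω : J → Λ) :
    fockbE T (fockbE T' ζ) ω = if T = T' then fockbE T ζ ω else 0 := by
  unfold fockbE
  simp only [Finset.smul_sum, smul_smul]
  rw [Finset.sum_comm]
  simp only [← Finset.sum_smul, fockbK_mul]
  split_ifs <;> simp

theorem fockbE_adj (T : Finset J) (ζ η : (J → Λ) → M) :
    ∑ ω, star (fockbE T ζ ω) * η ω = ∑ ω, star (ζ ω) * fockbE T η ω := by
  unfold fockbE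
  simp only [star_sum, star_smul, star_trivial, Finset.sum_mul, Finset.mul_sum, smul_mul_assoc,
    mul_smul_comm]
  rw [Finset.sum_comm]
  simp only [fockbK_symm T]

theorem fockb_parseval (ζ η : (J → Λ) → M) :
    ∑ ω, star (ζ ω) * η ω = ∑ T : Finset J, ∑ ω, star (fockbE T ζ ω) * fockbE T η ω := by
  simp only [fockbE_adj, fockbE_E, if_true]
  rw [Finset.sum_comm]
  simp only [← Finset.mul_sum, fockbE_sum_eq]

theorem fockbE_dep (T : Finset J) (ζ : (J → Λ) → M) {ω₁ ω₂ : J → Λ} (h : ∀ j ∈ T, ω₁ j = ω₂ j) :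
    fockbE T ζ ω₁ = fockbE T ζ ω₂ := by
  unfold fockbE
  simp only [fockbK_dep T h]

theorem fockbE_kill {T S : Finset J} {ζ : (J → Λ) → M}
    (hζ : ∀ ω ω', (∀ j ∈ S, ω j = ω' j) → ζ ω = ζ ω') (hTS : S.card < T.card) (ω : J → Λ) :
    fockbE T ζ ω = 0 := by
  obtain ⟨j, hT, hS⟩ := Finset.exists_mem_notMem_of_card_lt_card hTS
  have h := fockb_swap S (fun u => fockbK T ω u • ζ u)
  have h2 : ∀ ω' u, ζ (S.piecewise ω' u) = ζ ω' := fun ω' u =>
    hζ _ _ fun i hi => Finset.piecewise_eq_of_mem _ _ _ hi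
  simp only [h2, ← Finset.sum_smul, fockbK_kill hT hS, zero_smul, Finset.sum_const_zero] at h
  rw [← Nat.cast_smul_eq_nsmul ℝ] at h
  exact (smul_eq_zero.1 h.symm).resolve_left (Nat.cast_ne_zero.2 Fintype.card_ne_zero)

/-- Multipliers. -/
noncomputable def fockbM (c : Finset J → M) (ζ : (J → Λ) → M) (ω : J → Λ) : M :=
  ∑ T, c T * fockbE T ζ ω

theorem fockbE_M (T : Finset J) (c : Finset J → M) (ζ : (J → Λ) → M) (ω : J → Λ) :
    fockbE T (fockbM c ζ) ω = c T * fockbE T ζ ω := by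
  unfold fockbM
  rw [fockbE_sum]
  simp only [fockbE_mul, fockbE_E]
  simp

theorem fockbM_form (c c' : Finset J → M) (ζ : (J → Λ) → M) :
    ∑ ω, star (fockbM c ζ ω) * fockbM c' ζ ω =
      ∑ T : Finset J, ∑ ω, star (fockbE T ζ ω) * (star (c T) * c' T) * fockbE T ζ ω := by
  rw [fockb_parseval]
  simp only [fockbE_M, star_mul, mul_assoc]

theorem fockbM_const (y : M) (ζ : (J → Λ) → M) (ω : J → Λ) :
    fockbM (fun _ => y) ζ ω = y * ζ ω := by
  unfold fockbM
  rw [← Finset.mul_sum, fockbE_sum_eq]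

theorem fockbM_M (c c' : Finset J → M) (ζ : (J → Λ) → M) :
    fockbM c (fockbM c' ζ) = fockbM (fun T => c T * c' T) ζ := by
  funext ω
  rw [fockbM]
  simp only [fockbE_M, ← mul_assoc]
  rfl

/-- Degree at most `n`. -/
def fockbDeg (n : ℕ) (ζ : (J → Λ) → M) : Prop := ∀ T : Finset J, n < T.card → ∀ ω, fockbE T ζ ω = 0

theorem fockbDeg_one : fockbDeg 0 (fun _ : J → Λ => (1 : M)) := fun T hT ω =>
  fockbE_kill (S := ∅) (fun _ _ _ => rfl) (by simpa using hT) ω

theorem fockbDeg_mul {A : Type*} [Fintype A] {D : (J → Λ) → M} {h : A → M} (hs : ∑ s, h s = 1)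
    {R : A → Finset J} {d : ℕ} (hR : ∀ s, (R s).card ≤ d)
    (hdep : ∀ s ω ω', (∀ j ∈ R s, ω j = ω' j) → h s * D ω = h s * D ω') {n : ℕ}
    {ζ : (J → Λ) → M} (hζ : fockbDeg n ζ) (y : M) :
    fockbDeg (n + d) (fun ω => D ω * y * ζ ω) := by
  intro T' hT' ω
  have e : (fun ω => D ω * y * ζ ω) =
      fun ω => ∑ s, ∑ T : Finset J, h s * D ω * y * fockbE T ζ ω := by
    funext ω
    simp only [← Finset.mul_sum, fockbE_sum_eq, ← Finset.sum_mul, hs, one_mul]
  rw [e, fockbE_sum]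
  refine Finset.sum_eq_zero fun s _ => ?_
  rw [fockbE_sum]
  refine Finset.sum_eq_zero fun T _ => ?_
  by_cases hT : n < T.card
  · simp only [hζ T hT, mul_zero]
    simp [fockbE]
  · refine fockbE_kill (S := R s ∪ T) (fun ω₁ ω₂ hω => ?_) ?_ ω
    · rw [hdep s ω₁ ω₂ fun j hj => hω j (Finset.mem_union_left _ hj),
        fockbE_dep T ζ fun j hj => hω j (Finset.mem_union_right _ hj)]
    · have := Finset.card_union_le (R s) T
      have := hR s
      omega

/-- Independence of a function of the coordinates in `S` and of a function of the others. -/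
theorem fockb_indep (S : Finset J) {F g : (J → Λ) → M}
    (hF : ∀ ω ω', (∀ j, j ∉ S → ω j = ω' j) → F ω = F ω')
    (hg : ∀ ω ω', (∀ j ∈ S, ω j = ω' j) → g ω = g ω') :
    (Fintype.card (J → Λ) : ℝ) • ∑ ω, star (F ω) * g ω * F ω =
      ∑ ω, star (F ω) * (∑ u, g u) * F ω := by
  have h := fockb_swap S (fun u => star (F u) * g u * F u)
  have h1 : ∀ ω u, F (S.piecewise ω u) = F u := fun ω u =>
    hF _ _ fun i hi => Finset.piecewise_eq_of_notMem _ _ _ hi
  have h2 : ∀ ω u, g (S.piecewise ω u) = g ω := fun ω u =>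
    hg _ _ fun i hi => Finset.piecewise_eq_of_mem _ _ _ hi
  simp only [h1, h2] at h
  rw [Nat.cast_smul_eq_nsmul, ← h, Finset.sum_comm]
  simp only [Finset.mul_sum, Finset.sum_mul]

variable [PartialOrder M] [StarOrderedRing M]

theorem fockbM_le {c : Finset J → M} {ζ : (J → Λ) → M} {Y : M}
    (hc : ∀ T, (∀ ω, fockbE T ζ ω = 0) ∨ star (c T) * c T ≤ Y) :
    ∑ ω, star (fockbM c ζ ω) * fockbM c ζ ω ≤ ∑ ω, star (ζ ω) * Y * ζ ω := by
  have h := fockb_parseval ζ (fun ω => Y * ζ ω)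
  simp only [fockbE_mul, ← mul_assoc] at h
  rw [fockbM_form, h]
  refine Finset.sum_le_sum fun T _ => Finset.sum_le_sum fun ω _ => ?_
  rcases hc T with h0 | h0
  · simp [h0 ω]
  · exact star_left_conjugate_le_conjugate h0 _

section norm

variable (θ : M →ₚ[ℂ] ℂ) {Ω : Type*} [Fintype Ω]

/-- The seminorm on functions. -/
noncomputable def fockbN (ζ : Ω → M) : ℝ := √(∑ ω, n2 θ (ζ ω) ^ 2)

theorem fockbN_nonneg (ζ : Ω → M) : 0 ≤ fockbN θ ζ := Real.sqrt_nonneg _

theorem fockbN_sq (ζ : Ω → M) : fockbN θ ζ ^ 2 = (θ (∑ ω, star (ζ ω) * ζ ω)).re := by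
  rw [fockbN, Real.sq_sqrt (Finset.sum_nonneg fun _ _ => sq_nonneg _), map_sum, Complex.re_sum]
  simp only [n2_sq]

theorem fockbN_cs (ζ η : Ω → M) :
    (θ (∑ ω, star (ζ ω) * η ω)).re ≤ fockbN θ ζ * fockbN θ η := by
  rw [map_sum, Complex.re_sum]
  refine le_trans (Finset.sum_le_sum fun ω _ => ?_) (Real.sum_mul_le_sqrt_mul_sqrt _ _ _)
  exact (Complex.re_le_norm _).trans (pos_cs θ _ _)

theorem fockbN_add_le (ζ η : Ω → M) :
    fockbN θ (fun ω => ζ ω + η ω) ≤ fockbN θ ζ + fockbN θ η := by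
  have h0 : ∀ ξ : Ω → M, fockbN θ ξ ^ 2 = ∑ ω, n2 θ (ξ ω) ^ 2 := fun ξ =>
    Real.sq_sqrt (Finset.sum_nonneg fun _ _ => sq_nonneg _)
  refine Real.sqrt_le_iff.2 ⟨add_nonneg (fockbN_nonneg θ _) (fockbN_nonneg θ _), ?_⟩
  have h1 : ∑ ω, n2 θ (ζ ω) * n2 θ (η ω) ≤ fockbN θ ζ * fockbN θ η :=
    Real.sum_mul_le_sqrt_mul_sqrt _ _ _
  calc ∑ ω, n2 θ (ζ ω + η ω) ^ 2
      ≤ ∑ ω, (n2 θ (ζ ω) ^ 2 + 2 * (n2 θ (ζ ω) * n2 θ (η ω)) + n2 θ (η ω) ^ 2) := by
        refine Finset.sum_le_sum fun ω _ => ?_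
        have := pow_le_pow_left₀ (n2_nonneg θ _) (n2_add_le θ (ζ ω) (η ω)) 2
        linarith [add_sq (n2 θ (ζ ω)) (n2 θ (η ω))]
    _ ≤ _ := by
        rw [Finset.sum_add_distrib, Finset.sum_add_distrib, ← Finset.mul_sum, ← h0, ← h0]
        nlinarith

theorem fockbN_mul_le {y : Ω → M} (hy : ∀ ω, ‖y ω‖ ≤ 1) (ζ : Ω → M) :
    fockbN θ (fun ω => y ω * ζ ω) ≤ fockbN θ ζ := by
  refine Real.sqrt_le_sqrt (Finset.sum_le_sum fun ω _ => ?_)
  refine pow_le_pow_left₀ (n2_nonneg θ _) ((n2_mul_le θ _ _).trans ?_) 2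
  exact mul_le_of_le_one_left (n2_nonneg θ _) (hy ω)

end norm

theorem fockbN_M_le (θ : M →ₚ[ℂ] ℂ) {c : Finset J → M} (hc : ∀ T, ‖c T‖ ≤ 1) (ζ : (J → Λ) → M) :
    fockbN θ (fockbM c ζ) ≤ fockbN θ ζ := by
  refine (pow_le_pow_iff_left₀ (fockbN_nonneg θ _) (fockbN_nonneg θ _) two_ne_zero).1 ?_
  rw [fockbN_sq, fockbN_sq]
  refine pos_re_mono θ ((fockbM_le (Y := 1) fun T => Or.inr ?_).trans (by simp))
  refine CStarAlgebra.star_mul_le_algebraMap_norm_sq.trans ?_
  rw [← map_one (algebraMap ℝ M)]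
  exact algebraMap_mono M (pow_le_one₀ (norm_nonneg _) (hc T))

end Crest.Agent.R109
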