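import Crest.Agent.R109.Barrier

/-! Row 109, finite part: Gårding's argument. -/

set_option autoImplicit false

open scoped ComplexConjugate
open Polynomial

namespace Crest.Agent.R109

variable {α : Type*} [DecidableEq α] {𝒦 : Type*} [Fintype 𝒦] [DecidableEq 𝒦]

theorem garding_pos {y : 𝒦 → α → α → ℂ} (hy : Herm y) (hm : 4 ≤ Fintype.card 𝒦) {U : Finset α}
    (hb : ∀ k, Bnd 1 (y k) U) (X : α → ℝ) (t : ℝ) (ht : 0 < t)
    (hX : ∀ u ∈ U, 4 / √(Fintype.card 𝒦 : ℝ) * t ≤ X u) :
    0 < (pH y (fun _ _ => (Fintype.card 𝒦 : ℝ)⁻¹) U (fun u => X u) t).re := by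
  have h1 := barrier hy hm hb (fun u => X u / t) (fun u hu => by
    rw [le_div_iff₀ ht]; exact hX u hu)
  have h2 := pH_homog y (fun _ _ => (Fintype.card 𝒦 : ℝ)⁻¹) U (fun u => ((X u / t : ℝ) : ℂ)) 1 t
  have ht' : (t : ℂ) ≠ 0 := by exact_mod_cast ht.ne'
  have h3 : (fun u => (t : ℂ) * ((X u / t : ℝ) : ℂ)) = fun u => (X u : ℂ) := by
    funext u
    push_cast
    field_simp
  rw [h3, mul_one] at h2
  rw [h2, ← Complex.ofReal_pow, Complex.re_ofReal_mul]
  exact mul_pos (pow_pos ht _) h1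

/-- `t > 0`: `pH_homog` and `barrier`; `t < 0`: apply this to `-y` (`pH_smul`); `t = 0`: `pH_zero`. -/
theorem barrier_real {y : 𝒦 → α → α → ℂ} (hy : Herm y) (hm : 4 ≤ Fintype.card 𝒦) {U : Finset α}
    (hb : ∀ k, Bnd 1 (y k) U) (X : α → ℝ) (t : ℝ) (hX0 : ∀ u ∈ U, 0 < X u)
    (hX : ∀ u ∈ U, 4 / √(Fintype.card 𝒦 : ℝ) * |t| ≤ X u) :
    0 < (pH y (fun _ _ => (Fintype.card 𝒦 : ℝ)⁻¹) U (fun u => X u) t).re := by
  rcases lt_trichotomy t 0 with ht | rfl | ht
  · have hy' : Herm (fun k a b => (-1 : ℂ) * y k a b) :=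
      ⟨fun k a b => by rw [hy.symm k a b]; simp, fun k a => by rw [hy.diag, mul_zero]⟩
    have hb' : ∀ k, Bnd 1 (fun a b => (-1 : ℂ) * y k a b) U := by
      intro k ξ
      refine le_trans (le_of_eq ?_) (hb k ξ)
      refine Finset.sum_congr rfl fun a _ => ?_
      simp only [neg_mul, one_mul, Finset.sum_neg_distrib, norm_neg]
    have h1 := garding_pos hy' hm hb' X (-t) (by linarith) (fun u hu => by
      have := hX u hu
      rwa [abs_of_neg ht] at this)
    rw [pH_smul] at h1
    simpa using h1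
  · rw [Complex.ofReal_zero, pH_zero, ← Complex.ofReal_prod, Complex.ofReal_re]
    exact Finset.prod_pos hX0
  · exact garding_pos hy hm hb X t ht (fun u hu => by
      have := hX u hu
      rwa [abs_of_pos ht] at this)

/-- Continuity of roots, in the form needed: a family of polynomials of degree `≤ n` with constant
nonzero coefficient of `X^n`, continuous coefficients and no real roots.  The set of `λ ∈ [0,1]`
without roots in the upper half-plane is closed (`eval_ne_zero_of_tendsto`) and open (roots are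
bounded uniformly, e.g. Cauchy's bound `Polynomial.IsRoot.norm_lt_cauchyBound` or a direct
estimate; compactness of `{im ≥ 0} ∩ closedBall`); `[0,1]` is connected. -/
theorem roots_homotopy {n : ℕ} (G : ℝ → ℂ[X]) (hn : ∀ l, (G l).natDegree ≤ n) {c : ℂ}
    (hc : c ≠ 0) (hl : ∀ l, (G l).coeff n = c) (hcont : ∀ j, Continuous fun l => (G l).coeff j)
    (hreal : ∀ l, ∀ τ : ℝ, (G l).eval (τ : ℂ) ≠ 0) (h0 : ∀ τ : ℂ, 0 < τ.im → (G 0).eval τ ≠ 0) :
    ∀ τ : ℂ, 0 < τ.im → (G 1).eval τ ≠ 0 := by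
  have hev : ∀ l τ, (G l).eval τ = ∑ j ∈ Finset.range (n + 1), (G l).coeff j * τ ^ j :=
    fun l τ => eval_eq_sum_range' (Nat.lt_succ_of_le (hn l)) τ
  have hc2 : Continuous fun z : ℝ × ℂ => (G z.1).eval z.2 := by
    simp only [hev]
    exact continuous_finsetSum _ fun j _ =>
      ((hcont j).comp continuous_fst).mul (continuous_snd.pow j)
  set A : Set ℝ := {l | ∀ τ : ℂ, 0 < τ.im → (G l).eval τ ≠ 0} with hA
  have hclosed : IsClosed A := by
    rw [← closure_subset_iff_isClosed]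
    intro l₀ hl₀ τ hτ
    have : (nhdsWithin l₀ A).NeBot := mem_closure_iff_nhdsWithin_neBot.1 hl₀
    refine eval_ne_zero_of_tendsto (l := nhdsWithin l₀ A) (f := G) (n := n) hn
      self_mem_nhdsWithin ((hcont n).tendsto l₀ |>.mono_left nhdsWithin_le_nhds)
      (by rw [hl]; exact hc) hτ ?_
    exact ((hc2.comp (continuous_id.prodMk continuous_const)).tendsto l₀).mono_left
      nhdsWithin_le_nhds
  have hc0 : 0 < ‖c‖ := norm_pos_iff.2 hc
  set S : ℝ → ℝ := fun l => ∑ j ∈ Finset.range n, ‖(G l).coeff j‖ with hS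
  have hSc : Continuous S := continuous_finsetSum _ fun j _ => (hcont j).norm
  have hS0 : ∀ l, 0 ≤ S l := fun l => Finset.sum_nonneg fun j _ => norm_nonneg _
  have hbd : ∀ l τ, (G l).eval τ = 0 → ‖τ‖ ≤ 1 + S l / ‖c‖ := by
    intro l τ h
    by_cases h1 : ‖τ‖ ≤ 1
    · have := div_nonneg (hS0 l) hc0.le
      linarith
    push Not at h1
    rw [hev, Finset.sum_range_succ, hl] at h
    have h2 : c * τ ^ n = -∑ j ∈ Finset.range n, (G l).coeff j * τ ^ j := by
      linear_combination h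
    have h3 : ‖c‖ * ‖τ‖ ^ n ≤ ∑ j ∈ Finset.range n, ‖(G l).coeff j‖ * ‖τ‖ ^ j := by
      rw [← norm_pow, ← norm_mul, h2, norm_neg]
      refine (norm_sum_le _ _).trans (le_of_eq ?_)
      simp only [norm_mul, norm_pow]
    have h4 : (∑ j ∈ Finset.range n, ‖(G l).coeff j‖ * ‖τ‖ ^ j) * ‖τ‖ ≤ S l * ‖τ‖ ^ n := by
      rw [hS, Finset.sum_mul, Finset.sum_mul]
      refine Finset.sum_le_sum fun j hj => ?_
      rw [mul_assoc, ← pow_succ]
      exact mul_le_mul_of_nonneg_left (pow_le_pow_right₀ h1.le (Finset.mem_range.1 hj))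
        (norm_nonneg _)
    have h5 : 0 < ‖τ‖ ^ n := by positivity
    have h6 : ‖c‖ * ‖τ‖ * ‖τ‖ ^ n ≤ S l * ‖τ‖ ^ n := by
      have := mul_le_mul_of_nonneg_right h3 (norm_nonneg τ)
      nlinarith
    have h7 := le_of_mul_le_mul_right h6 h5
    have h8 : ‖τ‖ ≤ S l / ‖c‖ := by
      rw [le_div_iff₀ hc0]; linarith
    linarith
  have hopen : IsOpen A := by
    rw [isOpen_iff_mem_nhds]
    intro l₀ hl₀
    have hK : IsCompact ({τ : ℂ | 0 ≤ τ.im} ∩ Metric.closedBall 0 (1 + (S l₀ + 1) / ‖c‖)) :=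
      (isCompact_closedBall _ _).inter_left (isClosed_le continuous_const Complex.continuous_im)
    have h1 := hK.eventually_forall_of_forall_eventually (x₀ := l₀)
      (P := fun l τ => (G l).eval τ ≠ 0) (fun τ hτ => by
        refine (hc2.continuousAt (x := (l₀, τ))).eventually_ne ?_
        rcases (show 0 ≤ τ.im from hτ.1).lt_or_eq with h | h
        · exact hl₀ τ h
        · have : τ = (τ.re : ℂ) := Complex.ext (by simp) (by simp [← h])
          rw [this]
          exact hreal l₀ τ.re)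
    have h2 : ∀ᶠ l in nhds l₀, S l < S l₀ + 1 :=
      (hSc.tendsto l₀).eventually_lt_const (lt_add_one _)
    filter_upwards [h1, h2] with l h3 h4 τ hτ h5
    refine h3 τ ⟨hτ.le, ?_⟩ h5
    rw [mem_closedBall_zero_iff]
    refine (hbd l τ h5).trans ?_
    gcongr
  have hall : A = Set.univ := (IsClopen.eq_univ ⟨hclosed, hopen⟩ ⟨0, h0⟩)
  have h1 : (1 : ℝ) ∈ A := hall ▸ Set.mem_univ _
  exact h1

/-- the restriction of `pH` to a complex line, as a polynomial -/
noncomputable def gardingPoly (y : 𝒦 → α → α → ℂ) (π : α → 𝒦 → ℝ) (U : Finset α) (p q : α → ℂ)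
    (r s : ℂ) : ℂ[X] :=
  ∑ T ∈ U.powerset, C (cT y π T) * (C r * X + C s) ^ T.card * ∏ u ∈ U \ T, (C (p u) * X + C (q u))

theorem gardingPoly_eval (y : 𝒦 → α → α → ℂ) (π : α → 𝒦 → ℝ) (U : Finset α) (p q : α → ℂ)
    (r s τ : ℂ) :
    (gardingPoly y π U p q r s).eval τ = pH y π U (fun u => p u * τ + q u) (r * τ + s) := by
  simp [gardingPoly, pH, eval_finsetSum, eval_prod]

theorem garding_deg1 (a b : ℂ) : (C a * X + C b : ℂ[X]).natDegree ≤ 1 := natDegree_linear_le

theorem garding_deg_pow (a b : ℂ) (k : ℕ) : ((C a * X + C b : ℂ[X]) ^ k).natDegree ≤ k :=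
  natDegree_pow_le.trans (by
    have := garding_deg1 a b
    nlinarith)

omit [DecidableEq α] in
theorem garding_deg_prod (S : Finset α) (p q : α → ℂ) :
    (∏ u ∈ S, (C (p u) * X + C (q u)) : ℂ[X]).natDegree ≤ S.card := by
  refine (natDegree_prod_le _ _).trans ?_
  refine (Finset.sum_le_card_nsmul _ _ 1 fun u _ => garding_deg1 _ _).trans ?_
  simp

theorem gardingPoly_natDegree (y : 𝒦 → α → α → ℂ) (π : α → 𝒦 → ℝ) (U : Finset α) (p q : α → ℂ)
    (r s : ℂ) : (gardingPoly y π U p q r s).natDegree ≤ U.card := by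
  refine natDegree_sum_le_of_forall_le _ _ fun T hT => ?_
  have h1 := Finset.card_sdiff_add_card_eq_card (Finset.mem_powerset.1 hT)
  rw [mul_assoc]
  refine (natDegree_C_mul_le _ _).trans (natDegree_mul_le.trans ?_)
  have h2 := garding_deg_pow r s T.card
  have h3 := garding_deg_prod (U \ T) p q
  omega

theorem gardingPoly_coeff (y : 𝒦 → α → α → ℂ) (π : α → 𝒦 → ℝ) (U : Finset α) (p q : α → ℂ)
    (r s : ℂ) : (gardingPoly y π U p q r s).coeff U.card = pH y π U p r := by
  unfold gardingPoly pH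
  rw [finsetSum_coeff]
  refine Finset.sum_congr rfl fun T hT => ?_
  have h1 := Finset.card_sdiff_add_card_eq_card (Finset.mem_powerset.1 hT)
  rw [mul_assoc, coeff_C_mul, ← h1, add_comm (U \ T).card,
    coeff_mul_add_eq_of_natDegree_le (garding_deg_pow r s T.card) (garding_deg_prod (U \ T) p q),
    mul_assoc]
  congr 2
  · have := coeff_pow_of_natDegree_le (m := T.card) (garding_deg1 r s)
    rw [mul_one] at this
    rw [this]
    simp
  · have := coeff_prod_of_natDegree_le (s := U \ T) (fun u => (C (p u) * X + C (q u) : ℂ[X])) 1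
      (fun u _ => garding_deg1 _ _)
    rw [mul_one] at this
    rw [this]
    simp

/-- families of polynomials with continuous coefficients -/
def GardingCC (G : ℝ → ℂ[X]) : Prop := ∀ j, Continuous fun l => (G l).coeff j

theorem GardingCC.const (f : ℂ[X]) : GardingCC fun _ => f := fun _ => continuous_const

theorem GardingCC.mul {F G : ℝ → ℂ[X]} (hF : GardingCC F) (hG : GardingCC G) :
    GardingCC fun l => F l * G l := by
  intro j
  simp only [coeff_mul]
  exact continuous_finsetSum _ fun z _ => (hF z.1).mul (hG z.2)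

theorem GardingCC.lin (a : ℂ) {b : ℝ → ℂ} (hb : Continuous b) :
    GardingCC fun l => C a * X + C (b l) := by
  intro j
  simp only [coeff_add, coeff_C]
  refine continuous_const.add ?_
  split_ifs
  · exact hb
  · exact continuous_const

theorem GardingCC.pow {F : ℝ → ℂ[X]} (hF : GardingCC F) (k : ℕ) : GardingCC fun l => F l ^ k := by
  induction k with
  | zero => simpa using GardingCC.const 1
  | succ k ih => simpa only [pow_succ] using ih.mul hF

theorem GardingCC.prod (S : Finset α) {F : α → ℝ → ℂ[X]} (hF : ∀ u, GardingCC (F u)) :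
    GardingCC fun l => ∏ u ∈ S, F u l := by
  induction S using Finset.induction_on with
  | empty => simpa using GardingCC.const 1
  | insert u S hu ih => simpa only [Finset.prod_insert hu] using (hF u).mul ih

theorem gardingPoly_cc (y : 𝒦 → α → α → ℂ) (π : α → 𝒦 → ℝ) (U : Finset α) (p : α → ℂ)
    {q : ℝ → α → ℂ} (hq : ∀ u, Continuous fun l => q l u) (r : ℂ) {s : ℝ → ℂ}
    (hs : Continuous s) : GardingCC fun l => gardingPoly y π U p (q l) r (s l) := by
  intro j
  unfold gardingPoly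
  simp only [finsetSum_coeff]
  exact continuous_finsetSum _ fun T _ =>
    (((GardingCC.const _).mul ((GardingCC.lin r hs).pow _)).mul
      (GardingCC.prod (U \ T) (F := fun u l => C (p u) * X + C (q l u))
        fun u => GardingCC.lin (p u) (hq u))) j

/-- Write `P = pH`, `a = (X, t) = (re Z, re κ)`, `b = -(im Z, im κ)`, `e = (1, 0)`.  The monic
polynomial `s ↦ P (s e + a)` has only negative real roots (`pH_ne_zero_of_im`, `pH_conj`,
`barrier_real`).  For `ε > 0` let `G_l(τ) = P (i ε e + τ a + l b)`: degree `≤ |U|`, top coefficient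
`P a ≠ 0`, no real roots (`pH_ne_zero_of_im`), and for `l = 0`, `G_0(τ) = τ^n P ((i ε / τ) e + a)`
vanishes only if `i ε / τ < 0`, i.e. `im τ < 0`.  So `G_1` has no root in the upper half-plane; let
`ε → 0` (`eval_ne_zero_of_tendsto`): `P (i a + b) ≠ 0`, and `(Z, κ) = -i (i a + b)`. -/
theorem garding {y : 𝒦 → α → α → ℂ} (hy : Herm y) (hm : 4 ≤ Fintype.card 𝒦) {U : Finset α}
    (hb : ∀ k, Bnd 1 (y k) U) (Z : α → ℂ) (κ : ℂ) (hZ0 : ∀ u ∈ U, 0 < (Z u).re)
    (hZ : ∀ u ∈ U, 4 / √(Fintype.card 𝒦 : ℝ) * |κ.re| ≤ (Z u).re) :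
    pH y (fun _ _ => (Fintype.card 𝒦 : ℝ)⁻¹) U Z κ ≠ 0 := by
  set π : α → 𝒦 → ℝ := fun _ _ => (Fintype.card 𝒦 : ℝ)⁻¹ with hπ
  have hm0 : (0 : ℝ) < Fintype.card 𝒦 := by exact_mod_cast (by omega : 0 < Fintype.card 𝒦)
  have hsub : SubP π := fun v => ⟨fun k => by simp only [hπ]; positivity, by
    simp only [hπ, Finset.sum_const, Finset.card_univ, nsmul_eq_mul]
    rw [mul_inv_cancel₀ hm0.ne']⟩
  have htop : pH y π U (fun u => ((Z u).re : ℂ)) (κ.re : ℂ) ≠ 0 := by
    intro h
    have := barrier_real hy hm hb (fun u => (Z u).re) κ.re hZ0 hZ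
    rw [h] at this
    simp at this
  -- shifts by a number in the right half-plane
  have hshift : ∀ σ : ℂ, 0 < σ.re → pH y π U (fun u => ((Z u).re : ℂ) + σ) (κ.re : ℂ) ≠ 0 := by
    intro σ hσ
    rcases lt_trichotomy σ.im 0 with h | h | h
    · intro h0
      have h1 := pH_conj hy π U (fun u => ((Z u).re : ℂ) + σ) (κ.re : ℂ)
      rw [h0, map_zero, Complex.conj_ofReal] at h1
      exact pH_ne_zero_of_im hy U hsub κ.re _ (fun u _ => by simpa using h) h1.symm
    · intro h0
      have h1 := barrier_real hy hm hb (fun u => (Z u).re + σ.re) κ.re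
        (fun u hu => by linarith [hZ0 u hu]) (fun u hu => by linarith [hZ u hu])
      have h2 : (fun u => (((Z u).re + σ.re : ℝ) : ℂ)) = fun u => ((Z u).re : ℂ) + σ := by
        funext u
        exact Complex.ext (by simp) (by simp [h])
      rw [h2, h0] at h1
      simp at h1
    · exact pH_ne_zero_of_im hy U hsub κ.re _ (fun u _ => by simpa using h)
  set G : ℝ → ℝ → ℂ[X] := fun ε l => gardingPoly y π U (fun u => ((Z u).re : ℂ))
    (fun u => (ε : ℂ) * Complex.I - (l : ℂ) * ((Z u).im : ℂ)) (κ.re : ℂ) (-((l : ℂ) * (κ.im : ℂ)))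
    with hG
  have h1 : ∀ ε : ℝ, 0 < ε → ∀ τ : ℂ, 0 < τ.im → (G ε 1).eval τ ≠ 0 := by
    intro ε hε
    refine roots_homotopy (G ε) (fun l => gardingPoly_natDegree _ _ _ _ _ _ _) htop
      (fun l => gardingPoly_coeff _ _ _ _ _ _ _)
      (gardingPoly_cc y π U _ (fun u => by fun_prop) _ (by fun_prop)) (fun l τ => ?_)
      (fun τ hτ => ?_)
    · simp only [hG]
      rw [gardingPoly_eval]
      have h2 : (κ.re : ℂ) * τ + -((l : ℂ) * (κ.im : ℂ)) = ((κ.re * τ - l * κ.im : ℝ) : ℂ) := by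
        push_cast; ring
      rw [h2]
      exact pH_ne_zero_of_im hy U hsub _ _ (fun u _ => by simpa using hε)
    · simp only [hG]
      rw [gardingPoly_eval]
      have hτ0 : τ ≠ 0 := by
        rintro rfl
        simp at hτ
      have h2 := pH_homog y π U (fun u => ((Z u).re : ℂ) + (ε : ℂ) * Complex.I / τ) (κ.re : ℂ) τ
      have h3 : (fun u => ((Z u).re : ℂ) * τ +
          ((ε : ℂ) * Complex.I - ((0 : ℝ) : ℂ) * ((Z u).im : ℂ))) =
          fun u => τ * (((Z u).re : ℂ) + (ε : ℂ) * Complex.I / τ) := by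
        funext u
        push_cast
        field_simp
        ring
      have h4 : (κ.re : ℂ) * τ + -(((0 : ℝ) : ℂ) * (κ.im : ℂ)) = τ * κ.re := by
        push_cast; ring
      rw [h3, h4, h2]
      refine mul_ne_zero (pow_ne_zero _ hτ0) (hshift _ ?_)
      have h5 : 0 < Complex.normSq τ := Complex.normSq_pos.2 hτ0
      rw [Complex.div_re]
      simp only [Complex.mul_re, Complex.ofReal_re, Complex.I_re, mul_zero, Complex.ofReal_im,
        Complex.I_im, mul_one, sub_self, zero_mul, zero_div, Complex.mul_im, add_zero, zero_add]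
      positivity
  have h2 : (G 0 1).eval Complex.I ≠ 0 := by
    refine eval_ne_zero_of_tendsto (l := nhdsWithin (0 : ℝ) (Set.Ioi 0)) (f := fun ε => G ε 1)
      (n := U.card) (fun ε => gardingPoly_natDegree _ _ _ _ _ _ _) ?_ ?_ ?_ (by simp) ?_
    · filter_upwards [self_mem_nhdsWithin] with ε hε using h1 ε hε
    · simp only [hG, gardingPoly_coeff]
      exact tendsto_const_nhds
    · simp only [hG, gardingPoly_coeff]
      exact htop
    · have h3 : Continuous fun ε : ℝ => (G ε 1).eval Complex.I := by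
        simp only [hG, gardingPoly_eval]
        exact (pH_continuous y π U).comp (f := fun ε : ℝ => ((fun u => ((Z u).re : ℂ) * Complex.I +
          ((ε : ℂ) * Complex.I - ((1 : ℝ) : ℂ) * ((Z u).im : ℂ))),
          (κ.re : ℂ) * Complex.I + -(((1 : ℝ) : ℂ) * (κ.im : ℂ)))) (by fun_prop)
      exact (h3.tendsto 0).mono_left nhdsWithin_le_nhds
  simp only [hG] at h2
  rw [gardingPoly_eval] at h2
  have h3 : (fun u => ((Z u).re : ℂ) * Complex.I +
      (((0 : ℝ) : ℂ) * Complex.I - ((1 : ℝ) : ℂ) * ((Z u).im : ℂ))) = fun u => Complex.I * Z u := by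
    funext u
    exact Complex.ext (by simp) (by simp)
  have h4 : (κ.re : ℂ) * Complex.I + -(((1 : ℝ) : ℂ) * (κ.im : ℂ)) = Complex.I * κ :=
    Complex.ext (by simp) (by simp)
  rw [h3, h4, pH_homog] at h2
  exact right_ne_zero_of_mul h2

end Crest.Agent.R109
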