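import Crest.Agent.R109.WProj

/-! Row 109: the spectrum of a maximal abelian subalgebra. -/

set_option autoImplicit false

open scoped ComplexOrder InnerProductSpace ComplexConjugate
open Filter Topology MeasureTheory

namespace Crest.Agent.R109

universe u

/-- `A` is closed (its elements are those commuting with `A`) and commutative; take
`X = characterSpace ℂ A` and `Φ = subtype ∘ (gelfandStarTransform A).symm`. -/
theorem exists_gel {M : Type u} [CStarAlgebra M] {A : StarSubalgebra ℂ M} (hA : Masa A) :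
    ∃ (X : Type u) (_ : TopologicalSpace X) (_ : CompactSpace X) (_ : T2Space X) (Γ : Gel M X),
      Set.range Γ.Φ = (A : Set M) := by
  have hcl : IsClosed (A : Set M) := by
    have : (A : Set M) = ⋂ a ∈ A, {y | a * y = y * a} := by
      ext y
      simp only [SetLike.mem_coe, Set.mem_iInter, Set.mem_ofPred_eq]
      exact ⟨fun hy a ha => hA.comm a ha y hy, hA.max y⟩
    rw [this]
    exact isClosed_biInter fun a _ => isClosed_eq (by fun_prop) (by fun_prop)
  let : CommCStarAlgebra A :=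
    { (inferInstance : CStarAlgebra A) with
      mul_comm := fun a b => Subtype.ext (hA.comm a a.2 b b.2) }
  let Φ : C(WeakDual.characterSpace ℂ A, ℂ) →⋆ₐ[ℂ] M :=
    A.subtype.comp ((gelfandStarTransform A).symm : C(WeakDual.characterSpace ℂ A, ℂ) →⋆ₐ[ℂ] A)
  have hr : Set.range Φ = (A : Set M) := by
    ext y
    constructor
    · rintro ⟨f, rfl⟩
      exact ((gelfandStarTransform A).symm f).2
    · intro hy
      exact ⟨gelfandStarTransform A ⟨y, hy⟩, by simp [Φ]⟩
  refine ⟨WeakDual.characterSpace ℂ A, inferInstance, inferInstance, inferInstance,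
    ⟨Φ, Subtype.val_injective.comp (gelfandStarTransform A).symm.injective, fun y hy => ?_⟩, hr⟩
  have : y ∈ Set.range Φ := by
    rw [hr]
    refine hA.max y fun a ha => ?_
    obtain ⟨f, rfl⟩ : a ∈ Set.range Φ := hr ▸ ha
    exact hy f
  exact this

section ind

variable {X : Type*} [TopologicalSpace X] {V V' : Set X}

theorem ind_apply (h : IsClopen V) (t : X) : ind V t = V.indicator 1 t := by
  rw [ind, dif_pos h]; rfl

theorem ind_of_mem (h : IsClopen V) {t : X} (ht : t ∈ V) : ind V t = 1 := by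
  rw [ind_apply h, Set.indicator_of_mem ht]; rfl

theorem ind_of_notMem {t : X} (ht : t ∉ V) : ind V t = 0 := by
  by_cases h : IsClopen V
  · rw [ind_apply h, Set.indicator_of_notMem ht]
  · rw [ind, dif_neg h]; rfl

theorem ind_mul (h : IsClopen V) (h' : IsClopen V') : ind V * ind V' = ind (V ∩ V') := by
  ext t
  rw [ContinuousMap.mul_apply, ind_apply h, ind_apply h', ind_apply (h.inter h'),
    Set.inter_indicator_one]
  rfl

theorem ind_univ : ind (Set.univ : Set X) = 1 := by
  ext t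
  exact ind_of_mem isClopen_univ (Set.mem_univ t)

theorem ind_empty : ind (∅ : Set X) = 0 := by
  ext t
  exact ind_of_notMem (Set.notMem_empty t)

theorem ind_compl (h : IsClopen V) : ind Vᶜ = 1 - ind V := by
  ext t
  by_cases ht : t ∈ V
  · simp [ind_of_mem h ht, ind_of_notMem (show t ∉ Vᶜ from fun h => h ht)]
  · simp [ind_of_notMem ht, ind_of_mem h.compl (show t ∈ Vᶜ from ht)]

theorem star_ind (V : Set X) : star (ind V) = ind V := by
  by_cases h : IsClopen V
  · ext t
    by_cases ht : t ∈ V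
    · simp [ind_of_mem h ht]
    · simp [ind_of_notMem ht]
  · rw [ind, dif_neg h, star_zero]

theorem ind_comp {Y : Type*} [TopologicalSpace Y] (h : IsClopen V) (s : C(Y, X)) :
    (ind V).comp s = ind (s ⁻¹' V) := by
  ext t
  rw [ContinuousMap.comp_apply, ind_apply h, ind_apply (h.preimage s.continuous)]
  rfl

theorem gel_rel_of_le {P P' : DiscreteQuotient X} (h : P ≤ P') {t t' : X}
    (e : P.proj t = P.proj t') : P'.toSetoid t t' :=
  h (Quotient.eq''.1 e)

theorem gel_ind_fiber {γ : Type*} [DecidableEq γ] {c : X → γ} (hc : ∀ a, IsClopen (c ⁻¹' {a}))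
    (a : γ) (t : X) : ind (c ⁻¹' {a}) t = if c t = a then 1 else 0 := by
  split_ifs with h
  · exact ind_of_mem (hc a) h
  · exact ind_of_notMem h

/-- Continuous functions are nearly constant on the atoms of fine partitions. -/
theorem exists_part_osc [CompactSpace X] [T2Space X] [TotallyDisconnectedSpace X] (f : C(X, ℂ))
    {ε : ℝ} (hε : 0 < ε) : ∃ P₀ : DiscreteQuotient X, ∀ P ≤ P₀, ∀ t t',
      P.proj t = P.proj t' → ‖f t - f t'‖ ≤ ε := by
  choose V hV h1 h2 using fun t : X => compact_exists_isClopen_in_isOpen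
    (U := f ⁻¹' Metric.ball (f t) (ε / 2)) (x := t) (Metric.isOpen_ball.preimage f.continuous)
    (Metric.mem_ball_self (half_pos hε))
  obtain ⟨T, hT⟩ := isCompact_univ.elim_finite_subcover V (fun t => (hV t).isOpen)
    fun t _ => Set.mem_iUnion.2 ⟨t, h1 t⟩
  refine ⟨T.inf fun u => DiscreteQuotient.ofIsClopen (hV u), fun P hP t t' e => ?_⟩
  obtain ⟨u, hu, ht⟩ := Set.mem_iUnion₂.1 (hT (Set.mem_univ t))
  have ht' : t' ∈ V u := (gel_rel_of_le (hP.trans (Finset.inf_le hu)) e).1 ht
  have a1 := Metric.mem_ball.1 (h2 u ht)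
  have a2 := Metric.mem_ball.1 (h2 u ht')
  rw [← dist_eq_norm]
  linarith [dist_triangle_right (f t) (f t') (f u)]

/-- The indicators of clopen sets span a dense subspace. -/
theorem ind_dense [CompactSpace X] [T2Space X] [TotallyDisconnectedSpace X] (P : C(X, ℂ) → Prop)
    (hc : IsClosed {f | P f}) (h0 : P 0) (ha : ∀ f g, P f → P g → P (f + g))
    (hs : ∀ (c : ℂ) f, P f → P (c • f)) (hi : ∀ V, IsClopen V → P (ind V)) (f : C(X, ℂ)) :
    P f := by
  refine hc.closure_subset (Metric.mem_closure_iff.2 fun ε hε => ?_)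
  obtain ⟨Q, hQ⟩ := exists_part_osc f (half_pos hε)
  refine ⟨∑ I : Q, f I.out • ind (Q.proj ⁻¹' {I}), ?_, ?_⟩
  · exact Finset.sum_induction _ P ha h0 fun I _ => hs _ _ (hi _ (Q.isClopen_preimage _))
  · refine lt_of_le_of_lt ((ContinuousMap.dist_le (half_pos hε).le).2 fun t => ?_)
      (half_lt_self hε)
    rw [dist_eq_norm, ContinuousMap.sum_apply]
    simp only [ContinuousMap.smul_apply, gel_ind_fiber fun I => Q.isClopen_preimage {I},
      smul_eq_mul, mul_ite, mul_one, mul_zero, Finset.sum_ite_eq, Finset.mem_univ, if_true]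
    exact hQ Q le_rfl _ _ (Quotient.out_eq' (Q.proj t)).symm

theorem atom_subset (h : IsClopen V) {P : DiscreteQuotient X}
    (hP : P ≤ DiscreteQuotient.ofIsClopen h) (I : P) :
    P.proj ⁻¹' {I} ⊆ V ∨ P.proj ⁻¹' {I} ⊆ Vᶜ := by
  obtain ⟨t, rfl⟩ := P.proj_surjective I
  by_cases ht : t ∈ V
  · exact Or.inl fun u hu => (gel_rel_of_le hP hu).2 ht
  · exact Or.inr fun u hu hu' => ht ((gel_rel_of_le hP hu).1 hu')

theorem fine_le (P₀ : DiscreteQuotient X) :
    ∀ᶠ P in (fine X : Filter (DiscreteQuotient X)), P ≤ P₀ := by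
  exact Ultrafilter.of_le atBot (eventually_le_atBot P₀)

end ind

variable {M H X : Type*} [CStarAlgebra M] [PartialOrder M] [StarOrderedRing M]
  [NormedAddCommGroup H] [InnerProductSpace ℂ H] [CompleteSpace H]
  [TopologicalSpace X] [CompactSpace X] [T2Space X]

section e

variable (Γ : Gel M X) {V V' : Set X}

omit [PartialOrder M] [StarOrderedRing M] [CompactSpace X] [T2Space X] in
theorem Gel.comm (f g : C(X, ℂ)) : Γ.Φ f * Γ.Φ g = Γ.Φ g * Γ.Φ f := by
  rw [← map_mul, ← map_mul, mul_comm]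

omit [PartialOrder M] [StarOrderedRing M] [T2Space X] in
theorem Gel.norm_map (f : C(X, ℂ)) : ‖Γ.Φ f‖ = ‖f‖ := by
  exact NonUnitalStarAlgHom.norm_map Γ.Φ Γ.inj f

omit [T2Space X] in
theorem Gel.nonneg_iff (f : C(X, ℂ)) : 0 ≤ Γ.Φ f ↔ ∀ t, 0 ≤ f t := by
  refine ⟨fun h => ?_, fun h => map_nonneg Γ.Φ (show 0 ≤ f from h)⟩
  have hf : IsSelfAdjoint f := Γ.inj (by rw [map_star, h.isSelfAdjoint.star_eq])
  have := (StarOrderedRing.nonneg_iff_spectrum_nonneg (R := ℝ) (Γ.Φ f) h.isSelfAdjoint).1 h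
  rw [hf.map_spectrum_real Γ.Φ Γ.inj] at this
  intro t
  have e : ((f t).re : ℂ) = f t := Complex.conj_eq_iff_re.1 (DFunLike.congr_fun hf t)
  rw [← e, Complex.zero_le_real]
  refine this _ (spectrum.mem_iff.2 fun hu => ?_)
  have := (ContinuousMap.isUnit_iff_forall_ne_zero _).1 hu t
  simp [Algebra.algebraMap_eq_smul_one, e] at this

omit [PartialOrder M] [StarOrderedRing M] [CompactSpace X] [T2Space X] in
theorem Gel.e_proj (V : Set X) : IsStarProjection (Γ.e V) := by
  refine IsStarProjection.map ⟨?_, star_ind V⟩ Γ.Φ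
  by_cases h : IsClopen V
  · exact (ind_mul h h).trans (by rw [Set.inter_self])
  · rw [ind, dif_neg h]; exact IsIdempotentElem.zero

omit [PartialOrder M] [StarOrderedRing M] [CompactSpace X] [T2Space X] in
theorem Gel.e_mul (h : IsClopen V) (h' : IsClopen V') : Γ.e V * Γ.e V' = Γ.e (V ∩ V') := by
  rw [Gel.e, Gel.e, ← map_mul, ind_mul h h', Gel.e]

omit [PartialOrder M] [StarOrderedRing M] [CompactSpace X] [T2Space X] in
theorem Gel.e_compl (h : IsClopen V) : Γ.e Vᶜ = 1 - Γ.e V := by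
  rw [Gel.e, Gel.e, ind_compl h, map_sub, map_one]

omit [T2Space X] in
theorem Gel.e_mono (h : IsClopen V) (h' : IsClopen V') (hV : V ⊆ V') : Γ.e V ≤ Γ.e V' := by
  rw [← sub_nonneg, Gel.e, Gel.e, ← map_sub, Γ.nonneg_iff]
  intro t
  rw [ContinuousMap.sub_apply]
  by_cases ht : t ∈ V
  · simp [ind_of_mem h ht, ind_of_mem h' (hV ht)]
  · by_cases ht' : t ∈ V'
    · simp [ind_of_notMem ht, ind_of_mem h' ht']
    · simp [ind_of_notMem ht, ind_of_notMem ht']

omit [PartialOrder M] [StarOrderedRing M] [CompactSpace X] [T2Space X] in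
/-- The projections of the subalgebra are the clopen sets. -/
theorem Gel.exists_clopen {p : M} (hp : IsStarProjection p) (hm : p ∈ Set.range Γ.Φ) :
    ∃ V, IsClopen V ∧ p = Γ.e V := by
  obtain ⟨f, rfl⟩ := hm
  have h1 : f * f = f := Γ.inj (by rw [map_mul]; exact hp.isIdempotentElem)
  have h2 : ∀ t, f t = 0 ∨ f t = 1 := fun t =>
    IsIdempotentElem.iff_eq_zero_or_one.1 (DFunLike.congr_fun h1 t)
  have h3 : IsClopen (f ⁻¹' {1}) := by
    refine ⟨isClosed_singleton.preimage f.continuous, ?_⟩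
    have : f ⁻¹' {1} = f ⁻¹' {0}ᶜ := by
      ext t
      rcases h2 t with h | h <;> simp [h]
    rw [this]
    exact isOpen_compl_singleton.preimage f.continuous
  refine ⟨_, h3, congrArg Γ.Φ ?_⟩
  ext t
  rcases h2 t with h | h
  · rw [h, ind_of_notMem (by simp [h])]
  · rw [h, ind_of_mem h3 h]

omit [PartialOrder M] [StarOrderedRing M] [CompactSpace X] [T2Space X] in
theorem Gel.e_empty : Γ.e ∅ = 0 := by rw [Gel.e, ind_empty, map_zero]

omit [PartialOrder M] [StarOrderedRing M] [CompactSpace X] [T2Space X] in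
theorem Gel.fiber_isPart {γ : Type*} [Fintype γ] {c : X → γ} (hc : ∀ a, IsClopen (c ⁻¹' {a})) :
    IsPart (Set.range Γ.Φ) (fun a => Γ.e (c ⁻¹' {a})) := by
  classical
  refine ⟨fun a => ⟨_, rfl⟩, fun a => Γ.e_proj _, fun a b hab => ?_, ?_⟩
  · rw [Γ.e_mul (hc a) (hc b), ← Γ.e_empty]
    congr 1
    exact Set.eq_empty_of_forall_notMem fun t ht => hab (ht.1.symm.trans ht.2)
  · simp only [Gel.e]
    rw [← map_sum, ← map_one Γ.Φ]
    congr 1
    ext t
    simp [ContinuousMap.sum_apply, gel_ind_fiber hc]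

omit [PartialOrder M] [StarOrderedRing M] [T2Space X] in
theorem Gel.ea_isPart (P : DiscreteQuotient X) : IsPart (Set.range Γ.Φ) (Γ.ea P) := by
  exact Γ.fiber_isPart fun I => P.isClopen_preimage {I}

omit [PartialOrder M] [StarOrderedRing M] [CompactSpace X] [T2Space X] in
theorem Gel.pc_isPart {γ : Type*} [Fintype γ] (c : LocallyConstant X γ) :
    IsPart (Set.range Γ.Φ) (Γ.pc c) := by
  exact Γ.fiber_isPart fun a => c.isLocallyConstant.isClopen_fiber a

omit [PartialOrder M] [StarOrderedRing M] [CompactSpace X] [T2Space X] in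
theorem Gel.e_comm (V V' : Set X) : Γ.e V * Γ.e V' = Γ.e V' * Γ.e V := Γ.comm _ _

omit [PartialOrder M] [StarOrderedRing M] [CompactSpace X] [T2Space X] in
theorem Gel.ea_mul_ea {P P' : DiscreteQuotient X} (h : P ≤ P') (I : P) (J : P') :
    Γ.ea P I * Γ.ea P' J = if DiscreteQuotient.ofLE h I = J then Γ.ea P I else 0 := by
  rw [Gel.ea, Gel.ea, Γ.e_mul (P.isClopen_preimage _) (P'.isClopen_preimage _)]
  split_ifs with e
  · rw [Set.inter_eq_left.2 (e ▸ DiscreteQuotient.fiber_subset_ofLE h I)]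
  · rw [← Γ.e_empty]
    congr 1
    refine Set.eq_empty_of_forall_notMem fun t ht => e ?_
    rw [← show P.proj t = I from ht.1, DiscreteQuotient.ofLE_proj]
    exact ht.2

omit [PartialOrder M] [StarOrderedRing M] [T2Space X] in
/-- A finer pinching absorbs a coarser one. -/
theorem Gel.EP_EP {P P' : DiscreteQuotient X} (h : P ≤ P') (y : M) :
    Γ.EP P (Γ.EP P' y) = Γ.EP P y ∧ Γ.EP P' (Γ.EP P y) = Γ.EP P y := by
  have h1 := Γ.ea_mul_ea h
  have h2 : ∀ I J, Γ.ea P' J * Γ.ea P I = if DiscreteQuotient.ofLE h I = J then Γ.ea P I else 0 :=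
    fun I J => (Γ.e_comm _ _).trans (h1 I J)
  simp only [Gel.EP, pinch, Finset.mul_sum, Finset.sum_mul]
  constructor
  · refine Finset.sum_congr rfl fun I _ => ?_
    have : ∀ J, Γ.ea P I * (Γ.ea P' J * y * Γ.ea P' J) * Γ.ea P I =
        if DiscreteQuotient.ofLE h I = J then Γ.ea P I * y * Γ.ea P I else 0 := fun J => by
      rw [show Γ.ea P I * (Γ.ea P' J * y * Γ.ea P' J) * Γ.ea P I =
        (Γ.ea P I * Γ.ea P' J) * y * (Γ.ea P' J * Γ.ea P I) by simp only [mul_assoc], h1, h2]
      split_ifs <;> simp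
    simp [this]
  · rw [Finset.sum_comm]
    refine Finset.sum_congr rfl fun I _ => ?_
    have : ∀ J, Γ.ea P' J * (Γ.ea P I * y * Γ.ea P I) * Γ.ea P' J =
        if DiscreteQuotient.ofLE h I = J then Γ.ea P I * y * Γ.ea P I else 0 := fun J => by
      rw [show Γ.ea P' J * (Γ.ea P I * y * Γ.ea P I) * Γ.ea P' J =
        (Γ.ea P' J * Γ.ea P I) * y * (Γ.ea P I * Γ.ea P' J) by simp only [mul_assoc], h1, h2]
      split_ifs <;> simp
    simp [this]

omit [PartialOrder M] [StarOrderedRing M] [T2Space X] in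
theorem Gel.EP_comm_e (h : IsClopen V) {P : DiscreteQuotient X}
    (hP : P ≤ DiscreteQuotient.ofIsClopen h) (y : M) :
    Γ.e V * Γ.EP P y = Γ.EP P y * Γ.e V ∧ Γ.EP P (Γ.e V * y) = Γ.EP P (y * Γ.e V) := by
  have h1 : ∀ I, (Γ.e V * Γ.ea P I = Γ.ea P I ∧ Γ.ea P I * Γ.e V = Γ.ea P I) ∨
      (Γ.e V * Γ.ea P I = 0 ∧ Γ.ea P I * Γ.e V = 0) := fun I => by
    rw [Gel.ea, Γ.e_comm _ V, and_self, and_self, Γ.e_mul h (P.isClopen_preimage _)]
    rcases atom_subset h hP I with e | e
    · left; rw [Set.inter_eq_right.2 e]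
    · right
      rw [← Γ.e_empty]
      congr 1
      exact Set.eq_empty_of_forall_notMem fun t ht => e ht.2 ht.1
  simp only [Gel.EP, pinch, Finset.mul_sum, Finset.sum_mul]
  constructor <;> refine Finset.sum_congr rfl fun I _ => ?_
  · rw [← mul_assoc, ← mul_assoc, mul_assoc _ _ (Γ.e V)]
    rcases h1 I with e | e <;> simp [e.1, e.2]
  · rw [← mul_assoc, ← mul_assoc, mul_assoc _ (Γ.e V) (Γ.ea P I)]
    rcases h1 I with e | e <;> simp [e.1, e.2]

/-- For `t ≠ t'` take `f : X → [0,1]` equal to `1` near `t` with `f t' = 0`; the projection `q` of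
`exists_fixproj` for `g = Φ f` commutes with the subalgebra, so it is `e V`; `t' ∉ V` since
`g q = q`, and `t ∈ V` (test with a bump `a`, `a t = 1`, `a f = a`). -/
theorem Gel.totallyDisconnected (W : WSt M H) (Γ : Gel M X) : TotallyDisconnectedSpace X := by
  have : TotallySeparatedSpace X := by
    refine totallySeparatedSpace_iff_exists_isClopen.2 fun t t' hne => ?_
    obtain ⟨h, h0, h1, -⟩ := exists_continuous_zero_one_of_isClosed (isClosed_singleton (x := t'))
      (isClosed_singleton (x := t)) (by simpa using hne.symm)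
    have h0' : h t' = 0 := h0 rfl
    have h1' : h t = 1 := h1 rfl
    let f : C(X, ℂ) := ⟨fun x => ((Max.max (min (2 * h x) 1) 0 : ℝ) : ℂ), by fun_prop⟩
    let a : C(X, ℂ) := ⟨fun x => ((Max.max (2 * h x - 1) 0 : ℝ) : ℂ), by fun_prop⟩
    have haf : a * f = a := by
      ext x
      simp only [ContinuousMap.mul_apply, ContinuousMap.coe_mk, a, f]
      rcases le_total (2 * h x) 1 with e | e
      · rw [max_eq_right (show 2 * h x - 1 ≤ 0 by linarith)]; simp
      · rw [min_eq_right e]; simp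
    obtain ⟨q, hq, q1, q2, q3, -⟩ := W.exists_fixproj (g := Γ.Φ f)
      ((Γ.nonneg_iff f).2 fun x => Complex.zero_le_real.2 (le_max_right _ _)) (by
        rw [← sub_nonneg, ← map_one Γ.Φ, ← map_sub, Γ.nonneg_iff]
        intro x
        simp only [ContinuousMap.sub_apply, ContinuousMap.one_apply, ContinuousMap.coe_mk, f,
          sub_nonneg]
        exact_mod_cast max_le (min_le_right _ _) zero_le_one)
    obtain ⟨V, hV, rfl⟩ := Γ.exists_clopen hq (Γ.max q fun k => q2 _ (Γ.comm _ _))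
    have e1 := DFunLike.congr_fun (Γ.inj ((map_mul Γ.Φ _ _).trans q1)) t'
    have e2 := DFunLike.congr_fun (Γ.inj ((map_mul Γ.Φ _ _).trans
      (q3 (Γ.Φ a) (by rw [← map_mul, haf])))) t
    refine ⟨V, hV, ?_, fun ht => ?_⟩
    · by_contra ht
      simp only [ContinuousMap.mul_apply, ind_of_notMem ht, a, ContinuousMap.coe_mk, h1'] at e2
      norm_num at e2
    · simp [ind_of_mem hV ht, f, h0'] at e1
  infer_instance

omit [PartialOrder M] [StarOrderedRing M] in
theorem Gel.comm_of_e [TotallyDisconnectedSpace X] {a b : M}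
    (h : ∀ V, IsClopen V → Γ.e V * a = b * Γ.e V) (f : C(X, ℂ)) : Γ.Φ f * a = b * Γ.Φ f := by
  have hc : Continuous Γ.Φ := (NonUnitalStarAlgHom.isometry Γ.Φ Γ.inj).continuous
  refine ind_dense (fun f => Γ.Φ f * a = b * Γ.Φ f) (isClosed_eq (by fun_prop) (by fun_prop))
    (by simp) (fun f g hf hg => by simp only [map_add, add_mul, mul_add, hf, hg])
    (fun c f hf => by simp only [map_smul, smul_mul_assoc, mul_smul_comm, hf]) h f

/-- Apply `exists_sup` to the clopen subsets of `O`, directed by inclusion.  The limit commutes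
with the subalgebra and is a projection (`e V * z = e V`, pass to the limit), so it is `e V₀` with
`V₀` clopen, `O ⊆ V₀`, and `V₀` misses every clopen set disjoint from `closure O`. -/
theorem Gel.closure_open (W : WSt M H) (Γ : Gel M X) {O : Set X} (hO : IsOpen O) :
    IsClopen (closure O) ∧ ∀ (F : Finset H) (δ : ℝ), 0 < δ →
      ∃ V, IsClopen V ∧ V ⊆ O ∧ W.Small F δ (Γ.e (closure O) - Γ.e V) := by
  have := Γ.totallyDisconnected W
  let ι := {V : Set X // IsClopen V ∧ V ⊆ O}
  have : Nonempty ι := ⟨⟨∅, isClopen_empty, Set.empty_subset _⟩⟩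
  have : IsDirectedOrder ι := ⟨fun U V => ⟨⟨U.1 ∪ V.1, U.2.1.union V.2.1,
    Set.union_subset U.2.2 V.2.2⟩, Set.subset_union_left, Set.subset_union_right⟩⟩
  obtain ⟨z, z0, -, -, hz, hs⟩ := W.exists_sup (y := fun V : ι => Γ.e V.1)
    (fun U V h => Γ.e_mono U.2.1 V.2.1 h) (fun V => (Γ.e_proj _).nonneg)
    fun V => sub_nonneg.1 (Γ.e_proj _).one_sub.nonneg
  have h1 : ∀ V : ι, Γ.e V.1 * z = Γ.e V.1 := fun V =>
    (hz.mul_left _).eq_of_eventually (WSt.WT_const _) (by
      filter_upwards [eventually_ge_atTop V] with U hU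
      rw [Γ.e_mul V.2.1 U.2.1, Set.inter_eq_left.2 hU])
  have h2 : IsStarProjection z :=
    ⟨(hz.mul_right z).eq_of_eventually hz (Eventually.of_forall h1), z0.isSelfAdjoint⟩
  obtain ⟨V₀, hV₀, rfl⟩ := Γ.exists_clopen h2 (Γ.max z fun f =>
    (hz.mul_left _).eq_of_eventually (hz.mul_right _) (Eventually.of_forall fun V => Γ.comm _ _))
  have h3 : closure O = V₀ := by
    refine Set.Subset.antisymm (closure_minimal (fun t ht => ?_) hV₀.isClosed) fun t ht => ?_
    · obtain ⟨V, hV, htV, hVO⟩ := compact_exists_isClopen_in_isOpen hO ht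
      have := DFunLike.congr_fun (Γ.inj ((map_mul Γ.Φ _ _).trans (h1 ⟨V, hV, hVO⟩))) t
      by_contra ht'
      simp [ind_of_mem hV htV, ind_of_notMem ht'] at this
    · by_contra ht'
      obtain ⟨U, hU, htU, hUO⟩ :=
        compact_exists_isClopen_in_isOpen isClosed_closure.isOpen_compl ht'
      have h4 : Γ.e U * Γ.e V₀ = 0 := (hz.mul_left _).eq_of_eventually (WSt.WT_const _)
        (Eventually.of_forall fun V => by
          beta_reduce
          rw [Γ.e_mul hU V.2.1, ← Γ.e_empty]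
          congr 1
          exact Set.eq_empty_of_forall_notMem fun u hu => hUO hu.1 (subset_closure (V.2.2 hu.2)))
      have := DFunLike.congr_fun (Γ.inj ((map_mul Γ.Φ _ _).trans (h4.trans (map_zero _).symm))) t
      simp [ind_of_mem hU htU, ind_of_mem hV₀ ht] at this
  rw [h3]
  refine ⟨hV₀, fun F δ hδ => ?_⟩
  obtain ⟨V, hV⟩ := (hs F δ hδ).exists
  exact ⟨V.1, V.2.1, V.2.2, hV⟩

theorem Gel.interior_closed (W : WSt M H) (Γ : Gel M X) {K : Set X} (hK : IsClosed K) :
    IsClopen (interior K) := by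
  rw [interior_eq_compl_closure_compl]
  exact (Γ.closure_open W hK.isOpen_compl).1.compl

end e

end Crest.Agent.R109
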