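import Crest.Agent.R109.FDefs

/-!
Row 109, measurable local algorithm: definitions.

A group `G` acts on a probability space `X` (non-singularly, with Radon-Nikodym cocycle
`w (g • t) / w t`); `x` is a Hermitian kernel of propagation one with respect to the finite
symmetric set `S`, contractive on every orbit.
-/

set_option autoImplicit false

open scoped ComplexConjugate ENNReal Pointwise
open MeasureTheory

namespace Crest.Agent.R109

/-- The states of a vertex. -/
inductive St (r : ℕ) : Type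
  | dead : St r
  | unif : St r
  | half (c : Fin r) : St r
  | sgn (b : Bool) (c : Fin r) : St r
  deriving DecidableEq, Fintype

instance (r : ℕ) : MeasurableSpace (St r) := ⊤

instance (r : ℕ) : DiscreteMeasurableSpace (St r) := ⟨fun _ => trivial⟩

/-- Renaming the colours. -/
def St.perm {r : ℕ} (π : Equiv.Perm (Fin r)) : St r → St r
  | .dead => .dead
  | .unif => .unif
  | .half c => .half (π c)
  | .sgn b c => .sgn b (π c)

/-- The sub-probability vector of a state. -/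
noncomputable def St.pi {r : ℕ} : St r → Fin r × Bool → ℝ
  | .dead, _ => 0
  | .unif, _ => (Fintype.card (Fin r × Bool) : ℝ)⁻¹
  | .half c, k => if k.1 = c then 1 / 2 else 0
  | .sgn b c, k => if k = (c, b) then 1 / 2 else 0

/-- The stiffness of a state. -/
def St.mu {r : ℕ} : St r → ℝ
  | .dead => 1
  | .unif => 1
  | .half _ => 48
  | .sgn _ _ => 48

/-- A sign. -/
def sy (b : Bool) : ℂ := if b then 1 else -1

section

variable {G X : Type*} [Group G] [DecidableEq G] [MulAction G X] [DecidableEq X]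

/-- The ball of radius `R` around `t` in the orbit graph. -/
def B (S : Finset G) (R : ℕ) (t : X) : Finset X := (S ^ R).image fun g => g • t

/-- The kernel restricted to pairs of the same colour. -/
def ycol {γ : Type*} [DecidableEq γ] (x : X → X → ℂ) (c : X → γ) : X → X → ℂ :=
  fun a b => if c a = c b then x a b else 0

/-- The weights of the neighbours of `t` are comparable with the weight of `t`. -/
def Kg (S : Finset G) (w : X → ℝ) (K : ℝ) (t : X) : Prop :=
  ∀ g ∈ S, w (g • t) ≤ K * w t ∧ w t ≤ K * w (g • t)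

/-- Admissible pairs of a configuration and a finite set. -/
def Adm {r : ℕ} (S : Finset G) (w : X → ℝ) (K : ℝ) (σ : X → St r) (U : Finset X) : Prop :=
  (∃ t R, U ⊆ B S R t) ∧ ∀ u, σ u ≠ St.dead → Kg S w K u

/-- Marginals of a set function. -/
def mg {r : ℕ} (Ψ : (X → St r) → Finset X → ℝ) (σ : X → St r) (U : Finset X) (v : X) : ℝ :=
  Ψ σ U - Ψ σ (U.erase v)

/-- The density of the potential: the marginal of `t` among the points of its ball that do not
come later in the order of the marker `χ`. -/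
noncomputable def dens {r : ℕ} (Ψ : (X → St r) → Finset X → ℝ) (S : Finset G) (w : X → ℝ)
    (N : ℕ) (χ : X → ℕ) (σ : X → St r) (t : X) : ℝ :=
  mg Ψ σ ((B S N t).filter fun u => χ u ≤ χ t) t / w t

/-- `χ` separates the points of `L₀` from the other points of their `R`-balls. -/
def Mark (S : Finset G) (R : ℕ) (χ : X → ℕ) (L₀ : Set X) : Prop :=
  ∀ s ∈ L₀, ∀ u ∈ B S R s, χ u = χ s → u = s

/-- Use `σ'` at the vertices with marker `< i` and `σ` elsewhere. -/
def mixlt {r : ℕ} (χ : X → ℕ) (σ σ' : X → St r) (i : ℕ) : X → St r :=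
  fun u => if χ u < i then σ' u else σ u

/-- The weighted system of a configuration. -/
noncomputable def fsys {r : ℕ} (x : X → X → ℂ) (w : X → ℝ) (σ : X → St r) :
    FS X (Fin r × Bool) :=
  ⟨fun k a b => sy k.2 * x a b, fun u => (σ u).pi, fun u => (σ u).mu, w⟩

/-- The truncated potential of the live part of `U`. -/
noncomputable def PsiX {r : ℕ} (x : X → X → ℂ) (w : X → ℝ) (z η : ℝ) (N : ℕ) (σ : X → St r)
    (U : Finset X) : ℝ :=
  (fsys x w σ).Psi z η N (U.filter fun u => σ u ≠ St.dead)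

variable [MeasurableSpace X]

/-- The standing hypotheses of the local theorem. -/
structure LS (S : Finset G) (μ : Measure X) (x : X → X → ℂ) (w : X → ℝ) : Prop where
  one_mem : (1 : G) ∈ S
  inv_mem : ∀ g ∈ S, g⁻¹ ∈ S
  meas : ∀ g : G, Measurable fun t : X => g • t
  fix : ∀ g : G, MeasurableSet {t : X | g • t = t}
  wpos : ∀ t, 0 < w t
  wmeas : ∀ g : G, Measurable fun t => w (g • t) / w t
  mtp : ∀ (g : G) (F : X → ℝ≥0∞), Measurable F →
    ∫⁻ t, F t ∂μ = ∫⁻ t, F (g • t) * ENNReal.ofReal (w (g • t) / w t) ∂μ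
  symm : ∀ s t, x t s = conj (x s t)
  diag : ∀ t, x t t = 0
  supp : ∀ s t, x s t ≠ 0 → s ∈ B S 1 t
  bnd : ∀ t R, Bnd 1 x (B S R t)
  gauge : ∃ k : G → G → X → ℂ, (∀ g g', Measurable (k g g')) ∧ ∀ t, ∃ χ : G → ℂ,
    (∀ g, ‖χ g‖ = 1) ∧ ∀ g g', k g g' t = conj (χ g) * x (g • t) (g' • t) * χ g'
  mark : ∀ (R : ℕ) (δ : ℝ≥0∞), 0 < δ → ∃ (L : ℕ) (χ : X → ℕ), Measurable χ ∧ (∀ t, χ t < L) ∧
    μ {t | ∃ s ∈ B S R t, s ≠ t ∧ χ s = χ t} ≤ δ

/-- What the algorithm needs to know about the potential. -/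
structure Pot {r : ℕ} (S : Finset G) (x : X → X → ℂ) (w : X → ℝ) (K z small err γ₁ ε' C₀ : ℝ)
    (N : ℕ) (Ψ : (X → St r) → Finset X → ℝ) : Prop where
  congr : ∀ σ σ' U, (∀ u ∈ U, σ u = σ' u) → Ψ σ U = Ψ σ' U
  dead : ∀ σ U v, σ v = St.dead → Ψ σ (U.erase v) = Ψ σ U
  empty : ∀ σ, Ψ σ ∅ = 0
  loc : ∀ σ U U' v, Adm S w K σ U → U' ⊆ U → v ∈ U' →
    Cover (fun a b => a ∈ B S 1 b) (U.filter fun u => σ u ≠ St.dead) v N U' →
    mg Ψ σ U v = mg Ψ σ U' v
  bound : ∀ σ U v, Adm S w K σ U → v ∈ U → |mg Ψ σ U v| ≤ C₀ * w v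
  nonneg : ∀ σ U v, Adm S w K σ U → v ∈ U → -(err * w v) ≤ mg Ψ σ U v
  step : ∀ σ U v, Adm S w K σ U → v ∈ U → σ v = St.unif → (z - err) * w v ≤ mg Ψ σ U v ∨
    ∃ c, mg Ψ (Function.update σ v (St.half c)) U v ≤ mg Ψ σ U v + 2 * err * w v
  rs : ∀ σ U v b c, Adm S w K σ U → v ∈ U → σ v = St.half c →
    mg Ψ (Function.update σ v (St.sgn b c)) U v ≤ mg Ψ σ U v + 2 * err * w v
  init : ∀ σ U v, Adm S w K σ U → v ∈ U → (∀ u, σ u = St.dead ∨ σ u = St.unif) →
    mg Ψ σ U v ≤ (small + err) * w v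
  final : ∀ σ U (b : Bool) (c : X → Fin r) (w₀ : ℝ) (ξ : X → ℂ), Adm S w K σ U →
    (∀ u ∈ U, σ u = St.sgn b (c u)) → 0 < w₀ → (∀ u ∈ U, w₀ ≤ w u) →
    ε' * ∑ u ∈ U, ‖ξ u‖ ^ 2 < qf (fun a a' => sy b * ycol x c a a') U ξ →
    γ₁ * w₀ - err * ∑ u ∈ U, w u ≤ Ψ σ U
  perm : ∀ (π : Equiv.Perm (Fin r)) σ U, Ψ (fun u => (σ u).perm π) U = Ψ σ U
  meas : ∀ (τ : X → X → St r) (R : ℕ), (∀ g : G, Measurable fun t => τ t (g • t)) →
    Measurable fun t => Ψ (τ t) (B S R t) / w t

end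

end Crest.Agent.R109
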