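import Crest.Agent.R109.Gel
import Crest.Agent.R109.LDefs

/-! Row 109: measure theory on compact totally disconnected spaces and for group actions. -/

set_option autoImplicit false

open scoped ComplexOrder InnerProductSpace ComplexConjugate ENNReal
open Filter Topology MeasureTheory

namespace Crest.Agent.R109

section top

variable {X : Type*} [TopologicalSpace X] [CompactSpace X] [T2Space X]
  [TotallyDisconnectedSpace X] [MeasurableSpace X] [BorelSpace X] (μ : Measure X)
  [IsFiniteMeasure μ] [μ.Regular]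

/-- Compact sets `K a ⊆ {col = a}` of nearly full measure are pairwise disjoint; separate them by
clopen sets. -/
theorem exists_lc_approx {γ : Type*} [Fintype γ] [Nonempty γ] (col : X → γ)
    (hc : ∀ a, MeasurableSet {t | col t = a}) {δ : ℝ≥0∞} (hδ : 0 < δ) :
    ∃ C : LocallyConstant X γ, μ {t | C t ≠ col t} ≤ δ := by
  classical
  have hδ' : δ / (Fintype.card γ : ℝ≥0∞) ≠ 0 := (ENNReal.div_pos hδ.ne' (by simp)).ne'
  choose K hK1 hK2 hK3 using fun a => (hc a).exists_isCompact_sdiff_lt (μ := μ) (measure_ne_top _ _) hδ'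
  obtain ⟨C, hC1, hC2, -, hC4, hC5⟩ := exists_clopen_partition_of_clopen_cover (Z := K)
    (D := fun _ => Set.univ) (fun a => (hK2 a).isClosed) (fun _ => isClopen_univ)
    (fun _ => Set.subset_univ _) (fun a _ b _ hab => Set.disjoint_left.2 fun t h1 h2 =>
      hab ((hK1 a h1).symm.trans (hK1 b h2)))
  have hex : ∀ t, ∃ a, t ∈ C a := fun t =>
    Set.mem_iUnion.1 (hC4 (Set.mem_iUnion.2 ⟨Classical.arbitrary γ, Set.mem_univ t⟩))
  choose f hf using hex
  have huniq : ∀ t a, t ∈ C a → f t = a := fun t a ha => by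
    by_contra h
    exact Set.disjoint_left.1 (hC5 (Set.mem_univ _) (Set.mem_univ _) h) (hf t) ha
  have hlc : IsLocallyConstant f := IsLocallyConstant.iff_isOpen_fiber.2 fun a => by
    have : f ⁻¹' {a} = C a := Set.ext fun t => ⟨fun h => by
      have h2 : f t = a := h
      exact h2 ▸ hf t, fun h => huniq t a h⟩
    rw [this]
    exact (hC1 a).isOpen
  refine ⟨⟨f, hlc⟩, ?_⟩
  have hsub : {t | (⟨f, hlc⟩ : LocallyConstant X γ) t ≠ col t} ⊆
      ⋃ a ∈ (Finset.univ : Finset γ), ({t | col t = a} \ K a) := fun t ht => by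
    simp only [Set.mem_iUnion]
    exact ⟨col t, Finset.mem_univ _, rfl, fun h => ht (huniq t _ (hC2 _ h))⟩
  refine (measure_mono hsub).trans ((measure_biUnion_finset_le _ _).trans ?_)
  refine (Finset.sum_le_card_nsmul _ _ _ fun a _ => (hK3 a).le).trans ?_
  rw [Finset.card_univ, nsmul_eq_mul]
  exact ENNReal.mul_div_le

/-- A compact `K ⊆ {σ t ≠ t}` of nearly full measure is covered by finitely many clopen `V` with
`σ V ∩ V = ∅` on the relevant points (`t ∈ V`, `σ t ∉ V`). -/
theorem exists_part_sep (σ : C(X, X)) {δ : ℝ≥0∞} (hδ : 0 < δ) :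
    ∃ P₀ : DiscreteQuotient X, ∀ P ≤ P₀, μ {t | σ t ≠ t ∧ P.proj (σ t) = P.proj t} ≤ δ := by
  have hA : IsOpen {t | σ t ≠ t} := isOpen_ne_fun σ.continuous continuous_id
  obtain ⟨K, hK1, hK2, hK3⟩ :=
    hA.measurableSet.exists_isCompact_sdiff_lt (μ := μ) (measure_ne_top _ _) hδ.ne'
  have hmono : ∀ {P P' : DiscreteQuotient X}, P ≤ P' → ∀ t, P.proj (σ t) = P.proj t →
      P'.proj (σ t) = P'.proj t := fun {P P'} h t ht => by
    rw [← DiscreteQuotient.ofLE_proj h, ← DiscreteQuotient.ofLE_proj h, ht]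
  obtain ⟨P₀, hP₀⟩ := hK2.elim_directed_cover
    (fun P : DiscreteQuotient X => {t | P.proj (σ t) ≠ P.proj t})
    (fun P => isOpen_ne_fun (P.proj_continuous.comp σ.continuous) P.proj_continuous)
    (fun t ht => by
      by_contra h
      simp only [Set.mem_iUnion, Set.mem_setOf_eq, not_exists, not_not] at h
      exact hK1 ht (DiscreteQuotient.eq_of_forall_proj_eq h))
    (fun P P' => ⟨P ⊓ P', fun t ht h => ht (hmono inf_le_left t h),
      fun t ht h => ht (hmono inf_le_right t h)⟩)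
  refine ⟨P₀, fun P hP => (measure_mono fun t ht => ?_).trans hK3.le⟩
  exact ⟨ht.1, fun h => hP₀ h (hmono hP t ht.2)⟩

variable {G : Type*} [Group G] [DecidableEq G] [MulAction G X] [ContinuousConstSMul G X]
  [DecidableEq X]

theorem exists_marker (S : Finset G) (R : ℕ) {δ : ℝ≥0∞} (hδ : 0 < δ) :
    ∃ (L : ℕ) (χ : X → ℕ), Measurable χ ∧ (∀ t, χ t < L) ∧
      μ {t | ∃ s ∈ B S R t, s ≠ t ∧ χ s = χ t} ≤ δ := by
  open Pointwise in
  have hδ' : 0 < δ / ((S ^ R).card : ℝ≥0∞) := ENNReal.div_pos hδ.ne' (by simp)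
  choose P hP using fun g : G =>
    exists_part_sep μ ⟨fun t => g • t, continuous_const_smul g⟩ hδ'
  open Pointwise in
  set Q : DiscreteQuotient X := (S ^ R).inf P with hQ
  refine ⟨Nat.card Q, fun t => (Finite.equivFin Q (Q.proj t) : ℕ), ?_, fun t => Fin.is_lt _, ?_⟩
  · exact (Q.proj_isLocallyConstant.comp fun j => (Finite.equivFin Q j : ℕ)).continuous.measurable
  · open Pointwise in
    have hsub : {t | ∃ s ∈ B S R t, s ≠ t ∧
        (Finite.equivFin Q (Q.proj s) : ℕ) = (Finite.equivFin Q (Q.proj t) : ℕ)} ⊆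
        ⋃ g ∈ S ^ R, {t | g • t ≠ t ∧ Q.proj (g • t) = Q.proj t} := by
      rintro t ⟨s, hs, h1, h2⟩
      obtain ⟨g, hg, rfl⟩ := Finset.mem_image.1 hs
      simp only [Set.mem_iUnion]
      exact ⟨g, hg, h1, (Finite.equivFin Q).injective (Fin.ext h2)⟩
    refine (measure_mono hsub).trans ((measure_biUnion_finset_le _ _).trans ?_)
    refine (Finset.sum_le_card_nsmul _ _ _ fun g hg => hP g Q (Finset.inf_le hg)).trans ?_
    rw [nsmul_eq_mul]
    exact ENNReal.mul_div_le

open Pointwise in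
/-- Clopen approximation of a local equivariant colouring rule.  For each `ω'` choose `C ω'` from
`exists_lc_approx` for `col (ω' ∘ proj)` with error `δ / |Ω|`.  For `t` let
`R t = (S ^ ρ).image (fun g => proj (g • t))` (locally constant, contains `proj t`),
`ω' = fun j => if j ∈ R t then (ω (proj t))⁻¹ * ω j else 1` and `c ω t = ω (proj t) (C ω' t)`. -/
theorem exists_clopen_rule {S : Finset G} (h1 : (1 : G) ∈ S) {r : ℕ} (hr : 0 < r) (ρ : ℕ)
    (col : (X → Equiv.Perm (Fin r)) → X → Fin r)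
    (hloc : ∀ l l' t, (∀ s ∈ B S ρ t, l s = l' s) → col l t = col l' t)
    (hperm : ∀ π l t, col (fun s => π * l s) t = π (col l t))
    (hmeas : ∀ l, (∀ π, MeasurableSet {t | l t = π}) → ∀ a, MeasurableSet {t | col l t = a})
    (Q : DiscreteQuotient X) {δ : ℝ≥0∞} (hδ : 0 < δ) :
    ∃ c : (Q → Equiv.Perm (Fin r)) → LocallyConstant X (Fin r),
      (∀ ω ω' t, (∀ g ∈ S ^ ρ, ω (Q.proj (g • t)) = ω' (Q.proj (g • t))) → c ω t = c ω' t) ∧
      (∀ π ω t, c (fun j => π * ω j) t = π (c ω t)) ∧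
      μ {t | ∃ ω, c ω t ≠ col (fun s => ω (Q.proj s)) t} ≤ δ := by
  classical
  haveI : Nonempty (Fin r) := ⟨⟨0, hr⟩⟩
  haveI : Fintype (Q → Equiv.Perm (Fin r)) := Fintype.ofFinite _
  have hδ' : 0 < δ / (Fintype.card (Q → Equiv.Perm (Fin r)) : ℝ≥0∞) :=
    ENNReal.div_pos hδ.ne' (by simp)
  choose C hC using fun ω : Q → Equiv.Perm (Fin r) =>
    exists_lc_approx μ (col fun s => ω (Q.proj s)) (hmeas _ fun π =>
      ((Q.proj_isLocallyConstant.comp ω).isOpen_fiber π).measurableSet) hδ'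
  set R : X → Finset Q := fun t => (S ^ ρ).image fun g => Q.proj (g • t) with hR
  set nm : (Q → Equiv.Perm (Fin r)) → X → Q → Equiv.Perm (Fin r) :=
    fun ω t j => if j ∈ R t then (ω (Q.proj t))⁻¹ * ω j else 1 with hnm
  have hlc : ∀ ω : Q → Equiv.Perm (Fin r),
      IsLocallyConstant fun t => ω (Q.proj t) (C (nm ω t) t) := fun ω => by
    rw [IsLocallyConstant.iff_eventually_eq]
    intro t
    have e1 : ∀ᶠ s in 𝓝 t, ∀ g ∈ S ^ ρ, Q.proj (g • s) = Q.proj (g • t) :=
      (Filter.eventually_all_finset _).2 fun g _ =>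
        (Q.proj_isLocallyConstant.comp_continuous (continuous_const_smul g)).eventually_eq t
    filter_upwards [e1, Q.proj_isLocallyConstant.eventually_eq t,
      (C (nm ω t)).isLocallyConstant.eventually_eq t] with s a b c
    have h2 : R s = R t := Finset.image_congr fun g hg => a g hg
    have h3 : nm ω s = nm ω t := by
      funext j
      simp only [hnm, h2, b]
    have c' : C (nm ω t) s = C (nm ω t) t := c
    rw [b, h3, c']
  refine ⟨fun ω => ⟨_, hlc ω⟩, fun ω ω' t h => ?_, fun π ω t => ?_, ?_⟩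
  · have h2 : ω (Q.proj t) = ω' (Q.proj t) := by
      simpa using h 1 (Finset.one_mem_pow h1)
    have h3 : nm ω t = nm ω' t := by
      funext j
      simp only [hnm]
      split_ifs with hj
      · obtain ⟨g, hg, rfl⟩ := Finset.mem_image.1 hj
        rw [h2, h g hg]
      · rfl
    show ω (Q.proj t) (C (nm ω t) t) = ω' (Q.proj t) (C (nm ω' t) t)
    rw [h2, h3]
  · have h3 : nm (fun j => π * ω j) t = nm ω t := by
      funext j
      simp only [hnm]
      split_ifs
      · group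
      · rfl
    show (π * ω (Q.proj t)) (C (nm (fun j => π * ω j) t) t) = π (ω (Q.proj t) (C (nm ω t) t))
    rw [h3, Equiv.Perm.mul_apply]
  · have hsub : {t | ∃ ω, (⟨_, hlc ω⟩ : LocallyConstant X (Fin r)) t ≠
        col (fun s => ω (Q.proj s)) t} ⊆ ⋃ ω ∈ (Finset.univ : Finset (Q → Equiv.Perm (Fin r))),
          {t | C ω t ≠ col (fun s => ω (Q.proj s)) t} := by
      rintro t ⟨ω, hω⟩
      simp only [Set.mem_iUnion]
      refine ⟨nm ω t, Finset.mem_univ _, fun h => hω ?_⟩
      show ω (Q.proj t) (C (nm ω t) t) = _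
      rw [h, ← hperm]
      refine hloc _ _ t fun s hs => ?_
      obtain ⟨g, hg, rfl⟩ := Finset.mem_image.1 hs
      have hj : Q.proj (g • t) ∈ R t := Finset.mem_image.2 ⟨g, hg, rfl⟩
      simp only [hnm, if_pos hj]
      group
    refine (measure_mono hsub).trans ((measure_biUnion_finset_le _ _).trans ?_)
    refine (Finset.sum_le_card_nsmul _ _ _ fun ω _ => hC ω).trans ?_
    rw [Finset.card_univ, nsmul_eq_mul]
    exact ENNReal.mul_div_le

end top

/-- The Radon-Nikodym cocycle.  `ρ g = d (map (g⁻¹ • ·) μ) / dμ` (real valued, measurable) satisfies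
`∫⁻ F = ∫⁻ F (g t) ρ g t`; almost everywhere `0 < ρ g`, `ρ (g h) t = ρ g (h t) ρ h t` and `ρ g = 1`
on `{g t = t}` (uniqueness of densities: `ae_eq_of_forall_setLIntegral_eq_of_sigmaFinite`).  Let
`Y` be a measurable conull set disjoint from `N` where all these countably many relations hold,
`X₀ = ⋂_g g⁻¹ Y`.  Choose a base point `b` in each orbit (`Quotient.out`) and `g_t` with `g_t b = t`;
`w t = ρ g_t b` on `X₀` and `1` elsewhere.  Then `w (g t) / w t = ρ g t` on `X₀` and `1` off `X₀`. -/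
theorem exists_cocycle {G X : Type*} [Group G] [Countable G] [MulAction G X] [MeasurableSpace X]
    (μ : Measure X) [IsProbabilityMeasure μ] (hm : ∀ g : G, Measurable fun t : X => g • t)
    (hfix : ∀ g : G, MeasurableSet {t : X | g • t = t})
    (hq : ∀ g : G, μ.map (fun t => g • t) ≪ μ) {N : Set X} (hN : μ N = 0) :
    ∃ (X₀ : Set X) (w : X → ℝ), MeasurableSet X₀ ∧ μ X₀ᶜ = 0 ∧
      (∀ (g : G) t, t ∈ X₀ → g • t ∈ X₀) ∧ (∀ t ∈ X₀, t ∉ N) ∧ (∀ t, 0 < w t) ∧
      (∀ g : G, Measurable fun t => w (g • t) / w t) ∧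
      ∀ (g : G) (F : X → ℝ≥0∞), Measurable F →
        ∫⁻ t, F t ∂μ = ∫⁻ t, F (g • t) * ENNReal.ofReal (w (g • t) / w t) ∂μ := by
  classical
  set ρ : G → X → ℝ≥0∞ := fun g => (μ.map fun t => g⁻¹ • t).rnDeriv μ with hρ
  have hρm : ∀ g, Measurable (ρ g) := fun g => Measure.measurable_rnDeriv _ _
  have hD : ∀ (g : G) (F : X → ℝ≥0∞), Measurable F →
      ∫⁻ t, F t ∂μ = ∫⁻ t, F (g • t) * ρ g t ∂μ := fun g F hF => by
    have h1 := lintegral_withDensity_eq_lintegral_mul μ (hρm g) (hF.comp (hm g))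
    rw [Measure.withDensity_rnDeriv_eq _ _ (hq g⁻¹), lintegral_map (hF.comp (hm g)) (hm g⁻¹)] at h1
    simp only [Function.comp_apply, smul_inv_smul, Pi.mul_apply] at h1
    rw [h1]
    exact lintegral_congr fun t => mul_comm _ _
  have huniq : ∀ (g : G) (φ : X → ℝ≥0∞), Measurable φ → (∀ F : X → ℝ≥0∞, Measurable F →
      ∫⁻ t, F t ∂μ = ∫⁻ t, F (g • t) * φ t ∂μ) → ρ g =ᵐ[μ] φ := fun g φ hφ h => by
    refine ae_eq_of_forall_setLIntegral_eq_of_sigmaFinite (hρm g) hφ fun A hA _ => ?_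
    have hF : Measurable fun s : X => A.indicator (1 : X → ℝ≥0∞) (g⁻¹ • s) :=
      (measurable_one.indicator hA).comp (hm g⁻¹)
    have e : ∀ ψ : X → ℝ≥0∞, ∫⁻ t, A.indicator (1 : X → ℝ≥0∞) (g⁻¹ • g • t) * ψ t ∂μ =
        ∫⁻ t in A, ψ t ∂μ := fun ψ => by
      rw [← lintegral_indicator hA]
      refine lintegral_congr fun t => ?_
      rw [inv_smul_smul]
      by_cases ht : t ∈ A <;> simp [ht]
    rw [← e, ← e, ← hD g _ hF, ← h _ hF]
  have hfin : ∀ g, ∀ᵐ t ∂μ, ρ g t < ∞ := fun g => Measure.rnDeriv_lt_top _ _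
  have hpos : ∀ g, ∀ᵐ t ∂μ, 0 < ρ g t := fun g => by
    refine Measure.rnDeriv_pos' ?_
    have h1 := (hq g).map (hm g⁻¹)
    rw [Measure.map_map (hm g⁻¹) (hm g)] at h1
    have e : ((fun t : X => g⁻¹ • t) ∘ fun t => g • t) = id := by
      funext t; simp
    rwa [e, Measure.map_id] at h1
  have hcoc : ∀ g h : G, ∀ᵐ t ∂μ, ρ (g * h) t = ρ g (h • t) * ρ h t := fun g h =>
    huniq (g * h) _ (((hρm g).comp (hm h)).mul (hρm h)) fun F hF => by
      rw [hD g F hF, hD h (fun t => F (g • t) * ρ g t) ((hF.comp (hm g)).mul (hρm g))]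
      refine lintegral_congr fun t => ?_
      simp only [Function.comp_apply, mul_smul, mul_assoc]
  have hone : ∀ g : G, ∀ᵐ t ∂μ, g • t = t → ρ g t = 1 := fun g => by
    have h1 := huniq g (fun t => if g • t = t then 1 else ρ g t)
      (Measurable.ite (hfix g) measurable_const (hρm g)) fun F hF => by
        have h2 := hD g _ (hF.indicator (hfix g).compl)
        have hm1 : Measurable ({t : X | g • t = t}.indicator F) := hF.indicator (hfix g)
        rw [← lintegral_add_compl F (hfix g), ← lintegral_indicator (hfix g),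
          ← lintegral_indicator (hfix g).compl, h2, ← lintegral_add_left hm1]
        refine lintegral_congr fun t => ?_
        by_cases ht : g • t = t
        · simp [ht]
        · have h3 : ¬ g • g • t = g • t := fun h => ht (MulAction.injective g h)
          simp [ht, h3]
    filter_upwards [h1] with t a b
    rw [a, if_pos b]
  have hall : ∀ᵐ t ∂μ, t ∉ N ∧ (∀ g, ρ g t < ∞) ∧ (∀ g, 0 < ρ g t) ∧
      (∀ g h : G, ρ (g * h) t = ρ g (h • t) * ρ h t) ∧ ∀ g : G, g • t = t → ρ g t = 1 := by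
    filter_upwards [measure_eq_zero_iff_ae_notMem.1 hN, ae_all_iff.2 hfin, ae_all_iff.2 hpos,
      ae_all_iff.2 fun g => ae_all_iff.2 (hcoc g), ae_all_iff.2 hone] with t a b c d e
    exact ⟨a, b, c, d, e⟩
  obtain ⟨Z, hZ1, hZ2, hZ3⟩ := exists_measurable_superset_of_null (ae_iff.1 hall)
  set X₀ : Set X := ⋂ g : G, (fun t => g • t) ⁻¹' Zᶜ with hX₀
  have hX₀m : MeasurableSet X₀ := MeasurableSet.iInter fun g => hm g hZ2.compl
  have hX₀c : μ X₀ᶜ = 0 := by
    rw [hX₀, Set.compl_iInter]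
    refine measure_iUnion_null fun g => ?_
    rw [← Set.preimage_compl, compl_compl, ← Measure.map_apply (hm g) hZ2]
    exact hq g hZ3
  have hinv : ∀ (g : G) t, t ∈ X₀ → g • t ∈ X₀ := fun g t ht =>
    Set.mem_iInter.2 fun h => by
      have := Set.mem_iInter.1 ht (h * g)
      simpa [mul_smul] using this
  have hgood : ∀ t ∈ X₀, t ∉ N ∧ (∀ g, ρ g t < ∞) ∧ (∀ g, 0 < ρ g t) ∧
      (∀ g h : G, ρ (g * h) t = ρ g (h • t) * ρ h t) ∧ ∀ g : G, g • t = t → ρ g t = 1 := by
    intro t ht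
    by_contra h
    have := Set.mem_iInter.1 ht 1
    simp only [one_smul, Set.preimage_id', Set.mem_compl_iff] at this
    exact this (hZ1 h)
  set b : X → X := fun t => (Quotient.mk (MulAction.orbitRel G X) t).out with hb
  have hbe : ∀ t, ∃ g : G, g • b t = t := fun t => by
    have h1 : (MulAction.orbitRel G X) t (b t) :=
      (MulAction.orbitRel G X).symm (Quotient.mk_out (s := MulAction.orbitRel G X) t)
    exact MulAction.orbitRel_apply.1 h1
  choose γ hγ using hbe
  have hbg : ∀ (g : G) t, b (g • t) = b t := fun g t => by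
    have : Quotient.mk (MulAction.orbitRel G X) (g • t) = Quotient.mk _ t :=
      Quotient.sound (MulAction.orbitRel_apply.2 (MulAction.mem_orbit t g))
    simp only [hb, this]
  have hb0 : ∀ t ∈ X₀, b t ∈ X₀ := fun t ht => by
    have := hinv (γ t)⁻¹ t ht
    rwa [inv_smul_eq_iff.2 (hγ t).symm] at this
  set w : X → ℝ := fun t => if t ∈ X₀ then (ρ (γ t) (b t)).toReal else 1 with hw
  have hwpos : ∀ t, 0 < w t := fun t => by
    simp only [hw]
    split_ifs with ht
    · exact ENNReal.toReal_pos ((hgood _ (hb0 t ht)).2.2.1 _).ne' ((hgood _ (hb0 t ht)).2.1 _).ne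
    · exact one_pos
  have hratio : ∀ (g : G) t, w (g • t) / w t = if t ∈ X₀ then (ρ g t).toReal else 1 := by
    intro g t
    split_ifs with ht
    · rw [div_eq_iff (hwpos t).ne']
      simp only [hw, if_pos ht, if_pos (hinv g t ht), hbg]
      obtain ⟨-, -, -, h4, h5⟩ := hgood _ (hb0 t ht)
      have h6 : ((g * γ t)⁻¹ * γ (g • t)) • b t = b t := by
        rw [mul_smul, ← hbg g t, hγ, inv_smul_eq_iff, mul_smul, hbg, hγ]
      have h7 := h4 (g * γ t) ((g * γ t)⁻¹ * γ (g • t))
      rw [mul_inv_cancel_left, h6, h5 _ h6, mul_one, h4, hγ] at h7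
      rw [h7, ENNReal.toReal_mul]
    · have h2 : g • t ∉ X₀ := fun h => ht (by simpa using hinv g⁻¹ _ h)
      simp only [hw, if_neg ht, if_neg h2, div_one]
  refine ⟨X₀, w, hX₀m, hX₀c, hinv, fun t ht => (hgood t ht).1, hwpos, fun g => ?_, fun g F hF => ?_⟩
  · simp only [hratio]
    exact Measurable.ite hX₀m (hρm g).ennreal_toReal measurable_const
  · rw [hD g F hF]
    refine lintegral_congr_ae ?_
    filter_upwards [mem_ae_iff.2 hX₀c] with t ht
    rw [hratio, if_pos ht, ENNReal.ofReal_toReal ((hgood t ht).2.1 g).ne]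

end Crest.Agent.R109
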