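import Crest.Agent.R109.Nrm
import Crest.Agent.R109.NMeas
import Crest.Agent.R109.Ball
import Crest.Agent.R109.FBasic

/-! Row 109, normal corner: the kernel of an element of the normaliser algebra. -/

set_option autoImplicit false

open scoped ComplexOrder InnerProductSpace ComplexConjugate ENNReal
open Filter Topology MeasureTheory

namespace Crest.Agent.R109

variable {M H X : Type*} [CStarAlgebra M] [PartialOrder M] [StarOrderedRing M]
  [NormedAddCommGroup H] [InnerProductSpace ℂ H] [CompleteSpace H]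
  [TopologicalSpace X] [CompactSpace X] [T2Space X] [MeasurableSpace X] [BorelSpace X]

section hilbert

variable {K : Type*} [NormedAddCommGroup K] [InnerProductSpace ℂ K] {α : Type*} [DecidableEq α]
  {v : α → K} {U : Finset α}

theorem kernel_on_sub (h : ∀ s ∈ U, ∀ s' ∈ U, ⟪v s, v s'⟫_ℂ = if s = s' then 1 else 0) :
    Orthonormal ℂ fun s : U => v s := by
  rw [orthonormal_iff_ite]
  intro s s'
  rw [h s s.2 s' s'.2]
  simp only [Subtype.ext_iff]

theorem kernel_bessel (h : ∀ s ∈ U, ∀ s' ∈ U, ⟪v s, v s'⟫_ℂ = if s = s' then 1 else 0) (w : K) :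
    ∑ s ∈ U, ‖⟪v s, w⟫_ℂ‖ ^ 2 ≤ ‖w‖ ^ 2 := by
  rw [← Finset.sum_coe_sort U fun s => ‖⟪v s, w⟫_ℂ‖ ^ 2]
  exact (kernel_on_sub h).sum_inner_products_le w

theorem kernel_norm_sum (h : ∀ s ∈ U, ∀ s' ∈ U, ⟪v s, v s'⟫_ℂ = if s = s' then 1 else 0)
    (ξ : α → ℂ) : ‖∑ s ∈ U, ξ s • v s‖ ^ 2 = ∑ s ∈ U, ‖ξ s‖ ^ 2 := by
  have h1 := (kernel_on_sub h).inner_sum (fun s => ξ s) (fun s => ξ s) Finset.univ
  rw [Finset.sum_coe_sort U fun s => ξ s • v s, Finset.sum_coe_sort U fun s => conj (ξ s) * ξ s]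
    at h1
  rw [← inner_self_eq_norm_sq (𝕜 := ℂ), h1, map_sum]
  refine Finset.sum_congr rfl fun s _ => ?_
  rw [Complex.conj_mul']
  exact_mod_cast Complex.ofReal_re _

theorem kernel_repr (h : ∀ s ∈ U, ∀ s' ∈ U, ⟪v s, v s'⟫_ℂ = if s = s' then 1 else 0)
    {ι : Type*} [Fintype ι] (p : ι → α) (hp : ∀ i, p i ∈ U) (d : ι → ℂ) :
    ∑ i, d i • v (p i) = ∑ s ∈ U, ⟪v s, ∑ i, d i • v (p i)⟫_ℂ • v s := by
  simp only [inner_sum, inner_smul_right, Finset.sum_smul]
  rw [Finset.sum_comm]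
  refine Finset.sum_congr rfl fun i _ => ?_
  rw [Finset.sum_eq_single (p i)]
  · rw [h _ (hp i) _ (hp i), if_pos rfl, mul_one]
  · intro s hs hne
    rw [h _ hs _ (hp i), if_neg hne, mul_zero, zero_smul]
  · exact fun hn => absurd (hp i) hn

end hilbert

section power

variable {K : Type*} [NormedAddCommGroup K] [InnerProductSpace ℂ K] {G α : Type*} [Group G]
  [DecidableEq G] [MulAction G α] [DecidableEq α]

theorem kernel_pow {S : Finset G} (h1 : (1 : G) ∈ S) (T : K →L[ℂ] K) (v : α → K) (Y : α → α → ℂ)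
    (t : α) (j : ℕ) {ε : ℝ}
    (hon : ∀ s ∈ B S j t, ∀ s' ∈ B S j t, ⟪v s, v s'⟫_ℂ = if s = s' then 1 else 0)
    (hT : ∀ s ∈ B S j t, T (v s) = ∑ s' ∈ B S 1 s, Y s' s • v s')
    (hY : ∀ s' s, Y s' s ≠ 0 → s' ∈ B S 1 s) (hb : Bnd ε Y (B S j t)) :
    ‖(T ^ j) (v t)‖ ^ 2 ≤ ε ^ (2 * j) := by
  have hmono : ∀ {a b : ℕ}, a ≤ b → B S a t ⊆ B S b t := fun hab =>
    Finset.image_subset_image (Finset.pow_subset_pow_right h1 hab)
  have ht : t ∈ B S j t := mem_B.2 ⟨1, Finset.one_mem_pow h1, one_smul _ _⟩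
  have key : ∀ i ≤ j, ∃ η : α → ℂ, (∀ s, η s ≠ 0 → s ∈ B S i t) ∧
      (T ^ i) (v t) = ∑ s ∈ B S j t, η s • v s ∧ ∑ s ∈ B S j t, ‖η s‖ ^ 2 ≤ ε ^ (2 * i) := by
    intro i
    induction i with
    | zero =>
      intro _
      refine ⟨fun s => if s = t then 1 else 0, fun s hs => ?_, ?_, ?_⟩
      · rw [B_zero, Finset.mem_singleton]
        by_contra hne
        exact hs (if_neg hne)
      · simp [ht]
      · rw [Finset.sum_eq_single t]
        · simp
        · intro s _ hne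
          simp [hne]
        · exact fun hn => absurd ht hn
    | succ i ih =>
      intro hi
      obtain ⟨η, hη1, hη2, hη3⟩ := ih (Nat.le_of_succ_le hi)
      refine ⟨fun s' => ∑ s ∈ B S j t, Y s' s * η s, fun s' hs' => ?_, ?_, ?_⟩
      · obtain ⟨s, -, hs⟩ := Finset.exists_ne_zero_of_sum_ne_zero hs'
        exact B_add (hη1 s (right_ne_zero_of_mul hs)) (hY _ _ (left_ne_zero_of_mul hs))
      · rw [pow_succ', mul_apply_eq_comp, hη2, map_sum]
        simp only [Finset.sum_smul]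
        rw [Finset.sum_comm]
        refine Finset.sum_congr rfl fun s hs => ?_
        rw [map_smul, hT s hs]
        by_cases h0 : η s = 0
        · simp [h0]
        · rw [Finset.sum_subset (s₂ := B S j t) (fun s' hs' => hmono hi (B_add (hη1 s h0) hs'))
            (fun s' _ hs' => by
              have : Y s' s = 0 := by
                by_contra hne
                exact hs' (hY _ _ hne)
              rw [this, zero_smul]), Finset.smul_sum]
          refine Finset.sum_congr rfl fun s' _ => ?_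
          rw [smul_smul, mul_comm]
      · refine (hb η).trans ?_
        calc ε ^ 2 * ∑ s ∈ B S j t, ‖η s‖ ^ 2 ≤ ε ^ 2 * ε ^ (2 * i) :=
              mul_le_mul_of_nonneg_left hη3 (sq_nonneg _)
          _ = ε ^ (2 * (i + 1)) := by ring
  obtain ⟨η, -, h2, h3⟩ := key j le_rfl
  rw [h2, kernel_norm_sum hon]
  exact h3

end power

section gns

variable (φ : M →ₚ[ℂ] ℂ)

/-- The canonical map into the GNS space. -/
noncomputable def kernel_J : M →ₗ[ℂ] φ.GNS :=
  (UniformSpace.Completion.toComplₗᵢ (𝕜 := ℂ) (E := φ.PreGNS)).toLinearMap ∘ₗ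
    φ.toPreGNS.toLinearMap

theorem kernel_J_apply (y : M) : kernel_J φ y = (φ.toPreGNS y : φ.GNS) := rfl

theorem kernel_π (a y : M) : φ.gnsStarAlgHom a (kernel_J φ y) = kernel_J φ (a * y) :=
  φ.gnsNonUnitalStarAlgHom_apply_coe

theorem kernel_inner (a y : M) : ⟪kernel_J φ a, kernel_J φ y⟫_ℂ = φ (star a * y) := by
  rw [kernel_J_apply, kernel_J_apply, UniformSpace.Completion.inner_coe]
  rfl

theorem kernel_norm (y : M) : ‖kernel_J φ y‖ = n2 φ y := UniformSpace.Completion.norm_coe _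

end gns

omit [T2Space X] [MeasurableSpace X] [BorelSpace X] in
theorem kernel_J_Φ (c : Ctx M H X) (b : X) (y : M) (f : C(X, ℂ)) :
    kernel_J (c.Et b) (y * c.Γ.Φ f) = f b • kernel_J (c.Et b) y := by
  rw [← sub_eq_zero, ← map_smul, ← map_sub, ← inner_self_eq_zero (𝕜 := ℂ), kernel_inner]
  have : y * c.Γ.Φ f - f b • y = y * c.Γ.Φ (f - f b • 1) := by
    rw [map_sub, map_smul, map_one, mul_sub, mul_smul_comm, mul_one]
  rw [this, ← mul_assoc, Ctx.Et_apply, c.E_mul_right]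
  simp

variable (c : NCtx M H X) {G : Type*} [Group G] [DecidableEq G] [MulAction G X]
  [ContinuousConstSMul G X] [DecidableEq X]

omit [T2Space X] [BorelSpace X] [DecidableEq G] [DecidableEq X] in
theorem kernel_Φ_u (A : c.Γ.Act G) (b : X) (g : G) (f : C(X, ℂ)) :
    kernel_J (c.toCtx.Et b) (c.Γ.Φ f * A.u g) = f (g • b) • kernel_J (c.toCtx.Et b) (A.u g) := by
  rw [(A.nrm g).comm, kernel_J_Φ]
  rfl

omit [DecidableEq G] in
theorem kernel_on (A : c.Γ.Act G) (b : X) (g g' : G) (hg : g • b = g' • b → g = g') :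
    ⟪kernel_J (c.toCtx.Et b) (A.u g), kernel_J (c.toCtx.Et b) (A.u g')⟫_ℂ =
      if g • b = g' • b then 1 else 0 := by
  rw [kernel_inner, A.star, ← A.mul]
  split_ifs with h
  · rw [hg h, inv_mul_cancel, A.one, Ctx.Et_one]
  · refine c.E_nrm_zero (A.nrm _) fun hi => h ?_
    have h2 : (g⁻¹ * g') • b = b := interior_subset (s := {s : X | (g⁻¹ * g') • s = s}) hi
    rw [mul_smul, inv_smul_eq_iff] at h2
    exact h2.symm

omit [DecidableEq G] in
theorem kernel_on' (A : c.Γ.Act G) (b : X) (γ : X → G) {s s' : X} (hs : γ s • b = s)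
    (hs' : γ s' • b = s') :
    ⟪kernel_J (c.toCtx.Et b) (A.u (γ s)), kernel_J (c.toCtx.Et b) (A.u (γ s'))⟫_ℂ =
      if s = s' then 1 else 0 := by
  rw [kernel_on c A b _ _ (fun h => by rw [hs, hs'] at h; rw [h]), hs, hs']

omit [DecidableEq G] [DecidableEq X] in
theorem kernel_phase (A : c.Γ.Act G) {b : X}
    (hb : ∀ h : G, h • b = b → b ∈ interior {s : X | h • s = s}) {g g' : G}
    (h : g • b = g' • b) : ∃ χ : ℂ, ‖χ‖ = 1 ∧
      kernel_J (c.toCtx.Et b) (A.u g) = χ • kernel_J (c.toCtx.Et b) (A.u g') := by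
  have hk : (g'⁻¹ * g) • b = b := by rw [mul_smul, h, inv_smul_smul]
  have hq : IsClopen (interior {s : X | (g'⁻¹ * g) • s = s}) :=
    Gel.interior_closed c.W c.Γ (isClosed_eq (continuous_const_smul _) continuous_id)
  obtain ⟨h1, h2⟩ := c.nrm_mul_e (A.nrm (g'⁻¹ * g))
  refine ⟨c.E (A.u (g'⁻¹ * g)) b, h2 b (hb _ hk), ?_⟩
  have h3 := kernel_J_Φ c.toCtx b (A.u g' * A.u (g'⁻¹ * g))
    (ind (interior {s : X | (g'⁻¹ * g) • s = s}))
  rw [ind_of_mem hq (hb _ hk), one_smul, mul_assoc] at h3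
  have h4 : A.u (g'⁻¹ * g) * c.Γ.Φ (ind (interior {s : X | (g'⁻¹ * g) • s = s})) =
      c.Γ.Φ (c.E (A.u (g'⁻¹ * g))) := h1
  rw [h4, kernel_J_Φ, ← A.mul, mul_inv_cancel_left] at h3
  exact h3.symm

omit [TopologicalSpace X] [CompactSpace X] [T2Space X] [MeasurableSpace X] [BorelSpace X]
  [ContinuousConstSMul G X] in
theorem kernel_orbit {S : Finset G} {b : X} {γ : X → G} (hγ : ∀ h : G, γ (h • b) • b = h • b)
    {t : X} (ht : γ t • b = t) {R : ℕ} {s : X} (hs : s ∈ B S R t) : γ s • b = s := by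
  obtain ⟨g, -, rfl⟩ := mem_B.1 hs
  have := hγ (g * γ t)
  rwa [mul_smul, ht] at this

open Pointwise in
theorem kernel_expand (A : c.Γ.Act G) {S : Finset G} {ι : Type*} [Fintype ι] (g : ι → G)
    (hg : ∀ i, g i ∈ S) (a : ι → C(X, ℂ)) {b : X}
    (hb : ∀ h : G, h • b = b → b ∈ interior {s : X | h • s = s}) (γ : X → G)
    (hγ : ∀ h : G, γ (h • b) • b = h • b) {t : X} (ht : γ t • b = t) :
    kernel_J (c.toCtx.Et b) ((∑ i, A.u (g i) * c.Γ.Φ (a i)) * A.u (γ t)) =
      ∑ s ∈ B S 1 t, ⟪kernel_J (c.toCtx.Et b) (A.u (γ s)),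
        kernel_J (c.toCtx.Et b) ((∑ i, A.u (g i) * c.Γ.Φ (a i)) * A.u (γ t))⟫_ℂ •
          kernel_J (c.toCtx.Et b) (A.u (γ s)) := by
  have hm : ∀ i, g i • t ∈ B S 1 t := fun i => mem_B.2 ⟨g i, by rw [pow_one]; exact hg i, rfl⟩
  have hph : ∀ i, ∃ χ : ℂ, ‖χ‖ = 1 ∧ kernel_J (c.toCtx.Et b) (A.u (g i * γ t)) =
      χ • kernel_J (c.toCtx.Et b) (A.u (γ (g i • t))) := fun i =>
    kernel_phase c A hb (by rw [mul_smul, ht, kernel_orbit hγ ht (hm i)])
  choose χ _ hχ using hph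
  have h1 : kernel_J (c.toCtx.Et b) ((∑ i, A.u (g i) * c.Γ.Φ (a i)) * A.u (γ t)) =
      ∑ i, (a i t * χ i) • kernel_J (c.toCtx.Et b) (A.u (γ (g i • t))) := by
    rw [Finset.sum_mul, map_sum]
    refine Finset.sum_congr rfl fun i _ => ?_
    rw [mul_assoc, ← kernel_π, kernel_Φ_u, map_smul, kernel_π, ← A.mul, hχ, ht, smul_smul]
  rw [h1]
  exact kernel_repr (v := fun s => kernel_J (c.toCtx.Et b) (A.u (γ s)))
    (fun s hs s' hs' => kernel_on' c A b γ (kernel_orbit hγ ht hs) (kernel_orbit hγ ht hs'))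
    (fun i => g i • t) hm _

/-- The orbit basis.  Fix `b` such that every `g` fixing `b` fixes a neighbourhood of `b`, and
`φ = Et b`.  Then `φ (u g) = 0` if `g b ≠ b` (`E_nrm_zero`), and if `g b = b` then `‖φ (u g)‖ = 1`,
`φ (y * u g) = φ y * φ (u g)` (`nrm_mul_e`, `E_mul_right`); `n2 φ (y Φ f - f b • y) = 0`.  If `γ s`
satisfies `γ s • b = s` for `s` in the orbit, the `u (γ s)` are orthonormal for `φ`, and
`n * u (γ s) = ∑_i u (g i * γ s) Φ (a i ∘ γ s)` is, up to a `φ`-null element, a combination of the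
`u (γ s')`, `s' ∈ B S 1 s`, whose coefficients are the inner products. -/
theorem NCtx.orbit_expand (A : c.Γ.Act G) {S : Finset G} {ι : Type*} [Fintype ι] (g : ι → G)
    (hg : ∀ i, g i ∈ S) (a : ι → C(X, ℂ)) {b : X}
    (hb : ∀ h : G, h • b = b → b ∈ interior {s : X | h • s = s}) (γ : X → G)
    (hγ : ∀ h : G, γ (h • b) • b = h • b) (h : G) :
    (∀ h' : G, c.E (star (A.u (γ (h' • b))) * A.u (γ (h • b))) b =
      if h' • b = h • b then 1 else 0) ∧
    n2 (c.toCtx.Et b) ((∑ i, A.u (g i) * c.Γ.Φ (a i)) * A.u (γ (h • b)) -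
      ∑ s ∈ B S 1 (h • b), c.E (star (A.u (γ s)) * (∑ i, A.u (g i) * c.Γ.Φ (a i)) *
        A.u (γ (h • b))) b • A.u (γ s)) = 0 ∧
    (∀ f : C(X, ℂ), n2 (c.toCtx.Et b) (c.Γ.Φ f * A.u (γ (h • b)) -
      f (h • b) • A.u (γ (h • b))) = 0) ∧
    ∃ χ : ℂ, ‖χ‖ = 1 ∧ n2 (c.toCtx.Et b) (A.u h - χ • A.u (γ (h • b))) = 0 := by
  refine ⟨fun h' => ?_, ?_, fun f => ?_, ?_⟩
  · rw [← kernel_on' c A b γ (hγ h') (hγ h), kernel_inner, Ctx.Et_apply]
  · rw [← kernel_norm, norm_eq_zero, map_sub, map_sum, sub_eq_zero,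
      kernel_expand c A g hg a hb γ hγ (hγ h)]
    refine Finset.sum_congr rfl fun s _ => ?_
    rw [map_smul, kernel_inner, Ctx.Et_apply, mul_assoc]
  · rw [← kernel_norm, norm_eq_zero, map_sub, map_smul, kernel_Φ_u, hγ, sub_self]
  · obtain ⟨χ, h1, h2⟩ := kernel_phase c A hb (hγ h).symm
    exact ⟨χ, h1, by rw [← kernel_norm, norm_eq_zero, map_sub, map_smul, h2, sub_self]⟩

/-- Take `X₀`, `w` from `exists_cocycle` (`map_ac`; `N = ⋃_g Fix g \ interior (Fix g)` is null by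
`measure_diff_interior`), base points `b t` of the orbits and `γ t • b t = t`.  Put
`x s t = E (u (γ s)* n u (γ t)) (b t)` if `t ∈ X₀` and `s` is in the orbit of `t`, and `0` otherwise.
`bnd`: Bessel's inequality (test with `η = x ξ` and `pos_cs`, `n2_mul_le`).  `gauge`:
`k g g' = indicator X₀ (E (u g* n u g'))` and `E_conj`.  `mark`: `exists_marker`.  Moments: for
`t ∈ X₀`, `E (y^j* y^j) t = n2 φ (y^j u (γ t))²` (`E_conj`), and by induction
`y^i u (γ t) ≡ ∑_{s ∈ B j t} η_i s • u (γ s)` with `η_i` supported in `B i t`, `η₀ = δ_t`,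
`η_{i+1} = (ycol x col) η_i`. -/
theorem NCtx.exists_kernel [Countable G] (A : c.Γ.Act G) {S : Finset G} (h1 : (1 : G) ∈ S)
    (hinv : ∀ g ∈ S, g⁻¹ ∈ S) {ι : Type*} [Fintype ι] (g : ι → G) (hg : ∀ i, g i ∈ S)
    (a : ι → C(X, ℂ)) {n : M} (hn : n = ∑ i, A.u (g i) * c.Γ.Φ (a i)) (hsa : IsSelfAdjoint n)
    (hn1 : ‖n‖ ≤ 1) (hE : c.E n = 0) :
    ∃ (x : X → X → ℂ) (w : X → ℝ), LS S c.μ x w ∧ ∀ᵐ t ∂c.μ, ∀ (r : ℕ)
      (col : LocallyConstant X (Fin r)) (j : ℕ) (ε : ℝ), 0 ≤ ε → Bnd ε (ycol x col) (B S j t) →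
        (c.E (star (pinch (c.Γ.pc col) n ^ j) * pinch (c.Γ.pc col) n ^ j) t).re ≤ ε ^ (2 * j) := by
  classical
  have := c.prob
  have := c.reg
  have := Gel.totallyDisconnected c.W c.Γ
  have hm : ∀ k : G, Measurable fun t : X => k • t := fun k => (continuous_const_smul k).measurable
  have hcl : ∀ k : G, IsClosed {t : X | k • t = t} := fun k =>
    isClosed_eq (continuous_const_smul k) continuous_id
  obtain ⟨X₀, w, hX₀m, hX₀c, hX₀i, hX₀N, hwpos, hwm, hmtp⟩ :=
    exists_cocycle (G := G) c.μ hm (fun k => (hcl k).measurableSet) (fun k => c.map_ac (A.nrm k))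
      (N := ⋃ k : G, {t : X | k • t = t} \ interior {t : X | k • t = t})
      (measure_iUnion_null fun k => c.measure_diff_interior (hcl k))
  have hX₀i' : ∀ (k : G) t, k • t ∈ X₀ → t ∈ X₀ := fun k t h => by
    simpa using hX₀i k⁻¹ _ h
  obtain ⟨β, γ, hγ, hβ⟩ : ∃ (β : X → X) (γ : X → G), (∀ t, γ t • β t = t) ∧
      ∀ (k : G) t, β (k • t) = β t := by
    let β : X → X := fun t => (Quotient.mk (MulAction.orbitRel G X) t).out
    have hbe : ∀ t, ∃ k : G, k • β t = t := fun t => by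
      have h1 : (MulAction.orbitRel G X) t (β t) :=
        (MulAction.orbitRel G X).symm (Quotient.mk_out (s := MulAction.orbitRel G X) t)
      exact MulAction.orbitRel_apply.1 h1
    choose γ hγ using hbe
    refine ⟨β, γ, hγ, fun k t => ?_⟩
    have : Quotient.mk (MulAction.orbitRel G X) (k • t) = Quotient.mk _ t :=
      Quotient.sound (MulAction.orbitRel_apply.2 (MulAction.mem_orbit t k))
    simp only [β, this]
  have hββ : ∀ t, β (β t) = β t := fun t => by
    have := hβ (γ t) (β t)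
    rw [hγ] at this
    exact this.symm
  have hγ' : ∀ t (k : G), γ (k • β t) • β t = k • β t := fun t k => by
    have := hγ (k • β t)
    rwa [hβ, hββ] at this
  have hγs : ∀ {s t}, β s = β t → γ s • β t = s := fun {s t} h => by rw [← h, hγ]
  have hβ0 : ∀ t ∈ X₀, β t ∈ X₀ := fun t ht => hX₀i' (γ t) _ (by rw [hγ]; exact ht)
  have hβ0' : ∀ {s t}, β s = β t → t ∈ X₀ → s ∈ X₀ := fun {s t} h ht => by
    rw [← hγs h]; exact hX₀i _ _ (hβ0 t ht)
  have hb : ∀ t ∈ X₀, ∀ k : G, k • β t = β t → β t ∈ interior {s : X | k • s = s} := by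
    intro t ht k hk
    by_contra hn
    exact hX₀N _ (hβ0 t ht) (Set.mem_iUnion.2 ⟨k, hk, hn⟩)
  have hβB : ∀ {R : ℕ} {s t : X}, s ∈ B S R t → β s = β t := fun {R s t} hs => by
    obtain ⟨k, -, rfl⟩ := mem_B.1 hs
    exact hβ k t
  let x : X → X → ℂ := fun s t =>
    if t ∈ X₀ ∧ β s = β t then c.E (star (A.u (γ s)) * n * A.u (γ t)) (β t) else 0
  let v : X → (b : X) → (c.toCtx.Et b).GNS := fun s b => kernel_J (c.toCtx.Et b) (A.u (γ s))
  have hon : ∀ {s s' t : X}, β s = β t → β s' = β t →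
      ⟪v s (β t), v s' (β t)⟫_ℂ = if s = s' then 1 else 0 := fun hs hs' =>
    kernel_on' c A _ γ (hγs hs) (hγs hs')
  have hx : ∀ {s s' t : X}, t ∈ X₀ → β s = β t → β s' = β t →
      x s' s = ⟪v s' (β t), (c.toCtx.Et (β t)).gnsStarAlgHom n (v s (β t))⟫_ℂ := by
    intro s s' t ht hs hs'
    simp only [x, v]
    rw [if_pos ⟨hβ0' hs ht, hs'.trans hs.symm⟩, kernel_π, kernel_inner, Ctx.Et_apply, hs, mul_assoc]
  have hexp : ∀ {s t : X}, t ∈ X₀ → β s = β t →
      (c.toCtx.Et (β t)).gnsStarAlgHom n (v s (β t)) = ∑ s' ∈ B S 1 s, x s' s • v s' (β t) := by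
    intro s t ht hs
    have h2 := kernel_expand c A g hg a (hb t ht) γ (hγ' t) (hγs hs)
    rw [← hn, ← kernel_π] at h2
    refine h2.trans (Finset.sum_congr rfl fun s' hs' => ?_)
    rw [hx ht hs ((hβB hs').trans hs)]
  have hconj : ∀ (y : M) (t : X), c.E y t =
      c.E (star (A.u (γ t)) * y * A.u (γ t)) (β t) := fun y t => by
    rw [c.E_conj (A.nrm (γ t))]
    exact congrArg (c.E y) (hγ t).symm
  have hsupp : ∀ s t, x s t ≠ 0 → s ∈ B S 1 t := by
    intro s t h
    have hc : t ∈ X₀ ∧ β s = β t := by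
      by_contra hn
      exact h (if_neg hn)
    by_contra hs
    refine h ?_
    rw [hx hc.1 rfl hc.2, hexp hc.1 rfl, inner_sum]
    refine Finset.sum_eq_zero fun s' hs' => ?_
    rw [inner_smul_right, hon hc.2 (hβB hs'), if_neg (fun h : s = s' => hs (h ▸ hs')), mul_zero]
  refine ⟨x, w, ⟨h1, hinv, hm, fun k => (hcl k).measurableSet, hwpos, hwm, hmtp, fun s t => ?_,
    fun t => ?_, hsupp, fun t R ξ => ?_, ?_, fun R δ hδ => exists_marker c.μ S R hδ⟩, ?_⟩
  · by_cases hc : t ∈ X₀ ∧ β s = β t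
    · rw [hx hc.1 hc.2 rfl, hx hc.1 rfl hc.2, inner_conj_symm,
        ← ContinuousLinearMap.adjoint_inner_right, ← ContinuousLinearMap.star_eq_adjoint,
        ← map_star, hsa.star_eq]
    · have hc' : ¬ (s ∈ X₀ ∧ β t = β s) := fun h => hc ⟨hβ0' h.2 h.1, h.2.symm⟩
      simp only [x, if_neg hc, if_neg hc', map_zero]
  · simp only [x]
    split_ifs
    · rw [← hconj, hE]; rfl
    · rfl
  · by_cases ht : t ∈ X₀
    · have hon' : ∀ s ∈ B S R t, ∀ s' ∈ B S R t,
          ⟪v s (β t), v s' (β t)⟫_ℂ = if s = s' then 1 else 0 := fun s hs s' hs' =>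
        hon (hβB hs) (hβB hs')
      have h2 := kernel_bessel (v := fun s => v s (β t)) hon'
        ((c.toCtx.Et (β t)).gnsStarAlgHom n (∑ s ∈ B S R t, ξ s • v s (β t)))
      have h3 := kernel_norm_sum (v := fun s => v s (β t)) hon' ξ
      have h4 : ‖(c.toCtx.Et (β t)).gnsStarAlgHom n (∑ s ∈ B S R t, ξ s • v s (β t))‖ ≤
          ‖∑ s ∈ B S R t, ξ s • v s (β t)‖ :=
        (ContinuousLinearMap.le_opNorm _ _).trans (mul_le_of_le_one_left (norm_nonneg _)
          ((NonUnitalStarAlgHom.norm_apply_le (c.toCtx.Et (β t)).gnsStarAlgHom n).trans hn1))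
      rw [one_pow, one_mul, ← h3]
      refine le_trans (le_of_eq ?_) (h2.trans (pow_le_pow_left₀ (norm_nonneg _) h4 2))
      refine Finset.sum_congr rfl fun s' hs' => ?_
      rw [map_sum, inner_sum]
      congr 2
      refine Finset.sum_congr rfl fun s hs => ?_
      rw [map_smul, inner_smul_right, hx ht (hβB hs) (hβB hs'), mul_comm]
    · have h0 : ∀ s' ∈ B S R t, ∀ s ∈ B S R t, x s' s = 0 := fun s' _ s hs =>
        if_neg fun h => ht (hβ0' (hβB hs).symm h.1)
      rw [Finset.sum_eq_zero fun s' hs' => by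
        rw [Finset.sum_eq_zero fun s hs => by rw [h0 s' hs' s hs, zero_mul], norm_zero,
          zero_pow two_ne_zero]]
      positivity
  · refine ⟨fun k k' => X₀.indicator (c.E (star (A.u k) * n * A.u k')),
      fun k k' => (c.E _).continuous.measurable.indicator hX₀m, fun t => ?_⟩
    by_cases ht : t ∈ X₀
    · have hph : ∀ k : G, ∃ χ : ℂ, ‖χ‖ = 1 ∧ kernel_J (c.toCtx.Et (β t)) (A.u (k * γ t)) =
          χ • v (k • t) (β t) := fun k =>
        kernel_phase c A (hb t ht) (by rw [mul_smul, hγ, hγs (hβ k t)])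
      choose χ hχ1 hχ using hph
      refine ⟨χ, hχ1, fun k k' => ?_⟩
      beta_reduce
      have h2 : ⟪kernel_J (c.toCtx.Et (β t)) (A.u (k * γ t)), (c.toCtx.Et (β t)).gnsStarAlgHom n
          (kernel_J (c.toCtx.Et (β t)) (A.u (k' * γ t)))⟫_ℂ =
          conj (χ k) * x (k • t) (k' • t) * χ k' := by
        rw [hχ, hχ, map_smul, inner_smul_left, inner_smul_right, hx ht (hβ k' t) (hβ k t)]
        ring
      rw [Set.indicator_of_mem ht, hconj, ← h2, kernel_π, kernel_inner,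
        Ctx.Et_apply, A.mul, A.mul, star_mul]
      simp only [mul_assoc]
    · refine ⟨fun _ => 1, fun _ => norm_one, fun k k' => ?_⟩
      have : x (k • t) (k' • t) = 0 := if_neg fun h => ht (hX₀i' _ _ h.1)
      beta_reduce
      rw [Set.indicator_of_notMem ht, this, mul_zero, zero_mul]
  · filter_upwards [mem_ae_iff.2 hX₀c] with t ht r col j ε _ hB
    have hpc : ∀ (s : X) (i : Fin r), β s = β t →
        (c.toCtx.Et (β t)).gnsStarAlgHom (c.Γ.pc col i) (v s (β t)) =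
          (if col s = i then (1 : ℂ) else 0) • v s (β t) := by
      intro s i hs
      have h2 := kernel_Φ_u c A (β t) (γ s) (ind (col ⁻¹' {i}))
      rw [hγs hs] at h2
      rw [kernel_π]
      refine h2.trans ?_
      split_ifs with hi
      · rw [ind_of_mem (V := col ⁻¹' {i}) (col.isLocallyConstant.isClopen_fiber i) hi]
      · rw [ind_of_notMem (V := col ⁻¹' {i}) (t := s) hi]
    have h2 := kernel_pow h1 ((c.toCtx.Et (β t)).gnsStarAlgHom (pinch (c.Γ.pc col) n))
      (fun s => v s (β t)) (ycol x col) t j (fun s hs s' hs' => hon (hβB hs) (hβB hs'))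
      (fun s hs => by
        have hs0 := hβB hs
        rw [pinch, map_sum, sum_apply, Finset.sum_eq_single (col s)]
        · rw [map_mul, map_mul, mul_apply_eq_comp, mul_apply_eq_comp, hpc s _ hs0, if_pos rfl,
            one_smul, hexp ht hs0, map_sum]
          refine Finset.sum_congr rfl fun s' hs' => ?_
          rw [map_smul, hpc s' _ ((hβB hs').trans hs0), smul_smul, ycol]
          split_ifs <;> simp
        · intro i _ hi
          rw [map_mul, mul_apply_eq_comp, hpc s _ hs0, if_neg hi.symm, zero_smul, map_zero]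
        · exact fun h => absurd (Finset.mem_univ _) h)
      (fun s' s h => hsupp _ _ fun h0 => h (by rw [ycol, h0, ite_self])) hB
    rw [← map_pow, kernel_π, kernel_norm, n2_sq, Ctx.Et_apply] at h2
    rw [hconj]
    convert h2 using 4
    rw [star_mul]
    simp only [mul_assoc]

end Crest.Agent.R109
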