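import Crest.Agent.R109.Round

/-! Row 109, local algorithm: few balls are bad. -/

set_option autoImplicit false

open scoped ComplexConjugate ENNReal Pointwise
open MeasureTheory

namespace Crest.Agent.R109

variable {G X : Type*} [Group G] [DecidableEq G] [MulAction G X] [DecidableEq X]
  [MeasurableSpace X] {S : Finset G} {μ : Measure X} {x : X → X → ℂ} {w : X → ℝ} {r : ℕ}

variable {K z small err γ₁ ε' C₀ : ℝ} {N : ℕ} {Ψ : (X → St r) → Finset X → ℝ}

/-- fix the sign of a coloured vertex -/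
def lfinalSgn (b : Bool) : St r → St r
  | .half c => .sgn b c
  | _ => .dead

theorem Pot.lfinal_mg_dead (hP : Pot S x w K z small err γ₁ ε' C₀ N Ψ) {σ : X → St r} {v : X}
    (hv : σ v = St.dead) (U : Finset X) : mg Ψ σ U v = 0 := by
  rw [mg, hP.dead σ U v hv, sub_self]

omit [MeasurableSpace X] in
theorem lfinal_adm_mixlt {L₀ : Set X} (hK : ∀ u ∈ L₀, Kg S w K u) {σ σ' : X → St r}
    (hL : ∀ u, σ u ≠ St.dead → u ∈ L₀) (hL' : ∀ u, σ' u ≠ St.dead → u ∈ L₀) (χ : X → ℕ) (j : ℕ)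
    (R : ℕ) (v : X) : Adm S w K (mixlt χ σ σ' j) (B S R v) := by
  refine ⟨⟨v, R, subset_rfl⟩, fun u hu => hK u ?_⟩
  unfold mixlt at hu
  split_ifs at hu
  · exact hL' u hu
  · exact hL u hu

/-- On the ball around a centre the densities add up to the potential of the ball. -/
theorem Pot.lfinal_sum (h : LS S μ x w) (hP : Pot S x w K z small err γ₁ ε' C₀ N Ψ)
    {χ : X → ℕ} {L₀ : Set X} (hM : Mark S (4 * N) χ L₀) (hK : ∀ u ∈ L₀, Kg S w K u) {m : ℕ}
    (hm : m ≤ N) {τ : X → St r} (hL : ∀ u, τ u ≠ St.dead → u ∈ L₀) {t : X}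
    (hcl : ∀ u ∈ B S (m + 1) t, τ u ≠ St.dead → u ∈ B S m t) :
    ∑ u ∈ B S m t, dens Ψ S w N χ τ u * (w u / w t) = Ψ τ (B S m t) / w t := by
  rw [← hP.telescope τ χ (B S m t), Finset.sum_div]
  · refine Finset.sum_congr rfl fun u hu => ?_
    have hw := (h.wpos u).ne'
    have hu' : u ∈ ((B S N u).filter fun a => χ a ≤ χ u) ∩ B S m t := by
      simp [h.self_mem, hu]
    have e1 : mg Ψ τ ((B S N u).filter fun a => χ a ≤ χ u) u =
        mg Ψ τ (((B S N u).filter fun a => χ a ≤ χ u) ∩ B S m t) u := by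
      refine hP.loc τ _ _ u ⟨⟨u, N, Finset.filter_subset _ _⟩, fun a ha => hK a (hL a ha)⟩
        Finset.inter_subset_left hu' ⟨fun _ => (B S m t : Set X), hu, fun _ => subset_rfl, ?_, ?_⟩
      · intro n a a' ha _ ha' hadj
        exact hcl a' (B_add ha hadj) (Finset.mem_filter.1 ha').2
      · intro a ha ha'
        exact Finset.mem_inter.2 ⟨(Finset.mem_filter.1 ha).1, ha'⟩
    have e2 : mg Ψ τ ((B S m t).filter fun a => χ a ≤ χ u) u =
        mg Ψ τ (((B S N u).filter fun a => χ a ≤ χ u) ∩ B S m t) u := by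
      refine hP.loc τ _ _ u ⟨⟨t, m, Finset.filter_subset _ _⟩, fun a ha => hK a (hL a ha)⟩
        (fun a ha => ?_) hu' (h.cover_ball _ _ u N fun a ha ha' => ?_)
      · obtain ⟨h1, h2⟩ := Finset.mem_inter.1 ha
        exact Finset.mem_filter.2 ⟨h2, (Finset.mem_filter.1 h1).2⟩
      · obtain ⟨h1, h2⟩ := Finset.mem_filter.1 (Finset.mem_filter.1 ha).1
        exact Finset.mem_inter.2 ⟨Finset.mem_filter.2 ⟨ha', h2⟩, h1⟩
    rw [dens, e1, e2]
    field_simp
  · intro u hu u' hu' h1 _ h2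
    exact (hM u (hL u h1) u' (h.B_mono (by omega) u (B_add (h.B_symm hu) hu')) h2.symm).symm

/-- Let `C` be the set of centres, `σ₁ u = sgn b (c u)` if `σ u ≠ dead`, else `dead`, and
`σ₂ u = σ₁ u` if `∃ t ∈ B m u, t ∈ C`, else `dead`.  Two applications of `interp` with
`Γ = 2 err` (`Pot.rs`; `Pot.nonneg` and `Pot.dead`) give `∫ dens σ₂ ≤ ∫ dens σ + 4 err`.  Two centres
at distance `≤ 2m + 1` coincide, so a live point `u` of `σ₂` has exactly one centre `t` in
`B m u`, and the live neighbours of points of `B m t` lie in `B m t`.  `mtp_real` with `R = m` and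
`F u t = if t ∈ C then dens σ₂ u else 0` (`dens σ₂ u = 0` for dead `u`), `loc` (twice: constant
`d n = B m t`, and `cover_ball`) and `telescope` on `B m t` give
`∫ dens σ₂ = ∫ 1_C Ψ σ₂ (B m t) / w t`.  The function `1_C Ψ σ₂ (B m t) / w t + err |S|^m K^m` is
measurable, nonnegative (`ge_neg`, `w_ball`, `card_B_le`) and `≥ γ₁ / K^m` on the bad set
(`Pot.final` with `w₀ = w t / K^m`); Markov's inequality. -/
theorem Pot.bad_le [IsProbabilityMeasure μ] (h : LS S μ x w)
    (hP : Pot S x w K z small err γ₁ ε' C₀ N Ψ) (hK1 : 1 ≤ K) (herr : 0 ≤ err) (hγ : 0 < γ₁)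
    {χ : X → ℕ} (hχ : Measurable χ) {L : ℕ} (hχL : ∀ t, χ t < L) {L₀ : Set X}
    (hM : Mark S (4 * N) χ L₀) (hK : ∀ u ∈ L₀, Kg S w K u) {m : ℕ} (hm : m ≤ N)
    {σ : X → St r} (hσ : Measurable σ) (hL : ∀ u, σ u ≠ St.dead → u ∈ L₀) {c : X → Fin r}
    (hc : ∀ u, σ u = St.dead ∨ σ u = St.half (c u)) {χ₁ : X → ℕ} (hχ₁ : Measurable χ₁) (i : ℕ)
    (b : Bool) :
    μ {t | (χ₁ t = i ∧ (∀ s ∈ B S (2 * m + 1) t, χ₁ s = χ₁ t → s = t) ∧
        ∀ s ∈ B S m t, σ s ≠ St.dead) ∧ ∃ ξ : X → ℂ, ε' * ∑ u ∈ B S m t, ‖ξ u‖ ^ 2 <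
          qf (fun a a' => sy b * ycol x c a a') (B S m t) ξ} ≤
      ENNReal.ofReal ((∫ t, dens Ψ S w N χ σ t ∂μ + 4 * err + err * S.card ^ m * K ^ m) *
        K ^ m / γ₁) := by
  classical
  set C : Set X := {t | χ₁ t = i ∧ (∀ s ∈ B S (2 * m + 1) t, χ₁ s = χ₁ t → s = t) ∧
    ∀ s ∈ B S m t, σ s ≠ St.dead} with hCdef
  have hC : MeasurableSet C := by
    refine (hχ₁ (measurableSet_singleton i)).inter (MeasurableSet.inter ?_ ?_)
    · refine h.measurableSet_forall (2 * m + 1) (P := fun t s => χ₁ s = χ₁ t → s = t) fun g => ?_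
      exact (measurableSet_eq_fun (hχ₁.comp (h.meas g)) hχ₁).imp (h.fix g)
    · refine h.measurableSet_forall m (P := fun _ s => σ s ≠ St.dead) fun g => ?_
      exact ((hσ.comp (h.meas g)) (measurableSet_singleton St.dead)).compl
  have hCu : ∀ t ∈ C, ∀ t' ∈ C, t' ∈ B S (2 * m + 1) t → t' = t := fun t ht t' ht' hB =>
    ht.2.1 t' hB (ht'.1.trans ht.1.symm)
  set σ₁ : X → St r := fun u => lfinalSgn b (σ u) with hσ₁def
  set σ₂ : X → St r := fun u => if ∃ t ∈ B S m u, t ∈ C then σ₁ u else St.dead with hσ₂def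
  have hσ₁ : Measurable σ₁ := (Measurable.of_discrete (f := lfinalSgn b)).comp hσ
  have hσ₂ : Measurable σ₂ :=
    Measurable.ite (h.measurableSet_exists m (P := fun _ s => s ∈ C) fun g => h.meas g hC) hσ₁
      measurable_const
  have h1d : ∀ u, σ u = St.dead → σ₁ u = St.dead := fun u hu => by simp [hσ₁def, hu, lfinalSgn]
  have h1h : ∀ u, σ u ≠ St.dead → σ₁ u = St.sgn b (c u) := fun u hu => by
    simp [hσ₁def, (hc u).resolve_left hu, lfinalSgn]
  have hL₁ : ∀ u, σ₁ u ≠ St.dead → u ∈ L₀ := fun u hu => hL u fun h' => hu (h1d u h')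
  have h2l : ∀ u, σ₂ u ≠ St.dead → (∃ t ∈ B S m u, t ∈ C) ∧ σ₂ u = σ₁ u := fun u hu => by
    by_cases h' : ∃ t ∈ B S m u, t ∈ C
    · exact ⟨h', if_pos h'⟩
    · exact absurd (if_neg h') hu
  have hL₂ : ∀ u, σ₂ u ≠ St.dead → u ∈ L₀ := fun u hu => hL₁ u ((h2l u hu).2 ▸ hu)
  have hmix : ∀ (τ τ' : X → St r) v, mixlt χ τ τ' (χ v) v = τ v := fun τ τ' v => by
    simp [mixlt]
  -- the two phases
  have I1 := hP.interp h hχ hχL hM hK hσ hσ₁ hL hL₁ (Γ := fun _ => 2 * err) (integrable_const _)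
    (fun _ _ => by positivity) fun v hv => by
      have hv' : σ v ≠ St.dead := fun h' => hv (h'.trans (h1d v h').symm)
      have := hP.rs (mixlt χ σ σ₁ (χ v)) (B S N v) v b (c v)
        (lfinal_adm_mixlt hK hL hL₁ χ _ N v) (h.self_mem N v)
        ((hmix _ _ v).trans ((hc v).resolve_left hv'))
      rw [h1h v hv']
      linarith
  have I2 := hP.interp h hχ hχL hM hK hσ₁ hσ₂ hL₁ hL₂ (Γ := fun _ => 2 * err) (integrable_const _)
    (fun _ _ => by positivity) fun v hv => by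
      have hv' : σ₂ v = St.dead := by
        by_contra h'
        exact hv (h2l v h').2.symm
      have := hP.nonneg (mixlt χ σ₁ σ₂ (χ v)) (B S N v) v
        (lfinal_adm_mixlt hK hL₁ hL₂ χ _ N v) (h.self_mem N v)
      rw [hP.lfinal_mg_dead (by rw [Function.update_self, hv'])]
      have := mul_nonneg herr (h.wpos v).le
      linarith
  simp only [integral_const, probReal_univ, smul_eq_mul, one_mul] at I1 I2
  -- mass transport to the centres
  obtain ⟨M1, M2⟩ := h.mtp_real m (F := fun u t => if t ∈ C then dens Ψ S w N χ σ₂ u else 0)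
    (C := |C₀|)
    (fun g => Measurable.ite (h.meas g hC) (hP.dens_measurable h hχ hσ₂) measurable_const)
    fun u t => by
      split_ifs
      · exact (hP.dens_bound h χ (fun a ha => hK a (hL₂ a ha)) u).1.trans (le_abs_self _)
      · simp
  have e1 : ∀ u, ∑ t ∈ B S m u, (if t ∈ C then dens Ψ S w N χ σ₂ u else 0) =
      dens Ψ S w N χ σ₂ u := fun u => by
    by_cases hu : σ₂ u = St.dead
    · simp [dens, hP.lfinal_mg_dead hu]
    · obtain ⟨t, ht, htC⟩ := (h2l u hu).1
      rw [Finset.sum_eq_single_of_mem t ht, if_pos htC]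
      intro t' ht' hne
      exact if_neg fun h' => hne
        (hCu t htC t' h' (h.B_mono (by omega) t (B_add (h.B_symm ht) ht')))
  have e2 : ∀ t, ∑ u ∈ B S m t, (if t ∈ C then dens Ψ S w N χ σ₂ u else 0) * (w u / w t) =
      if t ∈ C then Ψ σ₂ (B S m t) / w t else 0 := fun t => by
    by_cases ht : t ∈ C
    · simp only [if_pos ht]
      refine hP.lfinal_sum h hM hK hm hL₂ fun u hu hu' => ?_
      obtain ⟨t', ht', ht'C⟩ := (h2l u hu').1
      rw [← hCu t ht t' ht'C (h.B_mono (by omega) t (B_add hu ht'))]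
      exact h.B_symm ht'
    · simp [if_neg ht]
  simp only [e1, e2] at M1 M2
  -- Markov
  have hKm : 0 < K ^ m := by positivity
  have hKg : ∀ t ∈ C, ∀ s ∈ B S m t, Kg S w K s := fun t ht s hs => hK s (hL s (ht.2.2 s hs))
  have hsum : ∀ t ∈ C, ∑ u ∈ B S m t, w u ≤ S.card ^ m * K ^ m * w t := fun t ht => by
    refine (Finset.sum_le_card_nsmul _ _ (K ^ m * w t)
      fun u hu => (h.w_ball hK1 (hKg t ht) hu).1).trans ?_
    rw [nsmul_eq_mul, mul_assoc]
    refine mul_le_mul_of_nonneg_right ?_ (mul_nonneg hKm.le (h.wpos t).le)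
    exact_mod_cast card_B_le m t
  have hA : ∀ t, Adm S w K σ₂ (B S m t) := fun t =>
    ⟨⟨t, m, subset_rfl⟩, fun a ha => hK a (hL₂ a ha)⟩
  set H : X → ℝ := fun t =>
    (if t ∈ C then Ψ σ₂ (B S m t) / w t else 0) + err * S.card ^ m * K ^ m with hH
  have hH0 : ∀ t, 0 ≤ H t := fun t => by
    by_cases ht : t ∈ C
    · simp only [hH, if_pos ht]
      have h1 := hP.ge_neg (hA t)
      have h2 := mul_le_mul_of_nonneg_left (hsum t ht) herr
      have h3 : -(err * S.card ^ m * K ^ m) ≤ Ψ σ₂ (B S m t) / w t := by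
        rw [le_div_iff₀ (h.wpos t)]
        linarith
      linarith
    · simp only [hH, if_neg ht]
      positivity
  have hHi : Integrable H μ := M1.add (integrable_const _)
  have hHint : ∫ t, H t ∂μ ≤ ∫ t, dens Ψ S w N χ σ t ∂μ + 4 * err + err * S.card ^ m * K ^ m := by
    rw [hH, integral_add M1 (integrable_const _), ← M2]
    simp only [integral_const, probReal_univ, smul_eq_mul, one_mul]
    linarith
  have hMk := mul_meas_ge_le_integral_of_nonneg (Filter.Eventually.of_forall hH0) hHi (γ₁ / K ^ m)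
  calc _ ≤ μ {t | γ₁ / K ^ m ≤ H t} := by
        refine measure_mono ?_
        rintro t ⟨ht, ξ, hξ⟩
        have ht' : t ∈ C := ht
        have hwt := h.wpos t
        have h1 := hP.final σ₂ (B S m t) b c (w t / K ^ m) ξ (hA t) (fun u hu => by
            rw [← h1h u (ht.2.2 u hu)]
            exact if_pos ⟨t, h.B_symm hu, ht'⟩) (by positivity)
          (fun u hu => by
            rw [div_le_iff₀ hKm, mul_comm]
            exact (h.w_ball hK1 (hKg t ht') hu).2) hξ
        have h2 := mul_le_mul_of_nonneg_left (hsum t ht') herr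
        have h3 : γ₁ / K ^ m - err * S.card ^ m * K ^ m ≤ Ψ σ₂ (B S m t) / w t := by
          rw [le_div_iff₀ hwt]
          have : γ₁ * (w t / K ^ m) = γ₁ / K ^ m * w t := by ring
          linarith
        simp only [Set.mem_setOf_eq, hH, if_pos ht']
        linarith
    _ ≤ _ := by
        rw [← ofReal_measureReal]
        refine ENNReal.ofReal_le_ofReal ?_
        rw [le_div_iff₀ hγ]
        have h1 := mul_le_mul_of_nonneg_right (hMk.trans hHint) hKm.le
        refine le_trans (le_of_eq ?_) h1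
        field_simp

end Crest.Agent.R109
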