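import Crest.Agent.R109.Algo
import Crest.Agent.R109.LFinal
import Crest.Agent.R109.ExPot

/-! Row 109: the local (measurable) paving theorem. -/

set_option autoImplicit false

open scoped ComplexConjugate ENNReal Pointwise
open MeasureTheory

namespace Crest.Agent.R109

variable {G X : Type*} [Group G] [DecidableEq G] [MulAction G X] [DecidableEq X]
  [MeasurableSpace X] {S : Finset G} {μ : Measure X} {x : X → X → ℂ} {w : X → ℝ} {r : ℕ}

/-- A positive extended real dominates three copies of a positive real. -/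
theorem local_third {δ : ℝ≥0∞} (hδ : 0 < δ) :
    ∃ d : ℝ, 0 < d ∧ ENNReal.ofReal d + ENNReal.ofReal d + ENNReal.ofReal d ≤ δ := by
  by_cases ht : δ = ⊤
  · exact ⟨1, one_pos, ht ▸ le_top⟩
  · have hp : 0 < δ.toReal := ENNReal.toReal_pos hδ.ne' ht
    refine ⟨δ.toReal / 3, by positivity, ?_⟩
    rw [← ENNReal.ofReal_add (by positivity) (by positivity),
      ← ENNReal.ofReal_add (by positivity) (by positivity)]
    have : δ.toReal / 3 + δ.toReal / 3 + δ.toReal / 3 = δ.toReal := by ring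
    rw [this, ENNReal.ofReal_toReal ht]

/-- The colour read off from a state, with a default value. -/
def localCol : St r → Fin r → Fin r
  | .half c, _ => c
  | _, a => a

theorem localCol_perm (π : Equiv.Perm (Fin r)) (s : St r) (a : Fin r) :
    localCol (s.perm π) (π a) = π (localCol s a) := by
  cases s <;> rfl

omit [DecidableEq X] [MeasurableSpace X] in
theorem local_qf_true (y : X → X → ℂ) (U : Finset X) (ξ : X → ℂ) :
    qf (fun a a' => sy true * y a a') U ξ = qf y U ξ := by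
  simp [qf, sy]

omit [DecidableEq X] [MeasurableSpace X] in
theorem local_qf_false (y : X → X → ℂ) (U : Finset X) (ξ : X → ℂ) :
    qf (fun a a' => sy false * y a a') U ξ = -qf y U ξ := by
  simp [qf, sy, Finset.sum_neg_distrib]

theorem local_const (hr : 2 ≤ r) : 98 * (8 / √(2 * r : ℝ)) ≤ 600 / √r := by
  have hr0 : (0 : ℝ) < r := by exact_mod_cast (by omega : 0 < r)
  have hs : 0 < √(r : ℝ) := Real.sqrt_pos.2 hr0
  have h2 : (14 / 10 : ℝ) ≤ √2 := Real.le_sqrt_of_sq_le (by norm_num)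
  rw [Real.sqrt_mul (by norm_num), ← mul_div_assoc, div_le_div_iff₀ (by positivity) hs]
  nlinarith

/-- Choose `δ'` from `nbhd_small m (δ/3)`, `K` from `exists_K (δ'/3)`, the coarse marker `χ₁`, `L₁`
from `mark (2m+1) (δ/3)`, then `small`, `err` with `(small + 4 err) / z ≤ δ'/3` and
`2 L₁ (small + 7 err + err |S|^m K^m) K^m / γ₁ ≤ δ/3`, the potential (`exists_pot`, `N ≥ m`), the
fine marker `χ`, `L` from `mark (4N) (δ'/3)`, `L₀ = {Kg K} ∩ {t | ∀ s ∈ B (4N) t, χ s = χ t → s = t}`.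
`col l t = c` if `fin l t = half c` and `l t 0` otherwise; `ρ = L * N`.  The dead set has measure
`≤ δ'` (`dens ≥ -err`).  A point outside the three small sets and the `2 L₁` sets of `bad_le` is
good by `bnd_of_qf` (`98 * 8 / √(2r) ≤ 600 / √r`).  (WLOG `δ, δ' ≤ 1`, finite.) -/
theorem LS.local_thm [IsProbabilityMeasure μ] (h : LS S μ x w) (hr : 2 ≤ r) (m : ℕ) {δ : ℝ≥0∞}
    (hδ : 0 < δ) :
    ∃ (ρ : ℕ) (col : (X → Equiv.Perm (Fin r)) → X → Fin r),
      (∀ l l' t, (∀ s ∈ B S ρ t, l s = l' s) → col l t = col l' t) ∧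
      (∀ π l t, col (fun s => π * l s) t = π (col l t)) ∧
      ∀ l, (∀ π, MeasurableSet {t | l t = π}) → (∀ a, MeasurableSet {t | col l t = a}) ∧
        μ {t | ¬ Bnd (600 / √r) (ycol x (col l)) (B S m t)} ≤ δ := by
  classical
  obtain ⟨d, hd, hdδ⟩ := local_third hδ
  obtain ⟨δ', hδ', hnb⟩ := h.nbhd_small m (ENNReal.ofReal_pos.2 hd)
  obtain ⟨d', hd', hdδ'⟩ := local_third hδ'
  obtain ⟨K, hK1, hKμ⟩ := h.exists_K (ENNReal.ofReal_pos.2 hd')
  obtain ⟨L₁, χ₁, hχ₁, hχ₁L, hχ₁μ⟩ := h.mark (2 * m + 1) _ (ENNReal.ofReal_pos.2 hd)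
  have hr0 : (0 : ℝ) < r := by exact_mod_cast (by omega : 0 < r)
  have hz : (0 : ℝ) < 8 / √(2 * r) := by positivity
  have hcst := local_const hr
  set z : ℝ := 8 / √(2 * r) with hzdef
  have hK0 : 0 < K := lt_of_lt_of_le one_pos hK1
  set A : ℝ := (8 + S.card ^ m * K ^ m) * K ^ m / (z / 48) with hA
  have hA0 : 0 < A := by positivity
  set e : ℝ := min (z * d' / 5) (d / (2 * L₁ * A + 1)) with he
  have he0 : 0 < e := lt_min (by positivity) (by positivity)
  have he1 : 5 * e ≤ z * d' := by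
    have := min_le_left (z * d' / 5) (d / (2 * L₁ * A + 1))
    linarith
  have he2 : 2 * L₁ * (e * A) ≤ d := by
    have h1 := min_le_right (z * d' / 5) (d / (2 * L₁ * A + 1))
    rw [← he, le_div_iff₀ (by positivity)] at h1
    nlinarith
  obtain ⟨N, C₀, Ψ, hN, hP⟩ := h.exists_pot hr hK1 he0 he0 m
  obtain ⟨L, χ, hχ, hχL, hχμ⟩ := h.mark (4 * N) _ (ENNReal.ofReal_pos.2 hd')
  set L₀ : Set X := {t | Kg S w K t ∧ ∀ s ∈ B S (4 * N) t, χ s = χ t → s = t} with hL₀def
  have hL₀ : MeasurableSet L₀ := by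
    refine (h.measurableSet_Kg K).inter
      (h.measurableSet_forall (4 * N) (P := fun t s => χ s = χ t → s = t) fun g => ?_)
    exact (measurableSet_eq_fun (hχ.comp (h.meas g)) hχ).imp (h.fix g)
  have hM : Mark S (4 * N) χ L₀ := fun s hs u hu e => hs.2 u hu e
  have hK : ∀ u ∈ L₀, Kg S w K u := fun u hu => hu.1
  obtain ⟨fin, hloc, hperm, hdh, hL, hint⟩ := hP.exists_run h he0.le hχ hχL hL₀ hM hK
  let a₀ : Fin r := ⟨0, by omega⟩
  refine ⟨L * N, fun l t => localCol (fin l t) (l t a₀), fun l l' t hl => ?_, fun π l t => ?_,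
    fun l hl => ?_⟩
  · simp only [hloc l l' t hl, hl t (h.self_mem _ t)]
  · simp only [hperm, Equiv.Perm.mul_apply, localCol_perm]
  obtain ⟨hfm, hI⟩ := hint l hl
  refine ⟨fun a => ?_, ?_⟩
  · have : {t | localCol (fin l t) (l t a₀) = a} =
        ⋃ p ∈ {p : St r × Equiv.Perm (Fin r) | localCol p.1 (p.2 a₀) = a},
          (fin l ⁻¹' {p.1}) ∩ {t | l t = p.2} := by
      ext t
      simp only [Set.mem_ofPred_eq, Set.mem_iUnion, Set.mem_inter_iff, Set.mem_preimage,
        Set.mem_singleton_iff, exists_prop]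
      constructor
      · intro ht
        exact ⟨(fin l t, l t), ht, rfl, rfl⟩
      · rintro ⟨p, hp, h1, h2⟩
        rw [h1, h2]
        exact hp
    rw [this]
    exact (Set.toFinite _).measurableSet_biUnion fun p _ =>
      (hfm (measurableSet_singleton _)).inter (hl _)
  have hlive : ∀ u, fin l u ≠ St.dead → Kg S w K u := fun u hu => hK u (hL l u hu)
  have hdint : Integrable (dens Ψ S w N χ (fin l)) μ :=
    Integrable.of_bound (hP.dens_measurable h hχ hfm).aestronglyMeasurable C₀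
      (ae_of_all _ fun t => (hP.dens_bound h χ hlive t).1)
  have hlow : -e ≤ ∫ t, dens Ψ S w N χ (fin l) t ∂μ := by
    have := integral_mono (integrable_const (-e)) hdint
      fun t => (hP.dens_bound h χ hlive t).2
    simpa using this
  have hreal0 : 0 ≤ μ.real {t | t ∈ L₀ ∧ fin l t = St.dead} := measureReal_nonneg
  have hup : ∫ t, dens Ψ S w N χ (fin l) t ∂μ ≤ 4 * e := by
    have := mul_nonneg hz.le hreal0
    linarith
  have hdead0 : μ {t | t ∈ L₀ ∧ fin l t = St.dead} ≤ ENNReal.ofReal d' := by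
    rw [← ofReal_measureReal]
    refine ENNReal.ofReal_le_ofReal ?_
    refine le_of_mul_le_mul_left ?_ hz
    linarith
  have hdead : μ {t | fin l t = St.dead} ≤ δ' := by
    have hsub : {t | fin l t = St.dead} ⊆ ({t | ¬ Kg S w K t} ∪
        {t | ∃ s ∈ B S (4 * N) t, s ≠ t ∧ χ s = χ t}) ∪ {t | t ∈ L₀ ∧ fin l t = St.dead} := by
      intro t ht
      by_cases h0 : t ∈ L₀
      · exact Or.inr ⟨h0, ht⟩
      · left
        by_cases h1 : Kg S w K t
        · right
          by_contra h2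
          refine h0 ⟨h1, fun s hs hc => ?_⟩
          by_contra h3
          exact h2 ⟨s, hs, h3, hc⟩
        · exact Or.inl h1
    refine (measure_mono hsub).trans ((measure_union_le _ _).trans (le_trans ?_ hdδ'))
    exact add_le_add ((measure_union_le _ _).trans (add_le_add hKμ hχμ)) hdead0
  set c : X → Fin r := fun t => localCol (fin l t) (l t a₀) with hcdef
  have hc : ∀ u, fin l u = St.dead ∨ fin l u = St.half (c u) := by
    intro u
    rcases hdh l u with h1 | ⟨a, h1⟩
    · exact Or.inl h1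
    · right
      simp only [hcdef, h1, localCol]
  let Bad : Fin L₁ × Bool → Set X := fun p =>
    {t | (χ₁ t = p.1 ∧ (∀ s ∈ B S (2 * m + 1) t, χ₁ s = χ₁ t → s = t) ∧
        ∀ s ∈ B S m t, fin l s ≠ St.dead) ∧ ∃ ξ : X → ℂ, 98 * z * ∑ u ∈ B S m t, ‖ξ u‖ ^ 2 <
          qf (fun a a' => sy p.2 * ycol x c a a') (B S m t) ξ}
  have hBad : ∀ p, μ (Bad p) ≤ ENNReal.ofReal (e * A) := by
    intro p
    refine (hP.bad_le h hK1 he0.le (by positivity) hχ hχL hM hK hN hfm (hL l) hc hχ₁ p.1
      p.2).trans (ENNReal.ofReal_le_ofReal ?_)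
    rw [hA, ← mul_div_assoc, ← mul_assoc]
    gcongr
    nlinarith
  have hBadU : μ (⋃ p, Bad p) ≤ ENNReal.ofReal d := by
    refine (measure_iUnion_fintype_le _ _).trans ?_
    refine (Finset.sum_le_sum fun p _ => hBad p).trans ?_
    rw [← ENNReal.ofReal_sum_of_nonneg fun _ _ => by positivity]
    refine ENNReal.ofReal_le_ofReal ?_
    simp only [Finset.sum_const, Finset.card_univ, Fintype.card_prod, Fintype.card_fin,
      Fintype.card_bool, nsmul_eq_mul]
    push_cast
    linarith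
  have hsub : {t | ¬ Bnd (600 / √r) (ycol x c) (B S m t)} ⊆
      ({t | ∃ s ∈ B S m t, s ∈ {t | fin l t = St.dead}} ∪
        {t | ∃ s ∈ B S (2 * m + 1) t, s ≠ t ∧ χ₁ s = χ₁ t}) ∪ ⋃ p, Bad p := by
    intro t ht
    by_contra hn
    simp only [Set.mem_union, not_or, Set.mem_iUnion, not_exists, Set.mem_ofPred_eq] at hn
    obtain ⟨⟨h1, h2⟩, h3⟩ := hn
    have hgood : ∀ (b : Bool) (ξ : X → ℂ), qf (fun a a' => sy b * ycol x c a a') (B S m t) ξ ≤
        600 / √r * ∑ u ∈ B S m t, ‖ξ u‖ ^ 2 := by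
      intro b ξ
      have hq : qf (fun a a' => sy b * ycol x c a a') (B S m t) ξ ≤
          98 * z * ∑ u ∈ B S m t, ‖ξ u‖ ^ 2 := by
        by_contra hq
        refine h3 (⟨χ₁ t, hχ₁L t⟩, b) ⟨⟨rfl, fun s hs hc' => ?_, fun s hs hd => h1 s ⟨hs, hd⟩⟩,
          ξ, not_le.1 hq⟩
        by_contra hne
        exact h2 s ⟨hs, hne, hc'⟩
      exact hq.trans (mul_le_mul_of_nonneg_right hcst (Finset.sum_nonneg fun _ _ => by positivity))
    refine ht (bnd_of_qf (by positivity) (fun a b => ?_) (fun ξ => ?_) fun ξ => ?_)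
    · unfold ycol
      by_cases hab : c a = c b
      · rw [if_pos hab, if_pos hab.symm, h.symm]
      · rw [if_neg hab, if_neg (Ne.symm hab), map_zero]
    · rw [← local_qf_true]
      exact hgood true ξ
    · rw [← local_qf_false]
      exact hgood false ξ
  refine (measure_mono hsub).trans ((measure_union_le _ _).trans (le_trans ?_ hdδ))
  exact add_le_add ((measure_union_le _ _).trans (add_le_add (hnb _ hdead) hχ₁μ)) hBadU

end Crest.Agent.R109
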