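import Crest.Agent.R109.FDefs

/-! Row 109, finite part: partial fractions of rational Pick functions. -/

set_option autoImplicit false

open scoped ComplexConjugate
open Polynomial

namespace Crest.Agent.R109

theorem pf_dir {j k : ℕ} (hj : 2 ≤ j) (hk : k ≤ 3) :
    ∃ ω : ℂ, 0 < ω.im ∧ ω ^ j = Complex.exp (Real.pi / 4 * Complex.I) * Complex.I ^ k := by
  have hj' : (2 : ℝ) ≤ j := by exact_mod_cast hj
  have hk' : (k : ℝ) ≤ 3 := by exact_mod_cast hk
  have hj0 : (j : ℂ) ≠ 0 := by exact_mod_cast (by omega : j ≠ 0)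
  refine ⟨Complex.exp (((2 * k + 1) * Real.pi / (4 * j) : ℝ) * Complex.I), ?_, ?_⟩
  · rw [Complex.exp_ofReal_mul_I_im]
    refine Real.sin_pos_of_pos_of_lt_pi (by positivity) ?_
    rw [div_lt_iff₀ (by positivity)]
    nlinarith [Real.pi_pos]
  · nth_rewrite 3 [← Complex.exp_pi_div_two_mul_I]
    rw [← Complex.exp_nat_mul, ← Complex.exp_nat_mul, ← Complex.exp_add]
    congr 1
    push_cast
    field_simp
    ring

theorem pf_sign {h : ℂ} {j : ℕ} (hj : 1 ≤ j) (h0 : h ≠ 0)
    (H : ∀ ω : ℂ, 0 < ω.im → (h / ω ^ j).im ≤ 0) : j = 1 ∧ ∃ m : ℝ, 0 ≤ m ∧ h = m := by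
  rcases hj.eq_or_lt with rfl | hj
  · refine ⟨rfl, h.re, ?_, ?_⟩
    · simpa [Complex.div_im] using H Complex.I (by simp)
    · have key : ∀ x : ℝ, h.im * x ≤ h.re := by
        intro x
        have h1 := H (x + Complex.I) (by simp)
        have h2 : 0 < Complex.normSq (x + Complex.I) :=
          Complex.normSq_pos.2 fun h => by simpa using congrArg Complex.im h
        rw [pow_one, Complex.div_im, ← sub_div, div_nonpos_iff] at h1
        rcases h1 with h1 | h1
        · exact absurd h1.2 h2.not_ge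
        · simpa using h1.1
      have h1 : h.im = 0 := by
        by_contra h1
        have := key ((h.re + 1) / h.im)
        rw [mul_div_cancel₀ _ h1] at this
        linarith
      exact Complex.ext (by simp) (by simpa using h1)
  · exfalso
    have key : ∀ k ≤ 3, (h / Complex.exp (Real.pi / 4 * Complex.I) / Complex.I ^ k).im ≤ 0 := by
      intro k hk
      obtain ⟨ω, h1, h2⟩ := pf_dir hj hk
      have := H ω h1
      rwa [h2, ← div_div] at this
    have hu : h / Complex.exp (Real.pi / 4 * Complex.I) ≠ 0 := div_ne_zero h0 (Complex.exp_ne_zero _)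
    generalize h / Complex.exp (Real.pi / 4 * Complex.I) = u at key hu
    have h1 := key 0 (by norm_num)
    have h2 := key 1 (by norm_num)
    have h3 := key 2 (by norm_num)
    have h4 := key 3 (by norm_num)
    simp [Complex.div_im, pow_succ] at h1 h2 h3 h4
    exact hu (Complex.ext (le_antisymm h4 h2) (le_antisymm h1 h3))

theorem pf_lim {f g : ℂ[X]} {q : ℂ} (hq : q.im = 0) (hf : f.eval q ≠ 0) {j : ℕ}
    (H : ∀ τ : ℂ, 0 < τ.im → (g.eval τ / ((τ - q) ^ j * f.eval τ)).im ≤ 0) (ω : ℂ)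
    (hω : 0 < ω.im) : (g.eval q / f.eval q / ω ^ j).im ≤ 0 := by
  have hc : ContinuousAt (fun ε : ℝ => (g.eval (q + ε * ω) / f.eval (q + ε * ω) / ω ^ j).im) 0 := by
    refine Complex.continuous_im.continuousAt.comp (ContinuousAt.div_const ?_ _)
    exact ContinuousAt.div (by fun_prop) (by fun_prop) (by simpa using hf)
  have h1 := hc.tendsto.mono_left (nhdsWithin_le_nhds (s := Set.Ioi 0))
  simp only [Complex.ofReal_zero, zero_mul, add_zero] at h1
  refine le_of_tendsto h1 (eventually_nhdsWithin_of_forall fun ε (hε : 0 < ε) => ?_)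
  have h2 := H (q + ε * ω) (by simp [hq, hε, hω])
  have h3 : g.eval (q + ε * ω) / f.eval (q + ε * ω) / ω ^ j =
      ((ε ^ j : ℝ) : ℂ) * (g.eval (q + ε * ω) / ((q + ε * ω - q) ^ j * f.eval (q + ε * ω))) := by
    have : (ε : ℂ) ≠ 0 := by exact_mod_cast hε.ne'
    rw [add_sub_cancel_left, mul_pow]
    push_cast
    field_simp
  rw [h3, Complex.im_ofReal_mul]
  exact mul_nonpos_of_nonneg_of_nonpos (by positivity) h2

theorem pf_loc {f g : ℂ[X]} (hf : f ≠ 0) {q : ℂ} (hq : q.im = 0)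
    (him : ∀ τ : ℂ, 0 < τ.im → (g.eval τ / f.eval τ).im ≤ 0) :
    ∃ m : ℝ, 0 ≤ m ∧ (X - C q) ^ f.rootMultiplicity q ∣ g - C (m : ℂ) * (f /ₘ (X - C q)) := by
  by_cases h0 : (X - C q) ^ f.rootMultiplicity q ∣ g
  · exact ⟨0, le_rfl, by simpa using h0⟩
  have hg : g ≠ 0 := by
    rintro rfl
    exact h0 (dvd_zero _)
  rw [← le_rootMultiplicity_iff hg, not_le] at h0
  obtain ⟨f₁, hf1, hf2⟩ := exists_eq_pow_rootMultiplicity_mul_and_not_dvd f hf q
  obtain ⟨g₁, hg1, hg2⟩ := exists_eq_pow_rootMultiplicity_mul_and_not_dvd g hg q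
  rw [dvd_iff_isRoot] at hf2 hg2
  obtain ⟨j, hj⟩ := Nat.exists_eq_add_of_lt h0
  generalize f.rootMultiplicity q = k at *
  generalize g.rootMultiplicity q = l at *
  subst hj
  obtain ⟨h1, m, hm, h2⟩ := pf_sign (j := j + 1) (by omega) (div_ne_zero hg2 hf2)
    (pf_lim hq hf2 fun τ hτ => by
      have h3 : τ - q ≠ 0 := fun h => by
        rw [sub_eq_zero.1 h, hq] at hτ
        exact lt_irrefl _ hτ
      convert him τ hτ using 2
      rw [hf1, hg1]
      simp only [eval_mul, eval_pow, eval_sub, eval_X, eval_C]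
      rw [add_assoc, pow_add (τ - q) l, mul_assoc, mul_div_mul_left _ _ (pow_ne_zero _ h3)])
  obtain rfl : j = 0 := by omega
  refine ⟨m, hm, ?_⟩
  rw [hf1, hg1, add_zero, pow_succ', mul_assoc, mul_divByMonic_cancel_left _ (monic_X_sub_C q),
    mul_left_comm, ← mul_sub, mul_comm (X - C q)]
  refine mul_dvd_mul_left _ (dvd_iff_isRoot.2 ?_)
  rw [div_eq_iff hf2] at h2
  simp [h2]

/-- Partial fractions.  Step 1: at a root `q` of `f` write `f = (X - q)^k f₁`, `g = (X - q)^l g₁`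
(`g ≠ 0`; `f₁ q ≠ 0 ≠ g₁ q`); if `j = k - l ≥ 1` then along `τ = q + ε e^{iθ}`, `ε → 0`,
`im (h e^{-ijθ}) ≤ 0` for all `θ ∈ (0, π)`, `h = g₁ q / f₁ q ≠ 0`; for `j ≥ 2` the angles `jθ`
cover a full circle (up to closure), a contradiction; for `j = 1` let `θ → 0, π` and `θ = π/2`:
`h` is real and `≥ 0`.  So `(X - q)^(k-1) ∣ g`.  Step 2: `f = f̃ ∏ (X - q)` over the distinct roots,
`f̃ ∣ g` (coprime factors), `g = f̃ g̃` with `deg g̃ ≤ #roots`, and Lagrange interpolation
(`Lagrange.eq_interpolate`) of `g̃ - γ ∏ (X - q)` gives the identity; the coefficient at `q` is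
`lim (τ - q) g / f`, i.e. `h` or `0`. -/
theorem pf {f g : ℂ[X]} (hf : f ≠ 0) (hr : ∀ s, f.IsRoot s → s.im = 0)
    (hd : g.natDegree ≤ f.natDegree)
    (him : ∀ τ : ℂ, 0 < τ.im → (g.eval τ / f.eval τ).im ≤ 0) :
    ∃ m : ℂ → ℝ, (∀ q, 0 ≤ m q) ∧
      g = C (g.coeff f.natDegree / f.leadingCoeff) * f +
        ∑ q ∈ f.roots.toFinset, C (m q : ℂ) * (f /ₘ (X - C q)) := by
  classical
  have h1 : ∀ q : ℂ, ∃ m : ℝ, 0 ≤ m ∧ (f.IsRoot q →
      (X - C q) ^ f.rootMultiplicity q ∣ g - C (m : ℂ) * (f /ₘ (X - C q))) := by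
    intro q
    by_cases hq : f.IsRoot q
    · obtain ⟨m, hm, h⟩ := pf_loc hf (hr q hq) him
      exact ⟨m, hm, fun _ => h⟩
    · exact ⟨0, le_rfl, fun h => absurd h hq⟩
  choose m hm0 hm using h1
  refine ⟨m, hm0, ?_⟩
  have hroot : ∀ q ∈ f.roots.toFinset, f.IsRoot q := fun q hq =>
    (mem_roots hf).1 (Multiset.mem_toFinset.1 hq)
  set S := ∑ q ∈ f.roots.toFinset, C (m q : ℂ) * (f /ₘ (X - C q)) with hS
  have hdeg : S.degree < f.degree := by
    refine (degree_sum_le _ _).trans_lt ((Finset.sup_lt_iff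
      (bot_lt_iff_ne_bot.2 (degree_ne_bot.2 hf))).2 fun q _ => ?_)
    refine lt_of_le_of_lt ?_ (degree_divByMonic_lt f (X - C q) hf (by simp))
    rw [← smul_eq_C_mul]
    exact degree_smul_le _ _
  have hdvd : f ∣ g - S := by
    by_cases h0 : g - S = 0
    · rw [h0]
      exact dvd_zero _
    rw [IsAlgClosed.dvd_iff_roots_le_roots hf h0, Multiset.le_iff_count]
    intro q
    rw [count_roots, count_roots, le_rootMultiplicity_iff h0]
    by_cases hq : f.IsRoot q
    · have hq' : q ∈ f.roots.toFinset := Multiset.mem_toFinset.2 ((mem_roots hf).2 hq)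
      rw [hS, ← Finset.add_sum_erase _ _ hq', ← sub_sub]
      refine dvd_sub (hm q hq) (Finset.dvd_sum fun q' hq'' => Dvd.dvd.mul_left ?_ _)
      obtain ⟨h2, h3⟩ := Finset.mem_erase.1 hq''
      refine (isCoprime_X_sub_C_of_isUnit_sub (sub_ne_zero.2 h2.symm).isUnit).pow_left.dvd_of_dvd_mul_left ?_
      rw [mul_divByMonic_eq_iff_isRoot.2 (hroot q' h3)]
      exact pow_rootMultiplicity_dvd f q
    · rw [rootMultiplicity_eq_zero hq, pow_zero]
      exact one_dvd _
  obtain ⟨r, hr⟩ := hdvd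
  have hrd : r.natDegree = 0 := by
    by_cases hr0 : r = 0
    · simp [hr0]
    have h2 : (g - S).natDegree ≤ f.natDegree :=
      (natDegree_sub_le _ _).trans (max_le hd (natDegree_le_natDegree hdeg.le))
    rw [hr, natDegree_mul hf hr0] at h2
    omega
  rw [eq_C_of_natDegree_eq_zero hrd] at hr
  have h2 := congrArg (fun p : ℂ[X] => p.coeff f.natDegree) hr
  simp only [coeff_sub, coeff_mul_C] at h2
  rw [coeff_eq_zero_of_degree_lt (hdeg.trans_le degree_le_natDegree), sub_zero] at h2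
  rw [h2, ← leadingCoeff, mul_div_cancel_left₀ _ (leadingCoeff_ne_zero.2 hf), mul_comm, ← hr,
    sub_add_cancel]

/-- A polynomial without roots in the open upper half-plane is large there
(`f = C lead * ∏ (X - root)`, `‖τ - root‖ ≥ im τ`; trivial if the coefficient vanishes). -/
theorem norm_eval_ge {f : ℂ[X]} {n : ℕ} (hn : f.natDegree ≤ n)
    (hr : ∀ s, 0 < s.im → f.eval s ≠ 0) {τ : ℂ} (hτ : 0 < τ.im) :
    ‖f.coeff n‖ * τ.im ^ n ≤ ‖f.eval τ‖ := by
  rcases hn.eq_or_lt with rfl | hn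
  · have key : ∀ s : Multiset ℂ, (∀ x ∈ s, x.im ≤ 0) →
        τ.im ^ s.card ≤ ‖(s.map (τ - ·)).prod‖ := by
      intro s
      induction s using Multiset.induction_on with
      | empty => simp
      | cons a s ih =>
        intro h
        rw [Multiset.card_cons, Multiset.map_cons, Multiset.prod_cons, norm_mul, pow_succ']
        refine mul_le_mul ?_ (ih fun x hx => h x (Multiset.mem_cons_of_mem hx)) (by positivity)
          (norm_nonneg _)
        have h1 := h a (Multiset.mem_cons_self _ _)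
        have h2 := (le_abs_self _).trans (Complex.abs_im_le_norm (τ - a))
        rw [Complex.sub_im] at h2
        linarith
    rw [(IsAlgClosed.splits f).eval_eq_prod_roots, norm_mul, ← leadingCoeff,
      ← IsAlgClosed.card_roots_eq_natDegree]
    refine mul_le_mul_of_nonneg_left (key _ fun x hx => ?_) (norm_nonneg _)
    by_contra h
    exact hr x (not_le.1 h) (isRoot_of_mem_roots hx)
  · rw [coeff_eq_zero_of_natDegree_lt hn, norm_zero, zero_mul]
    exact norm_nonneg _

/-- Hurwitz's theorem for polynomials of bounded degree, in the half-plane. -/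
theorem eval_ne_zero_of_tendsto {ι : Type*} {l : Filter ι} [l.NeBot] {f : ι → ℂ[X]} {g : ℂ[X]}
    {n : ℕ} (hn : ∀ i, (f i).natDegree ≤ n) (hr : ∀ᶠ i in l, ∀ s, 0 < s.im → (f i).eval s ≠ 0)
    (hc : Filter.Tendsto (fun i => (f i).coeff n) l (nhds (g.coeff n))) (hg : g.coeff n ≠ 0)
    {τ : ℂ} (hτ : 0 < τ.im) (he : Filter.Tendsto (fun i => (f i).eval τ) l (nhds (g.eval τ))) :
    g.eval τ ≠ 0 := by
  have h1 : ‖g.coeff n‖ * τ.im ^ n ≤ ‖g.eval τ‖ :=
    le_of_tendsto_of_tendsto (hc.norm.mul_const _) he.norm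
      (hr.mono fun i hi => norm_eval_ge (hn i) hi hτ)
  exact norm_pos_iff.1 ((mul_pos (norm_pos_iff.2 hg) (pow_pos hτ n)).trans_le h1)

end Crest.Agent.R109
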