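import Crest.Agent.R109.Region
import Crest.Agent.R109.PF
import Crest.Agent.R109.ArrowStep

/-! Row 109, finite part: the marginal potential is an arrowhead quantity. -/

set_option autoImplicit false
set_option linter.unusedSectionVars false

open scoped ComplexConjugate
open Polynomial

namespace Crest.Agent.R109

variable {α : Type*} [DecidableEq α] {𝒦 : Type*} [Fintype 𝒦] [DecidableEq 𝒦]

theorem marg_quad_deg (z η μ w : ℝ) : (quad z η μ w).natDegree ≤ 2 := by
  unfold quad; compute_degree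

theorem marg_quad_eval (F : FS α 𝒦) (z η : ℝ) {s : ℂ} (hs : s ≠ 0) (u : α) :
    (quad z η (F.μ u) (F.w u)).eval s = s * F.Zs z η s u := by
  simp only [quad, FS.Zs, eval_sub, eval_add, eval_mul, eval_C, eval_pow, eval_X]
  push_cast
  field_simp
  ring

theorem marg_term_deg (F : FS α 𝒦) (z η : ℝ) {U T : Finset α} (hT : T ⊆ U) (c : ℂ) (n : ℕ) :
    (C c * X ^ n * ∏ u ∈ U \ T, quad z η (F.μ u) (F.w u)).natDegree ≤
      n + 2 * (U.card - T.card) := by
  refine natDegree_mul_le.trans (add_le_add (natDegree_C_mul_X_pow_le c n) ?_)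
  refine (natDegree_prod_le _ _).trans ((Finset.sum_le_card_nsmul _ _ 2 fun u _ =>
    marg_quad_deg _ _ _ _).trans_eq ?_)
  rw [Finset.card_sdiff_of_subset hT, smul_eq_mul, mul_comm]

theorem marg_rs_prod {ι : Type*} (t : Finset ι) (q : ι → ℝ) :
    rs (∏ i ∈ t, (X - C (q i : ℂ))) = ∑ i ∈ t, max (q i) 0 := by
  classical
  induction t using Finset.induction_on with
  | empty => simpa using rs_C 1
  | insert i t hi ih =>
    rw [Finset.prod_insert hi, Finset.sum_insert hi, rs_mul (X_sub_C_ne_zero _)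
      (monic_prod_X_sub_C _ _).ne_zero, ih, rs_X_sub_C, Complex.ofReal_re]

theorem marg_ap_eval {ι : Type*} [Fintype ι] [DecidableEq ι] (a : ℝ) (q b2 : ι → ℝ) {s : ℂ}
    (hs : ∀ i, s - q i ≠ 0) :
    (ap a q b2).eval s = (∏ i, (s - q i)) * (s + a - ∑ i, b2 i / (s - q i)) := by
  simp only [ap, eval_sub, eval_mul, eval_add, eval_X, eval_C, eval_prod, eval_finsetSum]
  rw [mul_sub, mul_comm, Finset.mul_sum]
  congr 1
  refine Finset.sum_congr rfl fun i _ => ?_
  have := hs i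
  rw [← Finset.mul_prod_erase _ _ (Finset.mem_univ i)]
  field_simp

/-- the minors through `v` when `v` is in the class `k` -/
noncomputable def FS.margG (F : FS α 𝒦) (z η : ℝ) (U : Finset α) (v : α) (k : 𝒦) : ℂ[X] :=
  ∑ T ∈ U.powerset.filter (fun T => v ∈ T),
    C (cT F.y (Function.update F.π v (Pi.single k 1)) T) * X ^ (T.card - 1) *
      ∏ u ∈ U \ T, quad z η (F.μ u) (F.w u)

theorem FS.margG_eval (F : FS α 𝒦) (z η : ℝ) (U : Finset α) (v : α) (k : 𝒦) {s : ℂ}
    (hs : s ≠ 0) : (F.margG z η U v k).eval s = s ^ (U.card - 1) *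
      nH F.y (Function.update F.π v (Pi.single k 1)) U v (F.Zs z η s) 1 := by
  rw [FS.margG, nH, eval_finsetSum, Finset.mul_sum]
  refine Finset.sum_congr rfl fun T hT => ?_
  rw [Finset.mem_filter, Finset.mem_powerset] at hT
  have h1 := Finset.card_le_card hT.1
  have h2 := Finset.card_pos.2 ⟨v, hT.2⟩
  simp only [eval_mul, eval_C, eval_pow, eval_X, eval_prod, marg_quad_eval F z η hs,
    Finset.prod_mul_distrib, Finset.prod_const, Finset.card_sdiff_of_subset hT.1]
  rw [show U.card - 1 = T.card - 1 + (U.card - T.card) by omega]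
  ring

theorem FS.margG_deg {F : FS α 𝒦} {U : Finset α} (h : F.Ok U) (z η : ℝ) (v : α) (k : 𝒦) :
    (F.margG z η U v k).degree < (2 * (U.card - 1) : ℕ) := by
  refine (degree_sum_le _ _).trans_lt ((Finset.sup_lt_iff (WithBot.bot_lt_coe _)).2 fun T hT => ?_)
  rw [Finset.mem_filter, Finset.mem_powerset] at hT
  by_cases h1 : T = {v}
  · rw [h1, cT_singleton h.herm.diag]
    simp only [map_zero, zero_mul, degree_zero]
    exact WithBot.bot_lt_coe _
  · have h2 := Finset.card_le_card hT.1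
    have h3 : 1 < T.card := by
      by_contra h3
      exact h1 (Finset.eq_singleton_iff_unique_mem.2
        ⟨hT.2, fun u hu => Finset.card_le_one.1 (not_lt.1 h3) u hu v hT.2⟩)
    refine degree_le_natDegree.trans_lt (Nat.cast_lt.2 ((marg_term_deg F z η hT.1 _ _).trans_lt ?_))
    omega

/-- The terms `T ≠ ∅` have degree `2 |U| - |T|`; the term `T = ∅` has degree `2 |U|` and leading
coefficient `∏ μ / w`. -/
theorem FS.fU_natDegree {F : FS α 𝒦} {U : Finset α} (h : F.Ok U) (z η : ℝ) :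
    (F.fU z η U).natDegree = 2 * U.card ∧
      (F.fU z η U).leadingCoeff = ∏ u ∈ U, ((F.μ u / F.w u : ℝ) : ℂ) ∧ F.fU z η U ≠ 0 := by
  have h1 : (F.fU z η U).natDegree ≤ 2 * U.card :=
    natDegree_sum_le_of_forall_le _ _ fun T hT => by
      have := Finset.card_le_card (Finset.mem_powerset.1 hT)
      exact (marg_term_deg F z η (Finset.mem_powerset.1 hT) _ _).trans (by omega)
  have h2 : (F.fU z η U).coeff (2 * U.card) = ∏ u ∈ U, ((F.μ u / F.w u : ℝ) : ℂ) := by
    rw [FS.fU, finsetSum_coeff, Finset.sum_eq_single ∅]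
    · rw [cT_empty, Finset.sdiff_empty, Finset.card_empty, pow_zero, map_one, one_mul, one_mul,
        mul_comm, coeff_prod_of_natDegree_le _ _ _ fun u _ => marg_quad_deg _ _ _ _]
      refine Finset.prod_congr rfl fun u _ => ?_
      simp only [quad, coeff_sub, coeff_add, coeff_C_mul, coeff_X_pow, coeff_X, coeff_C]
      simp
    · intro T hT h0
      have := Finset.card_le_card (Finset.mem_powerset.1 hT)
      have := Finset.card_pos.2 (Finset.nonempty_iff_ne_empty.2 h0)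
      exact coeff_eq_zero_of_natDegree_lt
        ((marg_term_deg F z η (Finset.mem_powerset.1 hT) _ _).trans_lt (by omega))
    · simp
  have h3 : (F.fU z η U).coeff (2 * U.card) ≠ 0 := by
    rw [h2]
    exact Finset.prod_ne_zero_iff.2 fun u _ => Complex.ofReal_ne_zero.2
      (div_pos (zero_lt_one.trans_le (h.mu u)) (h.wpos u)).ne'
  have h4 := natDegree_eq_of_le_of_coeff_ne_zero h1 h3
  exact ⟨h4, by rw [leadingCoeff, h4, h2], fun h0 => h3 (by rw [h0, coeff_zero])⟩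

theorem FS.Zs_im (F : FS α 𝒦) (z η : ℝ) (s : ℂ) (u : α) :
    (F.Zs z η s u).im = s.im * (F.μ u / F.w u + η ^ 2 * F.w u / ‖s‖ ^ 2) := by
  have e : F.Zs z η s u = (F.μ u : ℂ) * (z + s / (F.w u : ℂ)) - ((η ^ 2 * F.w u : ℝ) : ℂ) * s⁻¹ := by
    rw [FS.Zs]; push_cast; ring
  rw [e, Complex.sub_im, Complex.im_ofReal_mul, Complex.im_ofReal_mul, Complex.add_im,
    Complex.ofReal_im, Complex.div_ofReal_im, Complex.inv_im, Complex.normSq_eq_norm_sq]
  ring

theorem FS.marg_pos {F : FS α 𝒦} {U : Finset α} (h : F.Ok U) (η : ℝ) (s : ℂ) (u : α) :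
    0 < F.μ u / F.w u + η ^ 2 * F.w u / ‖s‖ ^ 2 := by
  have := h.wpos u
  have := zero_lt_one.trans_le (h.mu u)
  positivity

/-- The roots are real and nonzero (`pH_ne_zero_of_im`, `pH_conj`; `fU.eval 0 = ∏ (-η² w)`). -/
theorem FS.fU_root {F : FS α 𝒦} {U : Finset α} (h : F.Ok U) (z : ℝ) {η : ℝ} (hη : 0 < η)
    {s : ℂ} (hs : (F.fU z η U).IsRoot s) : s.im = 0 ∧ s ≠ 0 := by
  have h0 : s ≠ 0 := by
    rintro rfl
    rw [IsRoot, FS.fU, eval_finsetSum, Finset.sum_eq_single ∅] at hs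
    · simp [cT_empty, eval_prod, quad, Finset.prod_eq_zero_iff, hη.ne', (h.wpos _).ne'] at hs
    · intro T _ hT
      simp [hT]
    · simp
  refine ⟨?_, h0⟩
  rw [IsRoot, F.fU_eval z η U (fun u => (h.wpos u).ne') h0, mul_eq_zero,
    or_iff_right (pow_ne_zero _ h0)] at hs
  rcases lt_trichotomy s.im 0 with h1 | h1 | h1
  · refine absurd ?_ (pH_ne_zero_of_im h.herm U h.sub 1 (fun u => conj (F.Zs z η s u)) fun u _ => ?_)
    · have := pH_conj h.herm F.π U (F.Zs z η s) 1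
      rw [hs, map_zero, map_one] at this
      exact this.symm
    · rw [Complex.conj_im, FS.Zs_im, neg_pos]
      exact mul_neg_of_neg_of_pos h1 (FS.marg_pos h η s u)
  · exact h1
  · exact absurd hs (pH_ne_zero_of_im h.herm U h.sub 1 _ fun u _ => by
      rw [FS.Zs_im]; exact mul_pos h1 (FS.marg_pos h η s u))

/-- Let `f = fU (U.erase v)` and `g_k = ∑_{T ∋ v} C (cT[π v := δ_k] T) X^(|T|-1) ∏_{U \ T} quad`.
Then `fU[upd v p m] U = quad z η m (w v) * f + X * ∑_k C (p k) * g_k`, `deg g_k < deg f` or `g_k = 0`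
(`cT_singleton`), and `-g_k / f = -nH[δ_k] / pH` at `Zs s` has `im ≤ 0` on the upper half-plane
(`nH_im`, `Zs_im`).  `pf` gives `-g_k = ∑_q m_k(q) f / (X - q)`; let `R` be the set of (real parts
of the) distinct roots of `f`.  Then
`fU[upd] U * (X * ∏_{q ∈ R} (X - q)) = C (m / w v) * X * f * ap` (check by evaluation at `s ∉ R ∪ {0}`,
or directly), and `rs_mul` concludes. -/
theorem FS.marg_rep {F : FS α 𝒦} {U : Finset α} (h : F.Ok U) {v : α} (hv : v ∈ U) (z : ℝ)
    {η : ℝ} (hη : 0 < η) :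
    ∃ (R : Finset ℝ) (m : 𝒦 → ℝ → ℝ), (∀ k q, 0 ≤ m k q) ∧
      ∀ (p : 𝒦 → ℝ) (μ' : ℝ), (∀ k, 0 ≤ p k) → ∑ k, p k ≤ 1 → 1 ≤ μ' →
        (F.upd v p μ').L z η U v =
          Larr (z * F.w v) (fun i : Option R => i.elim 0 (fun q => (q : ℝ)))
            (fun i => i.elim (η ^ 2 * F.w v ^ 2 / μ')
              (fun q => F.w v / μ' * ∑ k, p k * m k q)) := by
  have h' := h.mono (U.erase_subset v)
  obtain ⟨hd, -, hf⟩ := FS.fU_natDegree h' z η
  have hw : ∀ u, F.w u ≠ 0 := fun u => (h.wpos u).ne'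
  have hc := Finset.card_erase_of_mem hv
  have hcong : ∀ (p : 𝒦 → ℝ) (Z Z' : α → ℂ), (∀ u ∈ U.erase v, Z' u = Z u) →
      pH F.y (Function.update F.π v p) (U.erase v) Z 1 = pH F.y F.π (U.erase v) Z' 1 :=
    fun p Z Z' hZ => pH_congr _ _ (fun u hu k => by
      rw [Function.update_of_ne (Finset.ne_of_mem_erase hu)]) (fun _ _ _ _ _ _ _ => rfl) hZ
  have hs0 : ∀ {s : ℂ}, 0 < s.im → s ≠ 0 := fun hs e => by simp [e] at hs
  have hpf := fun k => pf (g := -F.margG z η U v k) hf (fun s hs => (FS.fU_root h' z hη hs).1)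
    (by rw [natDegree_neg, hd, hc]; exact natDegree_le_of_degree_le (FS.margG_deg h z η v k).le)
    fun τ hτ => by
      rw [eval_neg, F.margG_eval z η U v k (hs0 hτ), F.fU_eval z η _ hw (hs0 hτ), hc, ← mul_neg,
        mul_div_mul_left _ _ (pow_ne_zero _ (hs0 hτ)), ← hcong (Pi.single k 1) _ _ fun _ _ => rfl]
      exact nH_im h.herm (h.upd v (p := Pi.single k 1) (m := 1)
        (fun j => by rw [Pi.single_apply]; split_ifs <;> norm_num) (by simp) le_rfl).sub hv 1 _ fun u _ => by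
          rw [FS.Zs_im]; exact mul_pos hτ (FS.marg_pos h η τ u)
  choose m hm0 hm using hpf
  set f := F.fU z η (U.erase v) with hfdef
  have hre : ∀ q ∈ f.roots.toFinset, ((q.re : ℝ) : ℂ) = q := fun q hq => Complex.ext rfl (by
    rw [Complex.ofReal_im, (FS.fU_root h' z hη (isRoot_of_mem_roots (Multiset.mem_toFinset.1 hq))).1])
  refine ⟨f.roots.toFinset.image Complex.re, fun k q => m k q, fun k q => hm0 k q,
    fun p μ' hp hp1 hμ => ?_⟩
  have hμ0 : 0 < μ' := zero_lt_one.trans_le hμ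
  set q : Option (f.roots.toFinset.image Complex.re) → ℝ := fun i => i.elim 0 fun q => (q : ℝ)
    with hq
  set b2 : Option (f.roots.toFinset.image Complex.re) → ℝ := fun i =>
    i.elim (η ^ 2 * F.w v ^ 2 / μ') fun q => F.w v / μ' * ∑ k, p k * m k q with hb2
  have key : (F.upd v p μ').fU z η U * ∏ i, (X - C (q i : ℂ)) =
      C ((μ' / F.w v : ℝ) : ℂ) * (X - C 0) * f * ap (z * F.w v) q b2 := by
    refine eq_of_infinite_eval_eq _ _ ((Set.infinite_of_injective_forall_mem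
      (f := fun n : ℕ => (n : ℂ) + Complex.I) (s := {s | 0 < s.im})
      (fun a b hab => by simpa using hab) fun n => by simp).mono fun s hs => ?_)
    have hs' := hs0 hs
    have hsq : ∀ r : ℝ, s - r ≠ 0 := fun r e => by
      rw [sub_eq_zero.1 e] at hs; simp at hs
    have hG : ∀ k, (F.margG z η U v k).eval s =
        -(f.eval s * ∑ r ∈ f.roots.toFinset.image Complex.re, m k r / (s - r)) := fun k => by
      have := congrArg (eval s) (hm k)
      rw [coeff_neg, hd, hc, coeff_eq_zero_of_degree_lt (FS.margG_deg h z η v k), neg_zero,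
        zero_div, map_zero, zero_mul, zero_add, eval_neg, neg_eq_iff_eq_neg, eval_finsetSum] at this
      rw [this, Finset.sum_image fun a ha b hb hab => by rw [← hre a ha, ← hre b hb, hab],
        Finset.mul_sum]
      congr 1
      refine Finset.sum_congr rfl fun r hr => ?_
      have h1 := congrArg (eval s) (mul_divByMonic_eq_iff_isRoot.2
        (isRoot_of_mem_roots (Multiset.mem_toFinset.1 hr)))
      have h2 := hsq r.re
      rw [hre r hr] at h2 ⊢
      rw [← h1]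
      simp only [eval_mul, eval_sub, eval_X, eval_C]
      field_simp
    have hZ : ∀ u ∈ U.erase v, F.Zs z η s u = (F.upd v p μ').Zs z η s u := fun u hu => by
      simp only [FS.Zs, FS.upd, Function.update_of_ne (Finset.ne_of_mem_erase hu)]
    have h1 : ((F.upd v p μ').fU z η U).eval s = s * ((F.upd v p μ').Zs z η s v * f.eval s +
        ∑ k, p k * (F.margG z η U v k).eval s) := by
      rw [(F.upd v p μ').fU_eval z η U hw hs', pH_erase _ _ hv, nH_linear, F.fU_eval z η _ hw hs', hc,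
        ← hcong p _ _ hZ]
      simp only [F.margG_eval z η U v _ hs', nH_congr _ _ U v 1 hZ, mul_left_comm _ (s ^ _),
        ← Finset.mul_sum]
      simp only [FS.upd, Function.update_self, Function.update_idem]
      rw [← mul_add, ← mul_assoc, ← pow_succ', Nat.sub_add_cancel (Finset.card_pos.2 ⟨v, hv⟩)]
    have h2 : ∑ i, (b2 i : ℂ) / (s - q i) = η ^ 2 * F.w v ^ 2 / μ' / s + F.w v / μ' *
        ∑ k, p k * ∑ r ∈ f.roots.toFinset.image Complex.re, m k r / (s - r) := by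
      rw [Fintype.sum_option]
      simp only [hq, hb2, Option.elim]
      rw [Finset.sum_coe_sort _ fun r : ℝ =>
        ((F.w v / μ' * ∑ k, p k * m k r : ℝ) : ℂ) / (s - r)]
      push_cast
      simp only [Finset.mul_sum, Finset.sum_div, mul_div_assoc, sub_zero]
      rw [Finset.sum_comm]
    have h3 : (μ' : ℂ) ≠ 0 := Complex.ofReal_ne_zero.2 hμ0.ne'
    have h4 : (F.w v : ℂ) ≠ 0 := Complex.ofReal_ne_zero.2 (hw v)
    simp only [Set.mem_ofPred_eq, eval_mul, eval_prod, eval_sub, eval_X, eval_C, h1,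
      marg_ap_eval _ q b2 fun i => hsq (q i), h2, hG, mul_neg, mul_left_comm _ (f.eval s),
      Finset.sum_neg_distrib, ← Finset.mul_sum]
    simp only [FS.Zs, FS.upd, Function.update_self]
    push_cast
    field_simp
    ring
  have hC : C ((μ' / F.w v : ℝ) : ℂ) ≠ 0 :=
    C_ne_zero.2 (Complex.ofReal_ne_zero.2 (div_pos hμ0 (h.wpos v)).ne')
  have := congrArg rs key
  rw [rs_mul (FS.fU_natDegree (h.upd v hp hp1 hμ) z η).2.2 (monic_prod_X_sub_C _ _).ne_zero,
    marg_rs_prod, rs_mul (mul_ne_zero (mul_ne_zero hC (X_sub_C_ne_zero _)) hf)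
      (ap_monic _ _ _).ne_zero, rs_mul (mul_ne_zero hC (X_sub_C_ne_zero _)) hf,
    rs_mul hC (X_sub_C_ne_zero _), rs_C, rs_X_sub_C, Complex.zero_re, max_self] at this
  rw [FS.L, FS.Phi, FS.Phi, FS.fU_upd_erase, Larr]
  linarith

theorem marg_b2_nonneg {R : Finset ℝ} {m : 𝒦 → ℝ → ℝ} (hm : ∀ k q, 0 ≤ m k q) {p : 𝒦 → ℝ}
    (hp : ∀ k, 0 ≤ p k) (η : ℝ) {w μ : ℝ} (hw : 0 < w) (hμ : 1 ≤ μ) (i : Option R) :
    0 ≤ i.elim (η ^ 2 * w ^ 2 / μ) fun q => w / μ * ∑ k, p k * m k q := by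
  have := zero_lt_one.trans_le hμ
  rcases i with _ | q
  · exact (by positivity : 0 ≤ η ^ 2 * w ^ 2 / μ)
  · exact mul_nonneg (by positivity) (Finset.sum_nonneg fun k _ => mul_nonneg (hp k) (hm k q))

theorem FS.Phi_nonneg (F : FS α 𝒦) (z η : ℝ) (U : Finset α) : 0 ≤ F.Phi z η U := rs_nonneg _

theorem FS.L_nonneg {F : FS α 𝒦} {U : Finset α} (h : F.Ok U) {v : α} (hv : v ∈ U) (z : ℝ)
    {η : ℝ} (hη : 0 < η) : 0 ≤ F.L z η U v := by
  obtain ⟨R, m, hm, e⟩ := FS.marg_rep h hv z hη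
  rw [← F.upd_self v, e _ _ (h.sub v).1 (h.sub v).2 (h.mu v)]
  exact Larr_nonneg _ _ (marg_b2_nonneg hm (h.sub v).1 η (h.wpos v) (h.mu v))

theorem FS.L_mono {F : FS α 𝒦} {U : Finset α} (h : F.Ok U) {v : α} (hv : v ∈ U) (z : ℝ)
    {η : ℝ} (hη : 0 < η) {p : 𝒦 → ℝ} (hp : ∀ k, 0 ≤ p k) (hle : ∀ k, p k ≤ F.π v k) :
    (F.upd v p (F.μ v)).L z η U v ≤ F.L z η U v := by
  obtain ⟨R, m, hm, e⟩ := FS.marg_rep h hv z hη
  have e1 := e _ _ (h.sub v).1 (h.sub v).2 (h.mu v)
  rw [F.upd_self v] at e1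
  rw [e1, e p _ hp ((Finset.sum_le_sum fun k _ => hle k).trans (h.sub v).2) (h.mu v)]
  refine Larr_mono _ _ (marg_b2_nonneg hm hp η (h.wpos v) (h.mu v)) ?_
  rintro (_ | q)
  · exact le_rfl
  · exact mul_le_mul_of_nonneg_left
      (Finset.sum_le_sum fun k _ => mul_le_mul_of_nonneg_right (hle k) (hm k q))
      (div_pos (h.wpos v) (zero_lt_one.trans_le (h.mu v))).le

theorem FS.L_step {F : FS α 𝒦} {U : Finset α} (h : F.Ok U) {v : α} (hv : v ∈ U) {z : ℝ}
    (hz : 0 < z) {η : ℝ} (hη : 0 < η) (hμ : F.μ v = 1) {γ : Type*} [Fintype γ] [Nonempty γ]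
    (pc : γ → 𝒦 → ℝ) (hpc : ∀ c k, 0 ≤ pc c k) (hpc1 : ∀ c, ∑ k, pc c k ≤ 1)
    (hsum : ∀ k, ∑ c, pc c k = Fintype.card γ * F.π v k) {M : ℝ} (hM : 24 ≤ M) :
    z * F.w v ≤ F.L z η U v ∨ ∃ c, (F.upd v (pc c) M).L z η U v ≤ F.L z η U v := by
  obtain ⟨R, m, hm, e⟩ := FS.marg_rep h hv z hη
  have e1 := e _ _ (h.sub v).1 (h.sub v).2 (h.mu v)
  rw [F.upd_self v] at e1
  have hM1 : 1 ≤ M := by linarith
  simp only [e1, fun c => e (pc c) M (hpc c) (hpc1 c) hM1]
  refine Larr_step (mul_pos hz (h.wpos v)) _ (marg_b2_nonneg hm (h.sub v).1 η (h.wpos v) (h.mu v))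
    (fun c => marg_b2_nonneg hm (hpc c) η (h.wpos v) hM1) hM ?_
  rintro (_ | q)
  · simp [hμ]
  · simp only [Option.elim, hμ, ← Finset.mul_sum]
    rw [Finset.sum_comm]
    simp only [← Finset.sum_mul, hsum, mul_assoc, ← Finset.mul_sum]
    ring

end Crest.Agent.R109
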