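import Crest.Agent.R109.CondExp

/-! Row 109, normal corner: basic facts. -/

set_option autoImplicit false
set_option linter.unusedSectionVars false

open scoped ComplexOrder InnerProductSpace ComplexConjugate ENNReal CompactlySupported
open Filter Topology MeasureTheory

namespace Crest.Agent.R109

variable {M H X : Type*} [CStarAlgebra M] [PartialOrder M] [StarOrderedRing M]
  [NormedAddCommGroup H] [InnerProductSpace ℂ H] [CompleteSpace H]
  [TopologicalSpace X] [CompactSpace X] [T2Space X] [MeasurableSpace X] [BorelSpace X]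

/-- A real function as a complex function. -/
noncomputable def nbasicOfReal (f : C(X, ℝ)) : C(X, ℂ) :=
  ⟨fun t => (f t : ℂ), Complex.continuous_ofReal.comp f.continuous⟩

theorem nbasic_integrable {E : Type*} [NormedAddCommGroup E] (μ : Measure X) [IsFiniteMeasure μ]
    {f : X → E} (hf : Continuous f) : Integrable f μ :=
  hf.integrable_of_hasCompactSupport (HasCompactSupport.of_compactSpace f)

theorem nbasic_theta_real (Γ : Gel M X) (θ : M →ₚ[ℂ] ℂ) (f : C(X, ℝ)) :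
    θ (Γ.Φ (nbasicOfReal f)) = ((θ (Γ.Φ (nbasicOfReal f))).re : ℂ) := by
  have h : star (nbasicOfReal f) = nbasicOfReal f := by
    ext t
    simp [nbasicOfReal]
  have h2 := pos_star θ (Γ.Φ (nbasicOfReal f))
  rw [← map_star, h] at h2
  exact (Complex.conj_eq_iff_re.1 h2.symm).symm

/-- The real functional. -/
noncomputable def nbasicLam (Γ : Gel M X) (θ : M →ₚ[ℂ] ℂ) : C_c(X, ℝ) →ₚ[ℝ] ℝ :=
  PositiveLinearMap.mk₀
    { toFun := fun f => (θ (Γ.Φ (nbasicOfReal f.toContinuousMap))).re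
      map_add' := fun f g => by
        have : nbasicOfReal (f + g).toContinuousMap
            = nbasicOfReal f.toContinuousMap + nbasicOfReal g.toContinuousMap := by
          ext t
          simp [nbasicOfReal]
        rw [this, map_add, map_add, Complex.add_re]
      map_smul' := fun r f => by
        have : nbasicOfReal (r • f).toContinuousMap = (r : ℂ) • nbasicOfReal f.toContinuousMap := by
          ext t
          simp [nbasicOfReal]
        rw [this, map_smul, map_smul]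
        simp }
    (fun f hf => pos_re_nonneg θ ((Γ.nonneg_iff _).2 fun t => by
      have : 0 ≤ f t := hf t
      simpa [nbasicOfReal] using this))

theorem nbasic_int (Γ : Gel M X) (θ : M →ₚ[ℂ] ℂ) (f : C(X, ℂ)) :
    θ (Γ.Φ f) = ∫ t, f t ∂(RealRMK.rieszMeasure (nbasicLam Γ θ)) := by
  have key : ∀ g : C(X, ℝ), θ (Γ.Φ (nbasicOfReal g))
      = ((∫ t, g t ∂(RealRMK.rieszMeasure (nbasicLam Γ θ)) : ℝ) : ℂ) := by
    intro g
    have := RealRMK.integral_rieszMeasure (nbasicLam Γ θ)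
      ⟨g, HasCompactSupport.of_compactSpace g⟩
    rw [nbasic_theta_real]
    exact congrArg _ this.symm
  obtain ⟨a, ha⟩ : ∃ a : C(X, ℝ), ∀ t, a t = (f t).re :=
    ⟨⟨fun t => (f t).re, Complex.continuous_re.comp f.continuous⟩, fun _ => rfl⟩
  obtain ⟨b, hb⟩ : ∃ b : C(X, ℝ), ∀ t, b t = (f t).im :=
    ⟨⟨fun t => (f t).im, Complex.continuous_im.comp f.continuous⟩, fun _ => rfl⟩
  have hf : f = nbasicOfReal a + Complex.I • nbasicOfReal b := by
    ext t
    simp only [nbasicOfReal, ContinuousMap.add_apply, ContinuousMap.smul_apply,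
      ContinuousMap.coe_mk, ha, hb, smul_eq_mul]
    rw [mul_comm, Complex.re_add_im]
  have hi := integral_re_add_im (nbasic_integrable (RealRMK.rieszMeasure (nbasicLam Γ θ))
    f.continuous)
  rw [← hi]
  conv_lhs => rw [hf, map_add, map_add, map_smul, map_smul, key, key]
  simp only [ha, hb, smul_eq_mul]
  rw [mul_comm]
  rfl

/-- Riesz-Markov-Kakutani (`RealRMK.rieszMeasure`, `RealRMK.integral_rieszMeasure`; it is regular)
for `f ↦ re θ (Φ f)`. -/
theorem exists_nctx (c : Ctx M H X) {θ : M →ₚ[ℂ] ℂ} (hn : c.W.Normal θ)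
    (hc : Central (Set.range c.Γ.Φ) θ) (hf : ∀ y, θ (star y * y) = 0 → y = 0) (h1 : θ 1 = 1) :
    ∃ n : NCtx M H X, n.toCtx = c := by
  refine ⟨{ toCtx := c, θ := θ, normal := hn, central := hc, faithful := hf,
            μ := RealRMK.rieszMeasure (nbasicLam c.Γ θ), prob := ?_, reg := inferInstance,
            int := nbasic_int c.Γ θ }, rfl⟩
  have h := nbasic_int c.Γ θ 1
  rw [map_one, h1] at h
  simp only [ContinuousMap.one_apply, integral_const, Complex.real_smul, mul_one] at h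
  have h2 : (RealRMK.rieszMeasure (nbasicLam c.Γ θ)).real Set.univ = 1 := by exact_mod_cast h.symm
  exact isProbabilityMeasure_iff_real.2 h2

variable (c : NCtx M H X)

theorem NCtx.θ_one : c.θ 1 = 1 := by
  have := c.prob
  have h := c.int 1
  rw [map_one] at h
  simpa using h

theorem NCtx.θ_e {V : Set X} (h : IsClopen V) : c.θ (c.Γ.e V) = (c.μ.real V : ℂ) := by
  rw [Gel.e, c.int]
  simp only [ind_apply h]
  have := integral_indicator_const (μ := c.μ) (1 : ℂ) h.isOpen.measurableSet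
  rw [Complex.real_smul, mul_one] at this
  exact this

omit [PartialOrder M] [StarOrderedRing M] in
theorem nbasic_pinch_left {ι : Type*} [Fintype ι] (p : ι → M) {a : M}
    (ha : ∀ i, p i * a = a * p i) (y : M) : pinch p (a * y) = a * pinch p y := by
  simp only [pinch, Finset.mul_sum]
  exact Finset.sum_congr rfl fun i _ => by rw [← mul_assoc, ha, mul_assoc a, mul_assoc a]

omit [PartialOrder M] [StarOrderedRing M] in
theorem nbasic_pinch_right {ι : Type*} [Fintype ι] (p : ι → M) {a : M}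
    (ha : ∀ i, p i * a = a * p i) (y : M) : pinch p (y * a) = pinch p y * a := by
  simp only [pinch, Finset.sum_mul]
  exact Finset.sum_congr rfl fun i _ => by
    rw [mul_assoc (p i * y), ha, ← mul_assoc, ← mul_assoc]

theorem NCtx.nbasic_θ_E (f : C(X, ℂ)) (y : M) :
    c.θ (c.Γ.Φ f * y) = c.θ (c.Γ.Φ (f * c.E y)) := by
  have h1 := c.normal.tendsto (C := ‖y‖)
    (Eventually.of_forall fun P => (c.Γ.ea_isPart P).norm_pinch_le y) (c.E_spec y) (c.Γ.Φ f)
  have h2 : ∀ P : DiscreteQuotient X, c.θ (c.Γ.Φ f * c.Γ.EP P y) = c.θ (c.Γ.Φ f * y) := by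
    intro P
    rw [Gel.EP, ← nbasic_pinch_left (c.Γ.ea P) (a := c.Γ.Φ f) (fun I => c.Γ.comm _ _),
      (c.Γ.ea_isPart P).theta_pinch c.central]
  simp only [Gel.EP] at h2
  simp only [h2] at h1
  rw [map_mul c.Γ.Φ]
  exact tendsto_nhds_unique tendsto_const_nhds h1

theorem NCtx.nbasic_re_nonneg {g : C(X, ℂ)} (hg : ∀ t, 0 ≤ (g t).re) :
    0 ≤ (c.θ (c.Γ.Φ g)).re := by
  have := c.prob
  have h := integral_re (nbasic_integrable c.μ g.continuous)
  rw [c.int]
  change 0 ≤ RCLike.re (∫ t, g t ∂c.μ)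
  rw [← h]
  exact integral_nonneg hg

theorem NCtx.nbasic_real_pos {V : Set X} (h : IsClopen V) {t : X} (ht : t ∈ V) :
    0 < c.μ.real V := by
  refine lt_of_le_of_ne measureReal_nonneg fun h0 => ?_
  have h1 := c.θ_e h
  rw [← h0] at h1
  have hp := c.Γ.e_proj V
  have h2 : c.Γ.e V = 0 := c.faithful _ (by
    rw [hp.isSelfAdjoint.star_eq, hp.isIdempotentElem.eq, h1]
    simp)
  have h3 : ind V = 0 := c.Γ.inj (by rw [map_zero]; exact h2)
  have h4 := ind_of_mem h ht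
  rw [h3] at h4
  simp at h4

/-- `θ (Φ f * EP P y) = θ (Φ f * y)` (`theta_pinch`) and `Normal.tendsto`. -/
theorem NCtx.θ_mul_E (f : C(X, ℂ)) (y : M) :
    c.θ (c.Γ.Φ f * y) = ∫ t, f t * c.E y t ∂c.μ := by
  rw [c.nbasic_θ_E, c.int]
  rfl

theorem NCtx.θ_eq (y : M) : c.θ y = ∫ t, c.E y t ∂c.μ := by
  have h := c.θ_mul_E 1 y
  simpa using h

/-- Nonempty open sets contain nonempty clopen sets `V`, and `θ (e V) ≠ 0`. -/
theorem NCtx.openPos : c.μ.IsOpenPosMeasure := by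
  have := c.Γ.totallyDisconnected c.W
  have := c.prob
  refine ⟨fun U hU ⟨t, ht⟩ h0 => ?_⟩
  obtain ⟨V, hV, htV, hVU⟩ := compact_exists_isClopen_in_isOpen hU ht
  have h1 := c.nbasic_real_pos hV htV
  rw [measureReal_def, measure_mono_null hVU h0] at h1
  simp at h1

theorem NCtx.E_eq_of_forall {y : M} {g : C(X, ℂ)}
    (h : ∀ f : C(X, ℂ), c.θ (c.Γ.Φ f * y) = ∫ t, f t * g t ∂c.μ) : c.E y = g := by
  have h1 := h (star (c.E y - g))
  have h2 : c.θ (c.Γ.Φ (star (c.E y - g) * g)) = ∫ t, (star (c.E y - g)) t * g t ∂c.μ := by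
    rw [c.int]
    rfl
  rw [c.nbasic_θ_E, ← h2] at h1
  have h3 : c.Γ.Φ (c.E y - g) = 0 := c.faithful _ (by
    rw [← map_star, ← map_mul, mul_sub, map_sub, map_sub, h1, sub_self])
  exact sub_eq_zero.1 (c.Γ.inj (by rw [h3, map_zero]))

/-- Lower bounds for `E` pass to weak limits (test against `ind V'`, `V' ⊆ V` clopen). -/
theorem NCtx.le_E_of_WT {ι : Type*} {l : Filter ι} [l.NeBot] {y : ι → M} {z : M} {C : ℝ}
    (hC : ∀ᶠ i in l, ‖y i‖ ≤ C) (h : c.W.WT l y z) {V : Set X} (hV : IsClopen V) {β : ℝ}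
    (hβ : ∀ᶠ i in l, ∀ t ∈ V, β ≤ (c.E (y i) t).re) : ∀ t ∈ V, β ≤ (c.E z t).re := by
  intro t ht
  by_contra hlt
  push Not at hlt
  have := c.Γ.totallyDisconnected c.W
  obtain ⟨β', h1, h2⟩ := exists_between hlt
  have hU : IsOpen (V ∩ {s | (c.E z s).re < β'}) :=
    hV.isOpen.inter (isOpen_lt (Complex.continuous_re.comp (c.E z).continuous) continuous_const)
  obtain ⟨V', hV', htV', hsub⟩ := compact_exists_isClopen_in_isOpen hU ⟨ht, h1⟩
  have hpos := c.nbasic_real_pos hV' htV'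
  have key : ∀ (w : M) (r : ℝ), (c.θ (c.Γ.Φ (ind V' * c.E w - (r : ℂ) • ind V'))).re
      = (c.θ (c.Γ.e V' * w)).re - r * c.μ.real V' := by
    intro w r
    rw [map_sub, map_sub, map_smul, map_smul, ← c.nbasic_θ_E]
    have := c.θ_e hV'
    rw [Gel.e] at this
    rw [this, Gel.e]
    simp
  have hlim := (Complex.continuous_re.tendsto _).comp (c.normal.tendsto hC h (c.Γ.e V'))
  have hge : β * c.μ.real V' ≤ (c.θ (c.Γ.e V' * z)).re := by
    refine ge_of_tendsto hlim (hβ.mono fun i hi => ?_)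
    have := c.nbasic_re_nonneg (g := ind V' * c.E (y i) - (β : ℂ) • ind V') fun s => by
      by_cases hs : s ∈ V'
      · simpa [ind_of_mem hV' hs] using hi s (hsub hs).1
      · simp [ind_of_notMem hs]
    rw [key] at this
    simpa using this
  have hle := c.nbasic_re_nonneg (g := -(ind V' * c.E z - (β' : ℂ) • ind V')) fun s => by
    by_cases hs : s ∈ V'
    · simpa [ind_of_mem hV' hs] using (hsub hs).2.le
    · simp [ind_of_notMem hs]
  rw [map_neg, map_neg, Complex.neg_re, key] at hle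
  nlinarith

/-- `‖a‖² θ Y - θ (a* Y a) = θ (d Y d)` with `d = √(‖a‖² - |a|²)`. -/
theorem NCtx.θ_conj_le (a : C(X, ℂ)) {Y : M} (hY : 0 ≤ Y) :
    (c.θ (star (c.Γ.Φ a) * Y * c.Γ.Φ a)).re ≤ ‖a‖ ^ 2 * (c.θ Y).re := by
  have h1 : c.θ (star (c.Γ.Φ a) * Y * c.Γ.Φ a) = c.θ (c.Γ.Φ (a * star a * c.E Y)) := by
    rw [← c.central _ ⟨a, rfl⟩, ← mul_assoc, ← map_star, ← map_mul, c.nbasic_θ_E]
  have h2 : c.θ Y = c.θ (c.Γ.Φ (c.E Y)) := by
    have := c.nbasic_θ_E 1 Y
    simpa using this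
  have h3 := c.nbasic_re_nonneg
    (g := ((‖a‖ ^ 2 : ℝ) : ℂ) • c.E Y - a * star a * c.E Y) fun t => by
      have e1 : a t * star (a t) = ((‖a t‖ ^ 2 : ℝ) : ℂ) := by
        rw [Complex.star_def, Complex.mul_conj, Complex.normSq_eq_norm_sq]
      have e2 : 0 ≤ (c.E Y t).re := (Complex.le_def.1 (c.E_nonneg hY t)).1
      have e3 : ‖a t‖ ^ 2 ≤ ‖a‖ ^ 2 := pow_le_pow_left₀ (norm_nonneg _) (a.norm_coe_le_norm t) 2
      simp only [ContinuousMap.sub_apply, ContinuousMap.smul_apply, ContinuousMap.mul_apply,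
        ContinuousMap.star_apply, e1, smul_eq_mul, Complex.sub_re, Complex.re_ofReal_mul]
      nlinarith
  rw [map_sub, map_sub, map_smul, map_smul, ← h1, ← h2, smul_eq_mul, Complex.sub_re,
    Complex.re_ofReal_mul] at h3
  linarith

theorem NCtx.n2_mul_Φ (y : M) (a : C(X, ℂ)) : n2 c.θ (y * c.Γ.Φ a) ≤ ‖a‖ * n2 c.θ y := by
  refine (pow_le_pow_iff_left₀ (n2_nonneg _ _) (mul_nonneg (norm_nonneg _) (n2_nonneg _ _))
    two_ne_zero).1 ?_
  have := c.θ_conj_le a (star_mul_self_nonneg y)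
  rw [mul_pow, n2_sq, n2_sq, star_mul, mul_assoc, ← mul_assoc (star y), ← mul_assoc]
  exact this

theorem NCtx.n2_Φ_E (y : M) : n2 c.θ (c.Γ.Φ (c.E y)) ≤ n2 c.θ y := by
  have h1 : c.θ (star (c.Γ.Φ (c.E y)) * c.Γ.Φ (c.E y)) = c.θ (star (c.Γ.Φ (c.E y)) * y) := by
    rw [← map_star, c.nbasic_θ_E _ y, map_mul c.Γ.Φ]
  have h2 := pos_cs c.θ (c.Γ.Φ (c.E y)) y
  rw [← h1, ← n2_sq_complex, Complex.norm_real, Real.norm_of_nonneg (sq_nonneg _)] at h2
  have h3 := n2_nonneg c.θ (c.Γ.Φ (c.E y))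
  have h4 := n2_nonneg c.θ y
  by_contra hlt
  push Not at hlt
  nlinarith

/-- `EP P` and `Φ ∘ E` are orthogonal projections for `θ`:
`n2 (EP P y - Φ E y)² = θ (y* EP P y) - θ (y* Φ E y)`, which tends to `0` along `fine X` and is
monotone in `P` (`EP_EP`, `n2_pinch_le`). -/
theorem NCtx.EP_tendsto (y : M) {ε : ℝ} (hε : 0 < ε) : ∃ P₀ : DiscreteQuotient X, ∀ P ≤ P₀,
    n2 c.θ (c.Γ.EP P y - c.Γ.Φ (c.E y)) ≤ ε := by
  obtain ⟨w, hw⟩ : ∃ w, w = y - c.Γ.Φ (c.E y) := ⟨_, rfl⟩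
  have hE : c.E w = 0 := by rw [hw, map_sub, c.E_Φ, sub_self]
  have hEP : ∀ P : DiscreteQuotient X, c.Γ.EP P y - c.Γ.Φ (c.E y) = c.Γ.EP P w := by
    intro P
    rw [hw, Gel.EP, Gel.EP, pinch_sub,
      (c.Γ.ea_isPart P).pinch_eq_self (a := c.Γ.Φ (c.E y)) fun I => c.Γ.comm _ _]
  have h1 := c.normal.tendsto (C := ‖w‖)
    (Eventually.of_forall fun P => (c.Γ.ea_isPart P).norm_pinch_le w) (c.WT_EP_zero hE) (star w)
  have h2 : ∀ P : DiscreteQuotient X,
      n2 c.θ (c.Γ.EP P w) ^ 2 = (c.θ (star w * c.Γ.EP P w)).re := by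
    intro P
    have hp := c.Γ.ea_isPart P
    rw [n2_sq, Gel.EP, hp.pinch_star, ← nbasic_pinch_right _ (hp.pinch_comm w),
      hp.theta_pinch c.central]
  have h3 := (Complex.continuous_re.tendsto _).comp h1
  simp only [mul_zero, map_zero, Complex.zero_re] at h3
  obtain ⟨P₀, hP₀⟩ := (h3.eventually (gt_mem_nhds (pow_pos hε 2))).exists
  refine ⟨P₀, fun P hP => ?_⟩
  have h4 : n2 c.θ (c.Γ.EP P₀ w) ≤ ε := by
    refine (pow_le_pow_iff_left₀ (n2_nonneg _ _) hε.le two_ne_zero).1 ?_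
    rw [h2]
    exact hP₀.le
  rw [hEP, ← (c.Γ.EP_EP hP w).1]
  exact ((c.Γ.ea_isPart P).n2_pinch_le c.central _).trans h4

/-- `closure_open` and normality. -/
theorem NCtx.measure_closure {O : Set X} (hO : IsOpen O) : c.μ (closure O \ O) = 0 := by
  have := c.prob
  obtain ⟨hcl, hV⟩ := c.Γ.closure_open c.W hO
  have h0 : c.μ.real (closure O \ O) ≤ 0 := by
    refine le_of_forall_pos_le_add fun ε hε => ?_
    obtain ⟨F, δ, hδ, hF⟩ := c.normal ε hε
    obtain ⟨V, hVc, hVO, hs⟩ := hV F δ hδ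
    have e1 : c.Γ.e (closure O) - c.Γ.e V = c.Γ.e (closure O ∩ Vᶜ) := by
      rw [← c.Γ.e_mul hcl hVc.compl, c.Γ.e_compl hVc, mul_sub, mul_one, c.Γ.e_mul hcl hVc,
        Set.inter_eq_self_of_subset_right (hVO.trans subset_closure)]
    rw [e1] at hs
    have hp := c.Γ.e_proj (closure O ∩ Vᶜ)
    have h1 := hF _ hp.norm_le hs
    rw [hp.isSelfAdjoint.star_eq, hp.isIdempotentElem.eq, c.θ_e (hcl.inter hVc.compl),
      Complex.ofReal_re] at h1
    have h2 : c.μ.real (closure O \ O) ≤ c.μ.real (closure O ∩ Vᶜ) :=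
      measureReal_mono fun t ht => ⟨ht.1, fun h => ht.2 (hVO h)⟩
    linarith
  exact (measureReal_eq_zero_iff (measure_ne_top _ _)).1 (le_antisymm h0 measureReal_nonneg)

theorem NCtx.measure_diff_interior {K : Set X} (hK : IsClosed K) :
    c.μ (K \ interior K) = 0 := by
  have h := c.measure_closure hK.isOpen_compl
  rw [closure_compl] at h
  convert h using 2
  ext t
  simp [and_comm]

end Crest.Agent.R109
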