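import Crest.Agent.R109.Defs

/-! Row 109: positive functionals, pinchings, truncation. -/

set_option autoImplicit false

open scoped ComplexOrder InnerProductSpace ComplexConjugate
open Filter Topology MeasureTheory

namespace Crest.Agent.R109

variable {M : Type*} [CStarAlgebra M] [PartialOrder M] [StarOrderedRing M]

section pos

variable (θ : M →ₚ[ℂ] ℂ)

theorem n2_nonneg (y : M) : 0 ≤ n2 θ y := norm_nonneg _

theorem n2_sq (y : M) : n2 θ y ^ 2 = (θ (star y * y)).re := by
  exact Real.sq_sqrt (θ.map_nonneg (star_mul_self_nonneg y)).1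

theorem n2_sq_complex (y : M) : ((n2 θ y ^ 2 : ℝ) : ℂ) = θ (star y * y) := by
  rw [Complex.ofReal_pow]
  exact θ.preGNS_norm_sq (θ.toPreGNS y)

theorem n2_add_le (a b : M) : n2 θ (a + b) ≤ n2 θ a + n2 θ b := by
  rw [n2, map_add]
  exact norm_add_le _ _

theorem n2_sub_le (a b : M) : n2 θ (a - b) ≤ n2 θ a + n2 θ b := by
  rw [n2, map_sub]
  exact norm_sub_le _ _

theorem n2_neg (a : M) : n2 θ (-a) = n2 θ a := by
  rw [n2, map_neg]
  exact norm_neg _

theorem n2_zero : n2 θ 0 = 0 := by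
  rw [n2, map_zero]
  exact norm_zero

theorem n2_smul (c : ℂ) (a : M) : n2 θ (c • a) = ‖c‖ * n2 θ a := by
  rw [n2, map_smul]
  exact norm_smul _ _

theorem n2_sum_le {ι : Type*} (s : Finset ι) (a : ι → M) :
    n2 θ (∑ i ∈ s, a i) ≤ ∑ i ∈ s, n2 θ (a i) := by
  rw [n2, map_sum]
  exact norm_sum_le _ _

theorem n2_mul_le (a y : M) : n2 θ (a * y) ≤ ‖a‖ * n2 θ y := by
  exact (θ.leftMulMapPreGNS a).le_of_opNorm_le
    (LinearMap.mkContinuous_norm_le _ (norm_nonneg a) _) (θ.toPreGNS y)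

theorem n2_le_norm (h1 : θ 1 = 1) (y : M) : n2 θ y ≤ ‖y‖ := by
  have h2 : n2 θ 1 = 1 := by
    have := n2_sq θ 1
    rw [star_one, mul_one, h1, Complex.one_re] at this
    exact (pow_eq_one_iff_of_nonneg (n2_nonneg θ 1) two_ne_zero).1 this
  have := n2_mul_le θ y 1
  rwa [mul_one, h2, mul_one] at this

/-- Cauchy-Schwarz. -/
theorem pos_cs (a b : M) : ‖θ (star a * b)‖ ≤ n2 θ a * n2 θ b := by
  exact norm_inner_le_norm (𝕜 := ℂ) (θ.toPreGNS a) (θ.toPreGNS b)

theorem pos_star (y : M) : θ (star y) = conj (θ y) := by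
  exact map_star θ y

theorem pos_norm_le (y : M) : ‖θ y‖ ≤ (θ 1).re * ‖y‖ := by
  have h1 := pos_cs θ 1 y
  have h2 := n2_mul_le θ y 1
  have h3 := n2_sq θ 1
  rw [star_one, one_mul] at h1 h3
  rw [mul_one] at h2
  rw [← h3]
  refine h1.trans ((mul_le_mul_of_nonneg_left h2 (n2_nonneg θ 1)).trans_eq ?_)
  ring

theorem pos_continuous : Continuous θ := by
  exact map_continuous θ

theorem pos_re_mono {a b : M} (h : a ≤ b) : (θ a).re ≤ (θ b).re := by
  exact (OrderHomClass.mono θ h).1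

theorem pos_re_nonneg {a : M} (h : 0 ≤ a) : 0 ≤ (θ a).re := by
  exact (θ.map_nonneg h).1

/-- The GNS triple. -/
theorem exists_gns : ∃ Ω : θ.GNS, (∀ y, ⟪Ω, θ.gnsStarAlgHom y Ω⟫_ℂ = θ y) ∧
    DenseRange (fun y : M => θ.gnsStarAlgHom y Ω) ∧
    ∀ y, ‖θ.gnsStarAlgHom y Ω‖ = n2 θ y := by
  have key : ∀ y, θ.gnsStarAlgHom y ((θ.toPreGNS 1 : θ.PreGNS) : θ.GNS)
      = ((θ.toPreGNS y : θ.PreGNS) : θ.GNS) := fun y => by
    change θ.gnsNonUnitalStarAlgHom y _ = _
    rw [PositiveLinearMap.gnsNonUnitalStarAlgHom_apply_coe]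
    simp
  refine ⟨((θ.toPreGNS 1 : θ.PreGNS) : θ.GNS), fun y => ?_, ?_, fun y => ?_⟩
  · rw [key, UniformSpace.Completion.inner_coe, PositiveLinearMap.preGNS_inner_def]
    simp
  · simp only [key]
    exact UniformSpace.Completion.denseRange_coe.comp θ.toPreGNS.surjective.denseRange
      (UniformSpace.Completion.continuous_coe _)
  · rw [key, UniformSpace.Completion.norm_coe]
    rfl

/-- Truncation: `k = cfc (fun t => max (-l) (min t l)) y` and
`(t - trunc t)² ≤ t^(2j) / l^(2j-2)`. -/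
theorem exists_trunc {y : M} (hy : IsSelfAdjoint y) {l : ℝ} (hl : 0 < l) {j : ℕ} (hj : 1 ≤ j) :
    ∃ k : M, IsSelfAdjoint k ∧ ‖k‖ ≤ l ∧ (∀ p : M, p * y = y * p → p * k = k * p) ∧
      n2 θ (y - k) ^ 2 ≤ n2 θ (y ^ j) ^ 2 / l ^ (2 * j - 2) := by
  obtain ⟨i, rfl⟩ : ∃ i, j = i + 1 := ⟨j - 1, by omega⟩
  have e0 : 2 * (i + 1) - 2 = 2 * i := by omega
  rw [e0]
  let f : ℝ → ℝ := fun t => max (-l) (min t l)
  have hf : Continuous f := by fun_prop
  refine ⟨cfc f y, IsSelfAdjoint.cfc, norm_cfc_le hl.le fun t _ => ?_, fun q hq => ?_, ?_⟩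
  · rw [Real.norm_eq_abs, abs_le]
    exact ⟨le_max_left _ _, max_le (by linarith) (min_le_right _ _)⟩
  · exact (Commute.cfc_real (show Commute y q from hq.symm) f).symm.eq
  · have h1 : y - cfc f y = cfc (fun t => t - f t) y := by
      rw [cfc_sub _ _ y, cfc_id' ℝ y]
    have h2 : star (y - cfc f y) * (y - cfc f y) = cfc (fun t => (t - f t) * (t - f t)) y := by
      rw [h1, IsSelfAdjoint.cfc.star_eq, ← cfc_mul _ _ y]
    have h3 : (l ^ (2 * i))⁻¹ • (star (y ^ (i + 1)) * y ^ (i + 1))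
        = cfc (fun t : ℝ => (l ^ (2 * i))⁻¹ • t ^ (i + 1 + (i + 1))) y := by
      rw [cfc_smul _ _ y, cfc_pow_id y, (hy.pow _).star_eq, ← pow_add]
    have h4 : star (y - cfc f y) * (y - cfc f y)
        ≤ (l ^ (2 * i))⁻¹ • (star (y ^ (i + 1)) * y ^ (i + 1)) := by
      rw [h2, h3]
      refine cfc_mono fun t _ => ?_
      have e1 : t ^ (i + 1 + (i + 1)) = (t ^ 2) ^ i * t ^ 2 := by ring
      rw [smul_eq_mul, ← div_eq_inv_mul, le_div_iff₀ (by positivity), e1, pow_mul]
      by_cases ht : |t| ≤ l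
      · have : f t = t := by
          rw [abs_le] at ht
          simp only [f, min_eq_left ht.2, max_eq_right ht.1]
        rw [this, sub_self, zero_mul, zero_mul]
        positivity
      · have h5 : l ^ 2 ≤ t ^ 2 := by
          rw [← sq_abs t]
          exact pow_le_pow_left₀ hl.le (not_le.1 ht).le 2
        have h6 : (t - f t) * (t - f t) ≤ t ^ 2 := by
          rcases le_total t l with h | h
          · have h7 : t ≤ -l := by
              by_contra h8
              exact ht (abs_le.2 ⟨(not_le.1 h8).le, h⟩)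
            simp only [f, min_eq_left h, max_eq_left h7]
            nlinarith
          · simp only [f, min_eq_right h, max_eq_right (show -l ≤ l by linarith)]
            nlinarith
        rw [mul_comm]
        exact mul_le_mul (pow_le_pow_left₀ (sq_nonneg l) h5 i) h6 (mul_self_nonneg _)
          (by positivity)
    have h5 := pos_re_mono θ h4
    rw [n2_sq, n2_sq, div_eq_inv_mul]
    rwa [PositiveLinearMap.map_smul_of_tower, Complex.smul_re, smul_eq_mul] at h5

end pos

section pinch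

variable {ι : Type*} [Fintype ι] {A : Set M} {p : ι → M}

omit [PartialOrder M] [StarOrderedRing M] in
theorem IsPart.pos_mul_pinch (h : IsPart A p) (a : M) (i : ι) :
    p i * pinch p a = p i * a * p i := by
  rw [pinch, Finset.mul_sum, Finset.sum_eq_single i]
  · rw [← mul_assoc, ← mul_assoc, (h.proj i).isIdempotentElem.eq]
  · intro j _ hj
    rw [← mul_assoc, ← mul_assoc, h.orth i j hj.symm, zero_mul, zero_mul]
  · simp

omit [PartialOrder M] [StarOrderedRing M] in
theorem IsPart.pos_pinch_mul (h : IsPart A p) (a : M) (i : ι) :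
    pinch p a * p i = p i * a * p i := by
  rw [pinch, Finset.sum_mul, Finset.sum_eq_single i]
  · rw [mul_assoc, (h.proj i).isIdempotentElem.eq]
  · intro j _ hj
    rw [mul_assoc, h.orth j i hj, mul_zero]
  · simp

omit [PartialOrder M] [StarOrderedRing M] in
theorem pos_star_sum_mul {p c : ι → M} (hp : ∀ i, IsStarProjection (p i))
    (hpo : ∀ i j, i ≠ j → p i * p j = 0) (hc : ∀ i, p i * c i = c i) :
    star (∑ i, c i) * ∑ i, c i = ∑ i, star (c i) * c i := by
  rw [star_sum, Finset.sum_mul]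
  refine Finset.sum_congr rfl fun i _ => ?_
  rw [Finset.mul_sum, Finset.sum_eq_single i]
  · intro j _ hj
    rw [← hc i, ← hc j, star_mul, (hp i).isSelfAdjoint.star_eq, mul_assoc, ← mul_assoc (p i),
      hpo i j hj.symm, zero_mul, mul_zero]
  · simp

omit [PartialOrder M] [StarOrderedRing M] in
theorem pos_norm_conj_le {q : M} (hq : IsStarProjection q) (a : M) : ‖q * a * q‖ ≤ ‖a‖ :=
  (norm_mul_le _ _).trans ((mul_le_of_le_one_right (norm_nonneg _) hq.norm_le).trans
    ((norm_mul_le _ _).trans (mul_le_of_le_one_left (norm_nonneg _) hq.norm_le)))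

omit [PartialOrder M] [StarOrderedRing M] in
theorem pinch_add (p : ι → M) (a b : M) : pinch p (a + b) = pinch p a + pinch p b := by
  simp only [pinch, mul_add, add_mul, Finset.sum_add_distrib]

omit [PartialOrder M] [StarOrderedRing M] in
theorem pinch_sub (p : ι → M) (a b : M) : pinch p (a - b) = pinch p a - pinch p b := by
  simp only [pinch, mul_sub, sub_mul, Finset.sum_sub_distrib]

omit [PartialOrder M] [StarOrderedRing M] in
theorem pinch_smul (p : ι → M) (c : ℂ) (a : M) : pinch p (c • a) = c • pinch p a := by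
  simp only [pinch, mul_smul_comm, smul_mul_assoc, Finset.smul_sum]

omit [PartialOrder M] [StarOrderedRing M] in
theorem IsPart.pinch_star (h : IsPart A p) (a : M) : star (pinch p a) = pinch p (star a) := by
  simp only [pinch, star_sum, star_mul, (h.proj _).isSelfAdjoint.star_eq, mul_assoc]

omit [PartialOrder M] [StarOrderedRing M] in
theorem IsPart.pinch_comm (h : IsPart A p) (a : M) (i : ι) :
    p i * pinch p a = pinch p a * p i := by
  rw [h.pos_mul_pinch, h.pos_pinch_mul]

omit [PartialOrder M] [StarOrderedRing M] in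
theorem IsPart.pinch_eq_self (h : IsPart A p) {a : M} (ha : ∀ i, p i * a = a * p i) :
    pinch p a = a := by
  have : ∀ i, p i * a * p i = a * p i := fun i => by
    rw [ha, mul_assoc, (h.proj i).isIdempotentElem.eq]
  simp only [pinch, this]
  rw [← Finset.mul_sum, h.sum, mul_one]

theorem IsPart.pinch_nonneg (h : IsPart A p) {a : M} (ha : 0 ≤ a) : 0 ≤ pinch p a := by
  exact Finset.sum_nonneg fun i _ => (h.proj i).isSelfAdjoint.conjugate_nonneg ha

theorem IsPart.le_pinch (h : IsPart A p) {a : M} (ha : 0 ≤ a) (i : ι) :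
    p i * a * p i ≤ pinch p a := by
  exact Finset.single_le_sum (f := fun i => p i * a * p i)
    (fun i _ => (h.proj i).isSelfAdjoint.conjugate_nonneg ha) (Finset.mem_univ i)

/-- For orthogonal families `p`, `q` of projections,
`star (∑ p i a i q i) (∑ p i a i q i) = ∑ q i a i* p i a i q i ≤ C² ∑ q i ≤ C²`. -/
theorem norm_sum_block_le {p q a : ι → M} (hp : ∀ i, IsStarProjection (p i))
    (hpo : ∀ i j, i ≠ j → p i * p j = 0) (hq : ∀ i, IsStarProjection (q i))
    (hqo : ∀ i j, i ≠ j → q i * q j = 0) {C : ℝ} (hC : 0 ≤ C)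
    (ha : ∀ i, ‖p i * a i * q i‖ ≤ C) : ‖∑ i, p i * a i * q i‖ ≤ C := by
  have h1 := pos_star_sum_mul hp hpo (c := fun i => p i * a i * q i) fun i => by
    rw [← mul_assoc, ← mul_assoc, (hp i).isIdempotentElem.eq]
  have h2 : ∀ i, star (p i * a i * q i) * (p i * a i * q i) ≤ (C ^ 2) • q i := fun i => by
    have hq2 := (hq i).isIdempotentElem.eq
    have hqs := (hq i).isSelfAdjoint.star_eq
    set b := p i * a i * q i with hb
    have h3 : b * q i = b := by rw [hb, mul_assoc, hq2]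
    have h4 : star b * b ≤ algebraMap ℝ M (C ^ 2) := by
      rw [← CStarAlgebra.norm_le_iff_le_algebraMap _ (sq_nonneg C) (star_mul_self_nonneg b),
        CStarRing.norm_star_mul_self, sq]
      exact mul_self_le_mul_self (norm_nonneg _) (ha i)
    have h5 := star_left_conjugate_le_conjugate h4 (q i)
    rwa [Algebra.algebraMap_eq_smul_one, mul_smul_comm, smul_mul_assoc, mul_one, ← mul_assoc,
      ← star_mul, mul_assoc, h3, hqs, hq2] at h5
  have h6 : IsStarProjection (∑ i, q i) := by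
    have h7 := pos_star_sum_mul hq hqo (c := q) fun i => (hq i).isIdempotentElem.eq
    have h8 : star (∑ i, q i) = ∑ i, q i := by
      simp only [star_sum, (hq _).isSelfAdjoint.star_eq]
    simp only [h8, (hq _).isSelfAdjoint.star_eq, (hq _).isIdempotentElem.eq] at h7
    exact ⟨h7, h8⟩
  have h9 : star (∑ i, p i * a i * q i) * ∑ i, p i * a i * q i ≤ algebraMap ℝ M (C ^ 2) := by
    rw [h1, Algebra.algebraMap_eq_smul_one]
    refine (Finset.sum_le_sum fun i _ => h2 i).trans ?_
    rw [← Finset.smul_sum]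
    exact smul_le_smul_of_nonneg_left h6.le_one (sq_nonneg C)
  rw [← CStarAlgebra.norm_le_iff_le_algebraMap _ (sq_nonneg C) (star_mul_self_nonneg _),
    CStarRing.norm_star_mul_self, sq] at h9
  exact (mul_self_le_mul_self_iff (norm_nonneg _) hC).2 h9

theorem IsPart.norm_pinch_le (h : IsPart A p) (a : M) : ‖pinch p a‖ ≤ ‖a‖ := by
  exact norm_sum_block_le (a := fun _ => a) h.proj h.orth h.proj h.orth (norm_nonneg a)
    fun i => pos_norm_conj_le (h.proj i) a

theorem IsPart.norm_block_le (h : IsPart A p) (a : M) (i : ι) :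
    ‖p i * a * p i‖ ≤ ‖pinch p a‖ := by
  have := pos_norm_conj_le (h.proj i) (pinch p a)
  rwa [h.pos_mul_pinch, mul_assoc (p i * a), (h.proj i).isIdempotentElem.eq] at this

theorem IsPart.n2_pinch_pow (h : IsPart A p) (θ : M →ₚ[ℂ] ℂ) (a : M) {j : ℕ} (hj : 1 ≤ j) :
    n2 θ (pinch p a ^ j) ^ 2 = ∑ i, n2 θ ((p i * a * p i) ^ j) ^ 2 := by
  have h0 : ∀ i k, p i * (p i * a * p i) ^ (k + 1) = (p i * a * p i) ^ (k + 1) := fun i k => by
    rw [pow_succ', ← mul_assoc, ← mul_assoc, ← mul_assoc, (h.proj i).isIdempotentElem.eq]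
  have h1 : ∀ k, pinch p a ^ (k + 1) = ∑ i, (p i * a * p i) ^ (k + 1) := fun k => by
    induction k with
    | zero => simp only [zero_add, pow_one, pinch]
    | succ k ih =>
      rw [pow_succ', ih, Finset.mul_sum]
      refine Finset.sum_congr rfl fun i _ => ?_
      rw [← h0, ← mul_assoc, h.pos_pinch_mul, ← pow_succ']
  obtain ⟨k, rfl⟩ : ∃ k, j = k + 1 := ⟨j - 1, by omega⟩
  rw [h1, n2_sq, pos_star_sum_mul h.proj h.orth fun i => h0 i k, map_sum, Complex.re_sum]
  simp only [n2_sq]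

theorem IsPart.theta_pinch (h : IsPart A p) {θ : M →ₚ[ℂ] ℂ} (hθ : Central A θ) (a : M) :
    θ (pinch p a) = θ a := by
  have : ∀ i, θ (p i * a * p i) = θ (a * p i) := fun i => by
    rw [mul_assoc, hθ _ (h.mem i), mul_assoc, (h.proj i).isIdempotentElem.eq]
  rw [pinch, map_sum]
  simp only [this]
  rw [← map_sum, ← Finset.mul_sum, h.sum, mul_one]

/-- `p a* p a p ≤ p a* a p` and `theta_pinch`. -/
theorem IsPart.n2_pinch_le (h : IsPart A p) {θ : M →ₚ[ℂ] ℂ} (hθ : Central A θ) (a : M) :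
    n2 θ (pinch p a) ≤ n2 θ a := by
  refine le_of_sq_le_sq ?_ (n2_nonneg θ a)
  rw [n2_sq, n2_sq, ← h.theta_pinch hθ (star a * a)]
  refine pos_re_mono θ ?_
  rw [pinch, pos_star_sum_mul h.proj h.orth fun i => by
    rw [← mul_assoc, ← mul_assoc, (h.proj i).isIdempotentElem.eq]]
  refine Finset.sum_le_sum fun i _ => ?_
  have h1 := star_left_conjugate_le_conjugate (h.proj i).le_one (a * p i)
  have h2 : ∀ x, p i * (p i * x) = p i * x := fun x => by
    rw [← mul_assoc, (h.proj i).isIdempotentElem.eq]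
  simpa only [star_mul, (h.proj i).isSelfAdjoint.star_eq, mul_assoc, h2, one_mul] using h1

/-- `(∑ a_i)* Y (∑ a_i) ≤ n ∑ a_i* Y a_i`. -/
theorem star_sum_conj_le {κ : Type*} (s : Finset κ) (a : κ → M) {Y : M} (hY : 0 ≤ Y) :
    star (∑ i ∈ s, a i) * Y * ∑ i ∈ s, a i ≤ (s.card : ℝ) • ∑ i ∈ s, star (a i) * Y * a i := by
  have h1 : ∀ i j, star (a i) * Y * a j + star (a j) * Y * a i
      ≤ star (a i) * Y * a i + star (a j) * Y * a j := fun i j => by
    have := star_left_conjugate_nonneg hY (a i - a j)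
    rw [← sub_nonneg]
    convert this using 1
    simp only [star_sub, sub_mul, mul_sub]
    abel
  have h2 := Finset.sum_le_sum fun i (_ : i ∈ s) => Finset.sum_le_sum fun j (_ : j ∈ s) => h1 i j
  have h3 : star (∑ i ∈ s, a i) * Y * ∑ i ∈ s, a i = ∑ i ∈ s, ∑ j ∈ s, star (a i) * Y * a j := by
    rw [star_sum, Finset.sum_mul, Finset.sum_mul_sum]
  simp only [Finset.sum_add_distrib, Finset.sum_const] at h2
  rw [Finset.sum_comm (f := fun i j => star (a j) * Y * a i), ← h3, ← Finset.smul_sum,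
    ← Nat.cast_smul_eq_nsmul ℝ, ← two_smul ℝ, ← two_smul ℝ] at h2
  exact le_of_smul_le_smul_of_pos_left h2 two_pos

/-- `(R - τ/2)² ≥ 0` in disguise. -/
theorem le_add_sq {R : M} (hR : IsSelfAdjoint R) {τ : ℝ} (hτ : 0 < τ) :
    R ≤ τ • (1 : M) + τ⁻¹ • (R * R) := by
  have h1 : 0 ≤ (R - (τ / 2) • (1 : M)) * (R - (τ / 2) • (1 : M)) := by
    have := star_mul_self_nonneg (R - (τ / 2) • (1 : M))
    rwa [star_sub, star_smul, star_one, hR.star_eq, star_trivial] at this
  have h2 : 0 ≤ τ⁻¹ • ((R - (τ / 2) • (1 : M)) * (R - (τ / 2) • (1 : M))) + (3 * τ / 4) • (1 : M) :=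
    add_nonneg (smul_nonneg (by positivity) h1) (smul_nonneg (by positivity) zero_le_one)
  rw [← sub_nonneg]
  convert h2 using 1
  simp only [sub_mul, mul_sub, smul_mul_assoc, mul_smul_comm, one_mul, mul_one]
  match_scalars <;> field_simp <;> ring

end pinch

end Crest.Agent.R109
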