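import Crest.Agent.R109.FBasic

/-! Row 109, finite part: zero-free regions. -/

set_option autoImplicit false

open scoped ComplexConjugate
open Polynomial

namespace Crest.Agent.R109

variable {α : Type*} [DecidableEq α] {𝒦 : Type*} [Fintype 𝒦] [DecidableEq 𝒦]

theorem region_upd (y : 𝒦 → α → α → ℂ) (π : α → 𝒦 → ℝ) {U : Finset α} {v : α} (hv : v ∈ U)
    (Z : α → ℂ) (κ ζ : ℂ) :
    pH y π U (Function.update Z v ζ) κ = ζ * pH y π (U.erase v) Z κ + nH y π U v Z κ := by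
  have h1 : ∀ u ∈ U.erase v, Function.update Z v ζ u = Z u := fun u hu =>
    Function.update_of_ne (Finset.ne_of_mem_erase hu) _ _
  rw [pH_erase y π hv, Function.update_self, ← nH_congr y π U v κ h1,
    ← pH_congr (U.erase v) κ (fun _ _ _ => rfl) (fun _ _ _ _ _ _ _ => rfl) h1]

theorem region_subP {π : α → 𝒦 → ℝ} (hπ : SubP π) (v : α) (k : 𝒦) :
    SubP (Function.update π v (Pi.single k 1)) := by
  intro u
  by_cases huv : u = v
  · subst huv
    rw [Function.update_self]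
    refine ⟨fun j => ?_, by simp⟩
    by_cases hj : j = k
    · subst hj; simp
    · simp [hj]
  · rw [Function.update_of_ne huv]
    exact hπ u

section lin

variable {ι : Type*} [Fintype ι] [DecidableEq ι]

/-- The sesquilinear form of a matrix on the diagonal. -/
noncomputable def regionQ (Y : Matrix ι ι ℂ) (ξ : ι → ℂ) : ℂ :=
  ∑ a, ∑ b, conj (ξ a) * Y a b * ξ b

omit [DecidableEq ι] in
theorem regionQ_im {Y : Matrix ι ι ℂ} (hY : ∀ a b, Y b a = conj (Y a b)) (ξ : ι → ℂ) :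
    (regionQ Y ξ).im = 0 := by
  rw [← Complex.conj_eq_iff_im]
  unfold regionQ
  rw [map_sum]
  simp only [map_sum, map_mul, Complex.conj_conj]
  rw [Finset.sum_comm]
  refine Finset.sum_congr rfl fun a _ => Finset.sum_congr rfl fun b _ => ?_
  rw [← hY]
  ring

theorem region_row {Y : Matrix ι ι ℂ} {Z ξ : ι → ℂ} {κ : ℂ}
    (h : (Matrix.diagonal Z - κ • Y).mulVec ξ = 0) (a : ι) :
    Z a * ξ a = κ * ∑ b, Y a b * ξ b := by
  have h1 := congrFun h a
  rw [Matrix.sub_mulVec, Matrix.smul_mulVec, Pi.sub_apply, Matrix.mulVec_diagonal,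
    Pi.zero_apply, sub_eq_zero] at h1
  exact h1

theorem region_re_mul (e z w : ℂ) : (e * (conj w * (z * w))).re = (e * z).re * ‖w‖ ^ 2 := by
  have : e * (conj w * (z * w)) = (e * z) * ((‖w‖ ^ 2 : ℝ) : ℂ) := by
    rw [Complex.ofReal_pow, ← Complex.conj_mul']
    ring
  rw [this, Complex.re_mul_ofReal]

theorem region_lin1 {Y : Matrix ι ι ℂ} (hY : ∀ a b, Y b a = conj (Y a b)) (Z : ι → ℂ)
    (e κ : ℂ) (c : ℝ) (hQ : ∀ ξ, (e * κ).re * (regionQ Y ξ).re ≤ c * ∑ a, ‖ξ a‖ ^ 2)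
    (hZ : ∀ a, c < (e * Z a).re) : (Matrix.diagonal Z - κ • Y).det ≠ 0 := by
  intro hdet
  obtain ⟨ξ, hξ, h⟩ := Matrix.exists_mulVec_eq_zero_iff.2 hdet
  have h1 : ∑ a, conj (ξ a) * (Z a * ξ a) = κ * regionQ Y ξ := by
    unfold regionQ
    rw [Finset.mul_sum]
    refine Finset.sum_congr rfl fun a _ => ?_
    rw [region_row h a, Finset.mul_sum, Finset.mul_sum, Finset.mul_sum]
    exact Finset.sum_congr rfl fun b _ => by ring
  have h2 : ∑ a, (e * Z a).re * ‖ξ a‖ ^ 2 = (e * κ).re * (regionQ Y ξ).re := by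
    have h3 := congrArg (fun z => (e * z).re) h1
    simp only [Finset.mul_sum, Complex.re_sum, region_re_mul] at h3
    rw [h3, ← mul_assoc, Complex.mul_re (e * κ), regionQ_im hY, mul_zero, sub_zero]
  have h4 : c * ∑ a, ‖ξ a‖ ^ 2 < ∑ a, (e * Z a).re * ‖ξ a‖ ^ 2 := by
    rw [Finset.mul_sum]
    obtain ⟨a, ha⟩ := Function.ne_iff.1 hξ
    refine Finset.sum_lt_sum (fun b _ => mul_le_mul_of_nonneg_right (hZ b).le (by positivity))
      ⟨a, Finset.mem_univ _, mul_lt_mul_of_pos_right (hZ a) ?_⟩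
    have : ξ a ≠ 0 := ha
    positivity
  linarith [hQ ξ]

omit [DecidableEq ι] in
theorem region_abs_le {Y : Matrix ι ι ℂ} (hQ : ∀ ξ, ‖regionQ Y ξ‖ ≤ ∑ a, ‖ξ a‖ ^ 2) (r : ℝ)
    (ξ : ι → ℂ) : r * (regionQ Y ξ).re ≤ |r| * ∑ a, ‖ξ a‖ ^ 2 := by
  refine (le_abs_self _).trans ?_
  rw [abs_mul]
  exact mul_le_mul_of_nonneg_left ((Complex.abs_re_le_norm _).trans (hQ ξ)) (abs_nonneg _)

theorem region_lin2 {Y : Matrix ι ι ℂ} (hY : ∀ a b, Y b a = conj (Y a b)) (v : ι)
    (hd : Y v v = 0) (hQ : ∀ ξ, ‖regionQ Y ξ‖ ≤ ∑ a, ‖ξ a‖ ^ 2) (Z : ι → ℂ) (e κ : ℂ)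
    (he : ‖e‖ = 1) (h : ι → ℝ) (hh : ∀ a, 0 < h a)
    (hZ : ∀ a, a ≠ v → |(e * κ).re| + h a ≤ (e * Z a).re) {ρ : ℝ}
    (hρ : ∑ a, ‖Y a v‖ ^ 2 / h a ≤ ρ) (hρ0 : 0 ≤ ρ) (hv : ‖κ‖ ^ 2 * ρ < ‖Z v‖) :
    (Matrix.diagonal Z - κ • Y).det ≠ 0 := by
  intro hdet
  obtain ⟨ξ, hξ, hn⟩ := Matrix.exists_mulVec_eq_zero_iff.2 hdet
  obtain ⟨ξ', hξv, hξa⟩ : ∃ ξ' : ι → ℂ, ξ' v = 0 ∧ ∀ a, a ≠ v → ξ' a = ξ a :=
    ⟨Function.update ξ v 0, Function.update_self .., fun a ha => Function.update_of_ne ha ..⟩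
  have hsum : ∀ a, ∑ b, Y a b * ξ b = ∑ b, Y a b * ξ' b + Y a v * ξ v := by
    intro a
    rw [← Finset.add_sum_erase _ _ (Finset.mem_univ v),
      ← Finset.add_sum_erase _ (fun b => Y a b * ξ' b) (Finset.mem_univ v), hξv, mul_zero,
      zero_add, add_comm]
    congr 1
    exact Finset.sum_congr rfl fun b hb => by rw [hξa b (Finset.ne_of_mem_erase hb)]
  obtain ⟨β, hβ⟩ : ∃ β, β = ∑ a, conj (ξ' a) * Y a v := ⟨_, rfl⟩
  have h1 : ∑ a, conj (ξ' a) * (Z a * ξ' a) = κ * regionQ Y ξ' + κ * (β * ξ v) := by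
    unfold regionQ
    rw [hβ, Finset.sum_mul, Finset.mul_sum, Finset.mul_sum, ← Finset.sum_add_distrib]
    refine Finset.sum_congr rfl fun a _ => ?_
    by_cases ha : a = v
    · subst ha
      simp [hξv]
    · have h2 : ∑ b, conj (ξ' a) * Y a b * ξ' b = conj (ξ' a) * ∑ b, Y a b * ξ' b := by
        rw [Finset.mul_sum]
        exact Finset.sum_congr rfl fun b _ => by ring
      rw [h2]
      nth_rewrite 2 [hξa a ha]
      rw [region_row hn a, hsum]
      ring
  have h2 : ∑ a, (e * Z a).re * ‖ξ' a‖ ^ 2 =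
      (e * κ).re * (regionQ Y ξ').re + (e * (κ * (β * ξ v))).re := by
    have h3 := congrArg (fun z => (e * z).re) h1
    simp only [Finset.mul_sum, Complex.re_sum, region_re_mul] at h3
    rw [h3, mul_add, Complex.add_re, ← mul_assoc, Complex.mul_re (e * κ), regionQ_im hY, mul_zero,
      sub_zero]
  have h4 : (e * (κ * (β * ξ v))).re ≤ ‖κ‖ * (‖β‖ * ‖ξ v‖) := by
    refine (Complex.re_le_norm _).trans ?_
    rw [norm_mul, he, one_mul, norm_mul, norm_mul]
  have h5 : ∑ a, h a * ‖ξ' a‖ ^ 2 ≤ ‖κ‖ * (‖β‖ * ‖ξ v‖) := by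
    have h6 : |(e * κ).re| * ∑ a, ‖ξ' a‖ ^ 2 + ∑ a, h a * ‖ξ' a‖ ^ 2 ≤
        ∑ a, (e * Z a).re * ‖ξ' a‖ ^ 2 := by
      rw [Finset.mul_sum, ← Finset.sum_add_distrib]
      refine Finset.sum_le_sum fun a _ => ?_
      by_cases ha : a = v
      · subst ha
        simp [hξv]
      · rw [← add_mul]
        exact mul_le_mul_of_nonneg_right (hZ a ha) (by positivity)
    linarith [region_abs_le hQ (e * κ).re ξ']
  have h7 : ‖β‖ ^ 2 ≤ (∑ a, h a * ‖ξ' a‖ ^ 2) * ρ := by
    have h8 : ‖β‖ ≤ ∑ a, ‖ξ' a‖ * ‖Y a v‖ := by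
      rw [hβ]
      refine (norm_sum_le _ _).trans (Finset.sum_le_sum fun a _ => ?_)
      rw [norm_mul, Complex.norm_conj]
    have h9 : (∑ a, ‖ξ' a‖ * ‖Y a v‖) ^ 2 ≤
        (∑ a, h a * ‖ξ' a‖ ^ 2) * ∑ a, ‖Y a v‖ ^ 2 / h a := by
      refine Finset.sum_sq_le_sum_mul_sum_of_sq_le_mul _ (fun a _ => ?_) (fun a _ => ?_)
        fun a _ => le_of_eq ?_
      · have := hh a
        positivity
      · have := hh a
        positivity
      · have := (hh a).ne'
        field_simp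
    refine (pow_le_pow_left₀ (norm_nonneg _) h8 2).trans (h9.trans ?_)
    refine mul_le_mul_of_nonneg_left hρ (Finset.sum_nonneg fun a _ => ?_)
    have := hh a
    positivity
  have h10 : ‖β‖ ≤ ‖κ‖ * ‖ξ v‖ * ρ := by
    rcases (norm_nonneg β).eq_or_lt with h0 | h0
    · rw [← h0]; positivity
    · have h11 : ‖β‖ * ‖β‖ ≤ ‖β‖ * (‖κ‖ * ‖ξ v‖ * ρ) := by
        have := mul_le_mul_of_nonneg_right h5 hρ0
        nlinarith
      exact le_of_mul_le_mul_left h11 h0
  have h12 : Z v * ξ v = κ * conj β := by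
    rw [region_row hn v, hsum, hd, zero_mul, add_zero, hβ, map_sum]
    congr 1
    refine Finset.sum_congr rfl fun b _ => ?_
    rw [map_mul, Complex.conj_conj, ← hY, mul_comm]
  have h13 : ξ v = 0 := by
    by_contra h0
    have h14 : 0 < ‖ξ v‖ := norm_pos_iff.2 h0
    have h15 := congrArg norm h12
    rw [norm_mul, norm_mul, Complex.norm_conj] at h15
    have h16 := mul_le_mul_of_nonneg_left h10 (norm_nonneg κ)
    have h17 := mul_lt_mul_of_pos_right hv h14
    nlinarith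
  apply hξ
  funext a
  by_cases ha : a = v
  · rw [ha, h13]; rfl
  · rw [h13, norm_zero, mul_zero, mul_zero] at h5
    have h18 : h a * ‖ξ' a‖ ^ 2 ≤ 0 :=
      (Finset.single_le_sum (f := fun a => h a * ‖ξ' a‖ ^ 2)
        (fun b _ => by have := hh b; positivity) (Finset.mem_univ a)).trans h5
    have h19 : ‖ξ' a‖ ^ 2 ≤ 0 := by
      by_contra h20
      have := mul_pos (hh a) (not_le.1 h20)
      linarith
    have h21 : ξ' a = 0 := by
      have := pow_eq_zero_iff (two_ne_zero) |>.1 (le_antisymm h19 (by positivity))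
      exact norm_eq_zero.1 this
    rw [← hξa a ha, h21]; rfl

end lin

omit [DecidableEq α] [Fintype 𝒦] in
theorem region_ymat_herm {y : 𝒦 → α → α → ℂ} (hy : Herm y) (T : Finset α) (cl : T → 𝒦)
    (a b : T) : ymat y T cl b a = conj (ymat y T cl a b) := by
  simp only [ymat, Matrix.of_apply]
  by_cases h : cl a = cl b
  · rw [if_pos h, if_pos h.symm, ← h, hy.symm]
  · rw [if_neg h, if_neg (Ne.symm h), map_zero]

theorem region_ymat_bnd {y : 𝒦 → α → α → ℂ} {T : Finset α} (hb : ∀ k, Bnd 1 (y k) T)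
    (cl : T → 𝒦) (ξ : T → ℂ) : ‖regionQ (ymat y T cl) ξ‖ ≤ ∑ a, ‖ξ a‖ ^ 2 := by
  let η : 𝒦 → α → ℂ := fun k a => if h : a ∈ T then (if cl ⟨a, h⟩ = k then ξ ⟨a, h⟩ else 0) else 0
  have hη : ∀ k (a : T), η k a = if cl a = k then ξ a else 0 := fun k a => by
    simp only [η, dif_pos a.2]
  have h1 : regionQ (ymat y T cl) ξ =
      ∑ k, ∑ a ∈ T, ∑ b ∈ T, conj (η k a) * y k a b * η k b := by
    unfold regionQ
    rw [Finset.sum_comm (s := Finset.univ) (t := T), ← Finset.sum_coe_sort T]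
    refine Finset.sum_congr rfl fun a _ => ?_
    rw [Finset.sum_comm (s := Finset.univ) (t := T), ← Finset.sum_coe_sort T]
    refine Finset.sum_congr rfl fun b _ => ?_
    rw [Finset.sum_eq_single (cl a)]
    · rw [hη, hη, if_pos rfl]
      simp only [ymat, Matrix.of_apply]
      by_cases h : cl a = cl b
      · rw [if_pos h, if_pos h.symm]
      · rw [if_neg h, if_neg (Ne.symm h), mul_zero, mul_zero, zero_mul]
    · intro k _ hk
      rw [hη k a, if_neg (Ne.symm hk), map_zero, zero_mul, zero_mul]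
    · simp
  rw [h1]
  refine (norm_sum_le _ _).trans ?_
  refine (Finset.sum_le_sum fun k _ => Bnd.form_le zero_le_one (hb k) (η k)).trans (le_of_eq ?_)
  simp only [one_mul]
  rw [Finset.sum_comm, ← Finset.sum_coe_sort T]
  refine Finset.sum_congr rfl fun a _ => ?_
  rw [Finset.sum_eq_single (cl a)]
  · rw [hη, if_pos rfl]
  · intro k _ hk
    rw [hη k a, if_neg (Ne.symm hk), norm_zero, zero_pow two_ne_zero]
  · simp

theorem region_isLinear (e : ℂ) : IsLinearMap ℝ fun ζ : ℂ => (e * ζ).re :=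
  ⟨fun x y => by rw [mul_add, Complex.add_re], fun c x => by
    rw [mul_smul_comm, Complex.smul_re]⟩

theorem region_convex_lt (e : ℂ) (c : ℝ) : Convex ℝ {ζ : ℂ | c < (e * ζ).re}ᶜ := by
  have h : {ζ : ℂ | c < (e * ζ).re}ᶜ = {ζ : ℂ | (e * ζ).re ≤ c} := by
    ext ζ
    simp
  rw [h]
  exact convex_halfSpace_le (region_isLinear e) c

theorem region_convex_le (e : ℂ) (c : ℝ) : Convex ℝ {ζ : ℂ | c ≤ (e * ζ).re}ᶜ := by
  have h : {ζ : ℂ | c ≤ (e * ζ).re}ᶜ = {ζ : ℂ | (e * ζ).re < c} := by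
    ext ζ
    simp
  rw [h]
  exact convex_halfSpace_lt (region_isLinear e) c

/-- The region lemma.  Let `Ω u` have a convex complement containing `0`.  If all deterministic
determinants do not vanish on `∏ Ω u`, then neither does `pH`.
Proof: induction on `U.card + #{u ∈ U | π u is not a Dirac vector Pi.single k 1}` (for all `π`,
`U`, `Z`; the hypothesis on the determinants passes to subsets of `U`).  If every `π u` is a Dirac
vector use `pH_dirac` (`t = 1`).  Otherwise take a non-Dirac `v`; `P = pH (U.erase v) ≠ 0` and, for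
every class `k` and every `ζ ∈ Ω v`, `ζ * P + nH[π v := δ_k] ≠ 0` (induction hypothesis for
`update π v (Pi.single k 1)` and `update Z v ζ`; `pH_erase`, `nH_congr`, `pH_congr`).  So
`S_k = -nH[δ_k] / P ∉ Ω v`, hence `∑ π v k • S_k + (1 - ∑ π v k) • 0 ∉ Ω v` by convexity, and
`pH = (Z v - ∑ π v k S_k) P ≠ 0` by `nH_linear`. -/
theorem region (y : 𝒦 → α → α → ℂ) (κ : ℂ) (Ω : α → Set ℂ) (hc : ∀ u, Convex ℝ (Ω u)ᶜ)
    (h0 : ∀ u, (0 : ℂ) ∉ Ω u) (U : Finset α)
    (hdet : ∀ T ⊆ U, ∀ (cl : T → 𝒦) (Z : α → ℂ), (∀ u ∈ T, Z u ∈ Ω u) →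
      (Matrix.diagonal (fun u : T => Z u) - κ • ymat y T cl).det ≠ 0)
    (π : α → 𝒦 → ℝ) (hπ : SubP π) (Z : α → ℂ) (hZ : ∀ u ∈ U, Z u ∈ Ω u) :
    pH y π U Z κ ≠ 0 := by
  induction U using Finset.strongInduction generalizing π Z with
  | H U ihU =>
  have key : ∀ (N : Finset α) (π : α → 𝒦 → ℝ), SubP π →
      (∀ u ∈ U, u ∉ N → ∃ k, π u = Pi.single k 1) → ∀ Z : α → ℂ, (∀ u ∈ U, Z u ∈ Ω u) →
      pH y π U Z κ ≠ 0 := by
    intro N
    induction N using Finset.induction_on with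
    | empty =>
      intro π _ hD Z hZ
      rcases U.eq_empty_or_nonempty with rfl | ⟨u₀, hu₀⟩
      · rw [pH_empty]; exact one_ne_zero
      obtain ⟨k₀, -⟩ := hD u₀ hu₀ (by simp)
      have : Nonempty 𝒦 := ⟨k₀⟩
      choose! cl hcl using hD
      rw [pH_dirac y π U cl 1 (fun u hu k => by rw [hcl u hu (by simp), Pi.single_apply]) Z κ,
        Complex.ofReal_one, one_mul]
      exact hdet U le_rfl _ Z hZ
    | insert v N hvN ih =>
      intro π hπ hD Z hZ
      by_cases hv : v ∈ U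
      swap
      · refine ih π hπ (fun u hu huN => hD u hu ?_) Z hZ
        rw [Finset.mem_insert, not_or]
        exact ⟨fun h => hv (h ▸ hu), huN⟩
      have hP : pH y π (U.erase v) Z κ ≠ 0 :=
        ihU _ (Finset.erase_ssubset hv)
          (fun T hT => hdet T (hT.trans (Finset.erase_subset _ _))) π hπ Z
          fun u hu => hZ u (Finset.mem_of_mem_erase hu)
      have hS : ∀ k, -nH y (Function.update π v (Pi.single k 1)) U v Z κ /
          pH y π (U.erase v) Z κ ∈ (Ω v)ᶜ := by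
        intro k hk
        refine ih (Function.update π v (Pi.single k 1)) (region_subP hπ v k) ?_
          (Function.update Z v (-nH y (Function.update π v (Pi.single k 1)) U v Z κ /
            pH y π (U.erase v) Z κ)) ?_ ?_
        · intro u hu huN
          by_cases huv : u = v
          · exact ⟨k, by rw [huv, Function.update_self]⟩
          · rw [Function.update_of_ne huv]
            exact hD u hu (by rw [Finset.mem_insert, not_or]; exact ⟨huv, huN⟩)
        · intro u hu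
          by_cases huv : u = v
          · rw [huv, Function.update_self]; exact hk
          · rw [Function.update_of_ne huv]; exact hZ u hu
        · have h1 : pH y π (U.erase v) Z κ =
              pH y (Function.update π v (Pi.single k 1)) (U.erase v) Z κ :=
            pH_congr (U.erase v) κ
              (fun u hu k => by rw [Function.update_of_ne (Finset.ne_of_mem_erase hu)])
              (fun _ _ _ _ _ _ _ => rfl) (fun _ _ => rfl)
          rw [region_upd y _ hv, ← h1, div_mul_cancel₀ _ hP, neg_add_cancel]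
      have hconv := (hc v).sum_mem (t := (Finset.univ : Finset (Option 𝒦)))
        (w := fun o => o.elim (1 - ∑ k, π v k) (π v))
        (z := fun o => o.elim 0 fun k => -nH y (Function.update π v (Pi.single k 1)) U v Z κ /
          pH y π (U.erase v) Z κ)
        (by
          rintro (_ | k) _
          · exact sub_nonneg.2 (hπ v).2
          · exact (hπ v).1 k)
        (by rw [Fintype.sum_option]; simp)
        (by
          rintro (_ | k) _
          · exact h0 v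
          · exact hS k)
      intro hz
      rw [pH_erase y π hv, nH_linear] at hz
      apply hconv
      convert hZ v hv using 1
      rw [Fintype.sum_option]
      simp only [Option.elim_none, Option.elim_some, smul_zero, zero_add, Complex.real_smul]
      apply mul_right_cancel₀ hP
      rw [eq_neg_of_add_eq_zero_left hz, Finset.sum_mul, ← Finset.sum_neg_distrib]
      refine Finset.sum_congr rfl fun k _ => ?_
      rw [mul_assoc, div_mul_cancel₀ _ hP, mul_neg]
  exact key U π hπ (fun u hu h => absurd hu h) Z hZ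

/-- Half-plane regions.  For a null vector `ξ ≠ 0` of `diag Z - κ y_cl`:
`0 = re (e ⟪ξ, (Z - κ y) ξ⟫) = ∑ re (e Z u) |ξ u|² - re (e κ) ⟪ξ, y_cl ξ⟫ > 0`, since `y_cl` is a
Hermitian contraction (block diagonal over the classes; `Bnd.form_le` on each class).  Use
`region` with `Ω u = {ζ | |re (e κ)| < re (e ζ)}`. -/
theorem pH_ne_zero {y : 𝒦 → α → α → ℂ} (hy : Herm y) {U : Finset α} (hb : ∀ k, Bnd 1 (y k) U)
    {π : α → 𝒦 → ℝ} (hπ : SubP π) (e κ : ℂ) (Z : α → ℂ)
    (hZ : ∀ u ∈ U, |(e * κ).re| < (e * Z u).re) : pH y π U Z κ ≠ 0 := by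
  refine region y κ (fun _ => {ζ | |(e * κ).re| < (e * ζ).re}) (fun _ => region_convex_lt e _)
    (fun _ => by simp) U (fun T hT cl Z hZ => ?_) π hπ Z hZ
  exact region_lin1 (region_ymat_herm hy T cl) _ e κ _
    (region_abs_le (region_ymat_bnd (fun k => (hb k).mono hT) cl) _) fun a => hZ a a.2

/-- The same for real `κ` and variables in the upper half-plane, without any norm bound
(`e = -I`, `re (e κ) = 0`). -/
theorem pH_ne_zero_of_im {y : 𝒦 → α → α → ℂ} (hy : Herm y) (U : Finset α)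
    {π : α → 𝒦 → ℝ} (hπ : SubP π) (t : ℝ) (Z : α → ℂ) (hZ : ∀ u ∈ U, 0 < (Z u).im) :
    pH y π U Z t ≠ 0 := by
  refine region y t (fun _ => {ζ | 0 < (-Complex.I * ζ).re}) (fun _ => region_convex_lt _ _)
    (fun _ => by simp) U (fun T hT cl Z hZ => ?_) π hπ Z fun u hu => by simpa using hZ u hu
  exact region_lin1 (region_ymat_herm hy T cl) _ (-Complex.I) t 0 (fun ξ => by simp)
    fun a => hZ a a.2

/-- The self-energy `S = -nH / pH (U.erase v)` lies in a disc.  Use `region` with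
`Ω v = {ζ | ‖κ‖² ρ < ‖ζ‖}` and `Ω u = {ζ | |re (e κ)| + h u ≤ re (e ζ)}` for `u ≠ v`.  If
`(diag Z - κ y_cl) ξ = 0` on `T ∋ v`, let `ξ'` be the part off `v`, `b` the column of `y_cl` at `v`
(off `v`; the diagonal vanishes; its entries are `0` or `y (cl v) u v`).  The rows `u ≠ v` give
`∑ h u |ξ u|² ≤ ‖κ‖ |⟪ξ', b⟫| |ξ v|`, Cauchy-Schwarz gives `|⟪b, ξ'⟫|² ≤ ρ ∑ h u |ξ u|²`, so
`|⟪b, ξ'⟫| ≤ ‖κ‖ ρ |ξ v|`, and row `v` reads `Z v ξ v = κ ⟪b, ξ'⟫`; hence `ξ v = 0`, `ξ' = 0`.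
Then, if `‖nH‖ > ‖κ‖² ρ ‖P‖`, put `Z v := -nH / P` (`P ≠ 0` by `pH_ne_zero`) to get a zero. -/
theorem nH_norm_le {y : 𝒦 → α → α → ℂ} (hy : Herm y) {U : Finset α} (hb : ∀ k, Bnd 1 (y k) U)
    {π : α → 𝒦 → ℝ} (hπ : SubP π) {v : α} (hv : v ∈ U) (e κ : ℂ) (he : ‖e‖ = 1) (Z : α → ℂ)
    (h : α → ℝ) (hh : ∀ u, 0 < h u) (hZ : ∀ u ∈ U.erase v, |(e * κ).re| + h u ≤ (e * Z u).re)
    {ρ : ℝ} (hρ : ∀ k, ∑ u ∈ U.erase v, ‖y k u v‖ ^ 2 / h u ≤ ρ) (hρ0 : 0 ≤ ρ) :
    ‖nH y π U v Z κ‖ ≤ ‖κ‖ ^ 2 * ρ * ‖pH y π (U.erase v) Z κ‖ := by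
  by_contra hcon
  rw [not_le] at hcon
  have hP : pH y π (U.erase v) Z κ ≠ 0 :=
    pH_ne_zero hy (fun k => (hb k).mono (Finset.erase_subset _ _)) hπ e κ Z fun u hu => by
      linarith [hZ u hu, hh u]
  refine region y κ (fun u => if u = v then {ζ | ‖κ‖ ^ 2 * ρ < ‖ζ‖}
    else {ζ | |(e * κ).re| + h u ≤ (e * ζ).re}) (fun u => ?_) (fun u => ?_) U
    (fun T hT cl Z hZ => ?_) π hπ
    (Function.update Z v (-nH y π U v Z κ / pH y π (U.erase v) Z κ)) (fun u hu => ?_) ?_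
  · split_ifs
    · have h1 : {ζ : ℂ | ‖κ‖ ^ 2 * ρ < ‖ζ‖}ᶜ = Metric.closedBall 0 (‖κ‖ ^ 2 * ρ) := by
        ext ζ
        simp
      rw [h1]
      exact convex_closedBall _ _
    · exact region_convex_le e _
  · split_ifs
    · simp only [Set.mem_ofPred_eq, norm_zero, not_lt]
      positivity
    · simp only [Set.mem_ofPred_eq, mul_zero, Complex.zero_re, not_le]
      have := hh u
      positivity
  · have hbT := region_ymat_bnd (fun k => (hb k).mono hT) cl
    by_cases hvT : v ∈ T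
    · refine region_lin2 (region_ymat_herm hy T cl) ⟨v, hvT⟩ (by simp [ymat, hy.diag]) hbT _ e κ
        he (fun a => h a) (fun a => hh a) (fun a ha => ?_) ?_ hρ0 ?_
      · have h1 := hZ a a.2
        rwa [if_neg fun h => ha (Subtype.ext h)] at h1
      · refine le_trans ?_ (hρ (cl ⟨v, hvT⟩))
        have h1 : ∑ a : T, ‖ymat y T cl a ⟨v, hvT⟩‖ ^ 2 / h a ≤
            ∑ a : T, ‖y (cl ⟨v, hvT⟩) a v‖ ^ 2 / h a := by
          refine Finset.sum_le_sum fun a _ => ?_
          simp only [ymat, Matrix.of_apply]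
          split_ifs with h2
          · rw [h2]
          · have := hh a
            rw [norm_zero, zero_pow two_ne_zero, zero_div]
            positivity
        refine h1.trans ?_
        rw [Finset.sum_coe_sort T fun a => ‖y (cl ⟨v, hvT⟩) a v‖ ^ 2 / h a,
          ← Finset.add_sum_erase _ _ hvT, hy.diag, norm_zero, zero_pow two_ne_zero, zero_div,
          zero_add]
        refine Finset.sum_le_sum_of_subset_of_nonneg (Finset.erase_subset_erase _ hT)
          fun a _ _ => ?_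
        have := hh a
        positivity
      · have h1 := hZ v hvT
        rwa [if_pos rfl] at h1
    · refine region_lin1 (region_ymat_herm hy T cl) _ e κ _ (region_abs_le hbT _) fun a => ?_
      have h1 := hZ a a.2
      rw [if_neg fun h : (a : α) = v => hvT (h ▸ a.2)] at h1
      have h2 : |(e * κ).re| + h a ≤ (e * Z a).re := h1
      linarith [hh a]
  · by_cases huv : u = v
    · rw [if_pos huv, huv, Function.update_self, Set.mem_ofPred_eq, norm_div, norm_neg,
        lt_div_iff₀ (norm_pos_iff.2 hP)]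
      exact hcon
    · rw [if_neg huv, Function.update_of_ne huv]
      exact hZ u (Finset.mem_erase.2 ⟨huv, hu⟩)
  · rw [region_upd y π hv, div_mul_cancel₀ _ hP, neg_add_cancel]

/-- The self-energy has nonpositive imaginary part (otherwise put `Z v := S`). -/
theorem nH_im {y : 𝒦 → α → α → ℂ} (hy : Herm y) {U : Finset α} {π : α → 𝒦 → ℝ} (hπ : SubP π)
    {v : α} (hv : v ∈ U) (t : ℝ) (Z : α → ℂ) (hZ : ∀ u ∈ U.erase v, 0 < (Z u).im) :
    (-nH y π U v Z t / pH y π (U.erase v) Z t).im ≤ 0 := by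
  by_contra hcon
  rw [not_le] at hcon
  have hP := pH_ne_zero_of_im hy (U.erase v) hπ t Z hZ
  refine pH_ne_zero_of_im hy U hπ t
    (Function.update Z v (-nH y π U v Z t / pH y π (U.erase v) Z t)) (fun u hu => ?_) ?_
  · by_cases huv : u = v
    · rw [huv, Function.update_self]
      exact hcon
    · rw [Function.update_of_ne huv]
      exact hZ u (Finset.mem_erase.2 ⟨huv, hu⟩)
  · rw [region_upd y π hv, div_mul_cancel₀ _ hP, neg_add_cancel]

/-- If `pH` has no zero when `Z v` is stretched by factors `≥ 1`, the ratio of the normalised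
polynomials avoids the negative axis: `ph U / ph (U.erase v) = 1 + nH / (Z v * P)`; if this is
`-t ≤ 0` then `(1 + t) Z v * P + nH = 0`. -/
theorem ph_ratio_slit (y : 𝒦 → α → α → ℂ) (π : α → 𝒦 → ℝ) {U : Finset α} {v : α} (hv : v ∈ U)
    (Z : α → ℂ) (κ : ℂ) (hZ : ∀ u ∈ U, Z u ≠ 0) (hP : pH y π (U.erase v) Z κ ≠ 0)
    (hs : ∀ t : ℝ, 1 ≤ t → pH y π U (Function.update Z v (t * Z v)) κ ≠ 0) :
    ph y π (U.erase v) Z κ ≠ 0 ∧
      ph y π U Z κ / ph y π (U.erase v) Z κ =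
        1 + nH y π U v Z κ / (Z v * pH y π (U.erase v) Z κ) ∧
      ph y π U Z κ / ph y π (U.erase v) Z κ ∈ Complex.slitPlane := by
  have hZ' : ∀ u ∈ U.erase v, Z u ≠ 0 := fun u hu => hZ u (Finset.mem_of_mem_erase hu)
  have hprod : ∏ u ∈ U.erase v, Z u ≠ 0 := Finset.prod_ne_zero_iff.2 hZ'
  have hv0 := hZ v hv
  have h2 : ph y π U Z κ / ph y π (U.erase v) Z κ =
      1 + nH y π U v Z κ / (Z v * pH y π (U.erase v) Z κ) := by
    rw [ph_eq y π U hZ, ph_eq y π _ hZ', pH_erase y π hv, ← Finset.mul_prod_erase U Z hv]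
    field_simp
  refine ⟨by rw [ph_eq y π _ hZ']; exact div_ne_zero hP hprod, h2, ?_⟩
  rw [h2, Complex.mem_slitPlane_iff]
  by_contra hcon
  rw [not_or, not_lt, not_not] at hcon
  obtain ⟨w, hw⟩ : ∃ w, w = 1 + nH y π U v Z κ / (Z v * pH y π (U.erase v) Z κ) := ⟨_, rfl⟩
  rw [← hw] at hcon
  refine hs (1 - w.re) (by linarith [hcon.1]) ?_
  have h3 : ((1 - w.re : ℝ) : ℂ) = 1 - w := by
    apply Complex.ext <;> simp [hcon.2]
  rw [region_upd y π hv, h3, hw]
  field_simp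
  ring

end Crest.Agent.R109
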