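import Crest.Agent.R109.Ball

/-! Row 109, local algorithm: the change of the mean potential in one round. -/

set_option autoImplicit false

open scoped ComplexConjugate ENNReal Pointwise
open MeasureTheory

namespace Crest.Agent.R109

variable {G X : Type*} [Group G] [DecidableEq G] [MulAction G X] [DecidableEq X]
  [MeasurableSpace X] {S : Finset G} {μ : Measure X} {x : X → X → ℂ} {w : X → ℝ} {r : ℕ}

variable {K z small err γ₁ ε' C₀ : ℝ} {N : ℕ} {Ψ : (X → St r) → Finset X → ℝ}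

theorem round_union_dead (hP : Pot S x w K z small err γ₁ ε' C₀ N Ψ) (σ : X → St r)
    (A D : Finset X) (hD : ∀ u ∈ D, σ u = St.dead) : Ψ σ (A ∪ D) = Ψ σ A := by
  induction D using Finset.induction_on with
  | empty => simp
  | insert d D hd ih =>
    have ih' := ih fun u hu => hD u (Finset.mem_insert_of_mem hu)
    by_cases h : d ∈ A ∪ D
    · rw [Finset.union_insert, Finset.insert_eq_of_mem h, ih']
    · rw [Finset.union_insert, ← hP.dead σ _ d (hD d (Finset.mem_insert_self _ _)),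
        Finset.erase_insert h, ih']

theorem round_mg_congr (hP : Pot S x w K z small err γ₁ ε' C₀ N Ψ) {σ σ' : X → St r}
    {U : Finset X} (h : ∀ u ∈ U, σ u = σ' u) (v : X) : mg Ψ σ U v = mg Ψ σ' U v := by
  unfold mg
  rw [hP.congr σ σ' U h, hP.congr σ σ' (U.erase v) fun u hu => h u (Finset.mem_of_mem_erase hu)]

theorem round_mg_dead (hP : Pot S x w K z small err γ₁ ε' C₀ N Ψ) {σ : X → St r} (U : Finset X)
    {v : X} (h : σ v = St.dead) : mg Ψ σ U v = 0 := by
  unfold mg
  rw [hP.dead σ U v h, sub_self]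

theorem round_mg_erase (hP : Pot S x w K z small err γ₁ ε' C₀ N Ψ) {σ : X → St r} (U : Finset X)
    {a : X} (h : σ a = St.dead) (v : X) : mg Ψ σ (U.erase a) v = mg Ψ σ U v := by
  unfold mg
  rw [Finset.erase_right_comm, hP.dead σ U a h, hP.dead σ _ a h]

/-- Dead vertices can be removed. -/
theorem Pot.filter (hP : Pot S x w K z small err γ₁ ε' C₀ N Ψ) (σ : X → St r) (U : Finset X)
    (p : X → Prop) [DecidablePred p] :
    Ψ σ (U.filter p) = Ψ (fun u => if p u then σ u else St.dead) U := by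
  rw [hP.congr σ (fun u => if p u then σ u else St.dead) (U.filter p)
    (fun u hu => by simp [(Finset.mem_filter.1 hu).2])]
  conv_rhs => rw [← Finset.filter_union_filter_not_eq p U]
  exact (round_union_dead hP _ _ _ fun u hu => by simp [(Finset.mem_filter.1 hu).2]).symm

/-- Telescoping along a marker that is injective on the live points (induction on `V`, removing a
dead point, or a live point of maximal marker). -/
theorem Pot.telescope (hP : Pot S x w K z small err γ₁ ε' C₀ N Ψ) (σ : X → St r) (χ : X → ℕ)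
    (V : Finset X)
    (hχ : ∀ u ∈ V, ∀ u' ∈ V, σ u ≠ St.dead → σ u' ≠ St.dead → χ u = χ u' → u = u') :
    ∑ t ∈ V, mg Ψ σ (V.filter fun u => χ u ≤ χ t) t = Ψ σ V := by
  induction V using Finset.induction_on_max_value χ with
  | empty => simp [hP.empty]
  | insert a s ha hmax ih =>
    have ih' := ih fun u hu u' hu' =>
      hχ u (Finset.mem_insert_of_mem hu) u' (Finset.mem_insert_of_mem hu')
    rw [Finset.sum_insert ha]
    have h1 : (insert a s).filter (fun u => χ u ≤ χ a) = insert a s :=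
      Finset.filter_true_of_mem fun u hu => by
        rcases Finset.mem_insert.1 hu with rfl | hu
        · exact le_rfl
        · exact hmax u hu
    have h2 : ∀ t ∈ s, mg Ψ σ ((insert a s).filter fun u => χ u ≤ χ t) t =
        mg Ψ σ (s.filter fun u => χ u ≤ χ t) t := by
      intro t ht
      by_cases hta : σ a = St.dead
      · rw [← round_mg_erase hP _ hta, ← Finset.filter_erase, Finset.erase_insert ha]
      by_cases htd : σ t = St.dead
      · rw [round_mg_dead hP _ htd, round_mg_dead hP _ htd]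
      have h3 : ¬ χ a ≤ χ t := fun h => ha (by
        rw [hχ a (Finset.mem_insert_self _ _) t (Finset.mem_insert_of_mem ht) hta htd
          (le_antisymm h (hmax t ht))]
        exact ht)
      rw [Finset.filter_insert, if_neg h3]
    rw [h1, Finset.sum_congr rfl h2, ih', mg, Finset.erase_insert ha, sub_add_cancel]

theorem Pot.ge_neg (hP : Pot S x w K z small err γ₁ ε' C₀ N Ψ) {σ : X → St r} {U : Finset X}
    (hA : Adm S w K σ U) : -(err * ∑ u ∈ U, w u) ≤ Ψ σ U := by
  induction U using Finset.induction_on with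
  | empty => simp [hP.empty]
  | insert a s ha ih =>
    have h1 := hP.nonneg σ _ a hA (Finset.mem_insert_self _ _)
    obtain ⟨⟨t, R, hR⟩, h2⟩ := hA
    have h3 := ih ⟨⟨t, R, (Finset.subset_insert _ _).trans hR⟩, h2⟩
    rw [mg, Finset.erase_insert ha] at h1
    rw [Finset.sum_insert ha]
    linarith

/-- A general measurability statement (`Pot.filter`, `Pot.meas`; erasing `t` is filtering by
`u ≠ t`). -/
theorem Pot.measurable_mg (h : LS S μ x w) (hP : Pot S x w K z small err γ₁ ε' C₀ N Ψ)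
    (τ : X → X → St r) (hτ : ∀ g : G, Measurable fun t => τ t (g • t)) (R : ℕ)
    (p : X → X → Prop) [∀ t, DecidablePred (p t)] (hp : ∀ g : G, MeasurableSet {t | p t (g • t)}) :
    Measurable fun t => mg Ψ (τ t) ((B S R t).filter (p t)) t / w t := by
  have h1 := hP.meas (fun t u => if p t u then τ t u else St.dead) R fun g =>
    Measurable.ite (hp g) (hτ g) measurable_const
  have h2 := hP.meas (fun t u => if (p t u ∧ u ≠ t) then τ t u else St.dead) R fun g =>
    Measurable.ite ((hp g).inter (h.fix g).compl) (hτ g) measurable_const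
  convert h1.sub h2 using 2 with t
  rw [Pi.sub_apply, mg, sub_div, ← hP.filter, ← hP.filter]
  congr 3
  ext u
  simp only [Finset.mem_erase, Finset.mem_filter]
  tauto

theorem Pot.dens_measurable (h : LS S μ x w) (hP : Pot S x w K z small err γ₁ ε' C₀ N Ψ)
    {χ : X → ℕ} (hχ : Measurable χ) {σ : X → St r} (hσ : Measurable σ) :
    Measurable (dens Ψ S w N χ σ) := by
  exact hP.measurable_mg h (fun _ => σ) (fun g => hσ.comp (h.meas g)) N
    (fun t u => χ u ≤ χ t) fun g => measurableSet_le (hχ.comp (h.meas g)) hχ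

theorem Pot.dens_bound (h : LS S μ x w) (hP : Pot S x w K z small err γ₁ ε' C₀ N Ψ) (χ : X → ℕ)
    {σ : X → St r} (hσ : ∀ u, σ u ≠ St.dead → Kg S w K u) (t : X) :
    |dens Ψ S w N χ σ t| ≤ C₀ ∧ -err ≤ dens Ψ S w N χ σ t := by
  have hA : Adm S w K σ ((B S N t).filter fun u => χ u ≤ χ t) :=
    ⟨⟨t, N, Finset.filter_subset _ _⟩, hσ⟩
  have ht : t ∈ (B S N t).filter fun u => χ u ≤ χ t :=
    Finset.mem_filter.2 ⟨h.self_mem N t, le_rfl⟩
  have hw := h.wpos t
  constructor
  · rw [dens, abs_div, abs_of_pos hw, div_le_iff₀ hw]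
    exact hP.bound σ _ t hA ht
  · rw [dens, le_div_iff₀ hw, neg_mul]
    exact hP.nonneg σ _ t hA ht

theorem round_dens_integrable [IsProbabilityMeasure μ] (h : LS S μ x w)
    (hP : Pot S x w K z small err γ₁ ε' C₀ N Ψ) {χ : X → ℕ} (hχ : Measurable χ) {σ : X → St r}
    (hσ : Measurable σ) (hK : ∀ u, σ u ≠ St.dead → Kg S w K u) :
    Integrable (dens Ψ S w N χ σ) μ :=
  Integrable.of_bound (hP.dens_measurable h hχ hσ).aestronglyMeasurable C₀
    (Filter.Eventually.of_forall fun t => (hP.dens_bound h χ hK t).1)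

/-- telescoping and locality on the ball of radius `2 N` -/
theorem round_local (h : LS S μ x w) (hP : Pot S x w K z small err γ₁ ε' C₀ N Ψ) {χ : X → ℕ}
    {L₀ : Set X} (hM : Mark S (4 * N) χ L₀) (hK : ∀ u ∈ L₀, Kg S w K u) {σ : X → St r}
    (hL : ∀ u, σ u ≠ St.dead → u ∈ L₀) (v : X) :
    ∑ t ∈ B S (2 * N) v,
      mg Ψ σ (((B S (2 * N) v).filter fun u => χ u ≤ χ t).filter fun u => u ∈ B S N t) t =
        Ψ σ (B S (2 * N) v) := by
  rw [← hP.telescope σ χ (B S (2 * N) v) fun u hu u' hu' _ h2 h3 => hM u' (hL u' h2) u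
    (by rw [show 4 * N = 2 * N + 2 * N by ring]; exact B_add (h.B_symm hu') hu) h3]
  refine Finset.sum_congr rfl fun t ht => (hP.loc σ _ _ t
    ⟨⟨v, 2 * N, Finset.filter_subset _ _⟩, fun u hu => hK u (hL u hu)⟩ (Finset.filter_subset _ _)
    (Finset.mem_filter.2 ⟨Finset.mem_filter.2 ⟨ht, le_refl (χ t)⟩, h.self_mem N t⟩)
    (h.cover_ball _ _ t N fun u hu hB =>
      Finset.mem_filter.2 ⟨(Finset.mem_filter.1 hu).1, hB⟩)).symm

theorem round_key (h : LS S μ x w) (hP : Pot S x w K z small err γ₁ ε' C₀ N Ψ) {χ : X → ℕ}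
    {L₀ : Set X} (hM : Mark S (4 * N) χ L₀) (hK : ∀ u ∈ L₀, Kg S w K u) {σ σ' : X → St r}
    (hL : ∀ u, σ u ≠ St.dead → u ∈ L₀) (hL' : ∀ u, σ' u ≠ St.dead → u ∈ L₀) {v : X}
    (hv : ∀ u ∈ B S (2 * N) v, u ≠ v → σ u = σ' u) :
    ∑ t ∈ B S N v, (mg Ψ σ' ((B S N t).filter fun u => χ u ≤ χ t) t -
      mg Ψ σ ((B S N t).filter fun u => χ u ≤ χ t) t) =
        mg Ψ σ' (B S N v) v - mg Ψ σ (B S N v) v := by
  have hsub : B S N v ⊆ B S (2 * N) v := h.B_mono (by omega) v
  have hloc : ∀ ρ : X → St r, (∀ u, ρ u ≠ St.dead → u ∈ L₀) →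
      mg Ψ ρ (B S (2 * N) v) v = mg Ψ ρ (B S N v) v := fun ρ hρ =>
    hP.loc ρ _ _ v ⟨⟨v, 2 * N, Finset.Subset.refl _⟩, fun u hu => hK u (hρ u hu)⟩ hsub (h.self_mem N v)
      (h.cover_ball _ _ v N fun u _ hB => hB)
  rw [← hloc σ hL, ← hloc σ' hL', mg, mg, hP.congr σ σ' ((B S (2 * N) v).erase v)
    (fun u hu => hv u (Finset.mem_erase.1 hu).2 (Finset.mem_erase.1 hu).1), sub_sub_sub_cancel_right,
    ← round_local h hP hM hK hL v, ← round_local h hP hM hK hL' v, ← Finset.sum_sub_distrib]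
  symm
  rw [← Finset.sum_subset hsub]
  · refine Finset.sum_congr rfl fun t ht => ?_
    have : (((B S (2 * N) v).filter fun u => χ u ≤ χ t).filter fun u => u ∈ B S N t) =
        (B S N t).filter fun u => χ u ≤ χ t := by
      ext u
      simp only [Finset.mem_filter]
      refine ⟨fun hu => ⟨hu.2, hu.1.2⟩, fun hu => ⟨⟨?_, hu.2⟩, hu.1⟩⟩
      rw [two_mul]
      exact B_add ht hu.1
    rw [this]
  · intro t _ ht
    rw [sub_eq_zero]
    refine (round_mg_congr hP (fun u hu => ?_) t).symm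
    simp only [Finset.mem_filter] at hu
    refine hv u hu.1.1 ?_
    rintro rfl
    exact ht (h.B_symm hu.2)

/-- One round.  Let `D = {σ ≠ σ'} ⊆ L₀`; two points of `D` at distance `≤ 4 N` coincide.  Apply
`mtp_real` with `R = N` to `F t v = if v ∈ D then dens σ' t - dens σ t else 0`: the ball `B N t`
contains at most one point of `D`, and if it has none the densities agree (`congr`).  For `v ∈ D`
let `V = B (2N) v`.  For `t ∈ V`, `loc` (`cover_ball`) shows that
`mg σ (V ∩ {χ ≤ χ t}) t = mg σ (V ∩ B N t ∩ {χ ≤ χ t}) t`; if `t ∈ B N v` then `B N t ⊆ V`, and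
otherwise `v ∉ B N t` and the values for `σ` and `σ'` agree.  `telescope` on `V` gives
`Ψ σ' V - Ψ σ V = mg σ' V v - mg σ V v` (`σ = σ'` on `V.erase v`), and `loc` replaces `V` by
`B N v`. -/
theorem Pot.round [IsProbabilityMeasure μ] (h : LS S μ x w)
    (hP : Pot S x w K z small err γ₁ ε' C₀ N Ψ) {χ : X → ℕ} (hχ : Measurable χ) {L₀ : Set X}
    (hM : Mark S (4 * N) χ L₀) (hK : ∀ u ∈ L₀, Kg S w K u) {σ σ' : X → St r}
    (hσ : Measurable σ) (hσ' : Measurable σ') (hL : ∀ u, σ u ≠ St.dead → u ∈ L₀)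
    (hL' : ∀ u, σ' u ≠ St.dead → u ∈ L₀) (hD : ∀ u v, σ u ≠ σ' u → σ v ≠ σ' v → χ u = χ v) :
    Integrable (fun v => if σ v ≠ σ' v then
        (mg Ψ σ' (B S N v) v - mg Ψ σ (B S N v) v) / w v else 0) μ ∧
      ∫ t, dens Ψ S w N χ σ' t ∂μ - ∫ t, dens Ψ S w N χ σ t ∂μ =
        ∫ v, (if σ v ≠ σ' v then (mg Ψ σ' (B S N v) v - mg Ψ σ (B S N v) v) / w v else 0) ∂μ := by
  have hmem : ∀ v, σ v ≠ σ' v → v ∈ L₀ := fun v hv => by
    by_cases h1 : σ v = St.dead
    · exact hL' v fun h2 => hv (h1.trans h2.symm)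
    · exact hL v h1
  have huniq : ∀ v, σ v ≠ σ' v → ∀ u ∈ B S (2 * N) v, u ≠ v → σ u = σ' u := fun v hv u hu hne => by
    by_contra h1
    exact hne (hM v (hmem v hv) u (h.B_mono (by omega) v hu) (hD u v h1 hv))
  have hKσ : ∀ u, σ u ≠ St.dead → Kg S w K u := fun u hu => hK u (hL u hu)
  have hKσ' : ∀ u, σ' u ≠ St.dead → Kg S w K u := fun u hu => hK u (hL' u hu)
  have hms : MeasurableSet {v | σ v ≠ σ' v} := (measurableSet_eq_fun hσ hσ').compl
  obtain ⟨h1, h2⟩ := h.mtp_real N (C := C₀ + C₀)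
    (F := fun t v => if σ v ≠ σ' v then dens Ψ S w N χ σ' t - dens Ψ S w N χ σ t else 0)
    (fun g => Measurable.ite (h.meas g hms)
      ((hP.dens_measurable h hχ hσ').sub (hP.dens_measurable h hχ hσ)) measurable_const)
    (fun t s => by
      have a1 := (hP.dens_bound h χ hKσ t).1
      have a2 := (hP.dens_bound h χ hKσ' t).1
      split_ifs
      · exact (abs_sub _ _).trans (add_le_add a2 a1)
      · rw [abs_zero]
        linarith [abs_nonneg (dens Ψ S w N χ σ t)])
  have h3 : ∀ t, (∑ s ∈ B S N t,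
      if σ s ≠ σ' s then dens Ψ S w N χ σ' t - dens Ψ S w N χ σ t else 0) =
        dens Ψ S w N χ σ' t - dens Ψ S w N χ σ t := by
    intro t
    by_cases h4 : ∃ s ∈ B S N t, σ s ≠ σ' s
    · obtain ⟨s, hs, hs'⟩ := h4
      rw [Finset.sum_eq_single_of_mem s hs, if_pos hs']
      intro u hu hne
      refine if_neg (not_not.2 (huniq s hs' u ?_ hne))
      rw [two_mul]
      exact B_add (h.B_symm hs) hu
    · push Not at h4
      rw [Finset.sum_eq_zero fun s hs => if_neg (not_not.2 (h4 s hs)), dens, dens,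
        round_mg_congr hP (fun u hu => h4 u (Finset.mem_filter.1 hu).1), sub_self]
  have h4 : ∀ v, ∑ t ∈ B S N v,
      (if σ v ≠ σ' v then dens Ψ S w N χ σ' t - dens Ψ S w N χ σ t else 0) * (w t / w v) =
        if σ v ≠ σ' v then (mg Ψ σ' (B S N v) v - mg Ψ σ (B S N v) v) / w v else 0 := by
    intro v
    split_ifs with hv
    · rw [← round_key h hP hM hK hL hL' (huniq v hv), Finset.sum_div]
      refine Finset.sum_congr rfl fun t _ => ?_
      have := (h.wpos t).ne'
      rw [dens, dens]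
      field_simp
    · simp
  simp only [h3, h4] at h1 h2
  refine ⟨h1, ?_⟩
  rw [← h2, integral_sub (round_dens_integrable h hP hχ hσ' hKσ')
    (round_dens_integrable h hP hχ hσ hKσ)]

/-- A whole phase: apply `round` to `mixlt i` and `mixlt (i+1)`, `i < L`; for `χ v = i`,
`σ v ≠ σ' v`, `mixlt (i+1)` agrees with `update (mixlt i) v (σ' v)` on `B N v`. -/
theorem Pot.interp [IsProbabilityMeasure μ] (h : LS S μ x w)
    (hP : Pot S x w K z small err γ₁ ε' C₀ N Ψ) {χ : X → ℕ} (hχ : Measurable χ) {L : ℕ}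
    (hχL : ∀ t, χ t < L) {L₀ : Set X}
    (hM : Mark S (4 * N) χ L₀) (hK : ∀ u ∈ L₀, Kg S w K u) {σ σ' : X → St r}
    (hσ : Measurable σ) (hσ' : Measurable σ') (hL : ∀ u, σ u ≠ St.dead → u ∈ L₀)
    (hL' : ∀ u, σ' u ≠ St.dead → u ∈ L₀) {Γ : X → ℝ} (hΓ : Integrable Γ μ)
    (h0 : ∀ v, σ v = σ' v → 0 ≤ Γ v)
    (h1 : ∀ v, σ v ≠ σ' v →
      mg Ψ (Function.update (mixlt χ σ σ' (χ v)) v (σ' v)) (B S N v) v -
        mg Ψ (mixlt χ σ σ' (χ v)) (B S N v) v ≤ Γ v * w v) :
    ∫ t, dens Ψ S w N χ σ' t ∂μ ≤ ∫ t, dens Ψ S w N χ σ t ∂μ + ∫ t, Γ t ∂μ := by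
  have hmem : ∀ v, σ v ≠ σ' v → v ∈ L₀ := fun v hv => by
    by_cases h1 : σ v = St.dead
    · exact hL' v fun h2 => hv (h1.trans h2.symm)
    · exact hL v h1
  have hm : ∀ i, Measurable (mixlt χ σ σ' i) := fun i =>
    Measurable.ite (measurableSet_lt hχ measurable_const) hσ' hσ
  have hlive : ∀ i u, mixlt χ σ σ' i u ≠ St.dead → u ∈ L₀ := fun i u hu => by
    unfold mixlt at hu
    split_ifs at hu
    · exact hL' u hu
    · exact hL u hu
  have hdiff : ∀ i u, mixlt χ σ σ' i u ≠ mixlt χ σ σ' (i + 1) u → χ u = i := fun i u hu => by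
    by_contra h2
    apply hu
    unfold mixlt
    have : χ u < i ↔ χ u < i + 1 := by omega
    simp only [this]
  have hR := fun i => hP.round h hχ hM hK (hm i) (hm (i + 1)) (hlive i) (hlive (i + 1))
    fun u v hu hv => (hdiff i u hu).trans (hdiff i v hv).symm
  have e0 : mixlt χ σ σ' 0 = σ := funext fun u => if_neg (Nat.not_lt_zero _)
  have eL : mixlt χ σ σ' L = σ' := funext fun u => if_pos (hχL u)
  have h2 := Finset.sum_range_sub (fun i => ∫ t, dens Ψ S w N χ (mixlt χ σ σ' i) t ∂μ) L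
  simp only [e0, eL, fun i => (hR i).2] at h2
  rw [← integral_finsetSum _ fun i _ => (hR i).1] at h2
  rw [← sub_le_iff_le_add', ← h2]
  refine integral_mono (integrable_finsetSum _ fun i _ => (hR i).1) hΓ fun v => ?_
  beta_reduce
  rw [Finset.sum_eq_single_of_mem (χ v) (Finset.mem_range.2 (hχL v))
    fun i _ hi => if_neg fun h3 => hi (hdiff i v h3).symm]
  have a1 : mixlt χ σ σ' (χ v) v = σ v := if_neg (lt_irrefl _)
  have a2 : mixlt χ σ σ' (χ v + 1) v = σ' v := if_pos (Nat.lt_succ_self _)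
  rw [a1, a2]
  split_ifs with hv
  · rw [div_le_iff₀ (h.wpos v)]
    refine le_of_eq_of_le ?_ (h1 v hv)
    congr 1
    refine round_mg_congr hP (fun u hu => ?_) v
    by_cases huv : u = v
    · rw [huv, Function.update_self, a2]
    · rw [Function.update_of_ne huv]
      by_contra h3
      exact huv (hM v (hmem v hv) u (h.B_mono (by omega) v hu) (hdiff _ u (Ne.symm h3)))
  · exact h0 v (not_not.1 hv)

end Crest.Agent.R109
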