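import Crest.Agent.R109.Gel

/-! Row 109, singular corner: a central state from the Hahn-Banach theorem. -/

set_option autoImplicit false

open scoped ComplexOrder InnerProductSpace ComplexConjugate
open Filter Topology MeasureTheory

namespace Crest.Agent.R109

variable {M H X : Type*} [CStarAlgebra M] [PartialOrder M] [StarOrderedRing M]
  [NormedAddCommGroup H] [InnerProductSpace ℂ H] [CompleteSpace H]
  [TopologicalSpace X] [CompactSpace X] [T2Space X]

/-- The vector functional of a finite set. -/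
noncomputable def WSt.vf (W : WSt M H) (F : Finset H) (y : M) : ℝ :=
  ∑ ξ ∈ F, (⟪ξ, W.ρ y ξ⟫_ℂ).re

omit [PartialOrder M] [StarOrderedRing M] in
theorem sing1_vf_comb (W : WSt M H) (F : Finset H) (a c : ℝ) (y z : M) :
    W.vf F (a • y + c • z) = a * W.vf F y + c * W.vf F z := by
  simp only [WSt.vf, Finset.mul_sum, ← Finset.sum_add_distrib]
  refine Finset.sum_congr rfl fun ξ _ => ?_
  rw [← Complex.coe_smul, ← Complex.coe_smul, map_add, map_smul, map_smul]
  simp

omit [PartialOrder M] [StarOrderedRing M] [T2Space X] in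
theorem sing1_EP_comb (Γ : Gel M X) (P : DiscreteQuotient X) (a c : ℝ) (y z : M) :
    Γ.EP P (a • y + c • z) = a • Γ.EP P y + c • Γ.EP P z := by
  simp only [Gel.EP, ← Complex.coe_smul, pinch_add, pinch_smul]

theorem sing1_nonpos {u r : ℝ} (h : ∀ t : ℝ, 0 < t → t * r < u) : r ≤ 0 := by
  by_contra hr
  push Not at hr
  have h1 := h (|u| / r + 1) (by positivity)
  rw [add_mul, div_mul_cancel₀ _ hr.ne'] at h1
  linarith [le_abs_self u]

/-- Separation from the strictly negative elements. -/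
theorem sing1_sep {K : Set M} (hK : Convex ℝ K) (hne : K.Nonempty)
    (hd : ∀ y ∈ K, ∀ t : ℝ, 0 < t → ¬ y + star y ≤ algebraMap ℝ M (-t)) :
    ∃ ψ : M →ₚ[ℂ] ℂ, ψ 1 = 1 ∧ ∀ y ∈ K, 0 ≤ (ψ y).re := by
  let D : Set M := {y | ∃ t : ℝ, 0 < t ∧ y + star y ≤ algebraMap ℝ M (-t)}
  have hDc : Convex ℝ D := by
    rintro y ⟨t, ht, hy⟩ z ⟨s, hs, hz⟩ a c ha hc hac
    refine ⟨a * t + c * s, ?_, ?_⟩
    · rcases ha.eq_or_lt with rfl | ha'
      · rw [zero_add] at hac; subst hac; simpa using hs
      · have := mul_pos ha' ht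
        have := mul_nonneg hc hs.le
        linarith
    · have h1 := add_le_add (smul_le_smul_of_nonneg_left hy ha) (smul_le_smul_of_nonneg_left hz hc)
      convert h1 using 1
      · simp only [star_add, star_smul, star_trivial, smul_add]; abel
      · simp only [Algebra.algebraMap_eq_smul_one, smul_smul, ← add_smul]; congr 1; ring
  have hDo : IsOpen D := by
    rw [Metric.isOpen_iff]
    rintro y ⟨t, ht, hy⟩
    refine ⟨t / 4, by positivity, fun z hz => ⟨t / 2, by positivity, ?_⟩⟩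
    rw [mem_ball_iff_norm] at hz
    have hsa : IsSelfAdjoint ((z - y) + star (z - y)) := IsSelfAdjoint.add_star_self _
    have h1 : (z - y) + star (z - y) ≤ algebraMap ℝ M (t / 2) := by
      refine hsa.le_algebraMap_norm_self.trans ?_
      rw [Algebra.algebraMap_eq_smul_one, Algebra.algebraMap_eq_smul_one]
      refine smul_le_smul_of_nonneg_right ?_ zero_le_one
      have := norm_add_le (z - y) (star (z - y))
      rw [norm_star] at this
      linarith
    have h2 := add_le_add hy h1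
    convert h2 using 1
    · rw [star_sub]; abel
    · rw [← map_add]; congr 1; ring
  obtain ⟨f, u, hf1, hf2⟩ := RCLike.geometric_hahn_banach_open (𝕜 := ℂ) hDc hDo hK
    (Set.disjoint_left.2 fun y ⟨t, ht, hy⟩ hyK => hd y hyK t ht hy)
  simp only [RCLike.re_to_complex] at hf1 hf2
  -- `re f ≥ 0` on elements with nonnegative real part
  have key : ∀ a : M, 0 ≤ a + star a → 0 ≤ (f a).re := by
    intro a ha
    have := sing1_nonpos (u := u + (f 1).re) (r := -(f a).re) fun t ht => by
      have hm : (-1 : M) + (-t) • a ∈ D := ⟨2, two_pos, by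
        have h1 : (-t) • (a + star a) ≤ 0 := smul_nonpos_of_nonpos_of_nonneg (by linarith) ha
        have h2 : algebraMap ℝ M (-2) = -1 + -1 := by
          rw [show (-2 : ℝ) = -1 + -1 by norm_num, map_add, map_neg, map_one]
        have h3 : -1 + -t • a + star (-1 + -t • a) = (-1 + -1) + (-t) • (a + star a) := by
          simp only [star_add, star_smul, star_trivial, star_neg, star_one, smul_add]; abel
        rw [h2, h3]
        exact add_le_of_nonpos_right h1⟩
      have := hf1 _ hm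
      rw [map_add, map_neg, ← Complex.coe_smul, map_smul] at this
      simp at this
      linarith
    linarith
  have hpos : ∀ a : M, 0 ≤ a → 0 ≤ f a := by
    intro a ha
    have hsa : star a = a := ha.isSelfAdjoint
    have h1 := key a (by rw [hsa]; exact add_nonneg ha ha)
    have h2 := key (Complex.I • a) (by simp [hsa])
    have h3 := key (-Complex.I • a) (by simp [hsa])
    rw [map_smul] at h2 h3
    simp at h2 h3
    exact Complex.nonneg_iff.2 ⟨h1, by linarith⟩
  let φ : M →ₚ[ℂ] ℂ := PositiveLinearMap.mk₀ f.toLinearMap hpos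
  have hφ : ∀ y, φ y = f y := fun _ => rfl
  have hneg : ∀ t : ℝ, 0 < t → -(t * (f 1).re) < u := fun t ht => by
    have hm : (-t) • (1 : M) ∈ D := ⟨t + t, by positivity, by
      simp only [star_smul, star_trivial, star_one, Algebra.algebraMap_eq_smul_one, ← add_smul]
      exact le_of_eq (by congr 1; ring)⟩
    have := hf1 _ hm
    rw [← Complex.coe_smul, map_smul] at this
    simpa using this
  obtain ⟨h1re, h1im⟩ := Complex.nonneg_iff.1 (hpos 1 zero_le_one)
  have hu : 0 ≤ u := by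
    by_contra hu
    push Not at hu
    have := hneg (-u / ((f 1).re + 1)) (div_pos (by linarith) (by linarith))
    have h2 : -u / ((f 1).re + 1) * (f 1).re ≤ -u := by
      rw [div_mul_eq_mul_div, div_le_iff₀ (by linarith)]
      nlinarith
    linarith
  have h1 : 0 < (f 1).re := by
    refine h1re.lt_of_ne fun h0 => ?_
    obtain ⟨k, hk⟩ := hne
    have h2 := pos_norm_le φ k
    rw [hφ, hφ, ← h0, zero_mul, norm_le_zero_iff] at h2
    have h3 := hf2 k hk
    have h4 := hneg 1 one_pos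
    rw [h2] at h3
    rw [← h0] at h4
    simp at h3 h4
    linarith
  refine ⟨PositiveLinearMap.mk₀ ((((f 1).re⁻¹ : ℝ) : ℂ) • f.toLinearMap) fun a ha => ?_, ?_,
    fun y hy => ?_⟩
  · exact mul_nonneg (Complex.zero_le_real.2 (inv_nonneg.2 h1re)) (hpos a ha)
  · change (((f 1).re⁻¹ : ℝ) : ℂ) * f 1 = 1
    have : f 1 = ((f 1).re : ℂ) := Complex.ext rfl (by simp [← h1im])
    conv_lhs => rw [this]
    rw [Complex.ofReal_re, ← Complex.ofReal_mul, inv_mul_cancel₀ h1.ne', Complex.ofReal_one]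
  · change 0 ≤ ((((f 1).re⁻¹ : ℝ) : ℂ) * f y).re
    rw [Complex.re_ofReal_mul]
    exact mul_nonneg (inv_nonneg.2 h1re) (hu.trans (hf2 y hy))

omit [T2Space X] in
/-- Separate the convex set `{EP P b + (vf (1 - b) - κ) • 1 | 0 ≤ b ≤ 1}` from the open convex cone
`D = {y | ∃ t > 0, ℜ y ≤ -t}` (`RCLike.geometric_hahn_banach_open`); they are disjoint because
`0 ≤ EP P b ≤ s • 1` implies `‖EP P b‖ ≤ s` (if `s < 0` the algebra is trivial, which contradicts
the hypothesis at `b = 0`).  The functional `f` has `re f ≤ 0` on `D`, so `re f` vanishes on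
skew-adjoint elements, `f` is positive and `f 1 > 0`; normalise. -/
theorem exists_state_part (W : WSt M H) (Γ : Gel M X) (F : Finset H) {κ : ℝ} (hκ : 0 < κ)
    (P : DiscreteQuotient X)
    (h : ∀ b : M, 0 ≤ b → b ≤ 1 → κ ≤ ‖Γ.EP P b‖ + W.vf F (1 - b)) :
    ∃ ψ : M →ₚ[ℂ] ℂ, ψ 1 = 1 ∧ ∀ b : M, 0 ≤ b → b ≤ 1 →
      κ ≤ (ψ (Γ.EP P b)).re + W.vf F (1 - b) := by
  let K : Set M := {y | ∃ b : M, 0 ≤ b ∧ b ≤ 1 ∧ y = Γ.EP P b + (W.vf F (1 - b) - κ) • (1 : M)}
  have hK : Convex ℝ K := by
    rintro _ ⟨b, hb0, hb1, rfl⟩ _ ⟨b', hb0', hb1', rfl⟩ a c ha hc hac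
    refine ⟨a • b + c • b', add_nonneg (smul_nonneg ha hb0) (smul_nonneg hc hb0'), ?_, ?_⟩
    · have := add_le_add (smul_le_smul_of_nonneg_left hb1 ha) (smul_le_smul_of_nonneg_left hb1' hc)
      rwa [← add_smul, hac, one_smul] at this
    · have e : 1 - (a • b + c • b') = a • (1 - b) + c • (1 - b') := by
        rw [smul_sub, smul_sub, sub_add_sub_comm, ← add_smul, hac, one_smul]
      rw [e, sing1_vf_comb, sing1_EP_comb, smul_add, smul_add, smul_smul, smul_smul,
        add_add_add_comm, ← add_smul]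
      congr 2
      linear_combination (-κ) * hac
  obtain ⟨ψ, h1, h2⟩ := sing1_sep hK ⟨_, 0, le_rfl, zero_le_one, rfl⟩ (by
    rintro _ ⟨b, hb0, hb1, rfl⟩ t ht hy
    have hE : 0 ≤ Γ.EP P b := (Γ.ea_isPart P).pinch_nonneg hb0
    have hsa : star (Γ.EP P b) = Γ.EP P b := hE.isSelfAdjoint
    have h3 : Γ.EP P b ≤ algebraMap ℝ M (κ - W.vf F (1 - b) - t / 2) := by
      have h4 := smul_le_smul_of_nonneg_left hy (show (0 : ℝ) ≤ 1 / 2 by norm_num)
      rw [star_add, hsa, star_smul, star_one, star_trivial (W.vf F (1 - b) - κ), ← two_smul ℝ, smul_smul,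
        show (1 / 2 : ℝ) * 2 = 1 by norm_num, one_smul, ← le_sub_iff_add_le] at h4
      convert h4 using 1
      simp only [Algebra.algebraMap_eq_smul_one, smul_smul, ← sub_smul]
      congr 1; ring
    rcases le_or_gt 0 (κ - W.vf F (1 - b) - t / 2) with hs | hs
    · have := (CStarAlgebra.norm_le_iff_le_algebraMap _ hs hE).2 h3
      linarith [h b hb0 hb1]
    · have h5 : (0 : M) ≤ (κ - W.vf F (1 - b) - t / 2) • (1 : M) := by
        rw [← Algebra.algebraMap_eq_smul_one]; exact hE.trans h3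
      have h6 : (κ - W.vf F (1 - b) - t / 2) • (1 : M) ≤ 0 :=
        smul_nonpos_of_nonpos_of_nonneg hs.le zero_le_one
      have h7 : (1 : M) = 0 := (smul_eq_zero.1 (le_antisymm h6 h5)).resolve_left hs.ne
      have : Subsingleton M := subsingleton_of_zero_eq_one h7.symm
      have h8 := h 0 le_rfl zero_le_one
      rw [Subsingleton.elim (Γ.EP P 0) 0, Subsingleton.elim (1 - 0 : M) 0] at h8
      simp [WSt.vf] at h8
      linarith)
  refine ⟨ψ, h1, fun b hb0 hb1 => ?_⟩
  have h3 := h2 _ ⟨b, hb0, hb1, rfl⟩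
  rw [map_add, ← Complex.coe_smul, map_smul, h1] at h3
  simp at h3
  linarith

/-- `ψ y = lim ψ_P (EP P y)` along `fine X` (bounded, `pos_norm_le`); central by `EP_comm_e` and
`ind_dense`. -/
theorem exists_central_state (W : WSt M H) (Γ : Gel M X) (F : Finset H) {κ : ℝ} (hκ : 0 < κ)
    (h : ∀ (P : DiscreteQuotient X) (b : M), 0 ≤ b → b ≤ 1 → κ ≤ ‖Γ.EP P b‖ + W.vf F (1 - b)) :
    ∃ ψ : M →ₚ[ℂ] ℂ, ψ 1 = 1 ∧ Central (Set.range Γ.Φ) ψ ∧
      ∀ b : M, 0 ≤ b → b ≤ 1 → κ ≤ (ψ b).re + W.vf F (1 - b) := by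
  choose φ hφ1 hφ using fun P => exists_state_part W Γ F hκ P (h P)
  have hb : ∀ P y, ‖φ P (Γ.EP P y)‖ ≤ ‖y‖ := fun P y => by
    have := pos_norm_le (φ P) (Γ.EP P y)
    rw [hφ1, Complex.one_re, one_mul] at this
    exact this.trans ((Γ.ea_isPart P).norm_pinch_le y)
  have hlim : ∀ y, ∃ c : ℂ, Tendsto (fun P => φ P (Γ.EP P y))
      (fine X : Filter (DiscreteQuotient X)) (𝓝 c) := fun y => by
    obtain ⟨c, -, hc⟩ := (isCompact_closedBall (0 : ℂ) ‖y‖).ultrafilter_le_nhds'
      ((fine X).map fun P => φ P (Γ.EP P y))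
      (Filter.mem_map.2 (Filter.univ_mem' fun P => by simpa using hb P y))
    exact ⟨c, hc⟩
  choose L hL using hlim
  let Ll : M →ₗ[ℂ] ℂ :=
    { toFun := L
      map_add' := fun a b => tendsto_nhds_unique (hL (a + b)) (by
        simpa only [Gel.EP, pinch_add, map_add] using (hL a).add (hL b))
      map_smul' := fun c a => tendsto_nhds_unique (hL (c • a)) (by
        simpa only [Gel.EP, pinch_smul, map_smul, RingHom.id_apply] using (hL a).const_smul c) }
  let ψ : M →ₚ[ℂ] ℂ := PositiveLinearMap.mk₀ Ll fun a ha =>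
    ge_of_tendsto' (hL a) fun P => (φ P).map_nonneg ((Γ.ea_isPart P).pinch_nonneg ha)
  have hψ : ∀ y, ψ y = L y := fun _ => rfl
  have := Gel.totallyDisconnected W Γ
  refine ⟨ψ, ?_, ?_, fun b hb0 hb1 => ?_⟩
  · refine tendsto_nhds_unique (hL 1) (tendsto_const_nhds.congr fun P => ?_)
    rw [Gel.EP, (Γ.ea_isPart P).pinch_eq_self (fun i => by simp), hφ1]
  · rintro _ ⟨f, rfl⟩ y
    have hΦ : Continuous Γ.Φ := (AddMonoidHomClass.isometry_of_norm Γ.Φ Γ.norm_map).continuous
    refine ind_dense (fun f => ψ (Γ.Φ f * y) = ψ (y * Γ.Φ f)) ?_ (by simp) ?_ ?_ ?_ f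
    · exact isClosed_eq ((pos_continuous ψ).comp (hΦ.mul continuous_const))
        ((pos_continuous ψ).comp (continuous_const.mul hΦ))
    · intro f g hf hg
      simp only [map_add, add_mul, mul_add, hf, hg]
    · intro c f hf
      simp only [map_smul, smul_mul_assoc, mul_smul_comm, hf]
    · intro V hV
      refine tendsto_nhds_unique (hL _) ((hL _).congr' ?_)
      filter_upwards [fine_le (DiscreteQuotient.ofIsClopen hV)] with P hP
      exact congrArg (φ P) (Γ.EP_comm_e hV hP y).2.symm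
  · exact ge_of_tendsto' (((Complex.continuous_re.tendsto _).comp (hL b)).add_const _)
      fun P => hφ P b hb0 hb1

end Crest.Agent.R109
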