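import Crest.Agent.R109.Sing1

/-! Row 109, singular corner: the normal part of a central state. -/

set_option autoImplicit false

open scoped ComplexOrder InnerProductSpace ComplexConjugate
open Filter Topology MeasureTheory

namespace Crest.Agent.R109

variable {M H X : Type*} [CStarAlgebra M] [PartialOrder M] [StarOrderedRing M]
  [NormedAddCommGroup H] [InnerProductSpace ℂ H] [CompleteSpace H]
  [TopologicalSpace X] [CompactSpace X] [T2Space X]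

/-- Weak limits of bounded families along ultrafilters. -/
theorem sing2_weak_lim {K : Type*} [NormedAddCommGroup K] [InnerProductSpace ℂ K]
    [CompleteSpace K] {ι : Type*} (𝒰 : Ultrafilter ι) (v : ι → K) (C : ℝ) (hC : ∀ i, ‖v i‖ ≤ C) :
    ∃ ζ : K, ∀ η : K, Tendsto (fun i => ⟪η, v i⟫_ℂ) (𝒰 : Filter ι) (𝓝 ⟪η, ζ⟫_ℂ) := by
  let f : ι → WeakDual ℂ K := fun i => StrongDual.toWeakDual (innerSL ℂ (v i))
  have hK := WeakDual.isCompact_closedBall (𝕜 := ℂ) (E := K) 0 C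
  obtain ⟨g, -, hg⟩ := hK.ultrafilter_le_nhds' (𝒰.map f) (by
    rw [Ultrafilter.mem_map]
    refine Filter.univ_mem' fun i => ?_
    simpa [f] using hC i)
  refine ⟨(InnerProductSpace.toDual ℂ K).symm (WeakDual.toStrongDual g), fun η => ?_⟩
  have h1 : Tendsto (fun i => f i η) (𝒰 : Filter ι) (𝓝 (g η)) :=
    ((WeakDual.eval_continuous η).tendsto g).comp hg
  have h2 := (Complex.continuous_conj.tendsto _).comp h1
  have h3 : conj (g η) =
      ⟪η, (InnerProductSpace.toDual ℂ K).symm (WeakDual.toStrongDual g)⟫_ℂ := by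
    rw [← inner_conj_symm, InnerProductSpace.toDual_symm_apply]; rfl
  rw [← h3]
  refine h2.congr fun i => ?_
  change conj ⟪v i, η⟫_ℂ = _
  rw [inner_conj_symm]

omit [StarOrderedRing M] in
/-- The small positive contractions. -/
def sing2_U (W : WSt M H) (N : Finset H × ℕ) : Set M :=
  {y | 0 ≤ y ∧ y ≤ 1 ∧ W.Small N.1 (1 / ((N.2 : ℝ) + 1)) y}

theorem sing2_zero_mem (W : WSt M H) (N : Finset H × ℕ) : (0 : M) ∈ sing2_U W N := by
  refine ⟨le_rfl, zero_le_one, fun ξ _ => ?_⟩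
  rw [map_zero, zero_apply, norm_zero]
  positivity

omit [StarOrderedRing M] in
theorem sing2_U_anti (W : WSt M H) {N N' : Finset H × ℕ} (h : N ≤ N') :
    sing2_U W N' ⊆ sing2_U W N := by
  rintro y ⟨h0, h1, hs⟩
  refine ⟨h0, h1, fun ξ hξ => (hs ξ (h.1 hξ)).trans_le ?_⟩
  have : (N.2 : ℝ) ≤ N'.2 := by exact_mod_cast h.2
  gcongr

theorem sing2_norm_le_one {a : M} (h0 : 0 ≤ a) (h1 : a ≤ 1) : ‖a‖ ≤ 1 :=
  (CStarAlgebra.norm_le_one_iff_of_nonneg a h0).2 h1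

theorem sing2_w_mem (W : WSt M H) {N₀ N : Finset H × ℕ} (hN : N₀ ≤ N) {a y : M}
    (ha : a ∈ sing2_U W N) (hy : ‖y‖ ≤ 1) (hs : W.Small N₀.1 (1 / ((N₀.2 : ℝ) + 1) / 4) y)
    (hδ : 1 / ((N.2 : ℝ) + 1) ≤ 1 / ((N₀.2 : ℝ) + 1) / 4) :
    a + star (y * (1 - a)) * (y * (1 - a)) ∈ sing2_U W N₀ := by
  obtain ⟨h0, h1, hsa⟩ := ha
  have hr0 : (0 : M) ≤ 1 - a := sub_nonneg.2 h1
  have hr1 : (1 : M) - a ≤ 1 := sub_le_self _ h0
  have hrs : IsSelfAdjoint ((1 : M) - a) := IsSelfAdjoint.of_nonneg hr0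
  have hrn := sing2_norm_le_one hr0 hr1
  have han := sing2_norm_le_one h0 h1
  refine ⟨add_nonneg h0 (star_mul_self_nonneg _), ?_, fun ξ hξ => ?_⟩
  · have e1 : star (y * (1 - a)) * (y * (1 - a)) = star (1 - a) * (star y * y) * (1 - a) := by
      rw [star_mul]; simp only [mul_assoc]
    have e2 : star y * y ≤ 1 := by
      refine (CStarAlgebra.norm_le_one_iff_of_nonneg _ (star_mul_self_nonneg y)).1 ?_
      rw [CStarRing.norm_star_mul_self]
      exact mul_le_one₀ hy (norm_nonneg _) hy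
    have e3 : star (1 - a) * (star y * y) * (1 - a) ≤ star (1 - a) * 1 * (1 - a) :=
      star_left_conjugate_le_conjugate e2 _
    have e4 : (1 - a) * (1 - a) ≤ (1 : M) - a := by
      have hc : Commute a (1 - a) := (Commute.one_right a).sub_right (Commute.refl a)
      have := Commute.mul_nonneg h0 hr0 hc
      rw [← sub_nonneg]
      convert this using 1
      noncomm_ring
    rw [hrs.star_eq, mul_one] at e3
    calc a + star (y * (1 - a)) * (y * (1 - a)) ≤ a + (1 - a) := by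
          rw [e1, hrs.star_eq]; exact add_le_add_right (e3.trans e4) _
      _ = 1 := by abel
  · have t1 := hsa ξ (hN.1 hξ)
    have t2 := hs ξ hξ
    have t3 : ‖W.ρ (star (y * (1 - a)) * (y * (1 - a))) ξ‖ ≤ ‖W.ρ (y * (1 - a)) ξ‖ := by
      refine (W.norm_mul_apply_le _ _ ξ).trans ?_
      refine mul_le_of_le_one_left (norm_nonneg _) ?_
      rw [norm_star]
      exact (norm_mul_le _ _).trans (mul_le_one₀ hy (norm_nonneg _) hrn)
    have t4 : ‖W.ρ (y * (1 - a)) ξ‖ ≤ ‖W.ρ y ξ‖ + ‖W.ρ a ξ‖ := by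
      rw [mul_sub, mul_one, map_sub, sub_apply]
      refine (norm_sub_le _ _).trans (add_le_add_right ?_ _)
      exact (W.norm_mul_apply_le _ _ ξ).trans (mul_le_of_le_one_left (norm_nonneg _) hy)
    rw [map_add, add_apply]
    have t5 := norm_add_le (W.ρ a ξ) (W.ρ (star (y * (1 - a)) * (y * (1 - a))) ξ)
    have t6 : (0 : ℝ) < 1 / ((N₀.2 : ℝ) + 1) := by positivity
    linarith

omit [PartialOrder M] [StarOrderedRing M] in
theorem sing2_vf_le (W : WSt M H) (F : Finset H) {δ : ℝ} {a : M} (h : W.Small F δ a) :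
    W.vf F a ≤ (∑ ξ ∈ F, ‖ξ‖) * δ := by
  rw [Finset.sum_mul]
  refine Finset.sum_le_sum fun ξ hξ => ?_
  refine (Complex.re_le_norm _).trans ((norm_inner_le_norm _ _).trans ?_)
  exact mul_le_mul_of_nonneg_left (h ξ hξ).le (norm_nonneg _)

theorem sing2_norm_sq (ψ : M →ₚ[ℂ] ℂ) (ω : ψ.GNS) (a : M) :
    ‖ψ.gnsStarAlgHom a ω‖ ^ 2 = (⟪ω, ψ.gnsStarAlgHom (star a * a) ω⟫_ℂ).re := by
  rw [map_mul, map_star, mul_apply_eq_comp, ContinuousLinearMap.star_eq_adjoint,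
    ContinuousLinearMap.adjoint_inner_right, ← inner_self_eq_norm_sq (𝕜 := ℂ)]
  rfl

/-- A nonzero normal vector.  Let `π, Ω` be the GNS data of `ψ`.  Index set: pairs `N = (F', δ')`,
`δ' > 0`, directed by `⊆` and `≥`; `U N = {y | 0 ≤ y ≤ 1, Small F' δ' y}` (it contains `0`),
`β N = sup_{U N} re ψ` is antitone, `β = inf β N ≤ 1 - κ` (put `b = 1 - y`;
`vf F y ≤ ∑ ‖ξ‖ δ'`).  Choose `y N ∈ U N` with `re ψ (y N) ≥ β N - δ'`, `r N = 1 - y N` and let `ζ` be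
the weak limit of `π (r N) Ω` along an ultrafilter `≤ atTop` (Riesz representation of the bounded
functional `η ↦ lim ⟪η, π (r N) Ω⟫`).  Then `re ⟪Ω, ζ⟫ ≥ 1 - β ≥ κ`.  Given `ε` take `N₀` with
`β N₀ < β + ε²/2`.  If `‖y‖ ≤ 1` is small on `F₀` by `δ₀/4`, then for large `N` the element
`y N + r N y* y r N` lies in `U N₀` (it is `≤ y N + r N² ≤ 1`, and
`‖r y* y r ξ‖ ≤ ‖y ξ‖ + ‖y N ξ‖`), so `‖π y π (r N) Ω‖² ≤ β N₀ - β + δ'`; pass to the weak limit. -/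
theorem exists_normal_vector (W : WSt M H) (F : Finset H) {κ : ℝ} (hκ : 0 < κ) (ψ : M →ₚ[ℂ] ℂ)
    (h1 : ψ 1 = 1) (h : ∀ b : M, 0 ≤ b → b ≤ 1 → κ ≤ (ψ b).re + W.vf F (1 - b)) (Ω : ψ.GNS)
    (hΩ : ∀ y, ⟪Ω, ψ.gnsStarAlgHom y Ω⟫_ℂ = ψ y) :
    ∃ ζ : ψ.GNS, ⟪Ω, ζ⟫_ℂ ≠ 0 ∧ ∀ ε : ℝ, 0 < ε → ∃ (F' : Finset H) (δ : ℝ), 0 < δ ∧
      ∀ y : M, ‖y‖ ≤ 1 → W.Small F' δ y → ‖ψ.gnsStarAlgHom y ζ‖ < ε := by
  classical
  set π := ψ.gnsStarAlgHom with hπ
  have hψ1 : ∀ y : M, y ≤ 1 → (ψ y).re ≤ 1 := fun y hy => by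
    have := pos_re_mono ψ hy
    rwa [h1, Complex.one_re] at this
  let β : Finset H × ℕ → ℝ := fun N => sSup ((fun y => (ψ y).re) '' sing2_U W N)
  have hbdd : ∀ N, BddAbove ((fun y => (ψ y).re) '' sing2_U W N) := fun N =>
    ⟨1, by rintro _ ⟨y, hy, rfl⟩; exact hψ1 y hy.2.1⟩
  have hne : ∀ N, ((fun y => (ψ y).re) '' sing2_U W N).Nonempty := fun N =>
    ⟨_, 0, sing2_zero_mem W N, rfl⟩
  have hle : ∀ N, ∀ y ∈ sing2_U W N, (ψ y).re ≤ β N := fun N y hy =>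
    le_csSup (hbdd N) ⟨y, hy, rfl⟩
  have hβ0 : ∀ N, 0 ≤ β N := fun N => by
    have := hle N 0 (sing2_zero_mem W N)
    rwa [map_zero, Complex.zero_re] at this
  have hbb : BddBelow (Set.range β) := ⟨0, by rintro _ ⟨N, rfl⟩; exact hβ0 N⟩
  have hch : ∀ N : Finset H × ℕ, ∃ a ∈ sing2_U W N, β N - 1 / ((N.2 : ℝ) + 1) < (ψ a).re := by
    intro N
    have : β N - 1 / ((N.2 : ℝ) + 1) < β N := sub_lt_self _ (by positivity)
    obtain ⟨_, ⟨a, ha, rfl⟩, hlt⟩ := exists_lt_of_lt_csSup (hne N) this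
    exact ⟨a, ha, hlt⟩
  choose a haU ha using hch
  have hΩ1 : ‖Ω‖ ≤ 1 := by
    have h2 := sing2_norm_sq ψ Ω 1
    rw [hΩ, map_one, one_apply_eq_self, mul_one, star_one, h1, Complex.one_re] at h2
    nlinarith [norm_nonneg Ω]
  let 𝒰 : Ultrafilter (Finset H × ℕ) := Ultrafilter.of atTop
  have h𝒰 : (𝒰 : Filter (Finset H × ℕ)) ≤ atTop := Ultrafilter.of_le _
  have hδ0 : Tendsto (fun N : Finset H × ℕ => 1 / ((N.2 : ℝ) + 1)) (𝒰 : Filter _) (𝓝 0) := by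
    refine (tendsto_one_div_add_atTop_nhds_zero_nat.comp ?_).mono_left h𝒰
    exact tendsto_atTop_mono' _ (Eventually.of_forall fun _ => le_rfl)
      (tendsto_atTop.2 fun n => (eventually_ge_atTop ((∅ : Finset H), n)).mono fun N hN => hN.2)
  obtain ⟨ζ, hζ⟩ := sing2_weak_lim 𝒰 (fun N => π (1 - a N) Ω) 1 (fun N => by
    refine ((π (1 - a N)).le_opNorm Ω).trans (mul_le_one₀ ?_ (norm_nonneg _) hΩ1)
    refine (NonUnitalStarAlgHom.norm_apply_le π _).trans ?_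
    exact sing2_norm_le_one (sub_nonneg.2 (haU N).2.1) (sub_le_self _ (haU N).1))
  refine ⟨ζ, ?_, fun ε hε => ?_⟩
  · have hS : Tendsto (fun N : Finset H × ℕ => κ - (∑ ξ ∈ F, ‖ξ‖) * (1 / ((N.2 : ℝ) + 1)))
        (𝒰 : Filter _) (𝓝 (κ - (∑ ξ ∈ F, ‖ξ‖) * 0)) :=
      tendsto_const_nhds.sub (hδ0.const_mul _)
    have hre := (Complex.continuous_re.tendsto _).comp (hζ Ω)
    have hk : κ - (∑ ξ ∈ F, ‖ξ‖) * 0 ≤ (⟪Ω, ζ⟫_ℂ).re := by
      refine le_of_tendsto_of_tendsto hS hre ?_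
      filter_upwards [h𝒰 (eventually_ge_atTop (F, 0))] with N hN
      have t1 := h (1 - a N) (sub_nonneg.2 (haU N).2.1) (sub_le_self _ (haU N).1)
      rw [sub_sub_cancel] at t1
      have t2 := sing2_vf_le W F (δ := 1 / ((N.2 : ℝ) + 1)) (a := a N)
        (fun ξ hξ => (haU N).2.2 ξ (hN.1 hξ))
      simp only [Function.comp_apply, hΩ]
      linarith
    intro h0
    rw [h0, Complex.zero_re] at hk
    linarith
  · have hε8 : 0 < ε ^ 2 / 8 := by positivity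
    obtain ⟨N₀, hN₀⟩ := exists_lt_of_ciInf_lt (f := β) (lt_add_of_pos_right (iInf β) hε8)
    have hδ₀ : (0 : ℝ) < 1 / ((N₀.2 : ℝ) + 1) / 4 := by positivity
    refine ⟨N₀.1, 1 / ((N₀.2 : ℝ) + 1) / 4, hδ₀, fun y hy hs => ?_⟩
    have hev : ∀ᶠ N in (𝒰 : Filter (Finset H × ℕ)), ‖π y (π (1 - a N) Ω)‖ ≤ ε / 2 := by
      filter_upwards [h𝒰 (eventually_ge_atTop N₀), hδ0.eventually (ge_mem_nhds hδ₀),
        hδ0.eventually (ge_mem_nhds hε8)] with N hN hd1 hd2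
      have t1 := hle N₀ _ (sing2_w_mem W hN (haU N) hy hs hd1)
      rw [map_add, Complex.add_re] at t1
      have t2 := ha N
      have t3 : iInf β ≤ β N := ciInf_le hbb N
      have t4 := sing2_norm_sq ψ Ω (y * (1 - a N))
      rw [hΩ, map_mul, mul_apply_eq_comp] at t4
      refine (sq_le_sq₀ (norm_nonneg _) (half_pos hε).le).1 ?_
      rw [t4]
      nlinarith
    have hη := hζ (π (star y) (π y ζ))
    simp only [map_star, ContinuousLinearMap.star_eq_adjoint,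
      ContinuousLinearMap.adjoint_inner_left] at hη
    have hre := (Complex.continuous_re.tendsto _).comp hη
    have hk : (⟪π y ζ, π y ζ⟫_ℂ).re ≤ ‖π y ζ‖ * (ε / 2) := by
      refine le_of_tendsto hre ?_
      filter_upwards [hev] with N hN
      refine (Complex.re_le_norm _).trans ((norm_inner_le_norm _ _).trans ?_)
      exact mul_le_mul_of_nonneg_left hN (norm_nonneg _)
    have hk2 : (⟪π y ζ, π y ζ⟫_ℂ).re = ‖π y ζ‖ ^ 2 := inner_self_eq_norm_sq (𝕜 := ℂ) _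
    rw [hk2] at hk
    by_contra hcon
    push Not at hcon
    nlinarith

/-- The normal vectors. -/
def sing2_N (W : WSt M H) (ψ : M →ₚ[ℂ] ℂ) : Submodule ℂ ψ.GNS where
  carrier := {ζ | ∀ ε : ℝ, 0 < ε → ∃ (F' : Finset H) (δ : ℝ), 0 < δ ∧
      ∀ y : M, ‖y‖ ≤ 1 → W.Small F' δ y → ‖ψ.gnsStarAlgHom y ζ‖ < ε}
  zero_mem' := fun ε hε => ⟨∅, 1, one_pos, fun y _ _ => by rwa [map_zero, norm_zero]⟩
  add_mem' := by
    classical
    intro ζ ζ' h h' ε hε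
    obtain ⟨F, δ, hδ, hF⟩ := h (ε / 2) (half_pos hε)
    obtain ⟨F', δ', hδ', hF'⟩ := h' (ε / 2) (half_pos hε)
    refine ⟨F ∪ F', min δ δ', lt_min hδ hδ', fun y hy hs => ?_⟩
    have t1 := hF y hy fun ξ hξ => (hs ξ (Finset.mem_union_left _ hξ)).trans_le (min_le_left _ _)
    have t2 := hF' y hy fun ξ hξ =>
      (hs ξ (Finset.mem_union_right _ hξ)).trans_le (min_le_right _ _)
    rw [map_add]
    exact (norm_add_le _ _).trans_lt (by linarith)
  smul_mem' := by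
    intro c ζ h ε hε
    have hc : 0 < ‖c‖ + 1 := by positivity
    obtain ⟨F, δ, hδ, hF⟩ := h (ε / (‖c‖ + 1)) (by positivity)
    refine ⟨F, δ, hδ, fun y hy hs => ?_⟩
    have t1 := hF y hy hs
    rw [lt_div_iff₀ hc] at t1
    rw [map_smul, norm_smul]
    nlinarith [norm_nonneg (ψ.gnsStarAlgHom y ζ)]

theorem sing2_N_closed (W : WSt M H) (ψ : M →ₚ[ℂ] ℂ) : IsClosed (sing2_N W ψ : Set ψ.GNS) := by
  refine isClosed_of_closure_subset fun ζ hζ ε hε => ?_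
  obtain ⟨ζ', hζ', hd⟩ := Metric.mem_closure_iff.1 hζ (ε / 2) (half_pos hε)
  obtain ⟨F, δ, hδ, hF⟩ := hζ' (ε / 2) (half_pos hε)
  refine ⟨F, δ, hδ, fun y hy hs => ?_⟩
  have t1 := hF y hy hs
  have t2 : ‖ψ.gnsStarAlgHom y (ζ - ζ')‖ ≤ ‖ζ - ζ'‖ :=
    ((ψ.gnsStarAlgHom y).le_opNorm _).trans (mul_le_of_le_one_left (norm_nonneg _)
      ((NonUnitalStarAlgHom.norm_apply_le ψ.gnsStarAlgHom _).trans hy))
  rw [dist_eq_norm] at hd
  have t3 : ψ.gnsStarAlgHom y ζ = ψ.gnsStarAlgHom y (ζ - ζ') + ψ.gnsStarAlgHom y ζ' := by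
    rw [map_sub, sub_add_cancel]
  rw [t3]
  exact (norm_add_le _ _).trans_lt (by linarith)

theorem sing2_N_left (W : WSt M H) (ψ : M →ₚ[ℂ] ℂ) {a : M} (ha : ‖a‖ ≤ 1) {ζ : ψ.GNS}
    (h : ζ ∈ sing2_N W ψ) : ψ.gnsStarAlgHom a ζ ∈ sing2_N W ψ := by
  classical
  intro ε hε
  obtain ⟨F, δ, hδ, hF⟩ := h ε hε
  refine ⟨F.image (W.ρ a), δ, hδ, fun y hy hs => ?_⟩
  have t1 := hF (y * a) ((norm_mul_le _ _).trans (mul_le_one₀ hy (norm_nonneg _) ha))
    fun ξ hξ => by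
      rw [W.mul_apply]
      exact hs _ (Finset.mem_image_of_mem _ hξ)
  rwa [map_mul, mul_apply_eq_comp] at t1

theorem sing2_N_comm (W : WSt M H) (ψ : M →ₚ[ℂ] ℂ) (T : ψ.GNS →L[ℂ] ψ.GNS)
    (hT : ∀ y v, ψ.gnsStarAlgHom y (T v) = T (ψ.gnsStarAlgHom y v)) {ζ : ψ.GNS}
    (h : ζ ∈ sing2_N W ψ) : T ζ ∈ sing2_N W ψ := by
  intro ε hε
  have hc : 0 < ‖T‖ + 1 := by positivity
  obtain ⟨F, δ, hδ, hF⟩ := h (ε / (‖T‖ + 1)) (by positivity)
  refine ⟨F, δ, hδ, fun y hy hs => ?_⟩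
  have t1 := hF y hy hs
  rw [lt_div_iff₀ hc] at t1
  rw [hT]
  have := T.le_opNorm (ψ.gnsStarAlgHom y ζ)
  nlinarith [norm_nonneg (ψ.gnsStarAlgHom y ζ)]

theorem sing2_proj_comm {K : Type*} [NormedAddCommGroup K] [InnerProductSpace ℂ K]
    (N : Submodule ℂ K) [N.HasOrthogonalProjection] (T : K →L[ℂ] K)
    (hs : ∀ v w, ⟪T v, w⟫_ℂ = ⟪v, T w⟫_ℂ) (hN : ∀ v ∈ N, T v ∈ N) (v : K) :
    N.starProjection (T v) = T (N.starProjection v) := by
  refine Submodule.eq_starProjection_of_mem_of_inner_eq_zero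
    (hN _ (N.starProjection_apply_mem v)) fun w hw => ?_
  rw [← map_sub, hs]
  exact N.starProjection_inner_eq_zero v _ (hN w hw)

/-- Right multiplication by a central projection. -/
theorem sing2_exists_R (ψ : M →ₚ[ℂ] ℂ) {e : M} (he : IsStarProjection e)
    (hc : ∀ y, ψ (e * y) = ψ (y * e)) :
    ∃ R : ψ.GNS →L[ℂ] ψ.GNS, (∀ y v, ψ.gnsStarAlgHom y (R v) = R (ψ.gnsStarAlgHom y v)) ∧
      (∀ v w, ⟪R v, w⟫_ℂ = ⟪v, R w⟫_ℂ) ∧
      R (ψ.toPreGNS 1 : ψ.GNS) = ψ.gnsStarAlgHom e (ψ.toPreGNS 1 : ψ.GNS) := by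
  have hb : ∀ x : ψ.PreGNS, ‖ψ.toPreGNS (ψ.ofPreGNS x * e)‖ ≤ 1 * ‖x‖ := by
    intro x
    rw [one_mul, ψ.preGNS_norm_def, ψ.preGNS_norm_def]
    refine Real.sqrt_le_sqrt ?_
    rw [PositiveLinearMap.ofPreGNS_toPreGNS]
    set y := ψ.ofPreGNS x
    have e1 : ψ (star (y * e) * (y * e)) = ψ (star y * y * e) := by
      rw [star_mul, he.isSelfAdjoint.star_eq, mul_assoc, hc]
      simp only [mul_assoc, he.isIdempotentElem.eq]
    have e2 : ψ (star (y * (1 - e)) * (y * (1 - e))) = ψ (star y * y) - ψ (star y * y * e) := by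
      rw [star_mul, he.one_sub.isSelfAdjoint.star_eq]
      have : (1 - e) * star y * (y * (1 - e)) =
          star y * y * (1 - e) - e * (star y * y * (1 - e)) := by noncomm_ring
      rw [this, map_sub, hc, mul_assoc _ (1 - e) e, he.one_sub_mul_self, mul_zero, map_zero,
        sub_zero, mul_sub, mul_one, map_sub]
    have e3 := pos_re_nonneg ψ (star_mul_self_nonneg (y * (1 - e)))
    rw [e2, Complex.sub_re] at e3
    rw [e1]
    linarith
  let R₀ : ψ.PreGNS →L[ℂ] ψ.PreGNS :=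
    (ψ.toPreGNS.toLinearMap ∘ₗ LinearMap.mulRight ℂ e ∘ₗ ψ.ofPreGNS.toLinearMap).mkContinuous 1 hb
  have hR₀ : ∀ x, R₀ x = ψ.toPreGNS (ψ.ofPreGNS x * e) := fun _ => rfl
  have hπ : ∀ (y : M) (x : ψ.PreGNS), ψ.gnsStarAlgHom y (x : ψ.GNS) =
      (ψ.toPreGNS (y * ψ.ofPreGNS x) : ψ.GNS) := fun y x =>
    ψ.gnsNonUnitalStarAlgHom_apply_coe
  refine ⟨R₀.completion, fun y v => ?_, fun v w => ?_, ?_⟩
  · induction v using UniformSpace.Completion.induction_on with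
    | hp => apply isClosed_eq <;> fun_prop
    | ih x =>
      rw [ContinuousLinearMap.completion_apply_coe, hπ, hπ,
        ContinuousLinearMap.completion_apply_coe, hR₀, hR₀]
      simp only [PositiveLinearMap.ofPreGNS_toPreGNS, mul_assoc]
  · induction v, w using UniformSpace.Completion.induction_on₂ with
    | hp => apply isClosed_eq <;> fun_prop
    | ih x x' =>
      rw [ContinuousLinearMap.completion_apply_coe, ContinuousLinearMap.completion_apply_coe,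
        UniformSpace.Completion.inner_coe, UniformSpace.Completion.inner_coe, hR₀, hR₀,
        ψ.preGNS_inner_def, ψ.preGNS_inner_def]
      simp only [PositiveLinearMap.ofPreGNS_toPreGNS]
      rw [star_mul, he.isSelfAdjoint.star_eq, mul_assoc, hc, mul_assoc]
  · rw [ContinuousLinearMap.completion_apply_coe, hπ, hR₀]
    simp only [PositiveLinearMap.ofPreGNS_toPreGNS, mul_one, one_mul]

/-- The vector functional of a vector of the GNS space. -/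
noncomputable def sing2_vec (ψ : M →ₚ[ℂ] ℂ) (ω : ψ.GNS) : M →ₚ[ℂ] ℂ :=
  PositiveLinearMap.mk₀
    { toFun := fun y => ⟪ω, ψ.gnsStarAlgHom y ω⟫_ℂ
      map_add' := fun a b => by rw [map_add, add_apply, inner_add_right]
      map_smul' := fun c a => by
        rw [map_smul, smul_apply, inner_smul_right]; rfl }
    fun a ha => by
      obtain ⟨b, rfl⟩ := CStarAlgebra.nonneg_iff_eq_star_mul_self.1 ha
      change 0 ≤ ⟪ω, ψ.gnsStarAlgHom (star b * b) ω⟫_ℂ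
      rw [map_mul, map_star, mul_apply_eq_comp, ContinuousLinearMap.star_eq_adjoint,
        ContinuousLinearMap.adjoint_inner_right]
      rw [inner_self_eq_norm_sq_to_K]
      exact pow_nonneg (Complex.zero_le_real.2 (norm_nonneg (ψ.gnsStarAlgHom b ω))) 2

theorem sing2_vec_apply (ψ : M →ₚ[ℂ] ℂ) (ω : ψ.GNS) (y : M) :
    sing2_vec ψ ω y = ⟪ω, ψ.gnsStarAlgHom y ω⟫_ℂ := rfl

/-- The normal vectors form a closed subspace `𝒩`, invariant under `π M` and under the right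
multiplications `R_V : π y Ω ↦ π (y e V) Ω` (well defined contractions because `ψ` is central:
`ψ (e Y e) ≤ ψ Y`; self-adjoint; commuting with `π M`; build them by extension from the dense
range, e.g. `ContinuousLinearMap.extend` / `LinearMap.extendOfNorm` or on `PreGNS` with
`.completion`).  The projection `z` onto `𝒩` commutes with all of these.  `θ y = ⟪z Ω, π y z Ω⟫` is
normal, `θ 1 = ‖z Ω‖² ≠ 0` (as `⟪z Ω, ζ⟫ = ⟪Ω, ζ⟫ ≠ 0`), and `π (e V) z Ω = R_V z Ω` gives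
`θ (e V y) = θ (y e V)`; `ind_dense`. -/
theorem exists_normal_central (W : WSt M H) (Γ : Gel M X) (F : Finset H) {κ : ℝ} (hκ : 0 < κ)
    (ψ : M →ₚ[ℂ] ℂ) (h1 : ψ 1 = 1) (hc : Central (Set.range Γ.Φ) ψ)
    (h : ∀ b : M, 0 ≤ b → b ≤ 1 → κ ≤ (ψ b).re + W.vf F (1 - b)) :
    ∃ θ : M →ₚ[ℂ] ℂ, W.Normal θ ∧ Central (Set.range Γ.Φ) θ ∧ θ 1 ≠ 0 := by
  have := Gel.totallyDisconnected W Γ
  set Ω : ψ.GNS := (ψ.toPreGNS 1 : ψ.GNS) with hΩd
  have hΩ : ∀ y, ⟪Ω, ψ.gnsStarAlgHom y Ω⟫_ℂ = ψ y := fun y => by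
    have : ψ.gnsStarAlgHom y Ω = (ψ.toPreGNS (y * ψ.ofPreGNS (ψ.toPreGNS 1)) : ψ.GNS) :=
      ψ.gnsNonUnitalStarAlgHom_apply_coe
    rw [this, hΩd, UniformSpace.Completion.inner_coe, ψ.preGNS_inner_def]
    simp only [PositiveLinearMap.ofPreGNS_toPreGNS, star_one, one_mul, mul_one]
  obtain ⟨ζ, hζ0, hζ⟩ := exists_normal_vector W F hκ ψ h1 h Ω hΩ
  have hζN : ζ ∈ sing2_N W ψ := hζ
  have : CompleteSpace (sing2_N W ψ) := (sing2_N_closed W ψ).completeSpace_coe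
  set ω := (sing2_N W ψ).starProjection Ω with hω
  have hωN : ω ∈ sing2_N W ψ := (sing2_N W ψ).starProjection_apply_mem Ω
  refine ⟨sing2_vec ψ ω, fun ε hε => ?_, ?_, fun h0 => hζ0 ?_⟩
  · obtain ⟨F', δ, hδ, hF⟩ := hωN (min ε 1) (lt_min hε one_pos)
    refine ⟨F', δ, hδ, fun y hy hs => ?_⟩
    have t1 := hF y hy hs
    rw [sing2_vec_apply, ← sing2_norm_sq]
    have t2 := min_le_left ε 1
    have t3 := min_le_right ε 1
    nlinarith [norm_nonneg (ψ.gnsStarAlgHom y ω)]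
  · rintro _ ⟨f, rfl⟩ y
    have hΦ : Continuous Γ.Φ := map_continuous Γ.Φ
    refine ind_dense (fun f => sing2_vec ψ ω (Γ.Φ f * y) = sing2_vec ψ ω (y * Γ.Φ f)) ?_ ?_ ?_
      ?_ ?_ f
    · exact isClosed_eq ((pos_continuous _).comp (hΦ.mul continuous_const))
        ((pos_continuous _).comp (continuous_const.mul hΦ))
    · simp only [map_zero, zero_mul, mul_zero]
    · intro f g hf hg
      simp only [map_add, add_mul, mul_add, hf, hg]
    · intro c f hf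
      simp only [map_smul, smul_mul_assoc, mul_smul_comm, hf]
    · intro V _
      have he := Γ.e_proj V
      obtain ⟨R, hR1, hR2, hR3⟩ := sing2_exists_R ψ he (hc _ ⟨_, rfl⟩)
      have hsa : ∀ v w, ⟪ψ.gnsStarAlgHom (Γ.e V) v, w⟫_ℂ = ⟪v, ψ.gnsStarAlgHom (Γ.e V) w⟫_ℂ := by
        intro v w
        rw [← ContinuousLinearMap.adjoint_inner_right, ← ContinuousLinearMap.star_eq_adjoint,
          ← map_star, he.isSelfAdjoint.star_eq]
      have key : ψ.gnsStarAlgHom (Γ.e V) ω = R ω := by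
        rw [hω, ← sing2_proj_comm _ _ hsa (fun v hv => sing2_N_left W ψ he.norm_le hv),
          ← sing2_proj_comm _ _ hR2 (fun v hv => sing2_N_comm W ψ R hR1 hv), hR3]
      change sing2_vec ψ ω (Γ.e V * y) = sing2_vec ψ ω (y * Γ.e V)
      rw [sing2_vec_apply, sing2_vec_apply, map_mul, map_mul, mul_apply_eq_comp,
        mul_apply_eq_comp, ← hsa, key, hR2, hR1]
  · rw [sing2_vec_apply, map_one, one_apply_eq_self, inner_self_eq_zero] at h0
    have := (sing2_N W ψ).starProjection_inner_eq_zero Ω ζ hζN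
    rwa [← hω, h0, sub_zero] at this

/-- The dichotomy: take `κ = min η δ²` and use `norm_sq_le`. -/
theorem exists_thin (W : WSt M H) (Γ : Gel M X)
    (hs : ∀ θ : M →ₚ[ℂ] ℂ, W.Normal θ → Central (Set.range Γ.Φ) θ → θ 1 = 0) (F : Finset H)
    {δ η : ℝ} (hδ : 0 < δ) (hη : 0 < η) :
    ∃ (b : M) (P : DiscreteQuotient X), 0 ≤ b ∧ b ≤ 1 ∧ W.Small F δ (1 - b) ∧ ‖Γ.EP P b‖ ≤ η := by
  by_contra hcon
  push Not at hcon
  have hκ : 0 < min η (δ ^ 2) := lt_min hη (by positivity)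
  obtain ⟨ψ, h1, hc, hψ⟩ := exists_central_state W Γ F hκ fun P b h0 h1 => by
    have hr0 : (0 : M) ≤ 1 - b := sub_nonneg.2 h1
    have hr1 : (1 : M) - b ≤ 1 := sub_le_self _ h0
    have hterm : ∀ ξ ∈ F, 0 ≤ (⟪ξ, W.ρ (1 - b) ξ⟫_ℂ).re := fun ξ _ =>
      (sq_nonneg _).trans (W.norm_sq_le hr0 hr1 ξ)
    by_cases hsm : W.Small F δ (1 - b)
    · have t1 := hcon b P h0 h1 hsm
      have t2 : 0 ≤ W.vf F (1 - b) := Finset.sum_nonneg hterm
      have t3 := min_le_left η (δ ^ 2)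
      linarith
    · unfold WSt.Small at hsm
      push Not at hsm
      obtain ⟨ξ, hξ, hle⟩ := hsm
      have t1 : (⟪ξ, W.ρ (1 - b) ξ⟫_ℂ).re ≤ W.vf F (1 - b) :=
        Finset.single_le_sum (f := fun ξ => (⟪ξ, W.ρ (1 - b) ξ⟫_ℂ).re) hterm hξ
      have t2 := W.norm_sq_le hr0 hr1 ξ
      have t3 := min_le_right η (δ ^ 2)
      have t4 : δ ^ 2 ≤ ‖W.ρ (1 - b) ξ‖ ^ 2 := by gcongr
      have t5 := norm_nonneg (Γ.EP P b)
      linarith
  obtain ⟨θ, hn, hθc, h0⟩ := exists_normal_central W Γ F hκ ψ h1 hc hψ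
  exact h0 (hs θ hn hθc)

end Crest.Agent.R109
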