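import Mathlib

/-! Row 109: second moments of Hilbert space valued sums on a finite product space. -/

set_option autoImplicit false

open scoped ComplexOrder InnerProductSpace ComplexConjugate
open Filter Topology MeasureTheory

namespace Crest.Agent.R109

variable {E J Λ : Type*} [NormedAddCommGroup E] [InnerProductSpace ℂ E] [Fintype J]
  [DecidableEq J] [Fintype Λ]

/-- Resampling one coordinate: if `a` does not depend on coordinate `j` and `b` has mean zero in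
coordinate `j`, they are orthogonal (use `(ω, c) ↦ (update ω j c, ω j)`, an involution of
`(J → Λ) × Λ`, or `Equiv.piSplitAt`). -/
theorem sum_inner_eq_zero (j : J) (a b : (J → Λ) → E)
    (ha : ∀ ω c, a (Function.update ω j c) = a ω)
    (hb : ∀ ω, ∑ c, b (Function.update ω j c) = 0) : ∑ ω, ⟪a ω, b ω⟫_ℂ = 0 := by
  rcases isEmpty_or_nonempty Λ with hΛ | hΛ
  · have : IsEmpty (J → Λ) := ⟨fun ω => hΛ.false (ω j)⟩
    simp
  let σ : (J → Λ) × Λ → (J → Λ) × Λ := fun p => (Function.update p.1 j p.2, p.1 j)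
  have hσ : Function.Involutive σ := fun p => by simp [σ]
  have h1 : ∑ p : (J → Λ) × Λ, ⟪a (σ p).1, b (σ p).1⟫_ℂ = ∑ p : (J → Λ) × Λ, ⟪a p.1, b p.1⟫_ℂ :=
    Equiv.sum_comp hσ.toPerm (fun p => ⟪a p.1, b p.1⟫_ℂ)
  rw [Fintype.sum_prod_type, Fintype.sum_prod_type] at h1
  have h2 : ∑ ω : J → Λ, ∑ c : Λ, ⟪a (σ (ω, c)).1, b (σ (ω, c)).1⟫_ℂ = 0 :=
    Finset.sum_eq_zero fun ω _ => by
      simp only [σ, ha]
      rw [← inner_sum, hb, inner_zero_right]
  rw [h2] at h1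
  simp only [Finset.sum_const, Finset.card_univ, nsmul_eq_mul, ← Finset.mul_sum] at h1
  rcases mul_eq_zero.1 h1.symm with h | h
  · exact absurd (Nat.cast_eq_zero.1 h) Fintype.card_ne_zero
  · exact h

theorem ustat_self {Ω : Type*} [Fintype Ω] (a : Ω → E) :
    (∑ ω, ⟪a ω, a ω⟫_ℂ).re = ∑ ω, ‖a ω‖ ^ 2 := by
  rw [Complex.re_sum]
  exact Finset.sum_congr rfl fun ω _ => inner_self_eq_norm_sq (𝕜 := ℂ) (a ω)

theorem ustat_expand {Ω ι : Type*} [Fintype Ω] [Fintype ι] (v : ι → Ω → E) :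
    ∑ ω, ‖∑ i, v i ω‖ ^ 2 = ∑ i, ∑ k, (∑ ω, ⟪v i ω, v k ω⟫_ℂ).re := by
  rw [← ustat_self]
  simp only [← Complex.re_sum]
  congr 1
  calc ∑ ω, ⟪∑ i, v i ω, ∑ i, v i ω⟫_ℂ = ∑ ω, ∑ i, ∑ k, ⟪v i ω, v k ω⟫_ℂ :=
        Finset.sum_congr rfl fun ω _ => by
          rw [sum_inner]
          exact Finset.sum_congr rfl fun i _ => inner_sum _ _ _
    _ = ∑ i, ∑ k, ∑ ω, ⟪v i ω, v k ω⟫_ℂ := by
        rw [Finset.sum_comm]
        exact Finset.sum_congr rfl fun i _ => Finset.sum_comm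

theorem ustat_one (v : J → (J → Λ) → E)
    (hd : ∀ i j ω c, j ≠ i → v i (Function.update ω j c) = v i ω)
    (h0 : ∀ i ω, ∑ c, v i (Function.update ω i c) = 0) :
    ∑ ω, ‖∑ i, v i ω‖ ^ 2 = ∑ ω, ∑ i, ‖v i ω‖ ^ 2 := by
  rw [ustat_expand, Finset.sum_comm (s := Finset.univ) (t := Finset.univ)
    (f := fun ω i => ‖v i ω‖ ^ 2)]
  refine Finset.sum_congr rfl fun i _ => ?_
  rw [Finset.sum_eq_single i]
  · exact ustat_self _
  · intro k _ hk
    rw [sum_inner_eq_zero k (v i) (v k) (fun ω c => hd i k ω c hk) (h0 k), Complex.zero_re]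
  · simp

/-- Degenerate U-statistics: `v i i'` and `v k k'` are orthogonal unless `{i, i'} = {k, k'}`. -/
theorem ustat_two (v : J → J → (J → Λ) → E) (hii : ∀ i ω, v i i ω = 0)
    (hd : ∀ i i' j ω c, j ≠ i → j ≠ i' → v i i' (Function.update ω j c) = v i i' ω)
    (h1 : ∀ i i' ω, ∑ c, v i i' (Function.update ω i c) = 0)
    (h2 : ∀ i i' ω, ∑ c, v i i' (Function.update ω i' c) = 0) :
    ∑ ω, ‖∑ i, ∑ i', v i i' ω‖ ^ 2 ≤ 2 * ∑ ω, ∑ i, ∑ i', ‖v i i' ω‖ ^ 2 := by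
  have e1 : ∀ ω, ∑ i, ∑ i', v i i' ω = ∑ p : J × J, v p.1 p.2 ω := fun ω =>
    (Fintype.sum_prod_type' (fun i i' => v i i' ω)).symm
  have e2 : ∑ ω, ∑ i, ∑ i', ‖v i i' ω‖ ^ 2 = ∑ p : J × J, ∑ ω, ‖v p.1 p.2 ω‖ ^ 2 := by
    rw [Finset.sum_comm (s := (Finset.univ : Finset (J × J)))]
    exact Finset.sum_congr rfl fun ω _ =>
      (Fintype.sum_prod_type' (fun i i' => ‖v i i' ω‖ ^ 2)).symm
  simp only [e1]
  rw [e2, ustat_expand (fun (p : J × J) ω => v p.1 p.2 ω)]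
  set N : J × J → ℝ := fun p => ∑ ω, ‖v p.1 p.2 ω‖ ^ 2 with hN
  have hN0 : ∀ p, 0 ≤ N p := fun p => Finset.sum_nonneg fun _ _ => by positivity
  have key : ∀ p q : J × J, (∑ ω, ⟪v p.1 p.2 ω, v q.1 q.2 ω⟫_ℂ).re ≤
      (if q = p then N p else 0) + (if q = p.swap then (N p + N p.swap) / 2 else 0) := by
    intro p q
    have a0 : 0 ≤ (if q = p then N p else 0) := by split_ifs; exacts [hN0 _, le_rfl]
    have b0 : 0 ≤ (if q = p.swap then (N p + N p.swap) / 2 else 0) := by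
      split_ifs
      · linarith [hN0 p, hN0 p.swap]
      · exact le_rfl
    by_cases c1 : q = p
    · subst c1
      rw [ustat_self, if_pos rfl]
      linarith
    by_cases c2 : q = p.swap
    · subst c2
      rw [if_pos rfl]
      have : (∑ ω, ⟪v p.1 p.2 ω, v p.swap.1 p.swap.2 ω⟫_ℂ).re ≤ (N p + N p.swap) / 2 := by
        rw [Complex.re_sum, hN, ← Finset.sum_add_distrib, Finset.sum_div]
        refine Finset.sum_le_sum fun ω _ => ?_
        have h3 := (Complex.re_le_norm _).trans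
          (norm_inner_le_norm (𝕜 := ℂ) (v p.1 p.2 ω) (v p.swap.1 p.swap.2 ω))
        nlinarith [sq_nonneg (‖v p.1 p.2 ω‖ - ‖v p.swap.1 p.swap.2 ω‖)]
      linarith
    have : ∑ ω, ⟪v p.1 p.2 ω, v q.1 q.2 ω⟫_ℂ = 0 := by
      obtain ⟨i, i'⟩ := p
      obtain ⟨k, k'⟩ := q
      by_cases d1 : k ≠ i ∧ k ≠ i'
      · exact sum_inner_eq_zero k _ _ (fun ω c => hd i i' k ω c d1.1 d1.2) (h1 k k')
      by_cases d2 : k' ≠ i ∧ k' ≠ i'
      · exact sum_inner_eq_zero k' _ _ (fun ω c => hd i i' k' ω c d2.1 d2.2) (h2 k k')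
      have d3 : k = k' := by
        rw [not_and_or, not_not, not_not] at d1 d2
        rcases d1 with e | e <;> rcases d2 with e' | e'
        · rw [e, e']
        · exact absurd (by rw [e, e']) c1
        · exact absurd (by rw [e, e']; rfl) c2
        · rw [e, e']
      subst d3
      simp [hii]
    rw [this, Complex.zero_re]
    linarith
  refine (Finset.sum_le_sum fun p _ => Finset.sum_le_sum fun q _ => key p q).trans (le_of_eq ?_)
  simp only [Finset.sum_add_distrib, Finset.sum_ite_eq', Finset.mem_univ, if_true, ← Finset.sum_div]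
  have e3 : ∑ p : J × J, N p.swap = ∑ p, N p := Equiv.sum_comp (Equiv.prodComm J J) N
  rw [e3]
  ring

end Crest.Agent.R109
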