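import Crest.Agent.R109.Gel
import Crest.Agent.R109.UStat

/-! Row 109, singular corner: random colourings. -/

set_option autoImplicit false

open scoped ComplexOrder InnerProductSpace ComplexConjugate
open Filter Topology MeasureTheory

namespace Crest.Agent.R109

variable {M H X : Type*} [CStarAlgebra M] [PartialOrder M] [StarOrderedRing M]
  [NormedAddCommGroup H] [InnerProductSpace ℂ H] [CompleteSpace H]
  [TopologicalSpace X] [CompactSpace X] [T2Space X]

section aux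

variable {J : Type*} [Fintype J]

omit [PartialOrder M] [StarOrderedRing M] [CompactSpace X] [T2Space X] in
theorem sing3_comm (Γ : Gel M X) {x y : M} (hx : x ∈ Set.range Γ.Φ) (hy : y ∈ Set.range Γ.Φ) :
    x * y = y * x := by
  obtain ⟨f, rfl⟩ := hx
  obtain ⟨g, rfl⟩ := hy
  exact Γ.comm f g

omit [PartialOrder M] [StarOrderedRing M] in
theorem sing3_left {A : Set M} {e : J → M} (he : IsPart A e) (x : J → M) (I : J) :
    e I * ∑ I', e I' * x I' = e I * x I := by
  rw [Finset.mul_sum, Finset.sum_eq_single I]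
  · rw [← mul_assoc, (he.proj I).isIdempotentElem.eq]
  · intro I' _ h
    rw [← mul_assoc, he.orth I I' h.symm, zero_mul]
  · simp

omit [PartialOrder M] [StarOrderedRing M] [CompactSpace X] [T2Space X] in
/-- Gluing partitions along a partition. -/
theorem sing3_glue (Γ : Gel M X) {γ : Type*} [Fintype γ] {e : J → M}
    (he : IsPart (Set.range Γ.Φ) e) {q : J → γ → M} (hq : ∀ I, IsPart (Set.range Γ.Φ) (q I)) :
    IsPart (Set.range Γ.Φ) fun a => ∑ I, e I * q I a := by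
  have hmul : ∀ a a', (∑ I, e I * q I a) * ∑ I, e I * q I a' = ∑ I, e I * (q I a * q I a') := by
    intro a a'
    rw [Finset.sum_mul]
    refine Finset.sum_congr rfl fun I _ => ?_
    rw [sing3_comm Γ (he.mem I) ((hq I).mem a), mul_assoc, sing3_left he, ← mul_assoc,
      ← sing3_comm Γ (he.mem I) ((hq I).mem a), mul_assoc]
  refine ⟨fun a => ?_, fun a => ⟨?_, ?_⟩, fun a a' h => ?_, ?_⟩
  · choose f hf using he.mem
    choose g hg using fun I => (hq I).mem a
    exact ⟨∑ I, f I * g I, by simp only [map_sum, map_mul, hf, hg]⟩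
  · refine (hmul a a).trans (Finset.sum_congr rfl fun I _ => ?_)
    rw [((hq I).proj a).isIdempotentElem.eq]
  · rw [IsSelfAdjoint, star_sum]
    refine Finset.sum_congr rfl fun I _ => ?_
    rw [star_mul, ((hq I).proj a).isSelfAdjoint.star_eq, (he.proj I).isSelfAdjoint.star_eq,
      sing3_comm Γ (he.mem I) ((hq I).mem a)]
  · rw [hmul]
    refine Finset.sum_eq_zero fun I _ => ?_
    rw [(hq I).orth a a' h, mul_zero]
  · rw [Finset.sum_comm, ← he.sum]
    refine Finset.sum_congr rfl fun I _ => ?_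
    rw [← Finset.mul_sum, (hq I).sum, mul_one]

/-- The projections of a colouring of the atoms. -/
noncomputable def sing3Col {γ : Type*} [DecidableEq γ] (e : J → M) (ω : J → γ) (a : γ) : M :=
  ∑ I, (if ω I = a then (1 : ℂ) else 0) • e I

omit [PartialOrder M] [StarOrderedRing M] [CompactSpace X] [T2Space X] in
theorem sing3Col_isPart (Γ : Gel M X) {γ : Type*} [Fintype γ] [DecidableEq γ] {e : J → M}
    (he : IsPart (Set.range Γ.Φ) e) (ω : J → γ) : IsPart (Set.range Γ.Φ) (sing3Col e ω) := by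
  have h : ∀ I, IsPart (Set.range Γ.Φ) fun a => if ω I = a then (1 : M) else 0 := by
    intro I
    refine ⟨fun a => ?_, fun a => ?_, fun a a' h => ?_, by simp⟩
    · split_ifs
      · exact ⟨1, map_one _⟩
      · exact ⟨0, map_zero _⟩
    · split_ifs
      · exact IsStarProjection.one M
      · exact IsStarProjection.zero M
    · split_ifs with h1 h2
      · exact absurd (h1.symm.trans h2) h
      all_goals simp
  convert sing3_glue Γ he h using 2 with a
  refine Finset.sum_congr rfl fun I _ => ?_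
  split_ifs <;> simp

omit [PartialOrder M] [StarOrderedRing M] in
theorem sing3_pinch_col {γ : Type*} [Fintype γ] [DecidableEq γ] (e : J → M) (ω : J → γ) (z : M) :
    pinch (sing3Col e ω) z =
      ∑ I, ∑ I', (if ω I = ω I' then (1 : ℂ) else 0) • (e I * z * e I') := by
  simp only [pinch, sing3Col, Finset.sum_mul, Finset.mul_sum, smul_mul_assoc, mul_smul_comm,
    Finset.smul_sum, smul_smul]
  rw [Finset.sum_comm, Finset.sum_comm (f := fun I I' =>
    (if ω I = ω I' then (1 : ℂ) else 0) • (e I * z * e I'))]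
  refine Finset.sum_congr rfl fun I' _ => ?_
  rw [Finset.sum_comm]
  refine Finset.sum_congr rfl fun I _ => ?_
  rw [← Finset.sum_smul]
  congr 1
  rw [Finset.sum_eq_single (ω I)]
  · simp [eq_comm]
  · intro a _ h
    simp [h.symm]
  · simp

omit [PartialOrder M] [StarOrderedRing M] in
theorem sing3_blocks {A : Set M} {e : J → M} (he : IsPart A e) (z : M) :
    z = ∑ I, ∑ I', e I * z * e I' := by
  simp only [← Finset.mul_sum, ← Finset.sum_mul, he.sum, one_mul, mul_one]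

theorem sing3_sum_zero {S Λ : Type*} [Fintype S] [DecidableEq S] [Fintype Λ] (s : S)
    (f : (S → Λ) → ℂ) (h : ∀ c, ∑ x, f (Function.update c s x) = 0) : ∑ c, f c = 0 := by
  simpa using sum_inner_eq_zero s (fun _ => (1 : ℂ)) f (fun _ _ => rfl) h

omit [PartialOrder M] [StarOrderedRing M] in
theorem sing3_mean_col {S : Type*} [Fintype S] [DecidableEq S] {r : ℕ} (hr : 0 < r) {A : Set M}
    {e : J → M} (he : IsPart A e) (j : J → S) (a : Fin r) :
    ∑ c : S → Fin r, (sing3Col e (fun I => c (j I)) a - (r : ℂ)⁻¹ • 1) = 0 := by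
  have hr' : (r : ℂ) ≠ 0 := by exact_mod_cast hr.ne'
  simp only [sing3Col, ← he.sum, Finset.smul_sum, ← Finset.sum_sub_distrib, ← sub_smul]
  rw [Finset.sum_comm]
  refine Finset.sum_eq_zero fun I _ => ?_
  rw [← Finset.sum_smul, sing3_sum_zero (j I), zero_smul]
  intro c
  simp [Finset.sum_sub_distrib, hr']

omit [PartialOrder M] [StarOrderedRing M] in
theorem sing3_mean_pinch {S : Type*} [Fintype S] [DecidableEq S] {r : ℕ} (hr : 0 < r) {A : Set M}
    {e : J → M} (he : IsPart A e) {j : J → S} (hj : Function.Injective j) (z : M) :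
    ∑ c : S → Fin r, (pinch (sing3Col e fun I => c (j I)) z - (r : ℂ)⁻¹ • z -
      (1 - (r : ℂ)⁻¹) • pinch e z) = 0 := by
  classical
  have hr' : (r : ℂ) ≠ 0 := by exact_mod_cast hr.ne'
  have h1 : pinch e z = ∑ I, ∑ I', (if I = I' then (1 : ℂ) else 0) • (e I * z * e I') := by
    simp [pinch]
  have h2 : ∀ c : S → Fin r, pinch (sing3Col e fun I => c (j I)) z - (r : ℂ)⁻¹ • z -
      (1 - (r : ℂ)⁻¹) • pinch e z = ∑ I, ∑ I', ((if c (j I) = c (j I') then (1 : ℂ) else 0) -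
        (r : ℂ)⁻¹ - (1 - (r : ℂ)⁻¹) * if I = I' then (1 : ℂ) else 0) • (e I * z * e I') := by
    intro c
    rw [sing3_pinch_col, h1]
    conv_lhs => rw [congrArg ((r : ℂ)⁻¹ • ·) (sing3_blocks he z)]
    simp only [Finset.smul_sum, ← Finset.sum_sub_distrib, smul_smul, ← sub_smul]
  simp only [h2]
  rw [Finset.sum_comm]
  refine Finset.sum_eq_zero fun I _ => ?_
  rw [Finset.sum_comm]
  refine Finset.sum_eq_zero fun I' _ => ?_
  rw [← Finset.sum_smul]
  by_cases h : I = I'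
  · simp [h]
  · rw [sing3_sum_zero (j I), zero_smul]
    intro c
    simp [Finset.sum_sub_distrib, hr', h, Function.update_of_ne (hj.ne (Ne.symm h))]

omit [PartialOrder M] [StarOrderedRing M] in
theorem sing3_sum_sq (W : WSt M H) {A : Set M} {e : J → M} (he : IsPart A e) (ξ : H) :
    ∑ I, ‖W.ρ (e I) ξ‖ ^ 2 ≤ ‖ξ‖ ^ 2 := by
  have h1 : ∑ I, ‖W.ρ (e I) ξ‖ ^ 2 = ‖W.ρ 1 ξ‖ ^ 2 := by
    simp only [W.norm_sq]
    rw [star_one, one_mul, ← he.sum, map_sum, _root_.sum_apply, inner_sum,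
      Complex.re_sum]
    refine Finset.sum_congr rfl fun I _ => ?_
    rw [(he.proj I).isSelfAdjoint.star_eq, (he.proj I).isIdempotentElem.eq]
  rw [h1]
  refine pow_le_pow_left₀ (norm_nonneg _) ?_ 2
  refine ((W.ρ 1).le_opNorm ξ).trans (mul_le_of_le_one_left (norm_nonneg _) ?_)
  rw [W.norm_map]
  exact IsStarProjection.norm_le _ (IsStarProjection.one M)

omit [PartialOrder M] [StarOrderedRing M] in
theorem sing3_thin (W : WSt M H) {b e : M} (he : IsStarProjection e) {η : ℝ}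
    (hb : ‖b * e‖ ^ 2 ≤ η) (T : M) (ξ : H) :
    ‖W.ρ (b * (e * T)) ξ‖ ^ 2 ≤ η * ‖W.ρ (e * T) ξ‖ ^ 2 := by
  have h1 : b * (e * T) = b * e * (e * T) := by
    rw [mul_assoc b e, ← mul_assoc e e, he.isIdempotentElem.eq]
  rw [h1]
  refine (pow_le_pow_left₀ (norm_nonneg _) (W.norm_mul_apply_le _ _ ξ) 2).trans ?_
  rw [mul_pow]
  exact mul_le_mul_of_nonneg_right hb (sq_nonneg _)

omit [PartialOrder M] [StarOrderedRing M] in
theorem sing3_col_sq (W : WSt M H) {A : Set M} {e : J → M} (he : IsPart A e) {T : M} {C : ℝ}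
    (hT : ‖T‖ ≤ C) (e' : M) (ξ : H) :
    ∑ I, ‖W.ρ (e I * (T * e')) ξ‖ ^ 2 ≤ C ^ 2 * ‖W.ρ e' ξ‖ ^ 2 := by
  simp only [W.mul_apply (e _)]
  refine (sing3_sum_sq W he _).trans ?_
  rw [← mul_pow]
  exact pow_le_pow_left₀ (norm_nonneg _) ((W.norm_mul_apply_le _ _ ξ).trans
    (mul_le_mul_of_nonneg_right hT (norm_nonneg _))) 2

omit [PartialOrder M] [StarOrderedRing M] in
/-- The diagonal blocks. -/
theorem sing3_diag [DecidableEq J] (W : WSt M H) {A : Set M} {e : J → M} (he : IsPart A e)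
    {b : M} {η : ℝ} (hη : 0 ≤ η) (hb : ∀ I, ‖b * e I‖ ^ 2 ≤ η) {Λ : Type*} [Fintype Λ]
    (T : Λ → M) {C : ℝ} (hT : ∀ I l, ‖e I * T l * e I‖ ≤ C) (h0 : ∑ l, T l = 0) (ξ : H) :
    ∑ ω : J → Λ, ‖∑ I, W.ρ (b * (e I * T (ω I) * e I)) ξ‖ ^ 2 ≤
      ∑ _ω : J → Λ, C ^ 2 * η * ‖ξ‖ ^ 2 := by
  rw [ustat_one (fun I (ω : J → Λ) => W.ρ (b * (e I * T (ω I) * e I)) ξ)]
  · refine Finset.sum_le_sum fun ω _ => ?_
    refine le_trans ?_ (mul_le_mul_of_nonneg_left (sing3_sum_sq W he ξ) (by positivity))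
    rw [Finset.mul_sum]
    refine Finset.sum_le_sum fun I _ => ?_
    rw [mul_assoc (e I)]
    refine (sing3_thin W (he.proj I) (hb I) _ ξ).trans ?_
    rw [mul_comm (C ^ 2), mul_assoc η, ← mul_pow]
    refine mul_le_mul_of_nonneg_left (pow_le_pow_left₀ (norm_nonneg _) ?_ 2) hη
    have h1 : e I * (T (ω I) * e I) = e I * T (ω I) * e I * e I := by
      rw [mul_assoc _ (e I) (e I), (he.proj I).isIdempotentElem.eq, mul_assoc]
    rw [h1]
    exact (W.norm_mul_apply_le _ _ ξ).trans (mul_le_mul_of_nonneg_right (hT I _) (norm_nonneg _))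
  · intro i j ω c h
    rw [Function.update_of_ne h.symm]
  · intro i ω
    simp only [Function.update_self]
    rw [← _root_.sum_apply, ← map_sum, ← Finset.mul_sum, ← Finset.sum_mul,
      ← Finset.mul_sum, h0]
    simp

omit [PartialOrder M] [StarOrderedRing M] in
/-- The off-diagonal blocks. -/
theorem sing3_off [DecidableEq J] (W : WSt M H) {A : Set M} {e : J → M} (he : IsPart A e)
    {b : M} {η : ℝ} (hη : 0 ≤ η) (hb : ∀ I, ‖b * e I‖ ^ 2 ≤ η) {Λ : Type*} [Fintype Λ]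
    (T : Λ → Λ → M) (D : (J → Λ) → M) {C : ℝ} (hD : ∀ ω, ‖D ω‖ ≤ C)
    (hT : ∀ ω I I', e I * T (ω I) (ω I') * e I' = e I * D ω * e I')
    (h1 : ∀ l', ∑ l, T l l' = 0) (h2 : ∀ l, ∑ l', T l l' = 0) (ξ : H) :
    ∑ ω : J → Λ, ‖∑ I, ∑ I',
      if I = I' then 0 else W.ρ (b * (e I * T (ω I) (ω I') * e I')) ξ‖ ^ 2 ≤
      ∑ _ω : J → Λ, 2 * (C ^ 2 * η * ‖ξ‖ ^ 2) := by
  refine (ustat_two (fun I I' (ω : J → Λ) =>
    if I = I' then 0 else W.ρ (b * (e I * T (ω I) (ω I') * e I')) ξ) (by simp) ?_ ?_ ?_).trans ?_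
  · intro i i' j ω c h h'
    rw [Function.update_of_ne h.symm, Function.update_of_ne h'.symm]
  · intro i i' ω
    by_cases h : i = i'
    · simp [h]
    · simp only [if_neg h, Function.update_self, Function.update_of_ne (Ne.symm h)]
      rw [← _root_.sum_apply, ← map_sum, ← Finset.mul_sum, ← Finset.sum_mul,
        ← Finset.mul_sum, h1]
      simp
  · intro i i' ω
    by_cases h : i = i'
    · simp [h]
    · simp only [if_neg h, Function.update_self, Function.update_of_ne h]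
      rw [← _root_.sum_apply, ← map_sum, ← Finset.mul_sum, ← Finset.sum_mul,
        ← Finset.mul_sum, h2]
      simp
  · rw [Finset.mul_sum]
    refine Finset.sum_le_sum fun ω _ => mul_le_mul_of_nonneg_left ?_ (by norm_num)
    refine le_trans ?_ (mul_le_mul_of_nonneg_left (sing3_sum_sq W he ξ) (by positivity))
    rw [Finset.sum_comm, Finset.mul_sum]
    refine Finset.sum_le_sum fun I' _ => ?_
    rw [mul_comm (C ^ 2), mul_assoc η]
    refine le_trans ?_ (mul_le_mul_of_nonneg_left (sing3_col_sq W he (hD ω) (e I') ξ) hη)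
    rw [Finset.mul_sum]
    refine Finset.sum_le_sum fun I _ => ?_
    split_ifs
    · rw [norm_zero, zero_pow two_ne_zero]
      positivity
    · rw [hT, mul_assoc (e I)]
      exact sing3_thin W (he.proj I) (hb I) _ ξ

omit [InnerProductSpace ℂ H] [CompleteSpace H] in
theorem sing3_exists {Ω : Type*} [Fintype Ω] [Nonempty Ω] (F : Finset H) (f : Ω → H → ℝ) (C : ℝ)
    (h : ∀ ξ, ∑ ω, f ω ξ ≤ ∑ _ω : Ω, C * ‖ξ‖ ^ 2) :
    ∃ ω, ∑ ξ ∈ F, f ω ξ ≤ C * ∑ ξ ∈ F, ‖ξ‖ ^ 2 := by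
  have h1 : ∑ ω, ∑ ξ ∈ F, f ω ξ ≤ ∑ _ω : Ω, C * ∑ ξ ∈ F, ‖ξ‖ ^ 2 := by
    simp only [Finset.mul_sum]
    rw [Finset.sum_comm, Finset.sum_comm (s := Finset.univ)]
    exact Finset.sum_le_sum fun ξ _ => h ξ
  obtain ⟨ω, -, hω⟩ := Finset.exists_le_of_sum_le Finset.univ_nonempty h1
  exact ⟨ω, hω⟩

end aux

omit [T2Space X] in
/-- `‖b e‖² = ‖e b² e‖ ≤ ‖e b e‖ ≤ ‖EP b‖`. -/
theorem thin_block (Γ : Gel M X) {b : M} (h0 : 0 ≤ b) (h1 : b ≤ 1) {P : DiscreteQuotient X}
    {η : ℝ} (hη : ‖Γ.EP P b‖ ≤ η) (I : P) : ‖b * Γ.ea P I‖ ^ 2 ≤ η := by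
  have he := Γ.ea_isPart P
  have hs := (he.proj I).isSelfAdjoint.star_eq
  have hb : star b = b := (IsSelfAdjoint.of_nonneg h0).star_eq
  have h2 : b * b ≤ b := by
    have := Commute.mul_nonneg h0 (sub_nonneg.2 h1) ((Commute.one_right b).sub_right (Commute.refl b))
    rwa [mul_sub, mul_one, sub_nonneg] at this
  have h3 : star (b * Γ.ea P I) * (b * Γ.ea P I) ≤ Γ.EP P b := by
    refine le_trans ?_ (he.le_pinch h0 I)
    have := star_left_conjugate_le_conjugate h2 (Γ.ea P I)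
    rw [hs] at this
    rw [star_mul, hs, hb]
    simpa only [mul_assoc] using this
  rw [sq, ← CStarRing.norm_star_mul_self]
  exact (CStarAlgebra.norm_le_norm_of_nonneg_of_le (star_mul_self_nonneg _) h3).trans hη

omit [T2Space X] in
/-- Colour the atoms of `P` independently and uniformly: `ω : P → Fin r`, `p a = ∑_{ω I = a} ea I`,
`p a - 1/r = ∑_I (1[ω I = a] - 1/r) ea I`; `ustat_one`, `thin_block`, `∑_I ‖ea I ξ‖² ≤ ‖ξ‖²`; some
`ω` is at most the average. -/
theorem colour_two (W : WSt M H) (Γ : Gel M X) {b : M} (h0 : 0 ≤ b) (h1 : b ≤ 1)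
    {P : DiscreteQuotient X} {η : ℝ} (hη : ‖Γ.EP P b‖ ≤ η) {r : ℕ} (hr : 0 < r) (F : Finset H) :
    ∃ p : Fin r → M, IsPart (Set.range Γ.Φ) p ∧
      ∑ ξ ∈ F, ∑ a, ‖W.ρ (b * (p a - (r : ℂ)⁻¹ • 1)) ξ‖ ^ 2 ≤ r * η * ∑ ξ ∈ F, ‖ξ‖ ^ 2 := by
  have he := Γ.ea_isPart P
  have hη0 : 0 ≤ η := (norm_nonneg _).trans hη
  have hr' : (r : ℂ) ≠ 0 := by exact_mod_cast hr.ne'
  have hr1 : (1 : ℝ) ≤ r := by exact_mod_cast hr
  have : Nonempty (Fin r) := ⟨⟨0, hr⟩⟩
  obtain ⟨ω, hω⟩ := sing3_exists F (fun (ω : P → Fin r) ξ =>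
    ∑ a, ‖W.ρ (b * (sing3Col (Γ.ea P) ω a - (r : ℂ)⁻¹ • 1)) ξ‖ ^ 2) (r * η) fun ξ => by
      rw [Finset.sum_comm]
      have key : ∀ a : Fin r, ∑ ω : P → Fin r,
          ‖W.ρ (b * (sing3Col (Γ.ea P) ω a - (r : ℂ)⁻¹ • 1)) ξ‖ ^ 2 ≤
            ∑ _ω : P → Fin r, 1 ^ 2 * η * ‖ξ‖ ^ 2 := by
        intro a
        refine le_trans (le_of_eq ?_) (sing3_diag W he hη0 (thin_block Γ h0 h1 hη)
          (fun l : Fin r => ((if l = a then (1 : ℂ) else 0) - (r : ℂ)⁻¹) • (1 : M)) (C := 1)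
          (fun I l => ?_) ?_ ξ)
        · refine Finset.sum_congr rfl fun ω _ => ?_
          rw [← _root_.sum_apply, ← map_sum, ← Finset.mul_sum]
          simp only [mul_smul_comm, smul_mul_assoc, mul_one, fun I => (he.proj I).isIdempotentElem.eq]
          simp only [sub_smul, Finset.sum_sub_distrib, ← Finset.smul_sum, he.sum, sing3Col]
        · rw [mul_smul_comm, smul_mul_assoc, mul_one, (he.proj _).isIdempotentElem.eq, norm_smul]
          refine mul_le_one₀ ?_ (norm_nonneg _) (IsStarProjection.norm_le _ (he.proj I))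
          have h2 : (r : ℝ)⁻¹ ≤ 1 := inv_le_one_of_one_le₀ hr1
          have h3 : 0 ≤ (r : ℝ)⁻¹ := by positivity
          split_ifs
          · have : (1 : ℂ) - (r : ℂ)⁻¹ = ((1 - (r : ℝ)⁻¹ : ℝ) : ℂ) := by push_cast; rfl
            rw [this, Complex.norm_real, Real.norm_eq_abs, abs_le]
            constructor <;> linarith
          · simpa using h2
        · rw [← Finset.sum_smul]
          simp [Finset.sum_sub_distrib, hr']
      refine (Finset.sum_le_sum fun a _ => key a).trans (le_of_eq ?_)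
      rw [Finset.sum_comm]
      refine Finset.sum_congr rfl fun ω _ => ?_
      simp [mul_assoc]
  exact ⟨_, sing3Col_isPart Γ he ω, hω⟩

omit [T2Space X] in
/-- Let `Λ = Fin L × ((k : Fin L) → Q k → Fin r)`, `ω : P → Λ` uniform.  A point `t` in the atom
`I` of `P` gets the colour `c ω t = (ω I).2 k ((Q k).proj t)`, `k = (ω I).1`; for `l : Λ` let
`p l a = e {t | l.2 l.1 (proj t) = a}`, so the projections of `c ω` are `∑_I ea I * p (ω I) a`, and
`ea I * D * ea I' = ∑_a ea I * p (ω I) a * z * p (ω I') a * ea I'` for `D = pinch z`.  The mean over `l`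
of `p l a` is `1/r`, and the mean of `pinch (p l) z` is `z/r + (1 - 1/r) L⁻¹ ∑_k EP (Q k) z` (two atoms
of `Q k` get the same colour with probability `1/r`), where `EP (Q k) z` is block diagonal for `P`
(`EP_EP`).  Split `D - mean` into diagonal blocks (`ustat_one`, norms `≤ 4`) and off-diagonal blocks
`ea I (D - z/r) ea I'` (`ustat_two`; `∑_I ‖ea I T ea I' ξ‖² ≤ ‖T‖² ‖ea I' ξ‖²`); use `thin_block`:
the mean is at most `2 (16 + 2 * 16) η ‖ξ‖²`. -/
theorem colour_one (W : WSt M H) (Γ : Gel M X) {b : M} (h0 : 0 ≤ b) (h1 : b ≤ 1)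
    {P : DiscreteQuotient X} {η : ℝ} (hη : ‖Γ.EP P b‖ ≤ η) {r : ℕ} (hr : 0 < r) (F : Finset H)
    {L : ℕ} (hL : 0 < L) (Q : Fin L → DiscreteQuotient X) (hQ : ∀ k, Q k ≤ P) {z : M}
    (hz : ‖z‖ ≤ 2) :
    ∃ p : Fin r → M, IsPart (Set.range Γ.Φ) p ∧
      ∑ ξ ∈ F, ‖W.ρ (b * (pinch p z - (r : ℂ)⁻¹ • z -
        (1 - (r : ℂ)⁻¹) • (L : ℂ)⁻¹ • ∑ k, Γ.EP (Q k) z)) ξ‖ ^ 2 ≤ 100 * η * ∑ ξ ∈ F, ‖ξ‖ ^ 2 := by
  classical
  have he := Γ.ea_isPart P
  have hη0 : 0 ≤ η := (norm_nonneg _).trans hη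
  have hr' : (r : ℂ) ≠ 0 := by exact_mod_cast hr.ne'
  have hL' : (L : ℂ) ≠ 0 := by exact_mod_cast hL.ne'
  have hr1 : (1 : ℝ) ≤ r := by exact_mod_cast hr
  have hri : (r : ℝ)⁻¹ ≤ 1 := inv_le_one_of_one_le₀ hr1
  have hri0 : 0 ≤ (r : ℝ)⁻¹ := by positivity
  have : Nonempty (Fin r) := ⟨⟨0, hr⟩⟩
  have : Nonempty (Fin L) := ⟨⟨0, hL⟩⟩
  set e := Γ.ea P with hedef
  set y : M := (r : ℂ)⁻¹ • z with hy
  set G : M := (1 - (r : ℂ)⁻¹) • (L : ℂ)⁻¹ • ∑ k, Γ.EP (Q k) z with hG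
  let Λ := Fin L × ((Σ k, Q k) → Fin r)
  let q : Λ → Fin r → M := fun l => sing3Col (Γ.ea (Q l.1)) fun I => l.2 ⟨l.1, I⟩
  have hq : ∀ l, IsPart (Set.range Γ.Φ) (q l) := fun l => sing3Col_isPart Γ (Γ.ea_isPart _) _
  let p : (P → Λ) → Fin r → M := fun ω a => ∑ I, e I * q (ω I) a
  have hp : ∀ ω, IsPart (Set.range Γ.Φ) (p ω) := fun ω => sing3_glue Γ he fun I => hq (ω I)
  let B : Λ → Λ → M := fun l l' => ∑ a, q l a * z * q l' a
  have hB : ∀ ω I I', e I * B (ω I) (ω I') * e I' = e I * pinch (p ω) z * e I' := by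
    intro ω I I'
    simp only [B, pinch, Finset.mul_sum, Finset.sum_mul]
    refine Finset.sum_congr rfl fun a _ => ?_
    have a1 : e I * p ω a = e I * q (ω I) a := sing3_left he _ I
    have a2 : p ω a * e I' = q (ω I') a * e I' := by
      rw [sing3_comm Γ ((hp ω).mem a) (he.mem I'), sing3_comm Γ ((hq _).mem a) (he.mem I')]
      exact sing3_left he _ I'
    calc e I * (q (ω I) a * z * q (ω I') a) * e I'
        = e I * q (ω I) a * z * (q (ω I') a * e I') := by simp only [mul_assoc]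
      _ = e I * p ω a * z * (p ω a * e I') := by rw [a1, a2]
      _ = _ := by simp only [mul_assoc]
  have hny : ‖y‖ ≤ (r : ℝ)⁻¹ * 2 := by
    rw [hy, norm_smul, norm_inv, Complex.norm_natCast]
    exact mul_le_mul_of_nonneg_left hz hri0
  have hnG : ‖G‖ ≤ (1 - (r : ℝ)⁻¹) * 2 := by
    have : (1 : ℂ) - (r : ℂ)⁻¹ = ((1 - (r : ℝ)⁻¹ : ℝ) : ℂ) := by push_cast; rfl
    rw [hG, norm_smul, this, Complex.norm_real, Real.norm_of_nonneg (sub_nonneg.2 hri)]
    refine mul_le_mul_of_nonneg_left ?_ (sub_nonneg.2 hri)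
    rw [norm_smul, norm_inv, Complex.norm_natCast, inv_mul_le_iff₀ (by exact_mod_cast hL)]
    refine (norm_sum_le _ _).trans ((Finset.sum_le_sum fun k _ =>
      ((Γ.ea_isPart (Q k)).norm_pinch_le z).trans hz).trans (by simp))
  have hnD : ∀ ω, ‖pinch (p ω) z‖ ≤ 2 := fun ω => ((hp ω).norm_pinch_le z).trans hz
  have n1 : ∀ ω, ‖pinch (p ω) z - y‖ ≤ 4 := fun ω => by
    linarith [norm_sub_le (pinch (p ω) z) y, hnD ω]
  have n2 : ∀ ω, ‖pinch (p ω) z - y - G‖ ≤ 4 := fun ω => by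
    linarith [norm_sub_le (pinch (p ω) z) y, norm_sub_le (pinch (p ω) z - y) G, hnD ω]
  have hGc : ∀ I, e I * G = G * e I := by
    intro I
    simp only [hG, mul_smul_comm, smul_mul_assoc, Finset.mul_sum, Finset.sum_mul]
    congr 2
    refine Finset.sum_congr rfl fun k _ => ?_
    rw [← (Γ.EP_EP (hQ k) z).2]
    exact he.pinch_comm _ I
  have m0 : ∀ a, ∑ l, (q l a - (r : ℂ)⁻¹ • 1) = 0 := by
    intro a
    rw [Fintype.sum_prod_type]
    exact Finset.sum_eq_zero fun k _ =>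
      sing3_mean_col hr (Γ.ea_isPart (Q k)) (fun I => (⟨k, I⟩ : Σ k, Q k)) a
  have m1 : ∀ l', ∑ l, (B l l' - y) = 0 := by
    intro l'
    have : ∀ l, B l l' - y = ∑ a, (q l a - (r : ℂ)⁻¹ • 1) * z * q l' a := by
      intro l
      simp only [sub_mul, Finset.sum_sub_distrib, smul_mul_assoc, one_mul, ← Finset.smul_sum,
        ← Finset.mul_sum, (hq l').sum, mul_one, B, hy]
    simp only [this]
    rw [Finset.sum_comm]
    refine Finset.sum_eq_zero fun a _ => ?_
    rw [← Finset.sum_mul, ← Finset.sum_mul, m0, zero_mul, zero_mul]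
  have m2 : ∀ l, ∑ l', (B l l' - y) = 0 := by
    intro l
    have : ∀ l', B l l' - y = ∑ a, q l a * z * (q l' a - (r : ℂ)⁻¹ • 1) := by
      intro l'
      simp only [mul_sub, Finset.sum_sub_distrib, mul_smul_comm, mul_one, ← Finset.smul_sum,
        ← Finset.sum_mul, (hq l).sum, one_mul, B, hy]
    simp only [this]
    rw [Finset.sum_comm]
    refine Finset.sum_eq_zero fun a _ => ?_
    rw [← Finset.mul_sum, m0, mul_zero]
  have m3 : ∑ l, (B l l - y - G) = 0 := by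
    have a1 : ∀ l : Λ, B l l - y - G = (B l l - y - (1 - (r : ℂ)⁻¹) • Γ.EP (Q l.1) z) +
        ((1 - (r : ℂ)⁻¹) • Γ.EP (Q l.1) z - G) := fun l => by abel
    simp only [a1, Finset.sum_add_distrib]
    have a2 : ∑ l : Λ, (B l l - y - (1 - (r : ℂ)⁻¹) • Γ.EP (Q l.1) z) = 0 := by
      rw [Fintype.sum_prod_type]
      exact Finset.sum_eq_zero fun k _ =>
        sing3_mean_pinch hr (Γ.ea_isPart (Q k)) (j := fun I => (⟨k, I⟩ : Σ k, Q k))
          (sigma_mk_injective (β := fun k => Q k)) z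
    have a3 : ∑ l : Λ, ((1 - (r : ℂ)⁻¹) • Γ.EP (Q l.1) z - G) = 0 := by
      rw [Fintype.sum_prod_type_right]
      refine Finset.sum_eq_zero fun c _ => ?_
      rw [Finset.sum_sub_distrib, ← Finset.smul_sum, Finset.sum_const, Finset.card_univ,
        Fintype.card_fin, hG, smul_comm L, ← Nat.cast_smul_eq_nsmul ℂ, smul_smul (L : ℂ),
        mul_inv_cancel₀ hL', one_smul, sub_self]
    rw [a2, a3, add_zero]
  obtain ⟨ω, hω⟩ := sing3_exists F (fun (ω : P → Λ) ξ =>
    ‖W.ρ (b * (pinch (p ω) z - y - G)) ξ‖ ^ 2) (100 * η) fun ξ => by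
      have k1 := sing3_diag W he hη0 (thin_block Γ h0 h1 hη) (fun l : Λ => B l l - y - G) (C := 4)
        (fun I l => by
          have a1 := hB (fun _ => l) I I
          have a2 : e I * (B l l - y - G) * e I = e I * (pinch (p fun _ => l) z - y - G) * e I := by
            simp only [mul_sub, sub_mul, a1]
          rw [a2]
          have a3 := IsStarProjection.norm_le _ (he.proj I)
          calc _ ≤ ‖e I‖ * ‖pinch (p fun _ => l) z - y - G‖ * ‖e I‖ := norm_mul₃_le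
            _ ≤ 1 * 4 * 1 := by gcongr; exact n2 _
            _ = 4 := by norm_num) m3 ξ
      have k2 := sing3_off W he hη0 (thin_block Γ h0 h1 hη) (fun l l' : Λ => B l l' - y)
        (fun ω => pinch (p ω) z - y) n1 (fun ω I I' => by simp only [mul_sub, sub_mul, hB]) m1 m2 ξ
      have k3 : ∀ ω : P → Λ, W.ρ (b * (pinch (p ω) z - y - G)) ξ =
          ∑ I, W.ρ (b * (e I * (B (ω I) (ω I) - y - G) * e I)) ξ + ∑ I, ∑ I',
            if I = I' then 0 else W.ρ (b * (e I * (B (ω I) (ω I') - y) * e I')) ξ := by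
        intro ω
        rw [sing3_blocks he (pinch (p ω) z - y - G), ← Finset.sum_add_distrib, Finset.mul_sum,
          map_sum, _root_.sum_apply]
        refine Finset.sum_congr rfl fun I _ => ?_
        rw [Finset.mul_sum, map_sum, _root_.sum_apply,
          ← Finset.add_sum_erase _ _ (Finset.mem_univ I),
          ← Finset.add_sum_erase _ _ (Finset.mem_univ I), if_pos rfl, zero_add]
        congr 1
        · simp only [mul_sub, sub_mul, hB]
        · refine Finset.sum_congr rfl fun I' hI' => ?_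
          have hne : I ≠ I' := (Finset.ne_of_mem_erase hI').symm
          have a1 : e I * G * e I' = 0 := by rw [hGc, mul_assoc, he.orth I I' hne, mul_zero]
          rw [if_neg hne]
          simp only [mul_sub, sub_mul, hB, a1, sub_zero]
      have k4 : ∀ u v : H, ‖u + v‖ ^ 2 ≤ 2 * ‖u‖ ^ 2 + 2 * ‖v‖ ^ 2 := fun u v => by
        nlinarith [norm_add_le u v, norm_nonneg (u + v), norm_nonneg u, norm_nonneg v,
          sq_nonneg (‖u‖ - ‖v‖)]
      simp only [k3]
      refine (Finset.sum_le_sum fun ω _ => k4 _ _).trans ?_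
      rw [Finset.sum_add_distrib, ← Finset.mul_sum, ← Finset.mul_sum]
      refine (add_le_add (mul_le_mul_of_nonneg_left k1 (by norm_num))
        (mul_le_mul_of_nonneg_left k2 (by norm_num))).trans ?_
      rw [Finset.mul_sum, Finset.mul_sum, ← Finset.sum_add_distrib]
      refine Finset.sum_le_sum fun ω _ => ?_
      nlinarith [mul_nonneg hη0 (sq_nonneg ‖ξ‖)]
  exact ⟨_, hp ω, hω⟩

end Crest.Agent.R109
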