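import Crest.Agent.R109.Gel

/-! Row 109: supports of normal central functionals. -/

set_option autoImplicit false

open scoped ComplexOrder InnerProductSpace ComplexConjugate
open Filter Topology MeasureTheory

namespace Crest.Agent.R109

variable {M H : Type*} [CStarAlgebra M] [PartialOrder M] [StarOrderedRing M]
  [NormedAddCommGroup H] [InnerProductSpace ℂ H] [CompleteSpace H]

omit [StarOrderedRing M] in
theorem supp_eq_zero_of_le (θ : M →ₚ[ℂ] ℂ) {a b : M} (h0 : 0 ≤ a) (h : a ≤ b) (hb : θ b = 0) :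
    θ a = 0 :=
  le_antisymm (hb ▸ θ.monotone' h) (map_nonneg θ h0)

theorem supp_exists_max (W : WSt M H) {θ : M →ₚ[ℂ] ℂ} (hn : W.Normal θ) :
    ∃ e, Maximal (fun Y : M => 0 ≤ Y ∧ Y ≤ 1 ∧ θ Y = 0) e := by
  refine zorn_le₀ {Y : M | 0 ≤ Y ∧ Y ≤ 1 ∧ θ Y = 0} fun c hc hch => ?_
  rcases c.eq_empty_or_nonempty with rfl | hne
  · exact ⟨0, ⟨le_rfl, zero_le_one, map_zero _⟩, by simp⟩
  have : Nonempty c := hne.to_subtype
  have : IsDirectedOrder c := ⟨fun a b => by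
    obtain ⟨z, hz, h1, h2⟩ := hch.directedOn a.1 a.2 b.1 b.2
    exact ⟨⟨z, hz⟩, h1, h2⟩⟩
  obtain ⟨z, h0, h1, h2, h3, -⟩ := W.exists_sup (y := fun i : c => (i : M))
    (fun _ _ h => h) (fun i => (hc i.2).1) fun i => (hc i.2).2.1
  refine ⟨z, ⟨h0, h1, ?_⟩, fun y hy => h2 ⟨y, hy⟩⟩
  have h4 := hn.tendsto (C := 1) (Eventually.of_forall fun i : c =>
    (CStarAlgebra.norm_le_one_iff_of_nonneg _ (hc i.2).1).2 (hc i.2).2.1) h3 1
  simp only [one_mul] at h4
  exact tendsto_nhds_unique h4 (tendsto_const_nhds.congr fun i => (hc i.2).2.2.symm)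

/-- Zorn's lemma on `{Y | 0 ≤ Y ≤ 1, θ Y = 0}` (chains: `exists_sup` and `Normal.tendsto`) gives a
maximal `e₀`.  It is a projection (`2 e₀ - e₀²` is in the set and `≥ e₀`).  For `Y` in the set,
`e₀ + (1 - e₀) Y (1 - e₀)` is in the set (`pos_cs`: `θ (e₀ ·) = θ (· e₀) = 0`), so
`(1 - e₀) Y (1 - e₀) = 0`.  For `u = 1 - 2 e V` (`exists_gel`), `Y = u e₀ u` is in the set, so
`e₀ u (1 - e₀) = 0`, and taking adjoints `e₀` commutes with `u`; `comm_of_e`.  `s = 1 - e₀`. -/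
theorem exists_support (W : WSt M H) {A : StarSubalgebra ℂ M} (hA : Masa A) {θ : M →ₚ[ℂ] ℂ}
    (hn : W.Normal θ) (hc : Central (A : Set M) θ) :
    ∃ s ∈ A, IsStarProjection s ∧ θ (1 - s) = 0 ∧ ∀ y, θ (star y * y) = 0 → y * s = 0 := by
  obtain ⟨e, he⟩ := supp_exists_max W hn
  obtain ⟨h0, h1, hθ⟩ := he.prop
  have hsa : IsSelfAdjoint e := .of_nonneg h0
  have hsa1 : IsSelfAdjoint (1 - e) := (IsSelfAdjoint.one M).sub hsa
  have hsq : e * e ≤ e := by
    have h := CStarAlgebra.pow_antitone h0 h1 (show 1 ≤ 2 by norm_num)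
    simpa [sq] using h
  have hsq0 : 0 ≤ e * e := by simpa [hsa.star_eq] using star_mul_self_nonneg e
  have hidem : e * e = e := by
    have h2 : e ≤ e + (e - e * e) := le_add_of_nonneg_right (sub_nonneg.2 hsq)
    have h3 : e + (e - e * e) ≤ e := he.le_of_ge ⟨h0.trans h2, by
      have h := star_mul_self_nonneg (1 - e)
      rw [hsa1.star_eq] at h
      rw [← sub_nonneg]
      convert h using 1
      noncomm_ring, by
      rw [map_add, map_sub, hθ, supp_eq_zero_of_le θ hsq0 hsq hθ]; simp⟩ h2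
    exact le_antisymm hsq (sub_nonpos.1 (by simpa using h3))
  have hp : IsStarProjection e := ⟨hidem, hsa⟩
  have hn2 : n2 θ e = 0 := by
    have h := n2_sq θ e
    rw [hsa.star_eq, hidem, hθ] at h
    simpa using h
  have hl : ∀ b, θ (e * b) = 0 := fun b => by
    have h := pos_cs θ e b
    rw [hn2, zero_mul, hsa.star_eq] at h
    exact norm_le_zero_iff.1 h
  have hr : ∀ b, θ (b * e) = 0 := fun b => by
    have h := pos_cs θ (star b) e
    rw [hn2, mul_zero, star_star] at h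
    exact norm_le_zero_iff.1 h
  have hY : ∀ Y : M, 0 ≤ Y → Y ≤ 1 → θ Y = 0 → (1 - e) * Y * (1 - e) = 0 := by
    intro Y hY0 hY1 hY
    have h2 : 0 ≤ (1 - e) * Y * (1 - e) := hsa1.conjugate_nonneg hY0
    have h3 : e + (1 - e) * Y * (1 - e) ≤ e := he.le_of_ge ⟨add_nonneg h0 h2, by
      have h := hsa1.conjugate_le_conjugate hY1
      rw [mul_one, hp.one_sub.isIdempotentElem.eq] at h
      exact le_sub_iff_add_le'.1 h, by
      have h : (1 - e) * Y * (1 - e) = Y - e * Y - (1 - e) * Y * e := by noncomm_ring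
      rw [map_add, h, map_sub, map_sub, hθ, hY, hl, hr]; simp⟩ (le_add_of_nonneg_right h2)
    exact le_antisymm (by simpa using h3) h2
  have hy : ∀ y, θ (star y * y) = 0 → y * (1 - e) = 0 := by
    intro y hy
    have hpos : (0 : ℝ) < ‖star y * y‖ + 1 := by positivity
    have h0' : 0 ≤ (‖star y * y‖ + 1)⁻¹ • (star y * y) :=
      smul_nonneg (inv_pos.2 hpos).le (star_mul_self_nonneg y)
    have h := hY _ h0' ((CStarAlgebra.norm_le_one_iff_of_nonneg _ h0').1 (by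
      rw [norm_smul, norm_inv, Real.norm_of_nonneg hpos.le, inv_mul_le_iff₀ hpos]
      linarith)) (by rw [← Complex.coe_smul, map_smul, hy, smul_zero])
    rw [mul_smul_comm, smul_mul_assoc, smul_eq_zero_iff_right (inv_pos.2 hpos).ne'] at h
    rw [← CStarRing.star_mul_self_eq_zero_iff, star_mul, hsa1.star_eq]
    simpa only [mul_assoc] using h
  have hA1 : ∀ a ∈ A, e * a * (1 - e) = 0 := fun a ha => hy _ (by
    rw [star_mul, mul_assoc, hc _ (star_mem ha), hsa.star_eq, mul_assoc, hl])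
  refine ⟨1 - e, hA.max _ fun a ha => ?_, hp.one_sub, by rwa [sub_sub_cancel], hy⟩
  have h2 := hA1 a ha
  have h3 := congrArg star (hA1 _ (star_mem ha))
  rw [star_mul, star_mul, star_star, hsa.star_eq, hsa1.star_eq, star_zero] at h3
  have h4 : a * (1 - e) - (1 - e) * a = e * a * (1 - e) - (1 - e) * (a * e) := by noncomm_ring
  rw [← sub_eq_zero, h4, h2, h3, sub_zero]

/-- The supports `s θ` of the normal central functionals form a directed set of commuting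
projections (`s θ ≤ s (θ + θ')`, since `θ (1 - s (θ + θ')) = 0`).  Let `e` be its supremum
(`exists_sup`), a projection in `A`; `f = 1 - e`. -/
theorem exists_decomp (W : WSt M H) {A : StarSubalgebra ℂ M} (hA : Masa A) (F : Finset H) {δ : ℝ}
    (hδ : 0 < δ) :
    ∃ s ∈ A, ∃ f ∈ A, IsStarProjection s ∧ IsStarProjection f ∧ s * f = 0 ∧
      W.Small F δ (1 - s - f) ∧
      (∃ θ : M →ₚ[ℂ] ℂ, W.Normal θ ∧ Central (A : Set M) θ ∧
        ∀ y, θ (star y * y) = 0 → y * s = 0) ∧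
      ∀ θ : M →ₚ[ℂ] ℂ, W.Normal θ → Central (A : Set M) θ → θ f = 0 := by
  obtain ⟨D, hD⟩ : ∃ D : Set M, ∀ s, s ∈ D ↔ s ∈ A ∧ IsStarProjection s ∧
      ∃ θ : M →ₚ[ℂ] ℂ, W.Normal θ ∧ Central (A : Set M) θ ∧ ∀ y, θ (star y * y) = 0 → y * s = 0 :=
    ⟨{s | _}, fun _ => Iff.rfl⟩
  have : Nonempty D := ⟨⟨0, (hD 0).2 ⟨zero_mem _, IsStarProjection.zero M, 0, WSt.normal_zero,
    fun _ _ _ => rfl, fun _ _ => mul_zero _⟩⟩⟩
  have : IsDirectedOrder D := ⟨by
    rintro ⟨a, ha'⟩ ⟨b, hb'⟩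
    obtain ⟨haA, ha, θ₁, hn₁, hc₁, h₁⟩ := (hD a).1 ha'
    obtain ⟨hbA, hb, θ₂, hn₂, hc₂, h₂⟩ := (hD b).1 hb'
    have hc : Central (A : Set M) (θ₁ + θ₂) := fun a ha y => by
      show θ₁ _ + θ₂ _ = θ₁ _ + θ₂ _
      rw [hc₁ a ha, hc₂ a ha]
    obtain ⟨s, hsA, hs, hs0, hs1⟩ := exists_support W hA (hn₁.add hn₂) hc
    have e : star (1 - s) * (1 - s) = 1 - s := by
      rw [hs.one_sub.isSelfAdjoint.star_eq, hs.one_sub.isIdempotentElem.eq]
    have hs0' : θ₁ (1 - s) + θ₂ (1 - s) = 0 := hs0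
    rw [add_eq_zero_iff_of_nonneg (map_nonneg θ₁ hs.one_sub.nonneg)
      (map_nonneg θ₂ hs.one_sub.nonneg)] at hs0'
    have k₁ := h₁ (1 - s) (by rw [e, hs0'.1])
    have k₂ := h₂ (1 - s) (by rw [e, hs0'.2])
    rw [sub_mul, one_mul, sub_eq_zero] at k₁ k₂
    have l₁ : a ≤ s := (ha.le_iff_mul_eq_right hs).2 k₁.symm
    have l₂ : b ≤ s := (hb.le_iff_mul_eq_right hs).2 k₂.symm
    exact ⟨⟨s, (hD s).2 ⟨hsA, hs, _, hn₁.add hn₂, hc, hs1⟩⟩, l₁, l₂⟩⟩
  have hDp : ∀ i : D, IsStarProjection (i : M) := fun i => ((hD i).1 i.2).2.1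
  have hDA : ∀ i : D, (i : M) ∈ A := fun i => ((hD i).1 i.2).1
  obtain ⟨e, h0, h1, h2, h3, h4⟩ := W.exists_sup (y := fun i : D => (i : M))
    (fun _ _ h => h) (fun i => (hDp i).nonneg) fun i => (hDp i).le_one
  have heA : e ∈ A := hA.max _ fun a ha =>
    (h3.mul_left a).eq_of_eventually (h3.mul_right a)
      (Eventually.of_forall fun i => hA.comm a ha _ (hDA i))
  have hse : ∀ s : D, (s : M) * e = s := fun s => by
    have k : W.WT (atTop : Filter D) (fun _ => (s : M)) (s : M) := WSt.WT_const _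
    refine (h3.mul_left (s : M)).eq_of_eventually k ?_
    refine (eventually_ge_atTop s).mono fun t ht => ?_
    have ht' : (s : M) ≤ t := ht
    exact ((hDp s).le_iff_mul_eq_left (hDp t)).1 ht'
  have hp : IsStarProjection e :=
    ⟨(h3.mul_right e).eq_of_eventually h3 (Eventually.of_forall hse), .of_nonneg h0⟩
  obtain ⟨s, hs⟩ := (h4 F δ hδ).exists
  refine ⟨s, hDA s, 1 - e, sub_mem (one_mem _) heA, hDp s, hp.one_sub,
    by rw [mul_sub, mul_one, hse, sub_self],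
    by rwa [show 1 - (s : M) - (1 - e) = e - s by abel], ((hD s).1 s.2).2.2, fun θ hn hc => ?_⟩
  obtain ⟨t, htA, ht, ht0, ht1⟩ := exists_support W hA hn hc
  exact supp_eq_zero_of_le θ hp.one_sub.nonneg
    (sub_le_sub_left (h2 ⟨t, (hD t).2 ⟨htA, ht, θ, hn, hc, ht1⟩⟩) 1) ht0

end Crest.Agent.R109
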