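import Crest.Agent.R109.Kernel
import Crest.Agent.R109.Local
import Crest.Agent.R109.Disc
import Crest.Agent.R109.Dye
import Crest.Agent.R109.Fock

/-! Row 109: paving in the presence of a faithful normal central state. -/

set_option autoImplicit false

open scoped ComplexOrder InnerProductSpace ComplexConjugate ENNReal
open Filter Topology MeasureTheory

namespace Crest.Agent.R109

open Pointwise

lemma thmN_count {J : Type*} [Fintype J] [DecidableEq J] {r : ℕ}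
    (f : (J → Equiv.Perm (Fin r)) → Fin r) (hf : ∀ π ω, f (fun j => π * ω j) = π (f ω))
    (b : Fin r) :
    (Set.ncard {ω | f ω = b} : ℝ) = Fintype.card (J → Equiv.Perm (Fin r)) * (1 / r) := by
  classical
  have hr : (0 : ℝ) < r := Nat.cast_pos.2 (Fin.pos b)
  have h1 : ∀ b', (Finset.univ.filter fun ω => f ω = b').card =
      (Finset.univ.filter fun ω => f ω = b).card := fun b' => by
    refine Finset.card_bij' (fun ω _ j => Equiv.swap b b' * ω j)
      (fun ω _ j => Equiv.swap b b' * ω j) (fun ω h => ?_) (fun ω h => ?_) (fun ω _ => ?_)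
      (fun ω _ => ?_)
    · simp only [Finset.mem_filter, Finset.mem_univ, true_and] at h ⊢
      rw [hf, h, Equiv.swap_apply_right]
    · simp only [Finset.mem_filter, Finset.mem_univ, true_and] at h ⊢
      rw [hf, h, Equiv.swap_apply_left]
    · funext j; rw [← mul_assoc, Equiv.swap_mul_self, one_mul]
    · funext j; rw [← mul_assoc, Equiv.swap_mul_self, one_mul]
  have h2 := Finset.card_eq_sum_card_fiberwise (f := f) (s := Finset.univ) (t := Finset.univ)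
    (fun _ _ => Finset.mem_coe.2 (Finset.mem_univ _))
  simp only [h1, Finset.sum_const, Finset.card_univ, Fintype.card_fin, smul_eq_mul] at h2
  have h3 : {ω | f ω = b} = ((Finset.univ.filter fun ω => f ω = b : Finset _) : Set _) := by
    ext ω; simp
  rw [h3, Set.ncard_coe_finset, h2]
  push_cast
  field_simp

lemma thmN_geom {a : ℝ} (ha : 0 < a) (C : ℝ) {η : ℝ} (hη : 0 < η) :
    ∀ᶠ i : ℕ in atTop, C * a ^ (2 * (i + 1)) / (2 * a) ^ (2 * (i + 1) - 2) < η := by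
  have h1 : Tendsto (fun i : ℕ => C * a ^ 2 * (1 / 4 : ℝ) ^ i) atTop (𝓝 (C * a ^ 2 * 0)) :=
    (tendsto_pow_atTop_nhds_zero_of_lt_one (by norm_num) (by norm_num)).const_mul _
  rw [mul_zero] at h1
  refine (h1.eventually (gt_mem_nhds hη)).mono fun i hi => lt_of_eq_of_lt ?_ hi
  rw [show 2 * (i + 1) - 2 = 2 * i by omega, mul_pow, pow_mul (2 : ℝ), mul_add, pow_add,
    one_div, inv_pow]
  norm_num
  field_simp

lemma thmN_params {s : ℝ} (hs : 0 < s) (R : ℝ) {η : ℝ} (hη : 0 < η) :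
    ∃ (j : ℕ) (τ : ℝ), 1 ≤ j ∧ 0 < τ ∧
      R * ((2 * s) ^ j + τ) ^ 2 / (4 * s) ^ (2 * j - 2) ≤ η ∧
      ((600 * s) ^ (2 * j) + τ) / (1200 * s) ^ (2 * j - 2) ≤ η := by
  obtain ⟨i, h1, h2⟩ := ((thmN_geom (show 0 < 2 * s by positivity) R hη).and
    (thmN_geom (show 0 < 600 * s by positivity) 1 hη)).exists
  rw [show 2 * (2 * s) = 4 * s by ring] at h1
  rw [show 2 * (600 * s) = 1200 * s by ring, one_mul] at h2
  have k1 : ContinuousAt (fun τ : ℝ => R * ((2 * s) ^ (i + 1) + τ) ^ 2 /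
      (4 * s) ^ (2 * (i + 1) - 2)) 0 := by fun_prop
  have k2 : ContinuousAt (fun τ : ℝ => ((600 * s) ^ (2 * (i + 1)) + τ) /
      (1200 * s) ^ (2 * (i + 1) - 2)) 0 := by fun_prop
  have l1 := k1.eventually (gt_mem_nhds (show _ < η by
    simpa only [add_zero, ← pow_mul, mul_comm (i + 1) 2] using h1))
  have l2 := k2.eventually (gt_mem_nhds (show _ < η by simpa only [add_zero] using h2))
  obtain ⟨τ, ⟨m1, m2⟩, m3⟩ := (((l1.and l2).filter_mono
    (nhdsWithin_le_nhds (s := Set.Ioi (0 : ℝ)))).and self_mem_nhdsWithin).exists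
  exact ⟨i + 1, τ, by omega, m3, m1.le, m2.le⟩

lemma thmN_bnd_congr {α : Type*} {c : ℝ} {y y' : α → α → ℂ} {U : Finset α} (h : Bnd c y U)
    (he : ∀ a ∈ U, ∀ b ∈ U, y' a b = y a b) : Bnd c y' U := fun ξ => by
  refine le_of_eq_of_le ?_ (h ξ)
  refine Finset.sum_congr rfl fun a ha => ?_
  rw [Finset.sum_congr rfl fun b hb => by rw [he a ha b hb]]

section

variable {M H X : Type*} [CStarAlgebra M] [PartialOrder M] [StarOrderedRing M]
  [NormedAddCommGroup H] [InnerProductSpace ℂ H] [CompleteSpace H]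
  [TopologicalSpace X] [CompactSpace X] [T2Space X] [MeasurableSpace X] [BorelSpace X]

variable (c : NCtx M H X)

/-- One colouring with small moments for both parts.  Take `x, w` from `exists_kernel`, `ρ, col`
from `local_thm` (`m = j`), `Q` from `fock` (`ι = ↥(S ^ ρ)`, `σ g = Homeomorph.smul g`,
`Λ = Perm (Fin r)`, `a = 1/r`), the rule `c ω` from `exists_clopen_rule` with an error given by
`nbhd_small`.  The count `#{ω | c ω t = a} = |Ω| / r` follows from equivariance (`swap a a'`).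
Average `n2_pinch_pow` over `ω`; for the second part integrate (`θ_eq`), bounding `E` by `1` on the
bad set. -/
theorem NCtx.exists_colouring {G : Type*} [Group G] [Countable G] [MulAction G X]
    [ContinuousConstSMul G X] (A : c.Γ.Act G) {S : Finset G} (h1 : (1 : G) ∈ S)
    (hinv : ∀ g ∈ S, g⁻¹ ∈ S) {ι : Type*} [Fintype ι] (g : ι → G) (hg : ∀ i, g i ∈ S)
    (a : ι → C(X, ℂ)) {n : M} (hn : n = ∑ i, A.u (g i) * c.Γ.Φ (a i)) (hsa : IsSelfAdjoint n)
    (hn1 : ‖n‖ ≤ 1) (hE : c.E n = 0) {y : M} (hy : IsSelfAdjoint y) (hy1 : ‖y‖ ≤ 1)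
    (hd : ∀ u σ, c.Γ.IsNrm u σ → c.E (star u * y) = 0) {r : ℕ} (hr : 2 ≤ r) {j : ℕ} (hj : 1 ≤ j)
    {τ : ℝ} (hτ : 0 < τ) :
    ∃ col : LocallyConstant X (Fin r),
      n2 c.θ (pinch (c.Γ.pc col) y ^ j) ^ 2 ≤ r * ((2 / √r) ^ j + τ) ^ 2 ∧
      n2 c.θ (pinch (c.Γ.pc col) n ^ j) ^ 2 ≤ (600 / √r) ^ (2 * j) + τ := by
  classical
  haveI := c.prob
  haveI := c.reg
  haveI : TotallyDisconnectedSpace X := c.Γ.totallyDisconnected c.W
  have hr0 : 0 < r := by omega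
  have hr0' : (0 : ℝ) < r := Nat.cast_pos.2 hr0
  have hτ2 : 0 < ENNReal.ofReal (τ / 2) := ENNReal.ofReal_pos.2 (by positivity)
  obtain ⟨x, w, hLS, hmom⟩ := c.exists_kernel A h1 hinv g hg a hn hsa hn1 hE
  obtain ⟨ρ, col, hloc, hperm, hgood⟩ := hLS.local_thm hr j hτ2
  obtain ⟨Q, hQ⟩ := c.fock hy hy1 (fun η hη => c.dye hy hy1 hd hη)
    (ι := ↥(S ^ ρ)) (fun g => Homeomorph.smul (g : G)) (Equiv.Perm (Fin r))
    (show (0 : ℝ) ≤ 1 / r by positivity) hj hτ
  obtain ⟨δ', hδ', hnb⟩ := hLS.nbhd_small j hτ2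
  obtain ⟨cc, hdep, hequi, herr⟩ := exists_clopen_rule c.μ h1 hr0 ρ col hloc hperm
    (fun l hl => (hgood l hl).1) Q hδ'
  have hcount : ∀ (t : X) (b : Fin r),
      (Set.ncard {ω | t ∈ cc ω ⁻¹' {b}} : ℝ) = Fintype.card (Q → Equiv.Perm (Fin r)) * (1 / r) :=
    fun t b => thmN_count (fun ω => cc ω t) (fun π ω => hequi π ω t) b
  have hsum : ∑ ω, n2 c.θ (pinch (c.Γ.pc (cc ω)) y ^ j) ^ 2 ≤
      ∑ _ω : Q → Equiv.Perm (Fin r), r * ((2 / √r) ^ j + τ) ^ 2 := by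
    simp only [fun ω => (c.Γ.pc_isPart (cc ω)).n2_pinch_pow c.θ y hj]
    rw [Finset.sum_comm]
    have e : 2 * √(1 / (r : ℝ)) = 2 / √r := by
      rw [Real.sqrt_div zero_le_one, Real.sqrt_one, mul_one_div]
    calc _ ≤ ∑ _b : Fin r, Fintype.card (Q → Equiv.Perm (Fin r)) * ((2 / √r) ^ j + τ) ^ 2 :=
          Finset.sum_le_sum fun b _ => by
            rw [← e]
            exact hQ (fun ω => cc ω ⁻¹' {b}) (fun ω => (cc ω).isLocallyConstant.isClopen_fiber b)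
              (fun ω ω' t h => by
                have := hdep ω ω' t fun g hg => h ⟨g, hg⟩
                simp only [Set.mem_preimage, this]) (fun t => hcount t b)
      _ = _ := by
          simp only [Finset.sum_const, Finset.card_univ, Fintype.card_fin, nsmul_eq_mul]
          ring
  obtain ⟨ω, -, hω⟩ := Finset.exists_le_of_sum_le Finset.univ_nonempty hsum
  refine ⟨cc ω, hω, ?_⟩
  set k := pinch (c.Γ.pc (cc ω)) n with hk
  have hk1 : ‖k‖ ≤ 1 := ((c.Γ.pc_isPart (cc ω)).norm_pinch_le n).trans hn1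
  have hkj : ‖star (k ^ j) * k ^ j‖ ≤ 1 := by
    rw [CStarRing.norm_star_mul_self]
    have : ‖k ^ j‖ ≤ 1 := (norm_pow_le' k hj).trans (pow_le_one₀ (norm_nonneg _) hk1)
    exact mul_le_one₀ this (norm_nonneg _) this
  set l : X → Equiv.Perm (Fin r) := fun s => ω (Q.proj s) with hl
  have hlm : ∀ π, MeasurableSet {t | l t = π} := fun π =>
    (Q.isClopen_preimage {J | ω J = π}).isOpen.measurableSet
  set Bad := toMeasurable c.μ ({t | ¬ Bnd (600 / √r) (ycol x (col l)) (B S j t)} ∪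
    {t | ∃ s ∈ B S j t, s ∈ {t | ∃ ω, cc ω t ≠ col (fun s => ω (Q.proj s)) t}}) with hBad
  have hBm : MeasurableSet Bad := measurableSet_toMeasurable _ _
  have hBμ : c.μ.real Bad ≤ τ := by
    have h2 : c.μ Bad ≤ ENNReal.ofReal τ := by
      rw [hBad, measure_toMeasurable]
      refine (measure_union_le _ _).trans ((add_le_add (hgood l hlm).2 (hnb _ herr)).trans ?_)
      rw [← ENNReal.ofReal_add (by positivity) (by positivity), add_halves]
    exact ENNReal.toReal_le_of_le_ofReal hτ.le h2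
  have hint : Integrable (fun t => c.E (star (k ^ j) * k ^ j) t) c.μ :=
    (c.E (star (k ^ j) * k ^ j)).continuous.integrable_of_hasCompactSupport
      (HasCompactSupport.of_compactSpace _)
  rw [n2_sq, c.θ_eq, ← RCLike.re_to_complex, ← integral_re hint]
  have hε : (0 : ℝ) ≤ 600 / √r := by positivity
  calc ∫ t, RCLike.re (c.E (star (k ^ j) * k ^ j) t) ∂c.μ
      ≤ ∫ t, ((600 / √r) ^ (2 * j) + Bad.indicator (fun _ => (1 : ℝ)) t) ∂c.μ := by
        refine integral_mono_ae hint.re ((integrable_const _).add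
          ((integrable_const _).indicator hBm)) ?_
        filter_upwards [hmom] with t ht
        rw [RCLike.re_to_complex]
        by_cases hb : t ∈ Bad
        · rw [Set.indicator_of_mem hb]
          have h2 := (Complex.re_le_norm _).trans
            (((c.E (star (k ^ j) * k ^ j)).norm_coe_le_norm t).trans
              ((c.toCtx.norm_E_le _).trans hkj))
          have h3 : (0 : ℝ) ≤ (600 / √r) ^ (2 * j) := by positivity
          linarith
        · rw [Set.indicator_of_notMem hb, add_zero]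
          have h2 := fun h => hb (subset_toMeasurable _ _ h)
          simp only [Set.mem_union, Set.mem_setOf_eq, not_or, not_not, not_exists, not_and,
            imp_false, ne_eq] at h2
          refine ht r (cc ω) j _ hε (thmN_bnd_congr h2.1 fun u hu v hv => ?_)
          simp only [ycol, h2.2 u hu ω, h2.2 v hv ω, hl]
    _ = (600 / √r) ^ (2 * j) + c.μ.real Bad := by
        rw [integral_add (integrable_const _) ((integrable_const _).indicator hBm),
          integral_indicator_const _ hBm]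
        simp
    _ ≤ _ := by linarith

/-- `x₁ = x - Φ E x`, `xd` from `exists_discrete`, `xc = x₁ - xd` (norm `≤ 4`), `n' = ∑ u i Φ (a i)`
(norm `≤ 5/2`), `n₀ = n' - Φ E n'` (norm `≤ 5`; `E xd = 0`, so `n2 (xd - n₀) ≤ 2 ε'`).  `exists_act`,
`S = {1} ∪ {of i} ∪ {(of i)⁻¹}`.  Apply `exists_colouring` to `n₀ / 5` and `xc / 4` with `j` large and
`τ` small, truncate (`exists_trunc`) `pinch xc` at level `16 / √r` and `pinch n₀` at level
`6000 / √r`, and let `z = pinch x₁ - k₁ - k₂`; it is `n2`-small with norm `≤ 3`; `Normal.small`.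
`6016 / √r ≤ ε / 2` since `√r ≥ 20000 / ε`. -/
theorem NCtx.thmN {x : M} (hx : IsSelfAdjoint x) (hx1 : ‖x‖ ≤ 1) {ε : ℝ} (hε : 0 < ε)
    (hε1 : ε < 1) {r : ℕ} (hr : 400000000 / ε ^ 2 ≤ r) (F : Finset H) {δ : ℝ} (hδ : 0 < δ) :
    ∃ p : Fin r → M, IsPart (Set.range c.Γ.Φ) p ∧ ∃ z : M, IsSelfAdjoint z ∧ pinch p z = z ∧
      c.W.Small F δ z ∧ ‖pinch p x - c.Γ.Φ (c.E x) - z‖ ≤ ε / 2 := by
  classical
  have hε2 : ε ^ 2 < 1 := pow_lt_one₀ hε.le hε1 two_ne_zero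
  have hr4 : (400000000 : ℝ) ≤ r * ε ^ 2 := (div_le_iff₀ (by positivity)).1 hr
  have hr0 : (0 : ℝ) ≤ r := Nat.cast_nonneg r
  have hr2' : (2 : ℝ) ≤ r := by nlinarith
  have hr2 : 2 ≤ r := by exact_mod_cast hr2'
  have hsq : 0 < √(r : ℝ) := Real.sqrt_pos.2 (by linarith)
  have hsq2 : 20000 ≤ √(r : ℝ) * ε := by
    refine (abs_le_of_sq_le_sq' ?_ (by positivity)).2
    rw [mul_pow, Real.sq_sqrt hr0]
    linarith
  set x₁ := x - c.Γ.Φ (c.E x) with hx₁
  have hx₁s : IsSelfAdjoint x₁ := hx.sub (c.toCtx.Φ_E_selfAdjoint hx)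
  have hx₁n : ‖x₁‖ ≤ 2 := (norm_sub_le _ _).trans (by linarith [c.toCtx.norm_Φ_E_le x])
  have hx₁E : c.E x₁ = 0 := by rw [hx₁, map_sub, c.toCtx.E_Φ, sub_self]
  obtain ⟨xd, hxd, hxdn, horth, happ⟩ := c.exists_discrete hx₁s
  have hxdE : c.E xd = 0 := by
    have := horth 1 1 c.Γ.isNrm_one
    rwa [star_one, one_mul, map_sub, hx₁E, zero_sub, neg_eq_zero] at this
  obtain ⟨ε₀, hε₀, hsmall⟩ := c.normal.small c.faithful 3 F hδ
  obtain ⟨N, u, σ, a, hu, hn's, hn'n, hn'd⟩ := happ (min (1 / 2) (ε₀ / 8)) (by positivity)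
  set n' := ∑ i, u i * c.Γ.Φ (a i) with hn'
  have m1 : min (1 / 2 : ℝ) (ε₀ / 8) ≤ 1 / 2 := min_le_left _ _
  have m2 : min (1 / 2 : ℝ) (ε₀ / 8) ≤ ε₀ / 8 := min_le_right _ _
  set n₀ := n' - c.Γ.Φ (c.E n') with hn₀
  have hn₀s : IsSelfAdjoint n₀ := hn's.sub (c.toCtx.Φ_E_selfAdjoint hn's)
  have hn₀n : ‖n₀‖ ≤ 5 := (norm_sub_le _ _).trans (by linarith [c.toCtx.norm_Φ_E_le n'])
  have hn₀d : n2 c.θ (xd - n₀) ≤ ε₀ / 4 := by
    have e : xd - n₀ = (xd - n') - c.Γ.Φ (c.E (xd - n')) := by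
      rw [hn₀, map_sub c.E, hxdE, zero_sub, map_neg]; abel
    rw [e]
    exact (n2_sub_le _ _ _).trans (by linarith [c.n2_Φ_E (xd - n')])
  obtain ⟨i1, i2, A, hA⟩ := c.Γ.exists_act u σ hu
  set S : Finset (FreeGroup (Fin N)) := insert 1 (Finset.univ.image FreeGroup.of ∪
    Finset.univ.image fun i => (FreeGroup.of i)⁻¹) with hS
  have hS1 : (1 : FreeGroup (Fin N)) ∈ S := Finset.mem_insert_self _ _
  have hSi : ∀ g ∈ S, g⁻¹ ∈ S := fun g hg => by
    simp only [hS, Finset.mem_insert, Finset.mem_union, Finset.mem_image, Finset.mem_univ,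
      true_and] at hg ⊢
    rcases hg with rfl | ⟨i, rfl⟩ | ⟨i, rfl⟩
    · exact Or.inl inv_one
    · exact Or.inr (Or.inr ⟨i, rfl⟩)
    · exact Or.inr (Or.inl ⟨i, (inv_inv _).symm⟩)
  have sa : ∀ (t : ℝ) (b : M), IsSelfAdjoint b → IsSelfAdjoint ((t : ℂ) • b) := fun t b hb => by
    rw [IsSelfAdjoint, star_smul, hb.star_eq, Complex.star_def, Complex.conj_ofReal]
  have nm : ∀ (t : ℝ) (b : M), 0 ≤ t → ‖(t : ℂ) • b‖ = t * ‖b‖ := fun t b ht => by
    rw [norm_smul, Complex.norm_real, Real.norm_of_nonneg ht]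
  set n := ((1 / 5 : ℝ) : ℂ) • n₀ with hn
  set y := ((1 / 4 : ℝ) : ℂ) • (x₁ - xd) with hy
  have hys : IsSelfAdjoint y := sa _ _ (hx₁s.sub hxd)
  have hns : IsSelfAdjoint n := sa _ _ hn₀s
  obtain ⟨j, τ, hj, hτ, hA₁, hA₂⟩ := thmN_params (inv_pos.2 hsq) (r : ℝ)
    (show 0 < (ε₀ / 18) ^ 2 by positivity)
  obtain ⟨col, hc₁, hc₂⟩ := c.exists_colouring A hS1 hSi
    (fun o : Option (Fin N) => o.elim 1 FreeGroup.of)
    (fun o => by
      cases o with
      | none => exact hS1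
      | some i => simp [hS])
    (fun o => ((1 / 5 : ℝ) : ℂ) • o.elim (-c.E n') a) (n := n)
    (by
      rw [Fintype.sum_option]
      simp only [Option.elim, hA, A.one, one_mul, map_smul, mul_smul_comm, map_neg]
      rw [← Finset.smul_sum, ← smul_add, hn, hn₀, ← hn']
      congr 1; abel)
    hns (by rw [hn, nm _ _ (by norm_num)]; linarith)
    (by rw [hn, map_smul, hn₀, map_sub, c.toCtx.E_Φ, sub_self, smul_zero]) hys
    (by
      rw [hy, nm _ _ (by norm_num)]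
      linarith [norm_sub_le x₁ xd])
    (fun u σ h => by rw [hy, mul_smul_comm, map_smul, horth u σ h, smul_zero]) hr2 hj hτ
  have hp := c.Γ.pc_isPart col
  set p := c.Γ.pc col with hpdef
  have ps : ∀ b : M, IsSelfAdjoint b → IsSelfAdjoint (pinch p b) := fun b hb => by
    rw [IsSelfAdjoint, hp.pinch_star, hb.star_eq]
  obtain ⟨k₁, s₁, b₁, c₁, d₁⟩ := exists_trunc c.θ (ps y hys)
    (show 0 < 4 * (√(r : ℝ))⁻¹ by positivity) hj
  obtain ⟨k₂, s₂, b₂, c₂, d₂⟩ := exists_trunc c.θ (ps n hns)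
    (show 0 < 1200 * (√(r : ℝ))⁻¹ by positivity) hj
  have e₁ : n2 c.θ (pinch p y - k₁) ≤ ε₀ / 18 := by
    refine (abs_le_of_sq_le_sq' ?_ (by positivity)).2
    refine d₁.trans (le_trans ?_ hA₁)
    rw [div_eq_mul_inv (2 : ℝ)] at hc₁
    gcongr
  have e₂ : n2 c.θ (pinch p n - k₂) ≤ ε₀ / 18 := by
    refine (abs_le_of_sq_le_sq' ?_ (by positivity)).2
    refine d₂.trans (le_trans ?_ hA₂)
    rw [div_eq_mul_inv (600 : ℝ)] at hc₂
    gcongr
  set k := ((4 : ℝ) : ℂ) • k₁ + ((5 : ℝ) : ℂ) • k₂ with hk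
  have hkn : ‖k‖ ≤ ε / 2 := by
    refine (norm_add_le _ _).trans ?_
    rw [nm _ _ (by norm_num), nm _ _ (by norm_num)]
    have h1 : 6016 * (√(r : ℝ))⁻¹ ≤ ε / 2 := by
      rw [← div_eq_mul_inv, div_le_iff₀ hsq]
      linarith
    linarith
  have hpx : pinch p x - c.Γ.Φ (c.E x) = pinch p x₁ := by
    rw [hx₁, pinch_sub, hp.pinch_eq_self (a := c.Γ.Φ (c.E x)) fun i => c.Γ.comm _ _]
  refine ⟨p, hp, pinch p x₁ - k, (ps _ hx₁s).sub ((sa _ _ s₁).add (sa _ _ s₂)), ?_,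
    hsmall _ ?_ ?_, ?_⟩
  · refine hp.pinch_eq_self fun i => ?_
    rw [hk, mul_sub, sub_mul, mul_add, add_mul, mul_smul_comm, mul_smul_comm, smul_mul_assoc,
      smul_mul_assoc, hp.pinch_comm, c₁ _ (hp.pinch_comm y i), c₂ _ (hp.pinch_comm n i)]
  · exact (norm_sub_le _ _).trans (by linarith [hp.norm_pinch_le x₁])
  · have e0 : x₁ = ((4 : ℝ) : ℂ) • y + ((5 : ℝ) : ℂ) • n + (xd - n₀) := by
      rw [hy, hn, smul_smul, smul_smul, ← Complex.ofReal_mul, ← Complex.ofReal_mul]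
      norm_num
    have e : pinch p x₁ - k = ((4 : ℝ) : ℂ) • (pinch p y - k₁) + ((5 : ℝ) : ℂ) • (pinch p n - k₂) +
        pinch p (xd - n₀) := by
      conv_lhs => rw [e0, pinch_add, pinch_add, pinch_smul p _ y, pinch_smul p _ n]
      rw [hk, smul_sub _ (pinch p y), smul_sub _ (pinch p n)]; abel
    rw [e]
    have f1 := n2_add_le c.θ (((4 : ℝ) : ℂ) • (pinch p y - k₁) + ((5 : ℝ) : ℂ) • (pinch p n - k₂))
      (pinch p (xd - n₀))
    have f2 := n2_add_le c.θ (((4 : ℝ) : ℂ) • (pinch p y - k₁)) (((5 : ℝ) : ℂ) • (pinch p n - k₂))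
    rw [n2_smul, n2_smul, Complex.norm_real, Complex.norm_real,
      Real.norm_of_nonneg (by norm_num), Real.norm_of_nonneg (by norm_num)] at f2
    have f3 := hp.n2_pinch_le c.central (xd - n₀)
    linarith
  · rw [hpx, sub_sub_cancel]
    exact hkn

end

variable {M H : Type*} [CStarAlgebra M] [PartialOrder M] [StarOrderedRing M]
  [NormedAddCommGroup H] [InnerProductSpace ℂ H] [CompleteSpace H]

/-- If `θ 1 = 0` the algebra is trivial; otherwise normalise `θ` and use `exists_gel`,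
`exists_ctx`, `exists_nctx` (Borel σ-algebra). -/
theorem thmN (W : WSt M H) {A : StarSubalgebra ℂ M} (hA : Masa A) {θ : M →ₚ[ℂ] ℂ}
    (hn : W.Normal θ) (hc : Central (A : Set M) θ) (hf : ∀ y, θ (star y * y) = 0 → y = 0)
    {x : M} (hx : IsSelfAdjoint x) (hx1 : ‖x‖ ≤ 1) {ε : ℝ} (hε : 0 < ε) (hε1 : ε < 1) {r : ℕ}
    (hr : 400000000 / ε ^ 2 ≤ r) (F : Finset H) {δ : ℝ} (hδ : 0 < δ) :
    ∃ p : Fin r → M, IsPart (A : Set M) p ∧ ∃ a ∈ A, IsSelfAdjoint a ∧ ‖a‖ ≤ 1 ∧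
      ∃ z : M, IsSelfAdjoint z ∧ pinch p z = z ∧ W.Small F δ z ∧
        ‖pinch p x - a - z‖ ≤ ε / 2 := by
  have h01 : 0 ≤ θ 1 := θ.map_nonneg zero_le_one
  rcases eq_or_ne (θ 1) 0 with h0 | h0
  · have h1 : (1 : M) = 0 := hf 1 (by simpa using h0)
    haveI : Subsingleton M := subsingleton_of_zero_eq_one h1.symm
    refine ⟨fun _ => 0, ⟨fun _ => zero_mem A, fun _ => IsStarProjection.zero M,
      fun _ _ _ => mul_zero _, Subsingleton.elim _ _⟩, 0, zero_mem A, IsSelfAdjoint.zero M,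
      by simp, 0, IsSelfAdjoint.zero M, Subsingleton.elim _ _, fun ξ _ => by simpa using hδ, ?_⟩
    rw [Subsingleton.elim (_ - _ - _) (0 : M), norm_zero]
    positivity
  set t : ℝ := (θ 1).re with ht
  have ht1 : θ 1 = (t : ℂ) := Complex.ext rfl (by
    simpa using (Complex.nonneg_iff.1 h01).2.symm)
  have ht0 : 0 < t := lt_of_le_of_ne (Complex.nonneg_iff.1 h01).1 fun h => h0 (by
    rw [ht1, ← h, Complex.ofReal_zero])
  let θ' : M →ₚ[ℂ] ℂ := PositiveLinearMap.mk₀ (((t⁻¹ : ℝ) : ℂ) • θ.toLinearMap) fun y hy =>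
    mul_nonneg (Complex.zero_le_real.2 (inv_nonneg.2 ht0.le)) (θ.map_nonneg hy)
  have hθ' : ∀ y, θ' y = ((t⁻¹ : ℝ) : ℂ) * θ y := fun _ => rfl
  have hne : ((t⁻¹ : ℝ) : ℂ) ≠ 0 := Complex.ofReal_ne_zero.2 (inv_pos.2 ht0).ne'
  obtain ⟨X, _, _, _, Γ, hΓ⟩ := exists_gel hA
  obtain ⟨c, rfl, rfl⟩ := exists_ctx W Γ
  letI : MeasurableSpace X := borel X
  haveI : BorelSpace X := ⟨rfl⟩
  obtain ⟨n, rfl⟩ := exists_nctx c (θ := θ')
    (fun e he => by
      obtain ⟨F', d, hd, h⟩ := hn (e * t) (by positivity)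
      refine ⟨F', d, hd, fun y h1 h2 => ?_⟩
      rw [hθ', Complex.re_ofReal_mul, inv_mul_lt_iff₀ ht0, mul_comm]
      exact h y h1 h2)
    (fun a ha y => by rw [hθ', hθ', hc a (hΓ ▸ ha) y])
    (fun y hy => hf y ((mul_eq_zero.1 ((hθ' _).symm.trans hy)).resolve_left hne))
    (by rw [hθ', ht1, ← Complex.ofReal_mul, inv_mul_cancel₀ ht0.ne', Complex.ofReal_one])
  obtain ⟨p, hp, z, h1, h2, h3, h4⟩ := n.thmN hx hx1 hε hε1 hr F hδ
  refine ⟨p, hΓ ▸ hp, n.Γ.Φ (n.E x), ?_, n.toCtx.Φ_E_selfAdjoint hx,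
    (n.toCtx.norm_Φ_E_le x).trans hx1, z, h1, h2, h3, h4⟩
  change _ ∈ (A : Set M)
  rw [← hΓ]
  exact ⟨_, rfl⟩

end Crest.Agent.R109
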