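import Crest.Agent.R109.Sing2
import Crest.Agent.R109.Sing3
import Crest.Agent.R109.CondExp

/-! Row 109: paving when there is no normal central functional. -/

set_option autoImplicit false

open scoped ComplexOrder InnerProductSpace ComplexConjugate
open Filter Topology MeasureTheory

namespace Crest.Agent.R109

variable {M H : Type*} [CStarAlgebra M] [PartialOrder M] [StarOrderedRing M]
  [NormedAddCommGroup H] [InnerProductSpace ℂ H] [CompleteSpace H]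

omit [PartialOrder M] [StarOrderedRing M] in
theorem thms_cut_est {q b D : M} (hq : IsStarProjection q) (hb : IsSelfAdjoint b) {ε C : ℝ}
    (h0 : ‖(1 - b) * q‖ ≤ ε) (h1 : ‖b * D * q‖ ≤ ε) (hD : ‖D‖ ≤ C) :
    ‖q * D * q‖ ≤ ε * C + ε := by
  have hq1 : ‖q‖ ≤ 1 := hq.norm_le
  have hε : 0 ≤ ε := (norm_nonneg _).trans h0
  have hC : 0 ≤ C := (norm_nonneg _).trans hD
  have h2 : ‖q * (1 - b)‖ ≤ ε := by
    rw [← norm_star, star_mul, star_sub, star_one, hb.star_eq, hq.isSelfAdjoint.star_eq]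
    exact h0
  have e : q * D * q = q * (1 - b) * D * q + q * (b * D * q) := by noncomm_ring
  rw [e]
  have a1 : ‖q * (1 - b) * D * q‖ ≤ ε * C := by
    calc ‖q * (1 - b) * D * q‖ ≤ ‖q * (1 - b) * D‖ * ‖q‖ := norm_mul_le _ _
      _ ≤ ‖q * (1 - b) * D‖ * 1 := by gcongr
      _ ≤ ‖q * (1 - b)‖ * ‖D‖ := by rw [mul_one]; exact norm_mul_le _ _
      _ ≤ ε * C := by gcongr
  have a2 : ‖q * (b * D * q)‖ ≤ ε := by
    calc ‖q * (b * D * q)‖ ≤ ‖q‖ * ‖b * D * q‖ := norm_mul_le _ _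
      _ ≤ 1 * ε := by gcongr
      _ = ε := one_mul _
  exact (norm_add_le _ _).trans (add_le_add a1 a2)

omit [PartialOrder M] [StarOrderedRing M] in
theorem thms_conj_le {q : M} (hq : IsStarProjection q) (y : M) : ‖q * y * q‖ ≤ ‖y‖ := by
  have hq1 : ‖q‖ ≤ 1 := hq.norm_le
  calc ‖q * y * q‖ ≤ ‖q * y‖ * ‖q‖ := norm_mul_le _ _
    _ ≤ (‖q‖ * ‖y‖) * ‖q‖ := by gcongr; exact norm_mul_le _ _
    _ ≤ (1 * ‖y‖) * 1 := by gcongr
    _ = ‖y‖ := by ring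

theorem thms_inv_norm {r : ℕ} : ‖(r : ℂ)⁻¹‖ = 1 / (r : ℝ) := by
  rw [norm_inv, Complex.norm_natCast, one_div]

theorem thms_inv_le {r : ℕ} (hr : 0 < r) : 1 / (r : ℝ) ≤ 1 := by
  have : (1 : ℝ) ≤ r := by exact_mod_cast hr
  exact (div_le_one (by linarith)).2 this

theorem thms_one_sub_norm {r : ℕ} (hr : 0 < r) : ‖1 - (r : ℂ)⁻¹‖ ≤ 1 := by
  have h1 := thms_inv_le hr
  have h2 : (0 : ℝ) ≤ 1 / (r : ℝ) := by positivity
  have e : 1 - (r : ℂ)⁻¹ = ((1 - 1 / (r : ℝ) : ℝ) : ℂ) := by push_cast; ring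
  rw [e, Complex.norm_real, Real.norm_eq_abs, abs_le]
  constructor <;> linarith

theorem thms_lt_of_sq {a δ ε s : ℝ} (hδ : 0 < δ) (hε : 0 < ε) (h : a ^ 2 ≤ s / ε ^ 2)
    (hs : s < δ ^ 2 * ε ^ 2) : a < δ := by
  have h1 : s / ε ^ 2 < δ ^ 2 := by rw [div_lt_iff₀ (by positivity)]; exact hs
  exact lt_of_pow_lt_pow_left₀ 2 hδ.le (h.trans_lt h1)

theorem thms_small {K S t : ℝ} (hK : 0 ≤ K) (hS : 0 ≤ S) (ht : 0 ≤ t) :
    K * (t / (K * S + 1)) * S ≤ t := by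
  have h : 0 < K * S + 1 := by positivity
  have e : K * (t / (K * S + 1)) * S = t * (K * S / (K * S + 1)) := by field_simp
  rw [e]
  have : K * S / (K * S + 1) ≤ 1 := by rw [div_le_one h]; linarith
  exact mul_le_of_le_one_right ht this

/-- Take `Γ` (`exists_gel`), `c` (`exists_ctx`), `a = Φ (E x)`, `z = x - a`, `b, P` from `exists_thin`,
`Q k ≤ P` from `exists_avg` (`WT_EP_zero`, `fine_le`), `p` from `colour_one`, and `q` from
`exists_cut` for `T₀ = 1 - b`, `T₁ = b (pinch p z - z/r)` at level `η/5`: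
`‖q (pinch p z - z/r) q‖ ≤ ‖q (1 - b)‖ 4 + ‖T₁ q‖`; `pinch p x - a = pinch p z`. -/
theorem thmS_so (W : WSt M H) {A : StarSubalgebra ℂ M} (hA : Masa A)
    (hs : ∀ θ : M →ₚ[ℂ] ℂ, W.Normal θ → Central (A : Set M) θ → θ 1 = 0) {x : M}
    (hx : IsSelfAdjoint x) (hx1 : ‖x‖ ≤ 1) {r : ℕ} (hr : 0 < r) (F : Finset H) {δ η : ℝ}
    (hδ : 0 < δ) (hη : 0 < η) :
    ∃ p : Fin r → M, IsPart (A : Set M) p ∧ ∃ a ∈ A, IsSelfAdjoint a ∧ ‖a‖ ≤ 1 ∧
      ∃ q : M, IsStarProjection q ∧ W.Small F δ (1 - q) ∧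
        ‖q * (pinch p x - a) * q‖ ≤ 2 / r + η := by
  obtain ⟨X, _, _, _, Γ, hΓ⟩ := exists_gel hA
  obtain ⟨c, hcW, hcΓ⟩ := exists_ctx W Γ
  subst hcW hcΓ
  rw [← hΓ] at hs
  set ε : ℝ := η / 5 with hε
  have hε0 : 0 < ε := by positivity
  set S : ℝ := ∑ ξ ∈ F, ‖ξ‖ ^ 2 with hS
  have hS0 : 0 ≤ S := Finset.sum_nonneg fun _ _ => sq_nonneg _
  set t : ℝ := δ * ε / 4 with ht
  have ht0 : 0 < t := by positivity
  have hη' : 0 < t ^ 2 / (100 * S + 1) := by positivity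
  obtain ⟨b, P, hb0, hb1, hbs, hbP⟩ := exists_thin c.W c.Γ hs F ht0 hη'
  set a : M := c.Γ.Φ (c.E x) with ha
  have ha1 : ‖a‖ ≤ 1 := (c.norm_Φ_E_le x).trans hx1
  set z : M := x - a with hz
  have hz2 : ‖z‖ ≤ 2 := (norm_sub_le _ _).trans (by linarith)
  have hEz : c.E z = 0 := by rw [hz, map_sub, ha, c.E_Φ, sub_self]
  obtain ⟨L, Q, hL, hQ, havg⟩ := c.W.exists_avg (C := 2) (y := fun P => c.Γ.EP P z)
    (fun P => ((c.Γ.ea_isPart P).norm_pinch_le z).trans hz2) (c.WT_EP_zero hEz)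
    (P := {Q | Q ≤ P}) (fine_le P) F ht0
  obtain ⟨p, hp, hcol⟩ := colour_one c.W c.Γ hb0 hb1 hbP hr F hL Q hQ hz2
  set D : M := pinch p z - (r : ℂ)⁻¹ • z with hD
  set v : M := (L : ℂ)⁻¹ • ∑ k, c.Γ.EP (Q k) z with hv
  obtain ⟨q, hq, hT, hsm⟩ := c.W.exists_cut (J := Bool) (fun j => cond j (1 - b) (b * D)) hε0
  have hbn : ‖b‖ ≤ 1 := (CStarAlgebra.norm_le_one_iff_of_nonneg b hb0).2 hb1
  have hr1 := thms_inv_le hr
  have hD4 : ‖D‖ ≤ 4 := by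
    refine (norm_sub_le _ _).trans ?_
    have h1 := (hp.norm_pinch_le z).trans hz2
    have h2 : ‖(r : ℂ)⁻¹ • z‖ ≤ 2 := by
      rw [norm_smul, thms_inv_norm]
      calc 1 / (r : ℝ) * ‖z‖ ≤ 1 * 2 := by gcongr
        _ = 2 := one_mul _
    linarith
  refine ⟨p, hΓ ▸ hp, a, ?_, c.Φ_E_selfAdjoint hx, ha1, q, hq, ?_, ?_⟩
  · have : a ∈ Set.range c.Γ.Φ := ⟨_, rfl⟩
    rw [hΓ] at this
    exact this
  · intro ξ hξ
    refine thms_lt_of_sq hδ hε0 (hsm ξ) ?_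
    rw [Fintype.sum_bool]
    simp only [cond_true, cond_false]
    have h1 := hbs ξ hξ
    have h2 := havg ξ hξ
    have h3 : ‖c.W.ρ (b * (D - (1 - (r : ℂ)⁻¹) • v)) ξ‖ ^ 2 ≤ t ^ 2 := by
      refine le_trans (Finset.single_le_sum
        (f := fun ξ => ‖c.W.ρ (b * (D - (1 - (r : ℂ)⁻¹) • v)) ξ‖ ^ 2)
        (fun _ _ => sq_nonneg _) hξ) (hcol.trans ?_)
      exact thms_small (by norm_num) hS0 (sq_nonneg _)
    have h3' : ‖c.W.ρ (b * (D - (1 - (r : ℂ)⁻¹) • v)) ξ‖ ≤ t :=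
      le_of_sq_le_sq h3 ht0.le
    have h4 : ‖c.W.ρ (b * ((1 - (r : ℂ)⁻¹) • v)) ξ‖ ≤ t := by
      refine (c.W.norm_mul_apply_le _ _ _).trans ?_
      rw [map_smul, smul_apply, norm_smul]
      have := thms_one_sub_norm hr
      calc ‖b‖ * (‖1 - (r : ℂ)⁻¹‖ * ‖c.W.ρ v ξ‖) ≤ 1 * (1 * t) := by gcongr
        _ = t := by ring
    have h5 : ‖c.W.ρ (b * D) ξ‖ ≤ 2 * t := by
      have e : b * D = b * (D - (1 - (r : ℂ)⁻¹) • v) + b * ((1 - (r : ℂ)⁻¹) • v) := by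
        rw [← mul_add, sub_add_cancel]
      rw [e, map_add, add_apply]
      exact (norm_add_le _ _).trans (by linarith)
    have h6 : ‖c.W.ρ (1 - b) ξ‖ ^ 2 ≤ t ^ 2 := by gcongr
    have h7 : ‖c.W.ρ (b * D) ξ‖ ^ 2 ≤ (2 * t) ^ 2 := by gcongr
    have h8 : δ ^ 2 * ε ^ 2 = 16 * t ^ 2 := by rw [ht]; ring
    have h9 : 0 < t ^ 2 := by positivity
    nlinarith
  · have e1 : pinch p x - a = pinch p z := by
      rw [hz, pinch_sub, hp.pinch_eq_self (a := a)]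
      intro i
      obtain ⟨f, hf⟩ := hp.mem i
      rw [← hf, ha]
      exact c.Γ.comm _ _
    have e2 : q * pinch p z * q = q * D * q + q * ((r : ℂ)⁻¹ • z) * q := by
      rw [← add_mul, ← mul_add, hD, sub_add_cancel]
    rw [e1, e2]
    have h1 := thms_cut_est hq (IsSelfAdjoint.of_nonneg hb0) (hT true) (hT false) hD4
    have h2 : ‖q * ((r : ℂ)⁻¹ • z) * q‖ ≤ 2 / r := by
      refine (thms_conj_le hq _).trans ?_
      rw [norm_smul, thms_inv_norm]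
      calc 1 / (r : ℝ) * ‖z‖ ≤ 1 / (r : ℝ) * 2 := by gcongr
        _ = 2 / r := by ring
    refine (norm_add_le _ _).trans ?_
    linarith

/-- `colour_two` and `exists_cut` for `1 - b` and the `b (p a - 1/r)`. -/
theorem thmS_thin (W : WSt M H) {A : StarSubalgebra ℂ M} (hA : Masa A)
    (hs : ∀ θ : M →ₚ[ℂ] ℂ, W.Normal θ → Central (A : Set M) θ → θ 1 = 0)
    {r : ℕ} (hr : 0 < r) (F : Finset H) {δ η : ℝ} (hδ : 0 < δ) (hη : 0 < η) :
    ∃ p : Fin r → M, IsPart (A : Set M) p ∧ ∃ q : M, IsStarProjection q ∧ W.Small F δ (1 - q) ∧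
      ∀ a, ‖q * p a * q‖ ≤ 1 / r + η := by
  obtain ⟨X, _, _, _, Γ, hΓ⟩ := exists_gel hA
  rw [← hΓ] at hs
  set ε : ℝ := η / 3 with hε
  have hε0 : 0 < ε := by positivity
  set S : ℝ := ∑ ξ ∈ F, ‖ξ‖ ^ 2 with hS
  have hS0 : 0 ≤ S := Finset.sum_nonneg fun _ _ => sq_nonneg _
  set t : ℝ := δ * ε / 2 with ht
  have ht0 : 0 < t := by positivity
  have hη' : 0 < t ^ 2 / (r * S + 1) := by positivity
  obtain ⟨b, P, hb0, hb1, hbs, hbP⟩ := exists_thin W Γ hs F ht0 hη'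
  obtain ⟨p, hp, hcol⟩ := colour_two W Γ hb0 hb1 hbP hr F
  obtain ⟨q, hq, hT, hsm⟩ := W.exists_cut (J := Option (Fin r))
    (fun j => Option.elim j (1 - b) (fun a => b * (p a - (r : ℂ)⁻¹ • 1))) hε0
  have hr1 := thms_inv_le hr
  have hone : ‖(r : ℂ)⁻¹ • (1 : M)‖ ≤ 1 / r := by
    rw [norm_smul, thms_inv_norm]
    have : ‖(1 : M)‖ ≤ 1 := (IsStarProjection.one M).norm_le
    calc 1 / (r : ℝ) * ‖(1 : M)‖ ≤ 1 / (r : ℝ) * 1 := by gcongr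
      _ = 1 / r := mul_one _
  refine ⟨p, hΓ ▸ hp, q, hq, ?_, ?_⟩
  · intro ξ hξ
    refine thms_lt_of_sq hδ hε0 (hsm ξ) ?_
    rw [Fintype.sum_option]
    simp only [Option.elim]
    have h1 := hbs ξ hξ
    have h3 : ∑ a, ‖W.ρ (b * (p a - (r : ℂ)⁻¹ • 1)) ξ‖ ^ 2 ≤ t ^ 2 := by
      refine le_trans (Finset.single_le_sum
        (f := fun ξ => ∑ a, ‖W.ρ (b * (p a - (r : ℂ)⁻¹ • 1)) ξ‖ ^ 2)
        (fun _ _ => Finset.sum_nonneg fun _ _ => sq_nonneg _) hξ) (hcol.trans ?_)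
      exact thms_small (Nat.cast_nonneg _) hS0 (sq_nonneg _)
    have h6 : ‖W.ρ (1 - b) ξ‖ ^ 2 ≤ t ^ 2 := by gcongr
    have h8 : δ ^ 2 * ε ^ 2 = 4 * t ^ 2 := by rw [ht]; ring
    have h9 : 0 < t ^ 2 := by positivity
    linarith
  · intro a
    have hD : ‖p a - (r : ℂ)⁻¹ • 1‖ ≤ 2 := by
      refine (norm_sub_le _ _).trans ?_
      have := (hp.proj a).norm_le
      linarith
    have e2 : q * p a * q = q * (p a - (r : ℂ)⁻¹ • 1) * q + q * ((r : ℂ)⁻¹ • 1) * q := by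
      rw [← add_mul, ← mul_add, sub_add_cancel]
    rw [e2]
    have h1 := thms_cut_est hq (IsSelfAdjoint.of_nonneg hb0) (hT none) (hT (some a)) hD
    have h2 := (thms_conj_le hq _).trans hone
    refine (norm_add_le _ _).trans ?_
    linarith

end Crest.Agent.R109
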