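import Crest.Agent.R109.ThmN
import Crest.Agent.R109.ThmS
import Crest.Agent.R109.Supp
import Crest.Agent.R109.Corner
import Crest.Agent.R124.VN

/-! Row 109: the two paving theorems. -/

set_option autoImplicit false

open scoped ComplexOrder InnerProductSpace ComplexConjugate ENNReal
open Filter Topology MeasureTheory

namespace Crest.Agent.R109

section abstract

variable {M H : Type*} [CStarAlgebra M] [PartialOrder M] [StarOrderedRing M]
  [NormedAddCommGroup H] [InnerProductSpace ℂ H] [CompleteSpace H]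

omit [PartialOrder M] [StarOrderedRing M] in
/-- Glue partitions of the corners `s`, `f` and the projection `1 - s - f`. -/
theorem glue_part {A : StarSubalgebra ℂ M} {s f : M} (hs : IsStarProjection s)
    (hf : IsStarProjection f) (hsA : s ∈ A) (hfA : f ∈ A) (hsf : s * f = 0) {r₁ r₂ : ℕ}
    (p₁ : Fin r₁ → M) (p₂ : Fin r₂ → M) (h₁ : ∀ i, p₁ i ∈ A ∧ IsStarProjection (p₁ i))
    (h₂ : ∀ i, p₂ i ∈ A ∧ IsStarProjection (p₂ i)) (o₁ : ∀ i j, i ≠ j → p₁ i * p₁ j = 0)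
    (o₂ : ∀ i j, i ≠ j → p₂ i * p₂ j = 0) (s₁ : ∑ i, p₁ i = s) (s₂ : ∑ i, p₂ i = f) :
    ∃ p : Fin (r₁ + r₂ + 1) → M, IsPart (A : Set M) p ∧ ∀ y,
      pinch p y = pinch p₁ y + pinch p₂ y + (1 - s - f) * y * (1 - s - f) := by
  classical
  have hfs : f * s = 0 := by
    have := congrArg star hsf
    rwa [star_mul, hs.isSelfAdjoint.star_eq, hf.isSelfAdjoint.star_eq, star_zero] at this
  have hss : s * s = s := hs.isIdempotentElem
  have hff : f * f = f := hf.isIdempotentElem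
  have a₁ : ∀ i, p₁ i * s = p₁ i := fun i => by
    rw [← s₁, Finset.mul_sum, Finset.sum_eq_single i (fun j _ hj => o₁ i j (Ne.symm hj))
      (by simp)]
    exact (h₁ i).2.isIdempotentElem
  have a₂ : ∀ i, p₂ i * f = p₂ i := fun i => by
    rw [← s₂, Finset.mul_sum, Finset.sum_eq_single i (fun j _ hj => o₂ i j (Ne.symm hj))
      (by simp)]
    exact (h₂ i).2.isIdempotentElem
  have b₁ : ∀ i, s * p₁ i = p₁ i := fun i => by
    have := congrArg star (a₁ i)
    rwa [star_mul, hs.isSelfAdjoint.star_eq, (h₁ i).2.isSelfAdjoint.star_eq] at this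
  have b₂ : ∀ i, f * p₂ i = p₂ i := fun i => by
    have := congrArg star (a₂ i)
    rwa [star_mul, hf.isSelfAdjoint.star_eq, (h₂ i).2.isSelfAdjoint.star_eq] at this
  have c₁ : ∀ i, p₁ i * f = 0 := fun i => by rw [← a₁ i, mul_assoc, hsf, mul_zero]
  have c₂ : ∀ i, p₂ i * s = 0 := fun i => by rw [← a₂ i, mul_assoc, hfs, mul_zero]
  have d₁ : ∀ i, f * p₁ i = 0 := fun i => by rw [← b₁ i, ← mul_assoc, hfs, zero_mul]
  have d₂ : ∀ i, s * p₂ i = 0 := fun i => by rw [← b₂ i, ← mul_assoc, hsf, zero_mul]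
  have hg : IsStarProjection (1 - s - f) := by
    refine ⟨?_, ?_⟩
    · unfold IsIdempotentElem
      simp only [mul_sub, sub_mul, one_mul, mul_one, hss, hff, hsf, hfs]
      abel
    · simp only [IsSelfAdjoint, star_sub, star_one, hs.isSelfAdjoint.star_eq,
        hf.isSelfAdjoint.star_eq]
  let e : (Fin r₁ ⊕ Fin r₂) ⊕ Fin 1 ≃ Fin (r₁ + r₂ + 1) :=
    (Equiv.sumCongr finSumFinEquiv (Equiv.refl _)).trans finSumFinEquiv
  let p' : (Fin r₁ ⊕ Fin r₂) ⊕ Fin 1 → M := Sum.elim (Sum.elim p₁ p₂) fun _ => 1 - s - f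
  refine ⟨fun i => p' (e.symm i), ⟨fun i => ?_, fun i => ?_, fun i j hij => ?_, ?_⟩, fun y => ?_⟩
  · rcases e.symm i with (a | a) | a
    · exact (h₁ a).1
    · exact (h₂ a).1
    · exact sub_mem (sub_mem (one_mem A) hsA) hfA
  · rcases e.symm i with (a | a) | a
    · exact (h₁ a).2
    · exact (h₂ a).2
    · exact hg
  · have hne : e.symm i ≠ e.symm j := fun h => hij (e.symm.injective h)
    revert hne
    rcases e.symm i with (a | a) | a <;> rcases e.symm j with (b | b) | b <;> intro hne <;>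
      simp only [p', Sum.elim_inl, Sum.elim_inr]
    · exact o₁ a b (by simpa using hne)
    · rw [← b₂ b, ← mul_assoc, c₁, zero_mul]
    · simp [mul_sub, a₁, c₁]
    · rw [← b₁ b, ← mul_assoc, c₂, zero_mul]
    · exact o₂ a b (by simpa using hne)
    · simp [mul_sub, a₂, c₂]
    · simp [sub_mul, b₁, d₁]
    · simp [sub_mul, b₂, d₂]
    · exact absurd (by rw [Subsingleton.elim a b]) hne
  · rw [Equiv.sum_comp e.symm p']
    simp [p', Fintype.sum_sum_type, s₁, s₂]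
  · unfold pinch
    rw [Equiv.sum_comp e.symm (fun i => p' i * y * p' i)]
    simp [p', Fintype.sum_sum_type]

omit [PartialOrder M] [StarOrderedRing M] in
lemma top_proj_add {s f : M} (hs : IsStarProjection s) (hf : IsStarProjection f)
    (hsf : s * f = 0) : IsStarProjection (s + f) := hs.add hf hsf

/-- The norm of a sum of elements of orthogonal corners. -/
lemma top_norm_add {s f a b : M} (hs : IsStarProjection s) (hf : IsStarProjection f)
    (hsf : s * f = 0) (ha : s * a * s = a) (hb : f * b * f = b) {C : ℝ} (hC : 0 ≤ C)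
    (h1 : ‖a‖ ≤ C) (h2 : ‖b‖ ≤ C) : ‖a + b‖ ≤ C := by
  have hfs : f * s = 0 := by
    have := congrArg star hsf
    rwa [star_mul, hs.isSelfAdjoint.star_eq, hf.isSelfAdjoint.star_eq, star_zero] at this
  have := norm_sum_block_le (p := ![s, f]) (q := ![s, f]) (a := ![a, b])
    (fun i => by fin_cases i <;> simpa) (fun i j hij => by fin_cases i <;> fin_cases j <;> simp_all)
    (fun i => by fin_cases i <;> simpa) (fun i j hij => by fin_cases i <;> fin_cases j <;> simp_all)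
    hC (fun i => by fin_cases i <;> simp [ha, hb, h1, h2])
  simpa [Fin.sum_univ_two, ha, hb] using this

omit [PartialOrder M] [StarOrderedRing M] in
lemma top_val_pinch {s : M} {hs : IsStarProjection s} {r : ℕ} (p : Fin r → R124.Cn hs) (x : M) :
    (pinch p (R124.Cn.comp hs x)).val = pinch (fun i => (p i).val) x := by
  unfold pinch
  rw [R124.Cn.val_sum]
  refine Finset.sum_congr rfl fun i _ => ?_
  simp only [R124.Cn.val_mul, R124.Cn.val_comp]
  rw [← mul_assoc, ← mul_assoc, (p i).mul_p, mul_assoc _ s, (p i).p_mul]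

omit [PartialOrder M] [StarOrderedRing M] in
lemma top_val_pinch' {s : M} {hs : IsStarProjection s} {r : ℕ} (p : Fin r → R124.Cn hs)
    (x : R124.Cn hs) : (pinch p x).val = pinch (fun i => (p i).val) x.val := by
  unfold pinch
  rw [R124.Cn.val_sum]
  rfl

omit [PartialOrder M] [StarOrderedRing M] in
lemma top_comp_sa {s : M} (hs : IsStarProjection s) {x : M} (hx : IsSelfAdjoint x) :
    IsSelfAdjoint (R124.Cn.comp hs x) := R124.Cn.ext (by
  simp only [R124.Cn.val_star, R124.Cn.val_comp, star_mul, hs.isSelfAdjoint.star_eq, hx.star_eq,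
    mul_assoc])

omit [PartialOrder M] [StarOrderedRing M] in
lemma top_norm_conj {s : M} (hs : IsStarProjection s) (x : M) : ‖s * x * s‖ ≤ ‖x‖ := by
  have h1 := hs.norm_le
  calc ‖s * x * s‖ ≤ ‖s‖ * ‖x‖ * ‖s‖ :=
        (norm_mul_le _ _).trans (mul_le_mul_of_nonneg_right (norm_mul_le _ _) (norm_nonneg _))
    _ ≤ 1 * ‖x‖ * 1 := by gcongr
    _ = ‖x‖ := by ring

omit [PartialOrder M] [StarOrderedRing M] in
lemma top_part {A : StarSubalgebra ℂ M} {s : M} {hs : IsStarProjection s}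
    {A' : StarSubalgebra ℂ (R124.Cn hs)} (hA : ∀ a, a ∈ A' ↔ a.val ∈ A) {r : ℕ}
    {p : Fin r → R124.Cn hs} (hp : IsPart (A' : Set (R124.Cn hs)) p) :
    (∀ i, (p i).val ∈ A ∧ IsStarProjection (p i).val) ∧
      (∀ i j, i ≠ j → (p i).val * (p j).val = 0) ∧ ∑ i, (p i).val = s :=
  ⟨fun i => ⟨(hA _).1 (hp.mem i), (R124.Cn.isStarProjection_iff _).1 (hp.proj i)⟩,
    fun i j hij => congrArg R124.Cn.val (hp.orth i j hij), by
      rw [← R124.Cn.val_sum, hp.sum, R124.Cn.val_one]⟩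

omit [PartialOrder M] [StarOrderedRing M] in
lemma top_orth {s f : M} {hs : IsStarProjection s} {hf : IsStarProjection f} (hsf : s * f = 0)
    (a : R124.Cn hs) (b : R124.Cn hf) : a.val * b.val = 0 ∧ b.val * a.val = 0 := by
  have hfs : f * s = 0 := by
    have := congrArg star hsf
    rwa [star_mul, hs.isSelfAdjoint.star_eq, hf.isSelfAdjoint.star_eq, star_zero] at this
  constructor
  · rw [← a.mul_p, ← b.p_mul, mul_assoc, ← mul_assoc s, hsf, zero_mul, mul_zero]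
  · rw [← b.mul_p, ← a.p_mul, mul_assoc, ← mul_assoc f, hfs, zero_mul, mul_zero]

omit [PartialOrder M] [StarOrderedRing M] in
lemma top_rest {s f : M} {hs : IsStarProjection s} (hsf : s * f = 0) (hfs : f * s = 0)
    (a : R124.Cn hs) : a.val * (1 - s - f) = 0 ∧ (1 - s - f) * a.val = 0 := by
  constructor
  · rw [mul_sub, mul_sub, mul_one, a.mul_p, sub_self, ← a.mul_p, mul_assoc, hsf, mul_zero,
      sub_zero]
  · rw [sub_mul, sub_mul, one_mul, a.p_mul, sub_self, ← a.p_mul, ← mul_assoc, hfs, zero_mul,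
      sub_zero]

/-- `exists_decomp`; in the corner `s` use `thmN` and `exists_cut` (for `T = z`, level `ε/2`), in
the corner `f` use `thmS_so` (`2 / r₂ ≤ ε/2`, `η = ε/2`); `q = q₁ + q₂`, `a = a₁ + a₂`; the norm of a
sum of elements of orthogonal corners is the maximum (`norm_sum_block_le`). -/
theorem so_pave (W : WSt M H) {A : StarSubalgebra ℂ M} (hA : Masa A) {x : M}
    (hx : IsSelfAdjoint x) (hx1 : ‖x‖ ≤ 1) {ε : ℝ} (hε : 0 < ε) (hε1 : ε < 1) {r₁ r₂ : ℕ}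
    (hr₁ : 400000000 / ε ^ 2 ≤ r₁) (hr₂ : 4 / ε ≤ r₂) (F : Finset H) {δ : ℝ} (hδ : 0 < δ) :
    ∃ p : Fin (r₁ + r₂ + 1) → M, IsPart (A : Set M) p ∧ ∃ a ∈ A, IsSelfAdjoint a ∧ ‖a‖ ≤ 1 ∧
      ∃ q : M, IsStarProjection q ∧ W.Small F δ (1 - q) ∧ ‖q * (pinch p x - a) * q‖ ≤ ε := by
  obtain ⟨s, hsA, f, hfA, hs, hf, hsf, hsm, ⟨θ, hn, hc, hfa⟩, hno⟩ :=
    exists_decomp W hA F (show 0 < δ / 3 by positivity)
  have hfs : f * s = 0 := by
    have := congrArg star hsf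
    rwa [star_mul, hs.isSelfAdjoint.star_eq, hf.isSelfAdjoint.star_eq, star_zero] at this
  obtain ⟨W₁, hW₁⟩ := W.exists_corner hs
  obtain ⟨W₂, hW₂⟩ := W.exists_corner hf
  obtain ⟨A₁, hA₁, mA₁⟩ := hA.exists_corner hs hsA
  obtain ⟨A₂, hA₂, mA₂⟩ := hA.exists_corner hf hfA
  obtain ⟨θ₁, n₁, c₁, f₁⟩ := corner_restrict hs hW₁ mA₁ hn hc hfa
  have hno₂ : ∀ θ' : R124.Cn hf →ₚ[ℂ] ℂ, W₂.Normal θ' → Central (A₂ : Set (R124.Cn hf)) θ' →
      θ' 1 = 0 := fun θ' h1 h2 => by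
    obtain ⟨θ'', k1, k2, k3⟩ := corner_extend hf hW₂ hA hfA mA₂ h1 h2
    rw [← k3, hno θ'' k1 k2]
  have hx₁ : ‖R124.Cn.comp hs x‖ ≤ 1 := (top_norm_conj hs x).trans hx1
  have hx₂ : ‖R124.Cn.comp hf x‖ ≤ 1 := (top_norm_conj hf x).trans hx1
  obtain ⟨p₁, hp₁, a₁, ha₁, sa₁, na₁, z, -, -, hz, hb₁⟩ := thmN W₁ hA₁ n₁ c₁ f₁ (top_comp_sa hs hx)
    hx₁ hε hε1 hr₁ F (show 0 < δ / 3 * (ε / 2) by positivity)
  obtain ⟨q₁, hq₁, hT, hq₁s⟩ := W₁.exists_cut (fun _ : Unit => z) (show 0 < ε / 2 by positivity)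
  have hr₂0 : (0 : ℝ) < r₂ := lt_of_lt_of_le (by positivity) hr₂
  obtain ⟨p₂, hp₂, a₂, ha₂, sa₂, na₂, q₂, hq₂, hq₂s, hb₂⟩ := thmS_so W₂ hA₂ hno₂
    (top_comp_sa hf hx) hx₂ (Nat.cast_pos.1 hr₂0) F (show 0 < δ / 3 by positivity)
    (show 0 < ε / 2 by positivity)
  obtain ⟨u₁, u₂, u₃⟩ := top_part mA₁ hp₁
  obtain ⟨v₁, v₂, v₃⟩ := top_part mA₂ hp₂
  obtain ⟨p, hp, hpin⟩ := glue_part hs hf hsA hfA hsf _ _ u₁ v₁ u₂ v₂ u₃ v₃
  refine ⟨p, hp, a₁.val + a₂.val, add_mem ((mA₁ _).1 ha₁) ((mA₂ _).1 ha₂),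
    IsSelfAdjoint.add (congrArg R124.Cn.val sa₁) (congrArg R124.Cn.val sa₂),
    top_norm_add hs hf hsf a₁.prop a₂.prop zero_le_one na₁ na₂, q₁.val + q₂.val,
    top_proj_add ((R124.Cn.isStarProjection_iff _).1 hq₁)
      ((R124.Cn.isStarProjection_iff _).1 hq₂) (top_orth hsf q₁ q₂).1, fun ξ hξ => ?_, ?_⟩
  · have e : (1 : M) - (q₁.val + q₂.val) = (1 - s - f) + (1 - q₁).val + (1 - q₂).val := by
      simp only [R124.Cn.val_sub, R124.Cn.val_one]; abel
    have k1 := hsm ξ hξ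
    have k2 := hq₂s ξ hξ
    have k3 : ‖W₁.ρ (1 - q₁) ξ‖ < δ / 3 := by
      have k4 := hq₁s ξ
      have k5 := hz ξ hξ
      simp only [Finset.univ_unique, Finset.sum_singleton] at k4
      refine lt_of_pow_lt_pow_left₀ 2 (by positivity) (k4.trans_lt ?_)
      rw [div_lt_iff₀ (by positivity), ← mul_pow]
      gcongr
    rw [hW₁] at k3
    rw [hW₂] at k2
    rw [e, map_add, map_add, add_apply, add_apply]
    exact (norm_add₃_le).trans_lt (by linarith)
  · set P₁ := pinch p₁ (R124.Cn.comp hs x) - a₁ with hP₁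
    set P₂ := pinch p₂ (R124.Cn.comp hf x) - a₂ with hP₂
    have e : pinch p x - (a₁.val + a₂.val) = P₁.val + P₂.val + (1 - s - f) * x * (1 - s - f) := by
      rw [hpin, hP₁, hP₂, R124.Cn.val_sub, R124.Cn.val_sub, top_val_pinch, top_val_pinch]
      abel
    have r₁ := (top_rest hsf hfs q₁).1
    have r₂' : q₂.val * (1 - s - f) = 0 := by
      rw [sub_right_comm]; exact (top_rest hfs hsf q₂).1
    have e2 : (q₁.val + q₂.val) * (pinch p x - (a₁.val + a₂.val)) * (q₁.val + q₂.val) =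
        (q₁ * P₁ * q₁).val + (q₂ * P₂ * q₂).val := by
      rw [e]
      have t1 : q₁.val * ((1 - s - f) * x * (1 - s - f)) = 0 := by
        rw [← mul_assoc, ← mul_assoc, r₁, zero_mul, zero_mul]
      have t2 : q₂.val * ((1 - s - f) * x * (1 - s - f)) = 0 := by
        rw [← mul_assoc, ← mul_assoc, r₂', zero_mul, zero_mul]
      have t3 := (top_orth hsf q₁ P₂).1
      have t4 := (top_orth hsf P₁ q₂).2
      have t5 := (top_orth hsf (q₁ * P₁) q₂).1
      have t6 := (top_orth hsf q₁ (q₂ * P₂)).2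
      simp only [R124.Cn.val_mul] at t5 t6 ⊢
      simp only [add_mul, mul_add, t1, t2, t3, t4, t5, t6, add_zero, zero_add]
    rw [e2]
    refine top_norm_add hs hf hsf (R124.Cn.prop _) (R124.Cn.prop _) hε.le ?_ ?_
    · rw [R124.Cn.norm_val]
      have e3 : q₁ * P₁ * q₁ = q₁ * (P₁ - z) * q₁ + q₁ * (z * q₁) := by noncomm_ring
      have k1 := top_norm_conj hq₁ (P₁ - z)
      have k2 : ‖q₁ * (z * q₁)‖ ≤ ε / 2 := by
        refine (norm_mul_le _ _).trans ?_
        calc ‖q₁‖ * ‖z * q₁‖ ≤ 1 * (ε / 2) := by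
              gcongr
              · exact hq₁.norm_le
              · exact hT ()
          _ = ε / 2 := one_mul _
      rw [e3]
      exact (norm_add_le _ _).trans (by linarith)
    · rw [R124.Cn.norm_val]
      have : 2 / (r₂ : ℝ) ≤ ε / 2 := by
        rw [div_le_iff₀ hε] at hr₂
        rw [div_le_iff₀ hr₂0]
        linarith
      linarith

/-- Add to `F` a unit vector `ξ₀` with `‖x ξ₀‖ > 1 - ε/8` and the vectors `x ξ`.  In the corner `s`
use `thmN` with `ε/4` (so `‖z‖ ≤ 2 + ε/8`), in the corner `f` use `thmS_thin`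
(`1 / r₂ + η ≤ ε/4`).  `g = s + q`, `λ = 2 / (2 + ε/8)`, `y = g x g - λ z`: `‖y‖ ≤ 3`,
`x - g x g = (1 - g) x + g x (1 - g)`, `pinch p y = pinch p₁ x + ∑ p₂ q x q p₂ - λ z`,
`‖p₂ a q x q p₂ a‖ ≤ ‖q p₂ a q‖`, so `‖pinch p y - a₁‖ ≤ ε/4`; `‖y‖ ≥ 1 - ε/4`; `a = (1 - ε/4) a₁`. -/
theorem ap_pave (W : WSt M H) {A : StarSubalgebra ℂ M} (hA : Masa A) {x : M}
    (hx : IsSelfAdjoint x) (hx1 : ‖x‖ = 1) {ε : ℝ} (hε : 0 < ε) (hε1 : ε < 1) {r₁ r₂ : ℕ}
    (hr₁ : 400000000 / (ε / 4) ^ 2 ≤ r₁) (hr₂ : 8 / ε ≤ r₂) (F : Finset H) {δ : ℝ}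
    (hδ : 0 < δ) :
    ∃ y : M, IsSelfAdjoint y ∧ ‖y‖ ≤ 3 ∧ W.Small F δ (y - x) ∧
      ∃ p : Fin (r₁ + r₂ + 1) → M, IsPart (A : Set M) p ∧ ∃ a ∈ A, IsSelfAdjoint a ∧
        ‖a‖ ≤ ‖y‖ ∧ ‖pinch p y - a‖ ≤ ε * ‖y‖ := by
  classical
  obtain ⟨ξ₀, hξ₀, hxξ₀⟩ := (W.ρ x).exists_lt_apply_of_lt_opNorm (r := 1 - ε / 8)
    (by rw [W.norm_map, hx1]; linarith)
  set d := min δ (ε / 8) with hd
  have hd0 : 0 < d := lt_min hδ (by positivity)
  set F₁ := insert ξ₀ F with hF₁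
  set F₂ := F₁ ∪ F₁.image (fun ξ => W.ρ x ξ) with hF₂
  obtain ⟨s, hsA, f, hfA, hs, hf, hsf, hsm, ⟨θ, hn, hc, hfa⟩, hno⟩ :=
    exists_decomp W hA F₂ (show 0 < d / 5 by positivity)
  have hfs : f * s = 0 := by
    have := congrArg star hsf
    rwa [star_mul, hs.isSelfAdjoint.star_eq, hf.isSelfAdjoint.star_eq, star_zero] at this
  obtain ⟨W₁, hW₁⟩ := W.exists_corner hs
  obtain ⟨W₂, hW₂⟩ := W.exists_corner hf
  obtain ⟨A₁, hA₁, mA₁⟩ := hA.exists_corner hs hsA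
  obtain ⟨A₂, hA₂, mA₂⟩ := hA.exists_corner hf hfA
  obtain ⟨θ₁, n₁, c₁, f₁⟩ := corner_restrict hs hW₁ mA₁ hn hc hfa
  have hno₂ : ∀ θ' : R124.Cn hf →ₚ[ℂ] ℂ, W₂.Normal θ' → Central (A₂ : Set (R124.Cn hf)) θ' →
      θ' 1 = 0 := fun θ' h1 h2 => by
    obtain ⟨θ'', k1, k2, k3⟩ := corner_extend hf hW₂ hA hfA mA₂ h1 h2
    rw [← k3, hno θ'' k1 k2]
  have hx₁ : ‖R124.Cn.comp hs x‖ ≤ 1 := (top_norm_conj hs x).trans hx1.le
  obtain ⟨p₁, hp₁, a₁, ha₁, sa₁, na₁, z, hzs, hzp, hz, hb₁⟩ := thmN W₁ hA₁ n₁ c₁ f₁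
    (top_comp_sa hs hx) hx₁ (show 0 < ε / 4 by positivity) (by linarith) hr₁ F₂
    (show 0 < d / 5 by positivity)
  have hr₂0 : (0 : ℝ) < r₂ := lt_of_lt_of_le (by positivity) hr₂
  obtain ⟨p₂, hp₂, q, hq, hqs, hb₂⟩ := thmS_thin W₂ hA₂ hno₂ (Nat.cast_pos.1 hr₂0) F₂
    (show 0 < d / 5 by positivity) (show 0 < ε / 8 by positivity)
  obtain ⟨u₁, u₂, u₃⟩ := top_part mA₁ hp₁
  obtain ⟨v₁, v₂, v₃⟩ := top_part mA₂ hp₂
  obtain ⟨p, hp, hpin⟩ := glue_part hs hf hsA hfA hsf _ _ u₁ v₁ u₂ v₂ u₃ v₃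
  have hqv := (R124.Cn.isStarProjection_iff _).1 hq
  have hsq : s * q.val = 0 := (top_orth hsf (1 : R124.Cn hs) q).1
  have hqs' : q.val * s = 0 := (top_orth hsf (1 : R124.Cn hs) q).2
  have hg : IsStarProjection (s + q.val) := top_proj_add hs hqv hsq
  set g := s + q.val with hgdef
  have hzn : ‖z‖ ≤ 2 + ε / 8 := by
    have k1 := (hp₁.norm_pinch_le (R124.Cn.comp hs x)).trans hx₁
    have k2 : z = pinch p₁ (R124.Cn.comp hs x) - a₁ - (pinch p₁ (R124.Cn.comp hs x) - a₁ - z) := by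
      abel
    have k3 := norm_sub_le (pinch p₁ (R124.Cn.comp hs x)) a₁
    rw [k2]
    exact (norm_sub_le _ _).trans (by linarith)
  set l : ℝ := 2 / (2 + ε / 8) with hl
  have hl0 : 0 < l := by positivity
  have hl1 : l * (2 + ε / 8) = 2 := by rw [hl]; field_simp
  have hl2 : l ≤ 1 := by nlinarith
  set y := g * x * g - (l : ℂ) • z.val with hy
  have hsmall : W.Small F₁ d (y - x) := fun ξ hξ => by
    have e : y - x = -((1 - g) * x) - g * x * (1 - g) - (l : ℂ) • z.val := by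
      rw [hy]; noncomm_ring
    have eg : (1 : M) - g = (1 - s - f) + (1 - q).val := by
      simp only [hgdef, R124.Cn.val_sub, R124.Cn.val_one]; abel
    have k0 : ∀ η ∈ F₂, ‖W.ρ (1 - g) η‖ < 2 * (d / 5) := fun η hη => by
      have k1 := hsm η hη
      have k2 := hqs η hη
      rw [hW₂] at k2
      rw [eg, map_add, add_apply]
      exact (norm_add_le _ _).trans_lt (by linarith)
    have k1 := k0 ξ (Finset.mem_union_left _ hξ)
    have k2 := k0 _ (Finset.mem_union_right _ (Finset.mem_image_of_mem _ hξ))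
    have k3 := hz ξ (Finset.mem_union_left _ hξ)
    rw [hW₁] at k3
    rw [← W.mul_apply] at k2
    have k4 := W.norm_mul_apply_le (g * x) (1 - g) ξ
    have k5 : ‖g * x‖ ≤ 1 := (norm_mul_le _ _).trans (by
      rw [hx1, mul_one]; exact hg.norm_le)
    have k6 : ‖W.ρ (g * x * (1 - g)) ξ‖ ≤ ‖W.ρ (1 - g) ξ‖ :=
      k4.trans (mul_le_of_le_one_left (norm_nonneg _) k5)
    have k7 : ‖W.ρ ((l : ℂ) • z.val) ξ‖ ≤ ‖W.ρ z.val ξ‖ := by
      rw [map_smul, smul_apply, norm_smul, Complex.norm_real,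
        Real.norm_of_nonneg hl0.le]
      exact mul_le_of_le_one_left (norm_nonneg _) hl2
    rw [e, map_sub, map_sub, map_neg, sub_apply, sub_apply, neg_apply]
    have k8 := norm_sub_le (-W.ρ ((1 - g) * x) ξ - W.ρ (g * x * (1 - g)) ξ)
      (W.ρ ((l : ℂ) • z.val) ξ)
    have k9 := norm_sub_le (-W.ρ ((1 - g) * x) ξ) (W.ρ (g * x * (1 - g)) ξ)
    rw [norm_neg] at k9
    linarith
  have hyl : 1 - ε / 4 ≤ ‖y‖ := by
    have k1 := hsmall ξ₀ (Finset.mem_insert_self _ _)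
    have k2 : ‖W.ρ y ξ₀‖ ≤ ‖y‖ := by
      refine ((W.ρ y).le_opNorm ξ₀).trans ?_
      rw [W.norm_map]
      exact mul_le_of_le_one_right (norm_nonneg _) hξ₀.le
    have k3 : W.ρ x ξ₀ = W.ρ y ξ₀ - W.ρ (y - x) ξ₀ := by
      rw [map_sub W.ρ y x, sub_apply]; abel
    have k4 := norm_sub_le (W.ρ y ξ₀) (W.ρ (y - x) ξ₀)
    rw [← k3] at k4
    have k5 : d ≤ ε / 8 := min_le_right _ _
    linarith
  have hzsa : star z.val = z.val := congrArg R124.Cn.val hzs
  have hmain : ‖pinch p y - a₁.val‖ ≤ ε / 4 := by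
    have e1 : pinch (fun i => (p₁ i).val) y =
        (pinch p₁ (R124.Cn.comp hs x) - (l : ℂ) • z).val := by
      rw [R124.Cn.val_sub, R124.Cn.val_smul, top_val_pinch, hy, pinch_sub, pinch_smul,
        ← top_val_pinch', hzp]
      congr 1
      unfold pinch
      refine Finset.sum_congr rfl fun i _ => ?_
      have t1 : (p₁ i).val * g = (p₁ i).val := by
        rw [hgdef, mul_add, (p₁ i).mul_p, (top_orth hsf (p₁ i) q).1, add_zero]
      have t2 : g * (p₁ i).val = (p₁ i).val := by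
        rw [hgdef, add_mul, (p₁ i).p_mul, (top_orth hsf (p₁ i) q).2, add_zero]
      rw [← mul_assoc, ← mul_assoc, t1, mul_assoc _ g, t2]
    have e2 : pinch (fun i => (p₂ i).val) y = (pinch p₂ (q * R124.Cn.comp hf x * q)).val := by
      rw [top_val_pinch']
      unfold pinch
      refine Finset.sum_congr rfl fun i _ => ?_
      have t1 : (p₂ i).val * g = (p₂ i).val * q.val := by
        have t0 : (p₂ i).val * s = 0 := (top_orth hsf (1 : R124.Cn hs) (p₂ i)).2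
        rw [hgdef, mul_add, t0, zero_add]
      have t2 : g * (p₂ i).val = q.val * (p₂ i).val := by
        have t0 : s * (p₂ i).val = 0 := (top_orth hsf (1 : R124.Cn hs) (p₂ i)).1
        rw [hgdef, add_mul, t0, zero_add]
      have t3 : (p₂ i).val * ((l : ℂ) • z.val) = 0 := by
        rw [mul_smul_comm, (top_orth hsf z (p₂ i)).2, smul_zero]
      simp only [R124.Cn.val_mul, R124.Cn.val_comp]
      rw [hy, mul_sub, t3, sub_zero, ← mul_assoc, ← mul_assoc, t1, mul_assoc _ g, t2]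
      have t4 : q.val * (f * x * f) * q.val = q.val * x * q.val := by
        rw [← mul_assoc, ← mul_assoc, q.mul_p, mul_assoc _ f, q.p_mul]
      rw [t4]
      simp only [mul_assoc]
    have e3 : (1 - s - f) * y * (1 - s - f) = 0 := by
      have t1 : (1 - s - f) * g = 0 := by
        have t2 := (top_rest hsf hfs (1 : R124.Cn hs)).2
        have t3 : (1 - s - f) * q.val = 0 := by
          rw [sub_right_comm]; exact (top_rest hfs hsf q).2
        rw [hgdef, mul_add, t3, add_zero]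
        exact t2
      have t4 : (1 - s - f) * y = 0 := by
        rw [hy, mul_sub, mul_smul_comm, (top_rest hsf hfs z).2, smul_zero, sub_zero, ← mul_assoc,
          ← mul_assoc, t1, zero_mul, zero_mul]
      rw [t4, zero_mul]
    have e4 : pinch p y - a₁.val = (pinch p₁ (R124.Cn.comp hs x) - a₁ - (l : ℂ) • z).val +
        (pinch p₂ (q * R124.Cn.comp hf x * q)).val := by
      rw [hpin, e1, e2, e3]
      simp only [R124.Cn.val_sub]
      abel
    rw [e4]
    refine top_norm_add hs hf hsf (R124.Cn.prop _) (R124.Cn.prop _) (by positivity) ?_ ?_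
    · rw [R124.Cn.norm_val]
      have t1 : pinch p₁ (R124.Cn.comp hs x) - a₁ - (l : ℂ) • z =
          (pinch p₁ (R124.Cn.comp hs x) - a₁ - z) + ((1 - l : ℝ) : ℂ) • z := by
        rw [Complex.ofReal_sub, Complex.ofReal_one, sub_smul, one_smul]; abel
      have t2 : ‖((1 - l : ℝ) : ℂ) • z‖ ≤ ε / 8 := by
        rw [norm_smul, Complex.norm_real, Real.norm_of_nonneg (by linarith)]
        calc (1 - l) * ‖z‖ ≤ (1 - l) * (2 + ε / 8) := by gcongr
          _ = ε / 8 := by linarith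
      rw [t1]
      exact (norm_add_le _ _).trans (by linarith)
    · rw [R124.Cn.norm_val]
      have hx₂ : ‖R124.Cn.comp hf x‖ ≤ 1 := (top_norm_conj hf x).trans hx1.le
      refine norm_sum_block_le hp₂.proj hp₂.orth hp₂.proj hp₂.orth (by positivity) fun i => ?_
      have t1 : ‖p₂ i * q‖ * ‖p₂ i * q‖ = ‖q * p₂ i * q‖ := by
        rw [← CStarRing.norm_star_mul_self, star_mul, hq.isSelfAdjoint.star_eq,
          (hp₂.proj i).isSelfAdjoint.star_eq, ← mul_assoc, mul_assoc q,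
          (hp₂.proj i).isIdempotentElem.eq]
      have t2 : ‖q * p₂ i‖ = ‖p₂ i * q‖ := by
        rw [← norm_star, star_mul, hq.isSelfAdjoint.star_eq, (hp₂.proj i).isSelfAdjoint.star_eq]
      have t3 : p₂ i * (q * R124.Cn.comp hf x * q) * p₂ i =
          (p₂ i * q) * R124.Cn.comp hf x * (q * p₂ i) := by simp only [mul_assoc]
      have t4 : 1 / (r₂ : ℝ) ≤ ε / 8 := by
        rw [div_le_iff₀ hε] at hr₂
        rw [div_le_iff₀ hr₂0]
        linarith
      have t5 := hb₂ i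
      rw [t3]
      calc ‖p₂ i * q * R124.Cn.comp hf x * (q * p₂ i)‖
          ≤ ‖p₂ i * q‖ * ‖R124.Cn.comp hf x‖ * ‖q * p₂ i‖ :=
            (norm_mul_le _ _).trans (mul_le_mul_of_nonneg_right (norm_mul_le _ _) (norm_nonneg _))
        _ ≤ ‖p₂ i * q‖ * 1 * ‖q * p₂ i‖ := by gcongr
        _ = ‖q * p₂ i * q‖ := by rw [mul_one, t2, t1]
        _ ≤ ε / 4 := by linarith
  have na₁' : ‖a₁.val‖ ≤ 1 := na₁
  refine ⟨y, ?_, ?_, fun ξ hξ => (hsmall ξ (Finset.mem_insert_of_mem hξ)).trans_le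
    (min_le_left _ _), p, hp, ((1 - ε / 4 : ℝ) : ℂ) • a₁.val, SMulMemClass.smul_mem _ ((mA₁ _).1 ha₁),
    ?_, ?_, ?_⟩
  · rw [IsSelfAdjoint, hy, star_sub, star_mul, star_mul, hg.isSelfAdjoint.star_eq, hx.star_eq,
      star_smul, hzsa, Complex.star_def, Complex.conj_ofReal, mul_assoc]
  · have k1 := (top_norm_conj hg x).trans hx1.le
    have k2 : ‖(l : ℂ) • z.val‖ ≤ 2 := by
      rw [norm_smul, Complex.norm_real, Real.norm_of_nonneg hl0.le, R124.Cn.norm_val, ← hl1]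
      gcongr
    exact (norm_sub_le _ _).trans (by linarith)
  · have : star a₁.val = a₁.val := congrArg R124.Cn.val sa₁
    rw [IsSelfAdjoint, star_smul, this, Complex.star_def, Complex.conj_ofReal]
  · rw [norm_smul, Complex.norm_real, Real.norm_of_nonneg (by linarith)]
    exact (mul_le_of_le_one_right (by linarith) na₁').trans hyl
  · have t1 : pinch p y - ((1 - ε / 4 : ℝ) : ℂ) • a₁.val =
        (pinch p y - a₁.val) + ((ε / 4 : ℝ) : ℂ) • a₁.val := by
      rw [Complex.ofReal_sub, Complex.ofReal_one, sub_smul, one_smul]; abel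
    have t2 : ‖((ε / 4 : ℝ) : ℂ) • a₁.val‖ ≤ ε / 4 := by
      rw [norm_smul, Complex.norm_real, Real.norm_of_nonneg (by positivity)]
      exact mul_le_of_le_one_right (by positivity) na₁'
    rw [t1]
    refine (norm_add_le _ _).trans ?_
    nlinarith

end abstract

variable {H : Type*} [NormedAddCommGroup H] [InnerProductSpace ℂ H] [CompleteSpace H]

/-- A bounded ultrafilter has a weak operator limit (the limit sesquilinear form is bounded;
`InnerProductSpace.toDual`, `LinearMap.mkContinuous`), which commutes with the commutant. -/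
theorem exists_wst (P : VonNeumannAlgebra H) :
    ∃ W : WSt P.toStarSubalgebra H, ∀ y, W.ρ y = (y : H →L[ℂ] H) := by
  refine ⟨⟨P.toStarSubalgebra.subtype.toNonUnitalStarAlgHom, Subtype.val_injective,
    fun 𝒰 C hC => ?_⟩, fun _ => rfl⟩
  have hC0 : 0 ≤ C := by
    obtain ⟨y, hy⟩ := hC.exists
    exact (norm_nonneg _).trans hy
  have hb : ∀ ξ η : H, ∀ᶠ y : P.toStarSubalgebra in (𝒰 : Filter _),
      ‖⟪η, (y : H →L[ℂ] H) ξ⟫_ℂ‖ ≤ C * ‖η‖ * ‖ξ‖ := fun ξ η => hC.mono fun y hy => by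
    refine (norm_inner_le_norm _ _).trans ?_
    have h1 : ‖(y : H →L[ℂ] H) ξ‖ ≤ C * ‖ξ‖ :=
      ((y : H →L[ℂ] H).le_opNorm ξ).trans (mul_le_mul_of_nonneg_right hy (norm_nonneg _))
    calc ‖η‖ * ‖(y : H →L[ℂ] H) ξ‖ ≤ ‖η‖ * (C * ‖ξ‖) := by gcongr
      _ = _ := by ring
  have hl : ∀ ξ η : H, ∃ c : ℂ, Tendsto (fun y : P.toStarSubalgebra => ⟪η, (y : H →L[ℂ] H) ξ⟫_ℂ)
      (𝒰 : Filter _) (𝓝 c) := fun ξ η => by
    obtain ⟨c, -, hc⟩ := (isCompact_closedBall (0 : ℂ) (C * ‖η‖ * ‖ξ‖)).ultrafilter_le_nhds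
      (𝒰.map fun y : P.toStarSubalgebra => ⟪η, (y : H →L[ℂ] H) ξ⟫_ℂ) (by
        rw [Ultrafilter.coe_map, le_principal_iff, mem_map]
        exact (hb ξ η).mono fun y hy => mem_closedBall_zero_iff.2 hy)
    exact ⟨c, hc⟩
  choose b hbl using hl
  have hbn : ∀ ξ η, ‖b ξ η‖ ≤ C * ‖η‖ * ‖ξ‖ := fun ξ η =>
    le_of_tendsto (hbl ξ η).norm (hb ξ η)
  let B₀ : H →ₛₗ[starRingEnd ℂ] H →ₗ[ℂ] ℂ := LinearMap.mk₂'ₛₗ (starRingEnd ℂ) (RingHom.id ℂ)
    (fun η ξ => b ξ η)
    (fun η η' ξ => tendsto_nhds_unique (hbl ξ (η + η'))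
      (by simpa only [inner_add_left] using (hbl ξ η).add (hbl ξ η')))
    (fun c η ξ => tendsto_nhds_unique (hbl ξ (c • η))
      (by simpa only [inner_smul_left, smul_eq_mul] using (hbl ξ η).const_mul (conj c)))
    (fun η ξ ξ' => tendsto_nhds_unique (hbl (ξ + ξ') η)
      (by simpa only [map_add, inner_add_right] using (hbl ξ η).add (hbl ξ' η)))
    (fun c η ξ => tendsto_nhds_unique (hbl (c • ξ) η)
      (by simpa only [map_smul, inner_smul_right, smul_eq_mul, RingHom.id_apply] using (hbl ξ η).const_mul c))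
  let B₁ : H →L⋆[ℂ] H →L[ℂ] ℂ := B₀.mkContinuous₂ C fun η ξ => hbn ξ η
  let T : H →L[ℂ] H := star (InnerProductSpace.continuousLinearMapOfBilin B₁)
  have hT : ∀ ξ η, ⟪η, T ξ⟫_ℂ = b ξ η := fun ξ η => by
    rw [show T = ContinuousLinearMap.adjoint (InnerProductSpace.continuousLinearMapOfBilin B₁)
      from rfl, ContinuousLinearMap.adjoint_inner_right,
      InnerProductSpace.continuousLinearMapOfBilin_apply]
    rfl
  have hTP : T ∈ P := by
    have h1 : T ∈ Set.centralizer (Set.centralizer (P : Set (H →L[ℂ] H))) := fun S hS => by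
      ext ξ
      refine ext_inner_left ℂ fun η => ?_
      change ⟪η, S (T ξ)⟫_ℂ = ⟪η, T (S ξ)⟫_ℂ
      rw [← ContinuousLinearMap.adjoint_inner_left, hT, hT]
      refine tendsto_nhds_unique (hbl ξ _) ((hbl (S ξ) η).congr fun y => ?_)
      rw [ContinuousLinearMap.adjoint_inner_left]
      exact congrArg (fun A : H →L[ℂ] H => ⟪η, A ξ⟫_ℂ) (hS y.1 y.2)
    rwa [VonNeumannAlgebra.centralizer_centralizer] at h1
  refine ⟨⟨T, hTP⟩, fun ξ η => ?_⟩
  have := hbl ξ η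
  rw [← hT] at this
  exact this

theorem exists_masa (P : VonNeumannAlgebra H) (A : StarSubalgebra ℂ (H →L[ℂ] H))
    (hAM : A ≤ P.toStarSubalgebra) (hA : ∀ a ∈ A, ∀ b ∈ A, a * b = b * a)
    (hAmax : ∀ y ∈ P, (∀ a ∈ A, a * y = y * a) → y ∈ A) :
    ∃ A' : StarSubalgebra ℂ P.toStarSubalgebra, Masa A' ∧
      ∀ a, a ∈ A' ↔ (a : H →L[ℂ] H) ∈ A :=
  ⟨A.comap P.toStarSubalgebra.subtype, ⟨fun _ ha _ hb => Subtype.ext (hA _ ha _ hb),
    fun y hy => hAmax y.1 y.2 fun a ha => congrArg Subtype.val (hy ⟨a, hAM ha⟩ ha)⟩,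
    fun _ => Iff.rfl⟩

end Crest.Agent.R109
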