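import Crest.Agent.R109.Pos

/-! Row 109: weak operator limits. -/

set_option autoImplicit false

open scoped ComplexOrder InnerProductSpace ComplexConjugate
open Filter Topology MeasureTheory

namespace Crest.Agent.R109

variable {M H : Type*} [CStarAlgebra M] [PartialOrder M] [StarOrderedRing M]
  [NormedAddCommGroup H] [InnerProductSpace ℂ H] [CompleteSpace H]

variable (W : WSt M H) {ι : Type*} {l : Filter ι} {y y' : ι → M} {z z' : M}

omit [PartialOrder M] [StarOrderedRing M] in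
theorem WSt.exists_WT (𝒰 : Ultrafilter ι) (y : ι → M) (C : ℝ)
    (h : ∀ᶠ i in (𝒰 : Filter ι), ‖y i‖ ≤ C) : ∃ z, W.WT (𝒰 : Filter ι) y z := by
  obtain ⟨z, hz⟩ := W.wlim (𝒰.map y) C (by rw [Ultrafilter.coe_map, eventually_map]; exact h)
  exact ⟨z, fun ξ η => by
    have := hz ξ η
    rw [Ultrafilter.coe_map, tendsto_map'_iff] at this
    exact this⟩

omit [PartialOrder M] [StarOrderedRing M] in
theorem WSt.norm_map (a : M) : ‖W.ρ a‖ = ‖a‖ := by
  exact NonUnitalStarAlgHom.norm_map W.ρ W.inj a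

omit [PartialOrder M] [StarOrderedRing M] in
theorem WSt.mul_apply (a b : M) (ξ : H) : W.ρ (a * b) ξ = W.ρ a (W.ρ b ξ) := by
  rw [map_mul]; rfl

omit [PartialOrder M] [StarOrderedRing M] in
theorem WSt.inner_star (a : M) (ξ η : H) : ⟪W.ρ a η, ξ⟫_ℂ = ⟪η, W.ρ (star a) ξ⟫_ℂ := by
  rw [map_star, ContinuousLinearMap.star_eq_adjoint, ContinuousLinearMap.adjoint_inner_right]

omit [PartialOrder M] [StarOrderedRing M] in
theorem WSt.norm_sq (a : M) (ξ : H) : ‖W.ρ a ξ‖ ^ 2 = (⟪ξ, W.ρ (star a * a) ξ⟫_ℂ).re := by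
  rw [W.mul_apply, ← W.inner_star, inner_self_eq_norm_sq_to_K]
  norm_cast

omit [PartialOrder M] [StarOrderedRing M] in
theorem WSt.norm_mul_apply_le (a b : M) (ξ : H) : ‖W.ρ (a * b) ξ‖ ≤ ‖a‖ * ‖W.ρ b ξ‖ := by
  rw [W.mul_apply, ← W.norm_map a]
  exact (W.ρ a).le_opNorm _

/-- An injective ⋆-homomorphism reflects positivity. -/
theorem WSt.nonneg_iff (a : M) : 0 ≤ a ↔ ∀ ξ : H, 0 ≤ ⟪ξ, W.ρ a ξ⟫_ℂ := by
  have key : ∀ (b : M) (ξ : H), ⟪ξ, W.ρ (star b * b) ξ⟫_ℂ = ((‖W.ρ b ξ‖ ^ 2 : ℝ) : ℂ) := by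
    intro b ξ
    rw [W.mul_apply, ← W.inner_star, inner_self_eq_norm_sq_to_K]
    norm_cast
  constructor
  · intro h ξ
    obtain ⟨b, rfl⟩ := CStarAlgebra.nonneg_iff_eq_star_mul_self.1 h
    rw [key]
    exact Complex.zero_le_real.2 (by positivity)
  · intro h
    have hsa : IsSelfAdjoint a := by
      have h1 : (W.ρ a).IsPositive := by
        rw [ContinuousLinearMap.isPositive_iff_complex]
        intro ξ
        have h2 := Complex.nonneg_iff.1 (h ξ)
        rw [← inner_conj_symm]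
        refine ⟨Complex.ext (by simp) ?_, by
          simpa only [RCLike.re_to_complex, Complex.conj_re] using h2.1⟩
        simp only [RCLike.re_to_complex, Complex.ofReal_im, Complex.conj_im, ← h2.2, neg_zero]
      apply W.inj
      rw [map_star]
      exact h1.isSelfAdjoint
    obtain ⟨c, hc⟩ := CStarAlgebra.nonneg_iff_eq_star_mul_self.1 (CFC.negPart_nonneg a)
    have hb : IsSelfAdjoint a⁻ := (CFC.negPart_nonneg a).isSelfAdjoint
    have e1 : star a⁻ * (a * a⁻) = -(star (c * a⁻) * (c * a⁻)) := by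
      have e2 : a * a⁻ = -(a⁻ * a⁻) := by
        conv_lhs => enter [1]; rw [← CFC.posPart_sub_negPart a hsa]
        rw [sub_mul, CFC.posPart_mul_negPart, zero_sub]
      rw [e2, star_mul, mul_neg, mul_assoc, ← mul_assoc (star c), ← hc]
    have e3 : c * a⁻ = 0 := by
      apply W.inj
      rw [map_zero]
      ext ξ
      have h3 := h (W.ρ a⁻ ξ)
      rw [W.inner_star, ← W.mul_apply, ← W.mul_apply, mul_assoc, e1, map_neg,
        _root_.neg_apply, inner_neg_right, key, ← Complex.ofReal_neg,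
        Complex.zero_le_real] at h3
      have h4 : ‖W.ρ (c * a⁻) ξ‖ ^ 2 = 0 := le_antisymm (by linarith) (by positivity)
      simpa using h4
    have e4 : a⁻ = 0 := by
      have : star a⁻ * a⁻ = 0 := by
        rw [hb.star_eq]
        conv_lhs => enter [1]; rw [hc]
        rw [mul_assoc, e3, mul_zero]
      exact CStarRing.star_mul_self_eq_zero_iff _ |>.1 this
    rw [← CFC.posPart_sub_negPart a hsa, e4, sub_zero]
    exact CFC.posPart_nonneg a

theorem WSt.re_inner_mono {a b : M} (h : a ≤ b) (ξ : H) :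
    (⟪ξ, W.ρ a ξ⟫_ℂ).re ≤ (⟪ξ, W.ρ b ξ⟫_ℂ).re := by
  have := (Complex.nonneg_iff.1 ((W.nonneg_iff _).1 (sub_nonneg.2 h) ξ)).1
  rw [map_sub, _root_.sub_apply, inner_sub_right, Complex.sub_re] at this
  linarith

/-- `a² ≤ a` for `0 ≤ a ≤ 1`. -/
theorem WSt.norm_sq_le {a : M} (h0 : 0 ≤ a) (h1 : a ≤ 1) (ξ : H) :
    ‖W.ρ a ξ‖ ^ 2 ≤ (⟪ξ, W.ρ a ξ⟫_ℂ).re := by
  rw [W.norm_sq, h0.isSelfAdjoint.star_eq]
  refine W.re_inner_mono ?_ ξ
  have := Commute.mul_nonneg h0 (sub_nonneg.2 h1) ((Commute.one_right a).sub_right (Commute.refl a))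
  rw [mul_sub, mul_one, sub_nonneg] at this
  exact this

variable {W}

omit [PartialOrder M] [StarOrderedRing M] in
theorem WSt.WT.unique [l.NeBot] (h : W.WT l y z) (h' : W.WT l y z') : z = z' := by
  apply W.inj
  ext ξ
  exact ext_inner_left ℂ fun η => tendsto_nhds_unique (h ξ η) (h' ξ η)

omit [PartialOrder M] [StarOrderedRing M] in
theorem WSt.WT_const (a : M) : W.WT l (fun _ => a) a := fun _ _ => tendsto_const_nhds

omit [PartialOrder M] [StarOrderedRing M] in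
theorem WSt.WT.congr' (h : W.WT l y z) (he : y =ᶠ[l] y') : W.WT l y' z := by
  intro ξ η
  refine (h ξ η).congr' ?_
  filter_upwards [he] with i hi
  rw [hi]

omit [PartialOrder M] [StarOrderedRing M] in
theorem WSt.WT.mono_left {l' : Filter ι} (h : W.WT l y z) (hl : l' ≤ l) : W.WT l' y z :=
  fun ξ η => (h ξ η).mono_left hl

omit [PartialOrder M] [StarOrderedRing M] in
theorem WSt.WT.add (h : W.WT l y z) (h' : W.WT l y' z') :
    W.WT l (fun i => y i + y' i) (z + z') := by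
  intro ξ η
  simp only [map_add, _root_.add_apply, inner_add_right]
  exact (h ξ η).add (h' ξ η)

omit [PartialOrder M] [StarOrderedRing M] in
theorem WSt.WT.sub (h : W.WT l y z) (h' : W.WT l y' z') :
    W.WT l (fun i => y i - y' i) (z - z') := by
  intro ξ η
  simp only [map_sub, _root_.sub_apply, inner_sub_right]
  exact (h ξ η).sub (h' ξ η)

omit [PartialOrder M] [StarOrderedRing M] in
theorem WSt.WT.smul (c : ℂ) (h : W.WT l y z) : W.WT l (fun i => c • y i) (c • z) := by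
  intro ξ η
  simp only [map_smul, _root_.smul_apply, inner_smul_right]
  exact (h ξ η).const_mul c

omit [PartialOrder M] [StarOrderedRing M] in
theorem WSt.WT.mul_left (a : M) (h : W.WT l y z) : W.WT l (fun i => a * y i) (a * z) := by
  intro ξ η
  have e : ∀ b : M, ⟪η, W.ρ (a * b) ξ⟫_ℂ = ⟪W.ρ (Star.star a) η, W.ρ b ξ⟫_ℂ := fun b => by
    rw [W.inner_star, star_star, W.mul_apply]
  simp only [e]
  exact h ξ _

omit [PartialOrder M] [StarOrderedRing M] in
theorem WSt.WT.mul_right (a : M) (h : W.WT l y z) : W.WT l (fun i => y i * a) (z * a) := by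
  intro ξ η
  simp only [W.mul_apply]
  exact h _ η

omit [PartialOrder M] [StarOrderedRing M] in
theorem WSt.WT.star (h : W.WT l y z) : W.WT l (fun i => star (y i)) (star z) := by
  intro ξ η
  have e : ∀ b : M, ⟪η, W.ρ (Star.star b) ξ⟫_ℂ = conj ⟪ξ, W.ρ b η⟫_ℂ := fun b => by
    rw [← W.inner_star, inner_conj_symm]
  simp only [e]
  exact (Complex.continuous_conj.tendsto _).comp (h η ξ)

omit [PartialOrder M] [StarOrderedRing M] in
theorem WSt.WT.eq_of_eventually [l.NeBot] (h : W.WT l y z) (h' : W.WT l y' z')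
    (he : y =ᶠ[l] y') : z = z' := (h.congr' he).unique h'

theorem WSt.WT.nonneg [l.NeBot] (h : W.WT l y z) (h0 : ∀ᶠ i in l, 0 ≤ y i) : 0 ≤ z := by
  rw [W.nonneg_iff]
  intro ξ
  refine ge_of_tendsto (h ξ ξ) ?_
  filter_upwards [h0] with i hi
  exact (W.nonneg_iff _).1 hi ξ

theorem WSt.WT.le [l.NeBot] (h : W.WT l y z) (h' : W.WT l y' z') (hle : ∀ᶠ i in l, y i ≤ y' i) :
    z ≤ z' := by
  rw [← sub_nonneg]
  refine (h'.sub h).nonneg ?_
  filter_upwards [hle] with i hi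
  exact sub_nonneg.2 hi

omit [PartialOrder M] [StarOrderedRing M] in
theorem WSt.WT.norm_apply_le [l.NeBot] (h : W.WT l y z) (ξ : H) {C : ℝ}
    (hC : ∀ᶠ i in l, ‖W.ρ (y i) ξ‖ ≤ C) : ‖W.ρ z ξ‖ ≤ C := by
  have hC0 : 0 ≤ C := by
    obtain ⟨i, hi⟩ := hC.exists
    exact (norm_nonneg _).trans hi
  have h1 : ‖⟪W.ρ z ξ, W.ρ z ξ⟫_ℂ‖ ≤ ‖W.ρ z ξ‖ * C := by
    refine le_of_tendsto (h ξ (W.ρ z ξ)).norm ?_
    filter_upwards [hC] with i hi
    exact (norm_inner_le_norm _ _).trans (mul_le_mul_of_nonneg_left hi (norm_nonneg _))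
  rw [inner_self_eq_norm_sq_to_K, norm_pow, RCLike.norm_ofReal, abs_norm, sq] at h1
  rcases (norm_nonneg (W.ρ z ξ)).eq_or_lt with h2 | h2
  · rw [← h2]; exact hC0
  · exact le_of_mul_le_mul_left h1 h2

omit [PartialOrder M] [StarOrderedRing M] in
theorem WSt.WT.norm_le [l.NeBot] (h : W.WT l y z) {C : ℝ} (hC : ∀ᶠ i in l, ‖y i‖ ≤ C) :
    ‖z‖ ≤ C := by
  have hC0 : 0 ≤ C := by
    obtain ⟨i, hi⟩ := hC.exists
    exact (norm_nonneg _).trans hi
  rw [← W.norm_map]
  refine ContinuousLinearMap.opNorm_le_bound _ hC0 fun ξ => h.norm_apply_le ξ ?_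
  filter_upwards [hC] with i hi
  refine ((W.ρ (y i)).le_opNorm ξ).trans (mul_le_mul_of_nonneg_right ?_ (norm_nonneg _))
  rw [W.norm_map]
  exact hi

end Crest.Agent.R109
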