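import Crest.Agent.R109.WBasic

/-! Row 109: spectral projections, averaging, monotone limits, normal functionals. -/

set_option autoImplicit false

open scoped ComplexOrder InnerProductSpace ComplexConjugate
open Filter Topology MeasureTheory

namespace Crest.Agent.R109

variable {M H : Type*} [CStarAlgebra M] [PartialOrder M] [StarOrderedRing M]
  [NormedAddCommGroup H] [InnerProductSpace ℂ H] [CompleteSpace H]

variable (W : WSt M H)

theorem WSt.wproj_sup {ι : Type*} [Preorder ι] [IsDirectedOrder ι] [Nonempty ι] {y : ι → M}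
    (hm : Monotone y) (h0 : ∀ i, 0 ≤ y i) (h1 : ∀ i, y i ≤ 1) :
    ∃ z : M, 0 ≤ z ∧ z ≤ 1 ∧ (∀ i, y i ≤ z) ∧ W.WT atTop y z ∧
      ∀ (F : Finset H) (δ : ℝ), 0 < δ → ∀ᶠ i in atTop, W.Small F δ (z - y i) := by
  have hle : (Ultrafilter.of (atTop : Filter ι) : Filter ι) ≤ atTop := Ultrafilter.of_le _
  obtain ⟨z, hz⟩ := W.exists_WT (Ultrafilter.of (atTop : Filter ι)) y 1
    (Eventually.of_forall fun i => (CStarAlgebra.norm_le_one_iff_of_nonneg _ (h0 i)).2 (h1 i))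
  have hz1 : z ≤ 1 := hz.le (WSt.WT_const 1) (Eventually.of_forall h1)
  have hyz : ∀ i, y i ≤ z := fun i => (WSt.WT_const (y i)).le hz
    (((eventually_ge_atTop i).filter_mono hle).mono fun j hj => hm hj)
  have key : ∀ (ξ : H) (δ : ℝ), 0 < δ → ∀ᶠ i in atTop, ‖W.ρ (z - y i) ξ‖ < δ := by
    intro ξ δ hδ
    have h2 := (Complex.continuous_re.tendsto _).comp (((WSt.WT_const z).sub hz) ξ ξ)
    have h3 : (⟪ξ, W.ρ (z - z) ξ⟫_ℂ).re < δ ^ 2 := by simp [hδ]
    obtain ⟨i₀, hi₀⟩ := (h2.eventually (gt_mem_nhds h3)).exists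
    filter_upwards [eventually_ge_atTop i₀] with i hi
    refine lt_of_pow_lt_pow_left₀ 2 hδ.le ?_
    refine (W.norm_sq_le (sub_nonneg.2 (hyz i)) ((sub_le_self _ (h0 i)).trans hz1) ξ).trans_lt ?_
    exact (W.re_inner_mono (sub_le_sub_left (hm hi) z) ξ).trans_lt hi₀
  refine ⟨z, hz.nonneg (Eventually.of_forall h0), hz1, hyz, fun ξ η => ?_, fun F δ hδ => ?_⟩
  · refine Tendsto.inner tendsto_const_nhds ?_
    rw [Metric.tendsto_nhds]
    intro δ hδ
    refine (key ξ δ hδ).mono fun i hi => ?_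
    rwa [dist_comm, dist_eq_norm, ← sub_apply, ← map_sub]
  · exact (eventually_all_finset F).2 fun ξ _ => key ξ δ hδ

include W in
/-- `q` is the weak limit of the powers `g ^ n` along an ultrafilter `≤ atTop`.  The sequence
decreases, so the numbers `⟪ξ, g^n ξ⟫` converge and (polarisation, or compare directly) `g^(n+1)` has
the same limit: `g q = q`, hence `g^n q = q` and `q q = q`. -/
theorem WSt.exists_fixproj {g : M} (h0 : 0 ≤ g) (h1 : g ≤ 1) :
    ∃ q : M, IsStarProjection q ∧ g * q = q ∧ (∀ a, a * g = g * a → a * q = q * a) ∧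
      (∀ a, a * g = a → a * q = a) ∧ ∀ Y, (∀ n : ℕ, 1 - g ^ n ≤ Y) → 1 - q ≤ Y := by
  have hanti : Antitone (g ^ · : ℕ → M) := CStarAlgebra.pow_antitone h0 h1
  obtain ⟨z, -, -, -, hz, -⟩ := W.wproj_sup (y := fun n : ℕ => 1 - g ^ n)
    (fun n m hnm => sub_le_sub_left (hanti hnm) 1)
    (fun n => sub_nonneg.2 (by simpa using hanti (Nat.zero_le n)))
    (fun n => sub_le_self _ (CStarAlgebra.pow_nonneg h0 n))
  have hq : W.WT atTop (fun n : ℕ => g ^ n) (1 - z) := by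
    have := (WSt.WT_const (W := W) (l := (atTop : Filter ℕ)) (1 : M)).sub hz
    simpa using this
  set q := 1 - z with hqz
  have hs : W.WT atTop (fun n : ℕ => g ^ (n + 1)) q := fun ξ η =>
    (tendsto_add_atTop_iff_nat (f := fun n : ℕ => ⟪η, W.ρ (g ^ n) ξ⟫_ℂ) 1).2 (hq ξ η)
  have hgq : g * q = q :=
    (hq.mul_left g).eq_of_eventually hs (Eventually.of_forall fun n => (pow_succ' g n).symm)
  have hn : ∀ n : ℕ, g ^ n * q = q := by
    intro n
    induction n with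
    | zero => simp
    | succ n ih => rw [pow_succ, mul_assoc, hgq, ih]
  have hqq : q * q = q :=
    (hq.mul_right q).eq_of_eventually (WSt.WT_const q) (Eventually.of_forall hn)
  have hsa : star q = q := hq.star.eq_of_eventually hq (Eventually.of_forall fun n => by
    simp only [star_pow, (IsSelfAdjoint.of_nonneg h0).star_eq])
  refine ⟨q, ⟨hqq, hsa⟩, hgq, fun a ha => ?_, fun a ha => ?_, fun Y hY => ?_⟩
  · exact (hq.mul_left a).eq_of_eventually (hq.mul_right a)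
      (Eventually.of_forall fun n => (Commute.pow_right ha n).eq)
  · refine (hq.mul_left a).eq_of_eventually (WSt.WT_const a) (Eventually.of_forall fun n => ?_)
    induction n with
    | zero => simp
    | succ n ih =>
      simp only at ih ⊢
      rw [pow_succ, ← mul_assoc, ih, ha]
  · rw [hqz, sub_sub_cancel]
    exact hz.le (WSt.WT_const Y) (Eventually.of_forall hY)

/-- The cut lemma.  `Y = ∑ T j* T j`, `g = 1 - (Y - η²)₊ / (‖Y‖ + 1)` (`cfc`), `q` from
`exists_fixproj`: `(Y - η²)₊ q = 0` gives `q Y q ≤ η² q`; `1 - g^n ≤ Y / η²` by functional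
calculus. -/
theorem WSt.exists_cut {J : Type*} [Fintype J] (T : J → M) {η : ℝ} (hη : 0 < η) :
    ∃ q : M, IsStarProjection q ∧ (∀ j, ‖T j * q‖ ≤ η) ∧
      ∀ ξ : H, ‖W.ρ (1 - q) ξ‖ ^ 2 ≤ (∑ j, ‖W.ρ (T j) ξ‖ ^ 2) / η ^ 2 := by
  obtain ⟨Y, hY⟩ : ∃ Y : M, Y = ∑ j, star (T j) * T j := ⟨_, rfl⟩
  have hY0 : 0 ≤ Y := hY ▸ Finset.sum_nonneg fun j _ => star_mul_self_nonneg _
  have hYs : IsSelfAdjoint Y := .of_nonneg hY0
  have hη2 : 0 < η ^ 2 := by positivity
  obtain ⟨h, hh⟩ : ∃ h : ℝ → ℝ, h = fun t => max (t - η ^ 2) 0 := ⟨_, rfl⟩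
  have hh0 : ∀ t, 0 ≤ h t := fun t => hh ▸ le_max_right _ _
  have hhc : Continuous h := by rw [hh]; fun_prop
  obtain ⟨f, hf⟩ : ∃ f : ℝ → ℝ, f = fun t => (1 + h t)⁻¹ := ⟨_, rfl⟩
  have hpos : ∀ t, 0 < 1 + h t := fun t => by linarith [hh0 t]
  have hfc : Continuous f := hf ▸ (continuous_const.add hhc).inv₀ fun t => (hpos t).ne'
  have hf0 : ∀ t, 0 ≤ f t := fun t => hf ▸ (inv_pos.2 (hpos t)).le
  have hf1 : ∀ t, f t ≤ 1 := fun t => hf ▸ inv_le_one_of_one_le₀ (by linarith [hh0 t])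
  obtain ⟨q, hq, hgq, -, -, hle⟩ := W.exists_fixproj (g := cfc f Y)
    (cfc_nonneg fun t _ => hf0 t) (cfc_le_one _ _ fun t _ => hf1 t)
  have hinv : (1 + cfc h Y) * cfc f Y = 1 := by
    rw [← cfc_const_one ℝ Y, ← cfc_add Y (fun _ => 1) h, ← cfc_mul _ f Y]
    refine cfc_congr fun t _ => ?_
    rw [hf]
    exact mul_inv_cancel₀ (hpos t).ne'
  have hhq : cfc h Y * q = 0 := by
    have : (1 + cfc h Y) * q = q := by
      conv_lhs => rw [← hgq, ← mul_assoc, hinv, one_mul]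
    rw [add_mul, one_mul] at this
    exact add_eq_left.1 this
  have hYle : Y ≤ algebraMap ℝ M (η ^ 2) + cfc h Y := by
    rw [← cfc_const_add (η ^ 2) h Y]
    conv_lhs => rw [← cfc_id' ℝ Y]
    refine cfc_mono fun t _ => ?_
    have := le_max_left (t - η ^ 2) 0
    simp only [hh]
    linarith
  have hq1 : q ≤ 1 := sub_nonneg.1 hq.one_sub.nonneg
  have hqYq : star q * Y * q ≤ algebraMap ℝ M (η ^ 2) := by
    refine (star_left_conjugate_le_conjugate hYle q).trans ?_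
    rw [mul_assoc, add_mul, hhq, add_zero, hq.isSelfAdjoint.star_eq,
      Algebra.algebraMap_eq_smul_one, smul_mul_assoc, one_mul, mul_smul_comm,
      hq.isIdempotentElem.eq]
    exact smul_le_smul_of_nonneg_left hq1 hη2.le
  refine ⟨q, hq, fun j => ?_, fun ξ => ?_⟩
  · have h1 : star (T j) * T j ≤ Y :=
      hY ▸ Finset.single_le_sum (f := fun j => star (T j) * T j)
        (fun j _ => star_mul_self_nonneg _) (Finset.mem_univ j)
    have h2 : star (T j * q) * (T j * q) ≤ algebraMap ℝ M (η ^ 2) := by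
      refine le_trans (le_of_eq ?_) ((star_left_conjugate_le_conjugate h1 q).trans hqYq)
      simp only [star_mul, mul_assoc]
    rw [← CStarAlgebra.norm_le_iff_le_algebraMap _ hη2.le (star_mul_self_nonneg _),
      CStarRing.norm_star_mul_self, ← sq] at h2
    exact le_of_pow_le_pow_left₀ two_ne_zero hη.le h2
  · have h1 : 1 - q ≤ (η ^ 2)⁻¹ • Y := by
      refine hle _ fun n => ?_
      rw [← cfc_pow f n Y hfc.continuousOn hYs, ← cfc_const_one ℝ Y,
        ← cfc_sub (fun _ => 1) (fun t => f t ^ n) Y continuousOn_const (hfc.pow n).continuousOn,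
        ← cfc_const_mul_id (η ^ 2)⁻¹ Y hYs]
      refine cfc_mono (fun t ht => ?_) (continuous_const.sub (hfc.pow n)).continuousOn
        (continuous_const.mul continuous_id).continuousOn
      have ht0 : 0 ≤ t := spectrum_nonneg_of_nonneg hY0 ht
      rcases le_total t (η ^ 2) with h2 | h2
      · have : f t = 1 := by simp [hf, hh, h2]
        rw [this, one_pow, sub_self]
        positivity
      · have h3 : 1 ≤ (η ^ 2)⁻¹ * t := by
          rw [← div_eq_inv_mul, le_div_iff₀ hη2, one_mul]; exact h2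
        have := pow_nonneg (hf0 t) n
        linarith
    have h2 := W.norm_sq_le hq.one_sub.nonneg (sub_le_self 1 hq.nonneg) ξ
    refine h2.trans ((W.re_inner_mono h1 ξ).trans (le_of_eq ?_))
    rw [← Complex.coe_smul, map_smul, smul_apply, inner_smul_right,
      Complex.re_ofReal_mul, div_eq_inv_mul, hY, map_sum, sum_apply, inner_sum,
      Complex.re_sum]
    simp only [W.norm_sq]

omit [PartialOrder M] [StarOrderedRing M] in
/-- Averages of weakly null families: choose `i 0, i 1, …` in `P` recursively with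
`‖⟪y (i j) ξ, y (i k) ξ⟫‖ ≤ τ` for `j < k`, `ξ ∈ F`; the squared norm of the average is at most
`C² ‖ξ‖² / L + τ`. -/
theorem WSt.exists_avg {ι : Type*} {l : Filter ι} [l.NeBot] {y : ι → M} {C : ℝ}
    (hC : ∀ i, ‖y i‖ ≤ C) (h : W.WT l y 0) {P : Set ι} (hP : P ∈ l) (F : Finset H) {δ : ℝ}
    (hδ : 0 < δ) : ∃ (L : ℕ) (i : Fin L → ι), 0 < L ∧ (∀ k, i k ∈ P) ∧
      W.Small F δ ((L : ℂ)⁻¹ • ∑ k, y (i k)) := by
  have key : ∀ L : ℕ, ∃ i : Fin L → ι, (∀ k, i k ∈ P) ∧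
      ∀ ξ ∈ F, ‖W.ρ (∑ k, y (i k)) ξ‖ ^ 2 ≤ L * (C ^ 2 * ‖ξ‖ ^ 2 + 1) := by
    intro L
    induction L with
    | zero => exact ⟨Fin.elim0, fun k => k.elim0, fun ξ _ => by simp⟩
    | succ L ih =>
      obtain ⟨i, hiP, hi⟩ := ih
      have hev : ∀ᶠ j in l, ∀ ξ ∈ F, (⟪W.ρ (∑ k, y (i k)) ξ, W.ρ (y j) ξ⟫_ℂ).re < 1 / 2 := by
        rw [eventually_all_finset]
        intro ξ _
        have h1 := (Complex.continuous_re.tendsto _).comp (h ξ (W.ρ (∑ k, y (i k)) ξ))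
        refine h1.eventually (gt_mem_nhds ?_)
        simp
      obtain ⟨j, hj, hjP⟩ := (hev.and hP).exists
      refine ⟨Fin.cons j i, fun k => Fin.cases hjP hiP k, fun ξ hξ => ?_⟩
      rw [Fin.sum_univ_succ]
      simp only [Fin.cons_zero, Fin.cons_succ]
      rw [add_comm, map_add, add_apply, norm_add_sq (𝕜 := ℂ)]
      have h1 := hi ξ hξ
      have h2 := hj ξ hξ
      have h3 : ‖W.ρ (y j) ξ‖ ≤ C * ‖ξ‖ := by
        refine ((W.ρ (y j)).le_opNorm ξ).trans ?_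
        rw [W.norm_map]
        exact mul_le_mul_of_nonneg_right (hC j) (norm_nonneg _)
      have h4 := pow_le_pow_left₀ (norm_nonneg _) h3 2
      rw [mul_pow] at h4
      simp only [RCLike.re_to_complex]
      push_cast
      linarith
  obtain ⟨L, hL⟩ := exists_nat_gt ((∑ ξ ∈ F, (C ^ 2 * ‖ξ‖ ^ 2 + 1)) / δ ^ 2)
  have hS : 0 ≤ ∑ ξ ∈ F, (C ^ 2 * ‖ξ‖ ^ 2 + 1) := Finset.sum_nonneg fun ξ _ => by positivity
  have hL0 : (0 : ℝ) < L := lt_of_le_of_lt (by positivity) hL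
  obtain ⟨i, hiP, hi⟩ := key L
  refine ⟨L, i, by exact_mod_cast hL0, hiP, fun ξ hξ => ?_⟩
  rw [map_smul, smul_apply, norm_smul, norm_inv, Complex.norm_natCast,
    ← div_eq_inv_mul, div_lt_iff₀ hL0]
  refine lt_of_pow_lt_pow_left₀ 2 (by positivity) ((hi ξ hξ).trans_lt ?_)
  rw [div_lt_iff₀ (by positivity)] at hL
  have h1 : C ^ 2 * ‖ξ‖ ^ 2 + 1 ≤ ∑ ξ ∈ F, (C ^ 2 * ‖ξ‖ ^ 2 + 1) :=
    Finset.single_le_sum (f := fun ξ => C ^ 2 * ‖ξ‖ ^ 2 + 1) (fun ξ _ => by positivity) hξ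
  calc (L : ℝ) * (C ^ 2 * ‖ξ‖ ^ 2 + 1) < L * (L * δ ^ 2) :=
        mul_lt_mul_of_pos_left (h1.trans_lt hL) hL0
    _ = (δ * L) ^ 2 := by ring

/-- Monotone nets: take the weak limit `z` along `Ultrafilter.of atTop`; `y i ≤ z ≤ 1`, and
`‖(z - y i) ξ‖² ≤ re ⟪ξ, (z - y i) ξ⟫`, which is antitone in `i` and tends to `0` along the
ultrafilter. -/
theorem WSt.exists_sup {ι : Type*} [Preorder ι] [IsDirectedOrder ι] [Nonempty ι] {y : ι → M}
    (hm : Monotone y) (h0 : ∀ i, 0 ≤ y i) (h1 : ∀ i, y i ≤ 1) :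
    ∃ z : M, 0 ≤ z ∧ z ≤ 1 ∧ (∀ i, y i ≤ z) ∧ W.WT atTop y z ∧
      ∀ (F : Finset H) (δ : ℝ), 0 < δ → ∀ᶠ i in atTop, W.Small F δ (z - y i) := by
  exact W.wproj_sup hm h0 h1

variable {W}

theorem WSt.Normal.wproj_scale {θ : M →ₚ[ℂ] ℂ} (hθ : W.Normal θ) (C : ℝ) {ε : ℝ} (hε : 0 < ε) :
    ∃ (F : Finset H) (δ : ℝ), 0 < δ ∧ ∀ y : M, ‖y‖ ≤ C → W.Small F δ y → n2 θ y < ε := by
  set K := |C| + 1 with hK
  have hK1 : 1 ≤ K := by linarith [abs_nonneg C]
  have hK0 : 0 < K := by linarith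
  obtain ⟨F, δ, hδ, hF⟩ := hθ ((ε / K) ^ 2) (by positivity)
  refine ⟨F, δ, hδ, fun y hy hs => ?_⟩
  have hn : ‖((K⁻¹ : ℝ) : ℂ)‖ = K⁻¹ := by
    rw [Complex.norm_real, Real.norm_of_nonneg (by positivity)]
  have h1 := hF (((K⁻¹ : ℝ) : ℂ) • y) (by
      rw [norm_smul, hn, ← div_eq_inv_mul, div_le_one hK0]
      linarith [le_abs_self C])
    (fun ξ hξ => by
      rw [map_smul, smul_apply, norm_smul, hn]
      exact (mul_le_of_le_one_left (norm_nonneg _) (inv_le_one_of_one_le₀ hK1)).trans_lt (hs ξ hξ))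
  rw [← n2_sq, n2_smul, hn] at h1
  have h2 := lt_of_pow_lt_pow_left₀ 2 (by positivity) h1
  rwa [← div_eq_inv_mul, div_lt_div_iff_of_pos_right hK0] at h2

/-- Normal functionals are weakly continuous on bounded sets.  Otherwise, along an ultrafilter
`≤ l`, `θ (b (y i - z)) → c ≠ 0`; average (`exists_avg`, after replacing the unbounded terms by `z`)
terms with `re (conj c * θ (b (y i - z))) ≥ ‖c‖²/2`; `pos_cs` and normality give a contradiction. -/
theorem WSt.Normal.tendsto {θ : M →ₚ[ℂ] ℂ} (hθ : W.Normal θ) {ι : Type*} {l : Filter ι}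
    {y : ι → M} {z : M} {C : ℝ} (hC : ∀ᶠ i in l, ‖y i‖ ≤ C) (h : W.WT l y z) (b : M) :
    Tendsto (fun i => θ (b * y i)) l (𝓝 (θ (b * z))) := by
  classical
  rw [tendsto_iff_ultrafilter]
  intro 𝒰 h𝒰
  set w : ι → M := fun i => if ‖y i‖ ≤ C then y i - z else 0 with hw
  have hwe : (fun i => y i - z) =ᶠ[(𝒰 : Filter ι)] w :=
    (hC.filter_mono h𝒰).mono fun i hi => by simp only [hw, if_pos hi]
  have hwb : ∀ i, ‖w i‖ ≤ |C| + ‖z‖ := by
    intro i
    simp only [hw]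
    split_ifs with hi
    · exact (norm_sub_le _ _).trans (by linarith [le_abs_self C])
    · rw [norm_zero]; positivity
  have hw0 : W.WT (𝒰 : Filter ι) w 0 := by
    have := ((h.mono_left h𝒰).sub (WSt.WT_const z)).congr' hwe
    rwa [sub_self] at this
  have key : ∀ (c : ℂ) (ε : ℝ), 0 < ε → ∀ᶠ i in (𝒰 : Filter ι), (c * θ (b * w i)).re < ε := by
    intro c ε hε
    by_contra hc
    rw [← Ultrafilter.eventually_not] at hc
    set K := ‖c‖ * n2 θ (star b) + 1 with hK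
    have hK0 : 0 < K := by have := n2_nonneg θ (star b); positivity
    obtain ⟨F, δ, hδ, hF⟩ := hθ.wproj_scale (|C| + ‖z‖) (div_pos hε hK0)
    obtain ⟨L, i, hL, hiP, hs⟩ := W.exists_avg hwb hw0 hc F hδ
    have hL' : (0 : ℝ) < L := by exact_mod_cast hL
    have hn : ‖(L : ℂ)⁻¹ • ∑ k, w (i k)‖ ≤ |C| + ‖z‖ := by
      rw [norm_smul, norm_inv, Complex.norm_natCast, ← div_eq_inv_mul, div_le_iff₀ hL']
      refine (norm_sum_le _ _).trans ((Finset.sum_le_sum fun k _ => hwb (i k)).trans ?_)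
      rw [Finset.sum_const, Finset.card_univ, Fintype.card_fin, nsmul_eq_mul, mul_comm]
    have h1 := hF _ hn hs
    have h2 := pos_cs θ (star b) ((L : ℂ)⁻¹ • ∑ k, w (i k))
    rw [star_star] at h2
    have h3 : ε ≤ (c * θ (b * ((L : ℂ)⁻¹ • ∑ k, w (i k)))).re := by
      have e : c * θ (b * ((L : ℂ)⁻¹ • ∑ k, w (i k))) =
          ((L : ℝ)⁻¹ : ℝ) * ∑ k, c * θ (b * w (i k)) := by
        rw [mul_smul_comm, map_smul, Finset.mul_sum, map_sum, smul_eq_mul, ← Finset.mul_sum]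
        push_cast
        ring
      rw [e, Complex.re_ofReal_mul, Complex.re_sum, ← div_eq_inv_mul, le_div_iff₀ hL']
      refine le_trans ?_ (Finset.sum_le_sum fun k _ => not_lt.1 (hiP k))
      simp [mul_comm]
    have h4 : (c * θ (b * ((L : ℂ)⁻¹ • ∑ k, w (i k)))).re ≤
        K * n2 θ ((L : ℂ)⁻¹ • ∑ k, w (i k)) := by
      refine (Complex.re_le_norm _).trans ?_
      rw [norm_mul]
      have h5 := mul_le_mul_of_nonneg_left h2 (norm_nonneg c)
      have h6 := n2_nonneg θ ((L : ℂ)⁻¹ • ∑ k, w (i k))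
      rw [hK]
      linarith
    rw [lt_div_iff₀ hK0] at h1
    linarith
  have hlim : Tendsto (fun i => θ (b * w i)) (𝒰 : Filter ι) (𝓝 0) := by
    rw [Metric.tendsto_nhds]
    intro ε hε
    filter_upwards [key 1 (ε / 2) (by linarith), key (-1) (ε / 2) (by linarith),
      key Complex.I (ε / 2) (by linarith), key (-Complex.I) (ε / 2) (by linarith)]
      with i h1 h2 h3 h4
    rw [dist_zero_right]
    refine (Complex.norm_le_abs_re_add_abs_im _).trans_lt ?_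
    simp only [one_mul, neg_mul, Complex.neg_re, Complex.mul_re, Complex.I_re, Complex.I_im,
      zero_mul, zero_sub, neg_neg] at h1 h2 h3 h4
    have a1 : |(θ (b * w i)).re| < ε / 2 := abs_lt.2 ⟨by linarith, h1⟩
    have a2 : |(θ (b * w i)).im| < ε / 2 := abs_lt.2 ⟨by linarith, h4⟩
    linarith
  have h2 := hlim.add_const (θ (b * z))
  rw [zero_add] at h2
  refine h2.congr' (hwe.mono fun i hi => ?_)
  simp only at hi ⊢
  rw [← hi, ← map_add, ← mul_add, sub_add_cancel]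

omit [StarOrderedRing M] in
theorem WSt.Normal.add {θ θ' : M →ₚ[ℂ] ℂ} (hθ : W.Normal θ) (hθ' : W.Normal θ') :
    W.Normal (θ + θ') := by
  classical
  intro ε hε
  obtain ⟨F, δ, hδ, hF⟩ := hθ (ε / 2) (by linarith)
  obtain ⟨F', δ', hδ', hF'⟩ := hθ' (ε / 2) (by linarith)
  refine ⟨F ∪ F', min δ δ', lt_min hδ hδ', fun y hy hs => ?_⟩
  have h1 := hF y hy fun ξ hξ => (hs ξ (Finset.mem_union_left _ hξ)).trans_le (min_le_left _ _)
  have h2 := hF' y hy fun ξ hξ => (hs ξ (Finset.mem_union_right _ hξ)).trans_le (min_le_right _ _)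
  rw [PositiveLinearMap.add_apply, Complex.add_re]
  linarith

omit [StarOrderedRing M] in
theorem WSt.normal_zero : W.Normal (0 : M →ₚ[ℂ] ℂ) := by
  intro ε hε
  exact ⟨∅, 1, one_pos, fun y _ _ => by simpa using hε⟩

theorem WSt.Normal.wproj_null {θ : M →ₚ[ℂ] ℂ} (hθ : W.Normal θ)
    (hf : ∀ y, θ (star y * y) = 0 → y = 0) {Y : ℕ → M} {C : ℝ} (h0 : ∀ n, 0 ≤ Y n)
    (hC : ∀ n, ‖Y n‖ ≤ C) (hθY : ∀ n, (θ (Y n)).re ≤ 1 / ((n : ℝ) + 1)) :
    W.WT (Ultrafilter.of (atTop : Filter ℕ) : Filter ℕ) Y 0 := by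
  have hle : (Ultrafilter.of (atTop : Filter ℕ) : Filter ℕ) ≤ atTop := Ultrafilter.of_le _
  obtain ⟨Z, hZ⟩ := W.exists_WT (Ultrafilter.of (atTop : Filter ℕ)) Y C (Eventually.of_forall hC)
  have hZ0 : 0 ≤ Z := hZ.nonneg (Eventually.of_forall h0)
  have h1 := (Complex.continuous_re.tendsto _).comp (hθ.tendsto (Eventually.of_forall hC) hZ 1)
  have h2 : (θ (1 * Z)).re ≤ 0 :=
    le_of_tendsto_of_tendsto' h1 (tendsto_one_div_add_atTop_nhds_zero_nat.mono_left hle)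
      fun n => by simpa using hθY n
  have hc : star (CFC.sqrt Z) * CFC.sqrt Z = Z := by
    rw [(IsSelfAdjoint.of_nonneg (CFC.sqrt_nonneg Z)).star_eq, CFC.sqrt_mul_sqrt_self Z hZ0]
  have h3 : n2 θ (CFC.sqrt Z) ^ 2 = 0 := by
    refine le_antisymm ?_ (sq_nonneg _)
    rw [n2_sq, hc]
    simpa using h2
  have h4 : CFC.sqrt Z = 0 := hf _ (by rw [← n2_sq_complex, h3]; simp)
  rw [h4, mul_zero] at hc
  rwa [← hc] at hZ

/-- For a faithful normal functional, `n2`-small contractions are strongly small.  Otherwise take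
`y n` with `n2 (y n) → 0`, `‖y n ξ‖ ≥ δ` for a fixed `ξ ∈ F` (along an ultrafilter) and let `Y` be
the weak limit of `star (y n) * y n`: `θ Y = 0`, so `Y = 0` (`Y = c* c`), but `⟪ξ, Y ξ⟫ ≥ δ²`. -/
theorem WSt.Normal.small {θ : M →ₚ[ℂ] ℂ} (hθ : W.Normal θ)
    (hf : ∀ y, θ (star y * y) = 0 → y = 0) (C : ℝ) (F : Finset H) {δ : ℝ} (hδ : 0 < δ) :
    ∃ ε : ℝ, 0 < ε ∧ ∀ y, ‖y‖ ≤ C → n2 θ y ≤ ε → W.Small F δ y := by
  classical
  have single : ∀ ξ : H, ∃ ε : ℝ, 0 < ε ∧ ∀ y, ‖y‖ ≤ C → n2 θ y ≤ ε → ‖W.ρ y ξ‖ < δ := by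
    intro ξ
    by_contra hc
    push Not at hc
    choose y hyC hy2 hyδ using fun n : ℕ => hc (1 / ((n : ℝ) + 1)) (by positivity)
    have hW := hθ.wproj_null hf (Y := fun n => star (y n) * y n) (C := C * C)
      (fun n => star_mul_self_nonneg _)
      (fun n => by
        rw [CStarRing.norm_star_mul_self]
        exact mul_self_le_mul_self (norm_nonneg _) (hyC n))
      (fun n => by
        rw [← n2_sq]
        have h1 : 1 / ((n : ℝ) + 1) ≤ 1 := by
          rw [div_le_one (by positivity)]; linarith [Nat.cast_nonneg (α := ℝ) n]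
        have := n2_nonneg θ (y n)
        nlinarith [hy2 n])
    have h1 := (Complex.continuous_re.tendsto _).comp (hW ξ ξ)
    have h2 : δ ^ 2 ≤ (⟪ξ, W.ρ 0 ξ⟫_ℂ).re := ge_of_tendsto' h1 fun n => by
      simp only [Function.comp]
      rw [← W.norm_sq]
      exact pow_le_pow_left₀ hδ.le (hyδ n) 2
    simp only [map_zero, zero_apply, inner_zero_right, Complex.zero_re] at h2
    exact absurd h2 (not_le.2 (by positivity))
  induction F using Finset.induction_on with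
  | empty => exact ⟨1, one_pos, fun y _ _ ξ hξ => absurd hξ (Finset.notMem_empty _)⟩
  | insert ξ F _ ih =>
    obtain ⟨ε, hε, h1⟩ := ih
    obtain ⟨ε', hε', h2⟩ := single ξ
    refine ⟨min ε ε', lt_min hε hε', fun y hy hn ζ hζ => ?_⟩
    rcases Finset.mem_insert.1 hζ with rfl | hζ
    · exact h2 y hy (hn.trans (min_le_right _ _))
    · exact h1 y hy (hn.trans (min_le_left _ _)) ζ hζ

/-- The same argument gives a modulus of absolute continuity. -/
theorem WSt.Normal.modulus {θ : M →ₚ[ℂ] ℂ} (hθ : W.Normal θ)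
    (hf : ∀ y, θ (star y * y) = 0 → y = 0) (x : M) (C : ℝ) {ε : ℝ} (hε : 0 < ε) :
    ∃ δ : ℝ, 0 < δ ∧ ∀ Y, 0 ≤ Y → ‖Y‖ ≤ C → (θ Y).re ≤ δ → (θ (star x * Y * x)).re ≤ ε := by
  by_contra hc
  push Not at hc
  choose Y hY0 hYC hYθ hYε using fun n : ℕ => hc (1 / ((n : ℝ) + 1)) (by positivity)
  have hW := hθ.wproj_null hf hY0 hYC hYθ
  have h1 := hθ.tendsto (C := C * ‖x‖) (Eventually.of_forall fun n =>
    (norm_mul_le _ _).trans (mul_le_mul_of_nonneg_right (hYC n) (norm_nonneg _)))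
    (hW.mul_right x) (star x)
  have h2 := (Complex.continuous_re.tendsto _).comp h1
  have h3 : ε ≤ (θ (star x * (0 * x))).re := ge_of_tendsto' h2 fun n => by
    simp only [Function.comp]
    rw [← mul_assoc]
    exact (hYε n).le
  simp only [zero_mul, mul_zero, map_zero, Complex.zero_re] at h3
  exact absurd h3 (not_le.2 hε)

end Crest.Agent.R109
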